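import Mathlib
import Crest.Agent.R003.Defs

-- ▼ part R003/Dense638
section

/-!
# Zariski density of `GL_n(O)` in `GL_n(ℂ)` (row 3, helper638)

`PolGL n` is the algebra of functions on `GL n ℂ` generated by the entries of `g` and `g⁻¹`.
`GOs O n` is the subgroup of elements with entries of `g`, `g⁻¹` in the subring `O ⊆ ℂ`.
If `O` contains a unit of infinite order, every `f ∈ PolGL n` vanishing on `GOs O n` is zero.
-/

set_option autoImplicit false

namespace Crest.Agent.R003.Dense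

open Matrix

variable {n : Type*} [Fintype n] [DecidableEq n]

/-- entry function -/
def ent (i j : n) : GL n ℂ → ℂ := fun g => (g : Matrix n n ℂ) i j

/-- inverse entry function -/
def ient (i j : n) : GL n ℂ → ℂ := fun g => ((g⁻¹ : GL n ℂ) : Matrix n n ℂ) i j

variable (n) in
/-- polynomial functions on `GL n ℂ` -/
def PolGL : Subalgebra ℂ (GL n ℂ → ℂ) :=
  Algebra.adjoin ℂ ({f | ∃ i j, f = ent i j} ∪ {f | ∃ i j, f = ient i j})

theorem ent_mem (i j : n) : ent i j ∈ PolGL n :=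
  Algebra.subset_adjoin (Or.inl ⟨i, j, rfl⟩)

theorem ient_mem (i j : n) : ient i j ∈ PolGL n :=
  Algebra.subset_adjoin (Or.inr ⟨i, j, rfl⟩)

/-- substitution principle: a map from any set with an algebra of functions which pulls back
entries and inverse entries into the algebra pulls back all polynomial functions. -/
theorem comp_mem {X : Type*} (A : Subalgebra ℂ (X → ℂ)) (φ : X → GL n ℂ)
    (h1 : ∀ i j, (fun x => ent i j (φ x)) ∈ A) (h2 : ∀ i j, (fun x => ient i j (φ x)) ∈ A)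
    {f : GL n ℂ → ℂ} (hf : f ∈ PolGL n) : (fun x => f (φ x)) ∈ A := by
  induction hf using Algebra.adjoin_induction with
  | mem f hf =>
    rcases hf with ⟨i, j, rfl⟩ | ⟨i, j, rfl⟩
    · exact h1 i j
    · exact h2 i j
  | algebraMap r => exact A.algebraMap_mem r
  | add f g _ _ hf hg => exact A.add_mem hf hg
  | mul f g _ _ hf hg => exact A.mul_mem hf hg

theorem mul_left_mem (a : GL n ℂ) {f : GL n ℂ → ℂ} (hf : f ∈ PolGL n) :
    (fun g => f (a * g)) ∈ PolGL n := by
  refine comp_mem (PolGL n) (fun g => a * g) (fun i j => ?_) (fun i j => ?_) hf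
  · have : (fun g : GL n ℂ => ent i j (a * g))
        = ∑ k, (a : Matrix n n ℂ) i k • ent k j := by
      funext g
      simp [ent, Matrix.mul_apply, Finset.sum_apply]
    rw [this]
    exact Subalgebra.sum_mem _ fun k _ => Subalgebra.smul_mem _ (ent_mem _ _) _
  · have : (fun g : GL n ℂ => ient i j (a * g))
        = ∑ k, ((a⁻¹ : GL n ℂ) : Matrix n n ℂ) k j • ient i k := by
      funext g
      simp only [ient, _root_.mul_inv_rev, Units.val_mul, Matrix.mul_apply, Finset.sum_apply,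
        Pi.smul_apply, smul_eq_mul]
      exact Finset.sum_congr rfl fun k _ => mul_comm _ _
    rw [this]
    exact Subalgebra.sum_mem _ fun k _ => Subalgebra.smul_mem _ (ient_mem _ _) _

theorem mul_right_mem (a : GL n ℂ) {f : GL n ℂ → ℂ} (hf : f ∈ PolGL n) :
    (fun g => f (g * a)) ∈ PolGL n := by
  refine comp_mem (PolGL n) (fun g => g * a) (fun i j => ?_) (fun i j => ?_) hf
  · have : (fun g : GL n ℂ => ent i j (g * a))
        = ∑ k, (a : Matrix n n ℂ) k j • ent i k := by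
      funext g
      simp only [ent, Units.val_mul, Matrix.mul_apply, Finset.sum_apply,
        Pi.smul_apply, smul_eq_mul]
      exact Finset.sum_congr rfl fun k _ => mul_comm _ _
    rw [this]
    exact Subalgebra.sum_mem _ fun k _ => Subalgebra.smul_mem _ (ent_mem _ _) _
  · have : (fun g : GL n ℂ => ient i j (g * a))
        = ∑ k, ((a⁻¹ : GL n ℂ) : Matrix n n ℂ) i k • ient k j := by
      funext g
      simp [ient, Matrix.mul_apply, Finset.sum_apply]
    rw [this]
    exact Subalgebra.sum_mem _ fun k _ => Subalgebra.smul_mem _ (ient_mem _ _) _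

/-- integral points of `GL n ℂ` -/
def GOs (O : Subring ℂ) (n : Type*) [Fintype n] [DecidableEq n] : Subgroup (GL n ℂ) where
  carrier := {g | (∀ i j, (g : Matrix n n ℂ) i j ∈ O) ∧
    ∀ i j, ((g⁻¹ : GL n ℂ) : Matrix n n ℂ) i j ∈ O}
  mul_mem' := by
    rintro a b ⟨ha, ha'⟩ ⟨hb, hb'⟩
    refine ⟨fun i j => ?_, fun i j => ?_⟩
    · rw [Units.val_mul, Matrix.mul_apply]
      exact Subring.sum_mem _ fun k _ => O.mul_mem (ha i k) (hb k j)
    · rw [_root_.mul_inv_rev, Units.val_mul, Matrix.mul_apply]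
      exact Subring.sum_mem _ fun k _ => O.mul_mem (hb' i k) (ha' k j)
  one_mem' := by
    refine ⟨fun i j => ?_, fun i j => ?_⟩
    · rw [Units.val_one, Matrix.one_apply]
      split_ifs
      · exact O.one_mem
      · exact O.zero_mem
    · rw [inv_one, Units.val_one, Matrix.one_apply]
      split_ifs
      · exact O.one_mem
      · exact O.zero_mem
  inv_mem' := by
    rintro a ⟨ha, ha'⟩
    exact ⟨ha', by simpa using ha⟩

theorem mem_GOs {O : Subring ℂ} {g : GL n ℂ} :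
    g ∈ GOs O n ↔ (∀ i j, (g : Matrix n n ℂ) i j ∈ O) ∧
      ∀ i j, ((g⁻¹ : GL n ℂ) : Matrix n n ℂ) i j ∈ O := Iff.rfl

/-- Zariski closure of the integral points -/
def ZO (O : Subring ℂ) (n : Type*) [Fintype n] [DecidableEq n] : Set (GL n ℂ) :=
  {z | ∀ f ∈ PolGL n, (∀ g ∈ GOs O n, f g = 0) → f z = 0}

theorem ZO_mul {O : Subring ℂ} {z w : GL n ℂ} (hz : z ∈ ZO O n) (hw : w ∈ ZO O n) :
    z * w ∈ ZO O n := by
  intro f hf hv
  have h1 : ∀ g ∈ GOs O n, f (g * w) = 0 := fun g hg =>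
    hw _ (mul_left_mem g hf) fun g' hg' => hv _ ((GOs O n).mul_mem hg hg')
  exact hz _ (mul_right_mem w hf) h1

theorem ZO_of_mem {O : Subring ℂ} {z : GL n ℂ} (hz : z ∈ GOs O n) : z ∈ ZO O n :=
  fun _ _ hv => hv z hz

/-- a function on `ℂ` (restricted to nonzero values) which becomes polynomial after
multiplication by a power of `t`. -/
def IsLaur (f : ℂ → ℂ) : Prop := ∃ (P : Polynomial ℂ) (m : ℕ), ∀ t : ℂ, t ≠ 0 → t ^ m * f t = P.eval t

theorem IsLaur.add {f g : ℂ → ℂ} (hf : IsLaur f) (hg : IsLaur g) : IsLaur (fun t => f t + g t) := by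
  obtain ⟨P, m, h1⟩ := hf
  obtain ⟨Q, k, h2⟩ := hg
  refine ⟨Polynomial.X ^ k * P + Polynomial.X ^ m * Q, m + k, fun t ht => ?_⟩
  rw [Polynomial.eval_add, Polynomial.eval_mul, Polynomial.eval_mul, ← h1 t ht, ← h2 t ht]
  simp only [Polynomial.eval_pow, Polynomial.eval_X]
  ring

theorem IsLaur.mul {f g : ℂ → ℂ} (hf : IsLaur f) (hg : IsLaur g) : IsLaur (fun t => f t * g t) := by
  obtain ⟨P, m, h1⟩ := hf
  obtain ⟨Q, k, h2⟩ := hg
  refine ⟨P * Q, m + k, fun t ht => ?_⟩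
  rw [Polynomial.eval_mul, ← h1 t ht, ← h2 t ht]
  ring

theorem IsLaur.const (c : ℂ) : IsLaur (fun _ => c) :=
  ⟨Polynomial.C c, 0, fun t _ => by simp⟩

theorem IsLaur.id : IsLaur (fun t => t) := ⟨Polynomial.X, 0, fun t _ => by simp⟩

theorem IsLaur.inv : IsLaur (fun t => t⁻¹) :=
  ⟨Polynomial.C 1, 1, fun t ht => by simp [ht]⟩

/-- Laurent functions form a subalgebra -/
def LaurAlg : Subalgebra ℂ (ℂ → ℂ) where
  carrier := {f | IsLaur f}
  mul_mem' := fun hf hg => IsLaur.mul hf hg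
  add_mem' := fun hf hg => IsLaur.add hf hg
  algebraMap_mem' := fun c => IsLaur.const c

theorem IsLaur.eq_zero {f : ℂ → ℂ} (hf : IsLaur f) (s : Set ℂ) (hs : s.Infinite)
    (h0 : ∀ t ∈ s, t ≠ 0) (hv : ∀ t ∈ s, f t = 0) (t : ℂ) (ht : t ≠ 0) : f t = 0 := by
  obtain ⟨P, m, h1⟩ := hf
  have hP : P = 0 := by
    refine Polynomial.eq_zero_of_infinite_isRoot P (hs.mono fun t ht => ?_)
    show P.eval t = 0
    rw [← h1 t (h0 t ht), hv t ht, mul_zero]
  have := h1 t ht
  rw [hP, Polynomial.eval_zero] at this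
  exact (mul_eq_zero.1 this).resolve_left (pow_ne_zero _ ht)

/-- the transvection as an element of `GL` -/
def trv (i j : n) (h : i ≠ j) (t : ℂ) : GL n ℂ :=
  ⟨transvection i j t, transvection i j (-t),
    by rw [transvection_mul_transvection_same i j h, add_neg_cancel, transvection_zero],
    by rw [transvection_mul_transvection_same i j h, neg_add_cancel, transvection_zero]⟩

theorem trv_mem_ZO {O : Subring ℂ} (i j : n) (h : i ≠ j) (t : ℂ) : trv i j h t ∈ ZO O n := by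
  intro f hf hv
  have hL : (fun t : ℂ => f (trv i j h t)) ∈ LaurAlg := by
    refine comp_mem LaurAlg (fun t => trv i j h t) (fun a b => ?_) (fun a b => ?_) hf
    · show IsLaur fun t => ent a b (trv i j h t)
      have : (fun t : ℂ => ent a b (trv i j h t))
          = fun t => (1 : Matrix n n ℂ) a b + t * (single i j (1 : ℂ) a b) := by
        funext t
        show transvection i j t a b = _
        rw [transvection, Matrix.add_apply]
        congr 1
        simp only [single, of_apply]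
        split_ifs <;> simp
      rw [this]
      exact (IsLaur.const _).add (IsLaur.id.mul (IsLaur.const _))
    · show IsLaur fun t => ient a b (trv i j h t)
      have : (fun t : ℂ => ient a b (trv i j h t))
          = fun t => (1 : Matrix n n ℂ) a b + t * (-(single i j (1 : ℂ) a b)) := by
        funext t
        show transvection i j (-t) a b = _
        rw [transvection, Matrix.add_apply]
        congr 1
        simp only [single, of_apply]
        split_ifs <;> simp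
      rw [this]
      exact (IsLaur.const _).add (IsLaur.id.mul (IsLaur.const _))
  by_cases ht : t = 0
  · subst ht
    have : trv i j h 0 = 1 := by
      apply Units.ext
      show transvection i j 0 = 1
      exact transvection_zero i j
    rw [this]
    exact hv 1 (GOs O n).one_mem
  refine IsLaur.eq_zero hL (Set.range fun k : ℕ => ((k : ℂ) + 1)) ?_ ?_ ?_ t ht
  · apply Set.infinite_range_of_injective
    intro a b hab
    have : (a : ℂ) = b := by simpa using hab
    exact_mod_cast this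
  · rintro _ ⟨k, rfl⟩
    exact Nat.cast_add_one_ne_zero k
  · rintro _ ⟨k, rfl⟩
    apply hv
    have hmem : ∀ z : ℂ, z ∈ O → ∀ a b, transvection i j z a b ∈ O := by
      intro z hz a b
      rw [transvection, Matrix.add_apply, Matrix.one_apply]
      refine O.add_mem ?_ ?_
      · split_ifs
        · exact O.one_mem
        · exact O.zero_mem
      · simp only [single, of_apply]
        split_ifs
        · exact hz
        · exact O.zero_mem
    have hk : ((k : ℂ) + 1) ∈ O := O.add_mem (natCast_mem O k) O.one_mem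
    exact ⟨fun a b => hmem _ hk a b, fun a b => hmem _ (O.neg_mem hk) a b⟩

/-- diagonal matrix with one entry `t` as an element of `GL` -/
noncomputable def dg (i : n) (t : ℂ) (ht : t ≠ 0) : GL n ℂ :=
  ⟨diagonal (Function.update 1 i t), diagonal (Function.update 1 i t⁻¹),
    by
      rw [diagonal_mul_diagonal, ← diagonal_one]
      congr 1
      funext j
      by_cases h : j = i
      · subst h; simp [ht]
      · simp [h],
    by
      rw [diagonal_mul_diagonal, ← diagonal_one]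
      congr 1
      funext j
      by_cases h : j = i
      · subst h; simp [ht]
      · simp [h]⟩

theorem dg_mem_ZO {O : Subring ℂ} (u : ℂ) (hu : u ∈ O) (hu' : u⁻¹ ∈ O) (hu0 : u ≠ 0)
    (hinf : Function.Injective fun k : ℕ => u ^ k) (i : n) (t : ℂ) (ht : t ≠ 0) :
    dg i t ht ∈ ZO O n := by
  intro f hf hv
  have hL : (fun t : ℂ => if ht : t ≠ 0 then f (dg i t ht) else 0) ∈ LaurAlg := by
    -- extend to all `t` by the value at `1`
    have key : (fun t : ℂ => f (if ht : t ≠ 0 then dg i t ht else 1)) ∈ LaurAlg := by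
      refine comp_mem LaurAlg (fun t => if ht : t ≠ 0 then dg i t ht else 1)
        (fun a b => ?_) (fun a b => ?_) hf
      · show IsLaur _
        by_cases hab : a = b
        · subst hab
          by_cases hai : a = i
          · subst hai
            refine ⟨Polynomial.X, 0, fun t ht => ?_⟩
            simp [ent, ht, dg]
          · refine ⟨Polynomial.C 1, 0, fun t ht => ?_⟩
            simp [ent, ht, dg, hai]
        · refine ⟨0, 0, fun t ht => ?_⟩
          simp [ent, ht, dg, hab]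
      · show IsLaur _
        by_cases hab : a = b
        · subst hab
          by_cases hai : a = i
          · subst hai
            refine ⟨Polynomial.C 1, 1, fun t ht => ?_⟩
            simp only [ient, ht, ne_eq, not_false_eq_true, dite_true]
            show t ^ 1 * diagonal (Function.update 1 a t⁻¹) a a = _
            simp [ht]
          · refine ⟨Polynomial.C 1, 0, fun t ht => ?_⟩
            simp only [ient, ht, ne_eq, not_false_eq_true, dite_true]
            show t ^ 0 * diagonal (Function.update 1 i t⁻¹) a a = _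
            simp [hai]
        · refine ⟨0, 0, fun t ht => ?_⟩
          simp only [ient, ht, ne_eq, not_false_eq_true, dite_true]
          show t ^ 0 * diagonal (Function.update 1 i t⁻¹) a b = _
          simp [hab]
    obtain ⟨P, m, h⟩ := key
    refine ⟨P, m, fun t ht => ?_⟩
    have := h t ht
    simpa [ht] using this
  have hmem : ∀ k : ℕ, dg i (u ^ k) (pow_ne_zero k hu0) ∈ GOs O n := by
    have h1 : ∀ z : ℂ, z ∈ O → ∀ a b, diagonal (Function.update (1 : n → ℂ) i z) a b ∈ O := by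
      intro z hz a b
      by_cases hab : a = b
      · subst hab
        rw [diagonal_apply_eq]
        by_cases hai : a = i
        · subst hai; simpa using hz
        · simp only [Function.update_of_ne hai, Pi.one_apply]; exact O.one_mem
      · rw [diagonal_apply_ne _ hab]; exact O.zero_mem
    intro k
    refine ⟨fun a b => h1 _ (pow_mem hu k) a b, fun a b => h1 _ ?_ a b⟩
    rw [← inv_pow]
    exact pow_mem hu' k
  have h2 := IsLaur.eq_zero hL (Set.range fun k : ℕ => u ^ k)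
    (Set.infinite_range_of_injective hinf) (by rintro _ ⟨k, rfl⟩; exact pow_ne_zero k hu0)
    (by
      rintro _ ⟨k, rfl⟩
      simp only [ne_eq, pow_eq_zero_iff', hu0, false_and, not_false_eq_true, dite_true]
      exact hv _ (hmem k)) t ht
  simpa [ht] using h2

theorem mem_ZO {O : Subring ℂ} (u : ℂ) (hu : u ∈ O) (hu' : u⁻¹ ∈ O) (hu0 : u ≠ 0)
    (hinf : Function.Injective fun k : ℕ => u ^ k) (g : GL n ℂ) : g ∈ ZO O n := by
  classical
  have hdet : (g : Matrix n n ℂ).det ≠ 0 := by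
    have := (Matrix.isUnit_iff_isUnit_det _).1 g.isUnit
    exact this.ne_zero
  have key : ∃ z : GL n ℂ, (z : Matrix n n ℂ) = g ∧ z ∈ ZO O n := by
    refine diagonal_transvection_induction_of_det_ne_zero
      (fun M => ∃ z : GL n ℂ, (z : Matrix n n ℂ) = M ∧ z ∈ ZO O n) _ hdet ?_ ?_ ?_
    · intro D hD
      rw [det_diagonal, Finset.prod_ne_zero_iff] at hD
      have hs : ∀ s : Finset n, ∃ z : GL n ℂ,
          (z : Matrix n n ℂ) = diagonal (fun i => if i ∈ s then D i else 1) ∧ z ∈ ZO O n := by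
        intro s
        induction s using Finset.induction_on with
        | empty =>
          refine ⟨1, ?_, ZO_of_mem (GOs O n).one_mem⟩
          simp
        | insert a s ha ih =>
          obtain ⟨z, hz, hz'⟩ := ih
          refine ⟨dg a (D a) (hD a (Finset.mem_univ a)) * z, ?_,
            ZO_mul (dg_mem_ZO u hu hu' hu0 hinf a _ _) hz'⟩
          rw [Units.val_mul, hz]
          show diagonal (Function.update 1 a (D a)) * _ = _
          rw [diagonal_mul_diagonal]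
          congr 1
          funext j
          by_cases hja : j = a
          · subst hja; simp [ha]
          · simp [hja]
      obtain ⟨z, hz, hz'⟩ := hs Finset.univ
      exact ⟨z, by simpa using hz, hz'⟩
    · rintro ⟨i, j, hij, c⟩
      exact ⟨trv i j hij c, rfl, trv_mem_ZO i j hij c⟩
    · rintro A B _ _ ⟨z, rfl, hz⟩ ⟨w, rfl, hw⟩
      exact ⟨z * w, by simp, ZO_mul hz hw⟩
  obtain ⟨z, hz, hz'⟩ := key
  have : z = g := Units.ext hz
  rwa [this] at hz'

/-- **(Free)**: `GL_n(O)` is Zariski dense in `GL_n(ℂ)`. -/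
theorem eq_zero_of_GOs {O : Subring ℂ} (u : ℂ) (hu : u ∈ O) (hu' : u⁻¹ ∈ O) (hu0 : u ≠ 0)
    (hinf : Function.Injective fun k : ℕ => u ^ k) {f : GL n ℂ → ℂ} (hf : f ∈ PolGL n)
    (hv : ∀ g ∈ GOs O n, f g = 0) (g : GL n ℂ) : f g = 0 :=
  mem_ZO u hu hu' hu0 hinf g f hf hv

end Crest.Agent.R003.Dense
end

-- ▼ part R003/Cal638
section

/-!
# Approximability calculus (row 3, helper638)

* `zcl A I`: Zariski closure of `I ⊆ X` for an algebra `A` of functions `X → ℂ`.
* `(Map)`, `(Open)`, `(Free)`, independent systems.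
* `PolFam κ`: polynomial functions on `∀ x, GL (κ x) ℂ`.
-/

set_option autoImplicit false

namespace Crest.Agent.R003.Cal

open Matrix Crest.Agent.R003.Dense

section zcl

variable {X Y : Type*}

/-- Zariski closure of `I` with respect to the algebra `A` of functions on `X`. -/
def zcl (A : Subalgebra ℂ (X → ℂ)) (I : Set X) : Set X :=
  {x | ∀ f ∈ A, (∀ y ∈ I, f y = 0) → f x = 0}





/-- **(Map)** -/
theorem map {A : Subalgebra ℂ (X → ℂ)} {B : Subalgebra ℂ (Y → ℂ)} {φ : Y → X}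
    (hφ : ∀ f ∈ A, (fun y => f (φ y)) ∈ B) {I : Set X} {J : Set Y} (hIJ : ∀ y ∈ J, φ y ∈ I)
    {y : Y} (hy : y ∈ zcl B J) : φ y ∈ zcl A I :=
  fun f hf hv => hy _ (hφ f hf) fun z hz => hv _ (hIJ z hz)





/-- products -/
theorem prod {A : Subalgebra ℂ (X → ℂ)} {B : Subalgebra ℂ (Y → ℂ)}
    {C : Subalgebra ℂ (X × Y → ℂ)}
    (hA : ∀ f ∈ C, ∀ y, (fun x => f (x, y)) ∈ A) (hB : ∀ f ∈ C, ∀ x, (fun y => f (x, y)) ∈ B)
    {I : Set X} {J : Set Y} {x : X} {y : Y} (hx : x ∈ zcl A I) (hy : y ∈ zcl B J) :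
    (x, y) ∈ zcl C (I ×ˢ J) := by
  intro f hf hv
  refine hy _ (hB f hf x) fun y' hy' => ?_
  exact hx _ (hA f hf y') fun x' hx' => hv (x', y') ⟨hx', hy'⟩

/-- finite products over a `Fintype` -/
theorem pi {ι : Type*} [Fintype ι] [DecidableEq ι] {X : ι → Type*}
    {A : ∀ i, Subalgebra ℂ (X i → ℂ)} {C : Subalgebra ℂ ((∀ i, X i) → ℂ)}
    (hA : ∀ f ∈ C, ∀ (x : ∀ i, X i) (i : ι), (fun z => f (Function.update x i z)) ∈ A i)
    {I : ∀ i, Set (X i)} {x : ∀ i, X i} (hx : ∀ i, x i ∈ zcl (A i) (I i)) :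
    x ∈ zcl C {y | ∀ i, y i ∈ I i} := by
  intro f hf hv
  have key : ∀ s : Finset ι, ∀ y : ∀ i, X i, (∀ i ∉ s, y i ∈ I i) → (∀ i ∈ s, y i = x i) →
      f y = 0 := by
    intro s
    induction s using Finset.induction_on with
    | empty => exact fun y hy _ => hv y fun i => hy i (by simp)
    | insert a s ha ih =>
      intro y hy hy'
      have h := hx a _ (hA f hf y a) fun z hz => ih (Function.update y a z)
        (fun i hi => by
          by_cases hia : i = a
          · subst hia; simpa using hz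
          · rw [Function.update_of_ne hia]; exact hy i (by simp [hia, hi]))
        (fun i hi => by
          have hia : i ≠ a := fun h => ha (h ▸ hi)
          rw [Function.update_of_ne hia]; exact hy' i (by simp [hi]))
      rw [← hy' a (by simp), Function.update_eq_self] at h
      exact h
  exact key Finset.univ x (by simp) (by simp)

end zcl

section fam

variable {α : Type*} {κ : α → Type*} [∀ x, Fintype (κ x)] [∀ x, DecidableEq (κ x)]

variable (κ) in
/-- polynomial functions on `∀ x, GL (κ x) ℂ`: generated by entries and inverse entries -/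
def PolFam : Subalgebra ℂ ((∀ x, GL (κ x) ℂ) → ℂ) :=
  Algebra.adjoin ℂ ({f | ∃ x i j, f = fun ρ => (ρ x : Matrix (κ x) (κ x) ℂ) i j} ∪
    {f | ∃ x i j, f = fun ρ => (((ρ x)⁻¹ : GL (κ x) ℂ) : Matrix (κ x) (κ x) ℂ) i j})

theorem ent_mem (x : α) (i j : κ x) :
    (fun ρ : ∀ x, GL (κ x) ℂ => (ρ x : Matrix (κ x) (κ x) ℂ) i j) ∈ PolFam κ :=
  Algebra.subset_adjoin (Or.inl ⟨x, i, j, rfl⟩)

theorem ient_mem (x : α) (i j : κ x) :
    (fun ρ : ∀ x, GL (κ x) ℂ => (((ρ x)⁻¹ : GL (κ x) ℂ) : Matrix (κ x) (κ x) ℂ) i j) ∈ PolFam κ :=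
  Algebra.subset_adjoin (Or.inr ⟨x, i, j, rfl⟩)

/-- substitution principle -/
theorem comp_mem {X : Type*} (A : Subalgebra ℂ (X → ℂ)) (φ : X → ∀ x, GL (κ x) ℂ)
    (h1 : ∀ x i j, (fun z => (φ z x : Matrix (κ x) (κ x) ℂ) i j) ∈ A)
    (h2 : ∀ x i j, (fun z => (((φ z x)⁻¹ : GL (κ x) ℂ) : Matrix (κ x) (κ x) ℂ) i j) ∈ A)
    {f : (∀ x, GL (κ x) ℂ) → ℂ} (hf : f ∈ PolFam κ) : (fun z => f (φ z)) ∈ A := by
  induction hf using Algebra.adjoin_induction with
  | mem f hf =>
    rcases hf with ⟨x, i, j, rfl⟩ | ⟨x, i, j, rfl⟩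
    · exact h1 x i j
    · exact h2 x i j
  | algebraMap r => exact A.algebraMap_mem r
  | add f g _ _ hf hg => exact A.add_mem hf hg
  | mul f g _ _ hf hg => exact A.mul_mem hf hg

/-- a polynomial function depends on finitely many names -/
theorem exists_finset {f : (∀ x, GL (κ x) ℂ) → ℂ} (hf : f ∈ PolFam κ) :
    ∃ F : Finset α, ∀ ρ σ : ∀ x, GL (κ x) ℂ, (∀ x ∈ F, ρ x = σ x) → f ρ = f σ := by
  classical
  induction hf using Algebra.adjoin_induction with
  | mem f hf =>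
    rcases hf with ⟨x, i, j, rfl⟩ | ⟨x, i, j, rfl⟩
    · exact ⟨{x}, fun ρ σ h => by simp [h x (by simp)]⟩
    · exact ⟨{x}, fun ρ σ h => by simp [h x (by simp)]⟩
  | algebraMap r => exact ⟨∅, fun _ _ _ => rfl⟩
  | add f g _ _ hf hg =>
    obtain ⟨F, hF⟩ := hf
    obtain ⟨G, hG⟩ := hg
    refine ⟨F ∪ G, fun ρ σ h => ?_⟩
    show f ρ + g ρ = f σ + g σ
    rw [hF ρ σ fun x hx => h x (by simp [hx]), hG ρ σ fun x hx => h x (by simp [hx])]
  | mul f g _ _ hf hg =>
    obtain ⟨F, hF⟩ := hf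
    obtain ⟨G, hG⟩ := hg
    refine ⟨F ∪ G, fun ρ σ h => ?_⟩
    show f ρ * g ρ = f σ * g σ
    rw [hF ρ σ fun x hx => h x (by simp [hx]), hG ρ σ fun x hx => h x (by simp [hx])]

theorem update_mem [DecidableEq α] {f : (∀ x, GL (κ x) ℂ) → ℂ} (hf : f ∈ PolFam κ)
    (ρ : ∀ x, GL (κ x) ℂ) (a : α) : (fun g => f (Function.update ρ a g)) ∈ PolGL (κ a) := by
  refine comp_mem (PolGL (κ a)) (fun g => Function.update ρ a g) (fun x i j => ?_)
    (fun x i j => ?_) hf
  · by_cases hx : x = a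
    · subst hx
      simp only [Function.update_self]
      exact Dense.ent_mem i j
    · simp only [Function.update_of_ne hx]
      exact (PolGL (κ a)).algebraMap_mem _
  · by_cases hx : x = a
    · subst hx
      simp only [Function.update_self]
      exact Dense.ient_mem i j
    · simp only [Function.update_of_ne hx]
      exact (PolGL (κ a)).algebraMap_mem _

open Classical in
/-- gluing two assignments: `ρ` on `S`, `σ` off `S` -/
noncomputable def glue (S : Set α) (ρ σ : ∀ x, GL (κ x) ℂ) : ∀ x, GL (κ x) ℂ :=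
  fun x => if x ∈ S then ρ x else σ x

theorem glue_left_mem {f : (∀ x, GL (κ x) ℂ) → ℂ} (hf : f ∈ PolFam κ) (S : Set α)
    (σ : ∀ x, GL (κ x) ℂ) : (fun ρ => f (glue S ρ σ)) ∈ PolFam κ := by
  classical
  refine comp_mem (PolFam κ) (fun ρ => glue S ρ σ) (fun x i j => ?_) (fun x i j => ?_) hf
  · by_cases hx : x ∈ S
    · simp only [glue, hx, if_true]; exact ent_mem x i j
    · simp only [glue, hx, if_false]; exact (PolFam κ).algebraMap_mem _
  · by_cases hx : x ∈ S
    · simp only [glue, hx, if_true]; exact ient_mem x i j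
    · simp only [glue, hx, if_false]; exact (PolFam κ).algebraMap_mem _




/-- the set of assignments with all names in a set `S` integral -/
def IntOn (O : Subring ℂ) (S : Set α) : Set (∀ x, GL (κ x) ℂ) :=
  {ρ | ∀ x ∈ S, ρ x ∈ GOs O (κ x)}

/-- **(Free)**: the everywhere integral assignments are dense among all assignments. -/
theorem free {O : Subring ℂ} (u : ℂ) (hu : u ∈ O) (hu' : u⁻¹ ∈ O) (hu0 : u ≠ 0)
    (hinf : Function.Injective fun k : ℕ => u ^ k) (ρ : ∀ x, GL (κ x) ℂ) :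
    ρ ∈ zcl (PolFam κ) (IntOn O (Set.univ : Set α)) := by
  classical
  intro f hf hv
  have key : ∀ F : Finset α, ∀ σ : ∀ x, GL (κ x) ℂ, (∀ x ∉ F, σ x ∈ GOs O (κ x)) → f σ = 0 := by
    intro F
    induction F using Finset.induction_on with
    | empty => exact fun σ hσ => hv σ fun x _ => hσ x (by simp)
    | insert a F ha ih =>
      intro σ hσ
      have h := eq_zero_of_GOs u hu hu' hu0 hinf (update_mem hf σ a)
        (fun g hg => ih (Function.update σ a g) fun x hx => by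
          by_cases hxa : x = a
          · subst hxa; simpa using hg
          · rw [Function.update_of_ne hxa]; exact hσ x (by simp [hxa, hx])) (σ a)
      rwa [Function.update_eq_self] at h
  obtain ⟨F, hF⟩ := exists_finset hf
  rw [hF ρ (fun x => if x ∈ F then ρ x else 1) fun x hx => by simp [hx]]
  exact key F _ fun x hx => by simp only [hx, if_false]; exact (GOs O (κ x)).one_mem


end fam

end Crest.Agent.R003.Cal
end

-- ▼ part R003/App638

/-!
# Approximability calculus for the definitions of `Defs.lean` (row 3, helper638)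

* `Pol`/`PolG` closure lemmas
* `emb n k hk : G k →* G n` with range `GLk n k`
* `Appr.map`, `Appr.openSet`, `Appr.indep`, `appr_free`, `Appr.trans`, ...
-/

set_option autoImplicit false

namespace Crest.Agent.R003

open Matrix

/-! ## `Pol` and `PolG` -/

section Pol

variable {ι κ : Type} {n m k : ℕ}


theorem Pol.ent (x : ι) (i j : Fin n) : (fun ρ : ι → G n => (ρ x).1 i j) ∈ Pol ι n :=
  Algebra.subset_adjoin (Or.inl ⟨x, i, j, rfl⟩)

theorem Pol.ient (x : ι) (i j : Fin n) : (fun ρ : ι → G n => ((ρ x)⁻¹).1 i j) ∈ Pol ι n :=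
  Algebra.subset_adjoin (Or.inr ⟨x, i, j, rfl⟩)

theorem Pol.const (a : ℂ) : (fun _ : ι → G n => a) ∈ Pol ι n := (Pol ι n).algebraMap_mem a

theorem Pol.add {F H : (ι → G n) → ℂ} (hF : F ∈ Pol ι n) (hH : H ∈ Pol ι n) :
    (fun ρ => F ρ + H ρ) ∈ Pol ι n := (Pol ι n).add_mem hF hH

theorem Pol.sub {F H : (ι → G n) → ℂ} (hF : F ∈ Pol ι n) (hH : H ∈ Pol ι n) :
    (fun ρ => F ρ - H ρ) ∈ Pol ι n := (Pol ι n).sub_mem hF hH

theorem Pol.neg {F : (ι → G n) → ℂ} (hF : F ∈ Pol ι n) :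
    (fun ρ => - F ρ) ∈ Pol ι n := (Pol ι n).neg_mem hF

theorem Pol.mul {F H : (ι → G n) → ℂ} (hF : F ∈ Pol ι n) (hH : H ∈ Pol ι n) :
    (fun ρ => F ρ * H ρ) ∈ Pol ι n := (Pol ι n).mul_mem hF hH

theorem Pol.pow {F : (ι → G n) → ℂ} (hF : F ∈ Pol ι n) (t : ℕ) :
    (fun ρ => F ρ ^ t) ∈ Pol ι n := (Pol ι n).pow_mem hF t

theorem Pol.smul {F : (ι → G n) → ℂ} (a : ℂ) (hF : F ∈ Pol ι n) :
    (fun ρ => a * F ρ) ∈ Pol ι n := Pol.mul (Pol.const a) hF

theorem Pol.sum {β : Type*} (s : Finset β) {F : β → (ι → G n) → ℂ} (hF : ∀ b ∈ s, F b ∈ Pol ι n) :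
    (fun ρ => ∑ b ∈ s, F b ρ) ∈ Pol ι n := by
  have h := (Pol ι n).sum_mem hF
  have e : (∑ b ∈ s, F b) = fun ρ => ∑ b ∈ s, F b ρ := by
    funext ρ; rw [Finset.sum_apply]
  rwa [e] at h

theorem Pol.prod {β : Type*} (s : Finset β) {F : β → (ι → G n) → ℂ} (hF : ∀ b ∈ s, F b ∈ Pol ι n) :
    (fun ρ => ∏ b ∈ s, F b ρ) ∈ Pol ι n := by
  have h := (Pol ι n).prod_mem hF
  have e : (∏ b ∈ s, F b) = fun ρ => ∏ b ∈ s, F b ρ := by
    funext ρ; rw [Finset.prod_apply]
  rwa [e] at h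

theorem Pol.ite {F H : (ι → G n) → ℂ} (p : Prop) [Decidable p] (hF : F ∈ Pol ι n)
    (hH : H ∈ Pol ι n) : (fun ρ => if p then F ρ else H ρ) ∈ Pol ι n := by
  by_cases h : p
  · simpa [h] using hF
  · simpa [h] using hH

/-- determinants of matrices of polynomial functions are polynomial -/
theorem Pol.det {β : Type*} [Fintype β] [DecidableEq β] {M : (ι → G n) → Matrix β β ℂ}
    (hM : ∀ i j, (fun ρ => M ρ i j) ∈ Pol ι n) : (fun ρ => (M ρ).det) ∈ Pol ι n := by
  simp only [Matrix.det_apply]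
  refine Pol.sum _ fun σ _ => ?_
  have h1 : (fun ρ => ∏ i, M ρ (σ i) i) ∈ Pol ι n := Pol.prod _ fun i _ => hM (σ i) i
  have h2 : (fun ρ => ((Equiv.Perm.sign σ : ℤ) : ℂ) * ∏ i, M ρ (σ i) i) ∈ Pol ι n :=
    Pol.smul _ h1
  convert h2 using 2
  rw [Units.smul_def, zsmul_eq_mul]

/-- functions which agree on `S` with a polynomial function -/
def PolOn (S : Set (ι → G n)) : Subalgebra ℂ ((ι → G n) → ℂ) where
  carrier := {f | ∃ F ∈ Pol ι n, ∀ ρ ∈ S, f ρ = F ρ}
  mul_mem' := by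
    rintro a b ⟨F, hF, h1⟩ ⟨H, hH, h2⟩
    exact ⟨fun ρ => F ρ * H ρ, Pol.mul hF hH, fun ρ hρ => by
      show a ρ * b ρ = _
      rw [h1 ρ hρ, h2 ρ hρ]⟩
  add_mem' := by
    rintro a b ⟨F, hF, h1⟩ ⟨H, hH, h2⟩
    exact ⟨fun ρ => F ρ + H ρ, Pol.add hF hH, fun ρ hρ => by
      show a ρ + b ρ = _
      rw [h1 ρ hρ, h2 ρ hρ]⟩
  algebraMap_mem' := fun a => ⟨fun _ => a, Pol.const a, fun _ _ => rfl⟩


theorem PolOn.of_pol {S : Set (ι → G n)} {f : (ι → G n) → ℂ} (hf : f ∈ Pol ι n) : f ∈ PolOn S :=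
  ⟨f, hf, fun _ _ => rfl⟩

theorem PolOn.congr {S : Set (ι → G n)} {f g : (ι → G n) → ℂ} (hf : f ∈ PolOn S)
    (h : ∀ ρ ∈ S, g ρ = f ρ) : g ∈ PolOn S := by
  obtain ⟨F, hF, h1⟩ := hf
  exact ⟨F, hF, fun ρ hρ => by rw [h ρ hρ, h1 ρ hρ]⟩

theorem PolOn.mono {S S' : Set (ι → G n)} (hS : S' ⊆ S) {f : (ι → G n) → ℂ}
    (hf : f ∈ PolOn S) : f ∈ PolOn S' := by
  obtain ⟨F, hF, h1⟩ := hf
  exact ⟨F, hF, fun ρ hρ => h1 ρ (hS hρ)⟩

theorem PolOn.const {S : Set (ι → G n)} (a : ℂ) : (fun _ : ι → G n => a) ∈ PolOn S :=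
  PolOn.of_pol (Pol.const a)

theorem PolOn.mul {S : Set (ι → G n)} {F H : (ι → G n) → ℂ} (hF : F ∈ PolOn S)
    (hH : H ∈ PolOn S) : (fun ρ => F ρ * H ρ) ∈ PolOn S := (PolOn S).mul_mem hF hH

theorem PolOn.add {S : Set (ι → G n)} {F H : (ι → G n) → ℂ} (hF : F ∈ PolOn S)
    (hH : H ∈ PolOn S) : (fun ρ => F ρ + H ρ) ∈ PolOn S := (PolOn S).add_mem hF hH

theorem PolOn.sum {S : Set (ι → G n)} {β : Type*} (s : Finset β) {F : β → (ι → G n) → ℂ}
    (hF : ∀ b ∈ s, F b ∈ PolOn S) : (fun ρ => ∑ b ∈ s, F b ρ) ∈ PolOn S := by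
  have h := (PolOn S).sum_mem hF
  have e : (∑ b ∈ s, F b) = fun ρ => ∑ b ∈ s, F b ρ := by
    funext ρ; rw [Finset.sum_apply]
  rwa [e] at h

theorem PolOn.prod {S : Set (ι → G n)} {β : Type*} (s : Finset β) {F : β → (ι → G n) → ℂ}
    (hF : ∀ b ∈ s, F b ∈ PolOn S) : (fun ρ => ∏ b ∈ s, F b ρ) ∈ PolOn S := by
  have h := (PolOn S).prod_mem hF
  have e : (∏ b ∈ s, F b) = fun ρ => ∏ b ∈ s, F b ρ := by
    funext ρ; rw [Finset.prod_apply]
  rwa [e] at h

theorem polG_iff {S : Set (ι → G n)} {Φ : (ι → G n) → G m} :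
    PolG S Φ ↔ ∀ i j, (fun ρ => (Φ ρ).1 i j) ∈ PolOn S ∧ (fun ρ => ((Φ ρ)⁻¹).1 i j) ∈ PolOn S :=
  Iff.rfl

theorem PolG.congr {S : Set (ι → G n)} {Φ Ψ : (ι → G n) → G m} (h : PolG S Φ)
    (he : ∀ ρ ∈ S, Ψ ρ = Φ ρ) : PolG S Ψ := by
  intro i j
  exact ⟨PolOn.congr (h i j).1 fun ρ hρ => by simp only [he ρ hρ],
    PolOn.congr (h i j).2 fun ρ hρ => by simp only [he ρ hρ]⟩

theorem PolG.mono {S S' : Set (ι → G n)} (hS : S' ⊆ S) {Φ : (ι → G n) → G m} (h : PolG S Φ) :
    PolG S' Φ := fun i j => ⟨PolOn.mono hS (h i j).1, PolOn.mono hS (h i j).2⟩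

/-- substitution of a map which is polynomial on `S'` into a polynomial function -/
theorem Pol.comp {S' : Set (κ → G m)} {Φ : (κ → G m) → (ι → G n)}
    (hΦ : ∀ x, PolG S' (fun ρ => Φ ρ x)) {F : (ι → G n) → ℂ} (hF : F ∈ Pol ι n) :
    (fun ρ => F (Φ ρ)) ∈ PolOn S' :=
  Cal.comp_mem (κ := fun _ : ι => Fin n) (PolOn S') Φ (fun x i j => (hΦ x i j).1)
    (fun x i j => (hΦ x i j).2) hF

theorem PolOn.comp {S : Set (ι → G n)} {S' : Set (κ → G m)} {Φ : (κ → G m) → (ι → G n)}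
    (hΦ : ∀ x, PolG S' (fun ρ => Φ ρ x)) (hS : ∀ ρ ∈ S', Φ ρ ∈ S) {F : (ι → G n) → ℂ}
    (hF : F ∈ PolOn S) : (fun ρ => F (Φ ρ)) ∈ PolOn S' := by
  obtain ⟨F', hF', h1⟩ := hF
  exact PolOn.congr (Pol.comp hΦ hF') fun ρ hρ => h1 _ (hS ρ hρ)

theorem PolG.coord {S : Set (ι → G n)} (x : ι) : PolG S (fun ρ : ι → G n => ρ x) :=
  fun i j => ⟨PolOn.of_pol (Pol.ent x i j), PolOn.of_pol (Pol.ient x i j)⟩

theorem PolG.const {S : Set (ι → G n)} (g : G m) : PolG S (fun _ : ι → G n => g) :=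
  fun _ _ => ⟨PolOn.const _, PolOn.const _⟩

theorem PolG.one {S : Set (ι → G n)} : PolG S (fun _ : ι → G n => (1 : G m)) := PolG.const 1

theorem PolG.mul {S : Set (ι → G n)} {Φ Ψ : (ι → G n) → G m} (h1 : PolG S Φ) (h2 : PolG S Ψ) :
    PolG S (fun ρ => Φ ρ * Ψ ρ) := by
  rw [polG_iff] at *
  intro i j
  constructor
  · have : (fun ρ => (Φ ρ * Ψ ρ).1 i j) = fun ρ => ∑ l, (Φ ρ).1 i l * (Ψ ρ).1 l j := by
      funext ρ; rw [Units.val_mul, Matrix.mul_apply]
    rw [this]
    exact PolOn.sum _ fun l _ => PolOn.mul (h1 i l).1 (h2 l j).1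
  · have : (fun ρ => ((Φ ρ * Ψ ρ)⁻¹).1 i j) = fun ρ => ∑ l, ((Ψ ρ)⁻¹).1 i l * ((Φ ρ)⁻¹).1 l j := by
      funext ρ; rw [_root_.mul_inv_rev, Units.val_mul, Matrix.mul_apply]
    rw [this]
    exact PolOn.sum _ fun l _ => PolOn.mul (h2 i l).2 (h1 l j).2

theorem PolG.inv {S : Set (ι → G n)} {Φ : (ι → G n) → G m} (h1 : PolG S Φ) :
    PolG S (fun ρ => (Φ ρ)⁻¹) := by
  rw [polG_iff] at *
  intro i j
  refine ⟨(h1 i j).2, ?_⟩
  simp only [inv_inv]
  exact (h1 i j).1

theorem PolG.ite {S : Set (ι → G n)} {Φ Ψ : (ι → G n) → G m} (p : Prop) [Decidable p]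
    (h1 : PolG S Φ) (h2 : PolG S Ψ) : PolG S (fun ρ => if p then Φ ρ else Ψ ρ) := by
  by_cases h : p
  · simpa [h] using h1
  · simpa [h] using h2

theorem PolG.pow {S : Set (ι → G n)} {Φ : (ι → G n) → G m} (h1 : PolG S Φ) (t : ℕ) :
    PolG S (fun ρ => Φ ρ ^ t) := by
  induction t with
  | zero => simpa using PolG.one
  | succ t ih => simpa [pow_succ] using ih.mul h1


theorem PolG.comp {l : ℕ} {S : Set (ι → G n)} {S' : Set (κ → G m)} {Ψ : (ι → G n) → G l}
    (hΨ : PolG S Ψ) {Φ : (κ → G m) → (ι → G n)} (hΦ : ∀ x, PolG S' (fun ρ => Φ ρ x))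
    (hS : ∀ ρ ∈ S', Φ ρ ∈ S) : PolG S' (fun ρ => Ψ (Φ ρ)) :=
  fun i j => ⟨PolOn.comp hΦ hS (hΨ i j).1, PolOn.comp hΦ hS (hΨ i j).2⟩

/-- a map into `G m` is polynomial on `S` if its entries and the entries of a right inverse are -/
theorem PolG.mk' {S : Set (ι → G n)} {Φ : (ι → G n) → G m}
    {M : (ι → G n) → Matrix (Fin m) (Fin m) ℂ}
    (h1 : ∀ i j, (fun ρ => (Φ ρ).1 i j) ∈ PolOn S) (h2 : ∀ i j, (fun ρ => M ρ i j) ∈ PolOn S)
    (h : ∀ ρ ∈ S, (Φ ρ).1 * M ρ = 1) : PolG S Φ := by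
  intro i j
  refine ⟨h1 i j, ?_⟩
  have : ∀ ρ ∈ S, ((Φ ρ)⁻¹).1 = M ρ := fun ρ hρ => by
    have := congrArg (fun X => ((Φ ρ)⁻¹).1 * X) (h ρ hρ)
    simp only [← Matrix.mul_assoc, Matrix.mul_one] at this
    rw [← this, ← Units.val_mul, inv_mul_cancel, Units.val_one, Matrix.one_mul]
  exact PolOn.congr (h2 i j) fun ρ hρ => by rw [this ρ hρ]

theorem PolG.update [DecidableEq ι] {S : Set (κ → G m)} {Φ : (κ → G m) → (ι → G n)}
    (hΦ : ∀ x, PolG S (fun ρ => Φ ρ x)) (a : ι) {Ψ : (κ → G m) → G n} (hΨ : PolG S Ψ) :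
    ∀ x, PolG S (fun ρ => Function.update (Φ ρ) a (Ψ ρ) x) := by
  intro x
  by_cases hx : x = a
  · subst hx; simpa using hΨ
  · simpa [Function.update_of_ne hx] using hΦ x

end Pol

/-! ## integrality -/

section GO

variable {O : Subring ℂ} {n : ℕ}

theorem mem_GO {g : G n} : g ∈ GO O n ↔ ∀ i j, g.1 i j ∈ O ∧ (g⁻¹).1 i j ∈ O := Iff.rfl

theorem GO_eq : GO O n = Dense.GOs O (Fin n) := by
  ext g
  rw [mem_GO, Dense.mem_GOs]
  exact ⟨fun h => ⟨fun i j => (h i j).1, fun i j => (h i j).2⟩, fun h i j => ⟨h.1 i j, h.2 i j⟩⟩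

theorem dg_mem_GO {d : Fin n → ℂˣ} (h1 : ∀ i, (d i : ℂ) ∈ O) (h2 : ∀ i, (((d i)⁻¹ : ℂˣ) : ℂ) ∈ O) :
    dg d ∈ GO O n := by
  intro i j
  constructor
  · show Matrix.diagonal (fun i => (d i : ℂ)) i j ∈ O
    rw [Matrix.diagonal_apply]
    split_ifs
    · exact h1 i
    · exact O.zero_mem
  · show Matrix.diagonal (fun i => (((d i)⁻¹ : ℂˣ) : ℂ)) i j ∈ O
    rw [Matrix.diagonal_apply]
    split_ifs
    · exact h2 i
    · exact O.zero_mem

theorem IsSc.inv_mem {a : ℂˣ} (h : IsSc O a) : ((a⁻¹ : ℂˣ) : ℂ) ∈ O := by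
  obtain ⟨h1, m, hm, h2⟩ := h
  have : a⁻¹ = a ^ (m - 1) := by
    rw [inv_eq_iff_mul_eq_one, ← pow_succ', Nat.sub_add_cancel hm, h2]
  rw [this, Units.val_pow_eq_pow_val]
  exact O.pow_mem h1 _

theorem IsSc.one : IsSc O (1 : ℂˣ) := ⟨by simpa using O.one_mem, 1, one_pos, by simp⟩

theorem IsSc.inv {a : ℂˣ} (h : IsSc O a) : IsSc O a⁻¹ := by
  refine ⟨h.inv_mem, ?_⟩
  obtain ⟨_, m, hm, h2⟩ := h
  exact ⟨m, hm, by rw [inv_pow, h2, inv_one]⟩

theorem IsSc.mul {a b : ℂˣ} (ha : IsSc O a) (hb : IsSc O b) : IsSc O (a * b) := by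
  obtain ⟨h1, m, hm, h2⟩ := ha
  obtain ⟨h3, k, hk, h4⟩ := hb
  refine ⟨by rw [Units.val_mul]; exact O.mul_mem h1 h3, m * k, Nat.mul_pos hm hk, ?_⟩
  rw [mul_pow, pow_mul, h2, one_pow, one_mul, mul_comm m k, pow_mul, h4, one_pow]

theorem IsSc.neg_one : IsSc O (-1 : ℂˣ) :=
  ⟨by simpa using O.neg_mem O.one_mem, 2, by norm_num, by simp⟩

theorem scal_mem_GO {k : ℕ} {a : ℂˣ} (h : IsSc O a) : scal n k a ∈ GO O n := by
  refine dg_mem_GO (fun i => ?_) (fun i => ?_)
  · show ((if i.1 < k then a else 1 : ℂˣ) : ℂ) ∈ O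
    split_ifs
    · exact h.1
    · simpa using O.one_mem
  · show (((if i.1 < k then a else 1 : ℂˣ)⁻¹ : ℂˣ) : ℂ) ∈ O
    split_ifs
    · exact h.inv_mem
    · simpa using O.one_mem

end GO

/-! ## the embedding `GL_k → GL_n` -/

section emb

/-- the top left block -/
def embM (n k : ℕ) (M : Matrix (Fin k) (Fin k) ℂ) : Matrix (Fin n) (Fin n) ℂ := fun i j =>
  if h : i.1 < k ∧ j.1 < k then M ⟨i.1, h.1⟩ ⟨j.1, h.2⟩ else if i = j then 1 else 0

theorem embM_lt {n k : ℕ} (M : Matrix (Fin k) (Fin k) ℂ) {i j : Fin n} (hi : i.1 < k)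
    (hj : j.1 < k) : embM n k M i j = M ⟨i.1, hi⟩ ⟨j.1, hj⟩ := by
  simp [embM, hi, hj]

theorem embM_ge {n k : ℕ} (M : Matrix (Fin k) (Fin k) ℂ) {i j : Fin n}
    (h : k ≤ i.1 ∨ k ≤ j.1) : embM n k M i j = if i = j then 1 else 0 := by
  have h' : ¬ (i.1 < k ∧ j.1 < k) := by omega
  simp only [embM, h', dite_false]

theorem sum_lt {n k : ℕ} (hk : k ≤ n) (f : Fin n → ℂ) (h0 : ∀ l : Fin n, k ≤ l.1 → f l = 0) :
    ∑ l, f l = ∑ l : Fin k, f ⟨l.1, lt_of_lt_of_le l.2 hk⟩ := by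
  symm
  refine Finset.sum_bij_ne_zero (fun l _ _ => (⟨l.1, lt_of_lt_of_le l.2 hk⟩ : Fin n))
    (fun _ _ _ => Finset.mem_univ _) (fun a _ _ b _ _ h => ?_) (fun b _ hb => ?_)
    (fun _ _ _ => rfl)
  · exact Fin.ext (by simpa using h)
  · by_cases hbk : k ≤ b.1
    · exact absurd (h0 b hbk) hb
    · exact ⟨⟨b.1, by omega⟩, Finset.mem_univ _, hb, rfl⟩

theorem embM_mul {n k : ℕ} (hk : k ≤ n) (M N : Matrix (Fin k) (Fin k) ℂ) :
    embM n k (M * N) = embM n k M * embM n k N := by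
  ext i j
  rw [Matrix.mul_apply]
  by_cases hi : i.1 < k
  · rw [sum_lt hk _ (fun l hl => by
      rw [embM_ge M (Or.inr hl), if_neg (by rintro rfl; omega), zero_mul])]
    by_cases hj : j.1 < k
    · rw [embM_lt _ hi hj, Matrix.mul_apply]
      refine Finset.sum_congr rfl fun l _ => ?_
      rw [embM_lt (n := n) M hi (j := ⟨l.1, lt_of_lt_of_le l.2 hk⟩) l.2,
        embM_lt (n := n) N (i := ⟨l.1, lt_of_lt_of_le l.2 hk⟩) l.2 hj]
    · rw [embM_ge _ (Or.inr (not_lt.1 hj)), if_neg (by rintro rfl; exact hj hi)]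
      symm
      refine Finset.sum_eq_zero fun l _ => ?_
      rw [embM_ge N (i := ⟨l.1, _⟩) (Or.inr (not_lt.1 hj)), if_neg, mul_zero]
      intro h
      exact hj (by rw [← h]; exact l.2)
  · rw [embM_ge _ (Or.inl (not_lt.1 hi)), Finset.sum_eq_single i]
    · rw [embM_ge M (Or.inl (not_lt.1 hi)), if_pos rfl, one_mul,
        embM_ge N (Or.inl (not_lt.1 hi))]
    · intro l _ hl
      rw [embM_ge M (Or.inl (not_lt.1 hi)), if_neg (Ne.symm hl), zero_mul]
    · simp

theorem embM_one (n k : ℕ) : embM n k 1 = 1 := by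
  ext i j
  by_cases h : i.1 < k ∧ j.1 < k
  · rw [embM_lt _ h.1 h.2, Matrix.one_apply, Matrix.one_apply]
    by_cases hij : i = j
    · subst hij; simp
    · rw [if_neg hij, if_neg]
      intro h'
      exact hij (Fin.ext (by simpa using h'))
  · rw [embM_ge _ (by omega), Matrix.one_apply]

/-- the embedding of `GL_k` as the top left block of `GL_n` -/
def emb (n k : ℕ) (hk : k ≤ n) : G k →* G n where
  toFun g := ⟨embM n k g.1, embM n k (g⁻¹).1,
    by rw [← embM_mul hk, ← Units.val_mul, mul_inv_cancel, Units.val_one, embM_one],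
    by rw [← embM_mul hk, ← Units.val_mul, inv_mul_cancel, Units.val_one, embM_one]⟩
  map_one' := Units.ext (by show embM n k (1 : G k).1 = 1; rw [Units.val_one, embM_one])
  map_mul' g h := Units.ext (by
    show embM n k (g * h).1 = embM n k g.1 * embM n k h.1
    rw [Units.val_mul, embM_mul hk])

theorem emb_val {n k : ℕ} (hk : k ≤ n) (g : G k) : (emb n k hk g).1 = embM n k g.1 := rfl

theorem emb_inv_val {n k : ℕ} (hk : k ≤ n) (g : G k) :
    ((emb n k hk g)⁻¹).1 = embM n k (g⁻¹).1 := rfl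

theorem emb_mem {n k : ℕ} (hk : k ≤ n) (g : G k) : emb n k hk g ∈ GLk n k :=
  fun _ _ hij => embM_ge _ hij

theorem emb_injective {n k : ℕ} (hk : k ≤ n) : Function.Injective (emb n k hk) := by
  intro g h e
  apply Units.ext
  ext i j
  have := congrArg (fun z : G n => z.1 ⟨i.1, lt_of_lt_of_le i.2 hk⟩ ⟨j.1, lt_of_lt_of_le j.2 hk⟩) e
  simpa [emb_val, embM] using this

/-- the inverse of `emb` on `GLk` -/
def unemb (n k : ℕ) (hk : k ≤ n) (g : G n) (hg : g ∈ GLk n k) : G k where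
  val := g.1.submatrix (Fin.castLE hk) (Fin.castLE hk)
  inv := (g⁻¹).1.submatrix (Fin.castLE hk) (Fin.castLE hk)
  val_inv := by
    ext i j
    have h : (g.1 * (g⁻¹).1) (Fin.castLE hk i) (Fin.castLE hk j) = (1 : Matrix _ _ ℂ) i j := by
      rw [← Units.val_mul, mul_inv_cancel, Units.val_one, Matrix.one_apply, Matrix.one_apply]
      simp
    rw [Matrix.mul_apply, sum_lt hk] at h
    · exact h
    · intro l hl
      rw [hg _ l (Or.inr hl), if_neg, zero_mul]
      rintro rfl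
      exact absurd i.2 (not_lt.2 hl)
  inv_val := by
    ext i j
    have h : ((g⁻¹).1 * g.1) (Fin.castLE hk i) (Fin.castLE hk j) = (1 : Matrix _ _ ℂ) i j := by
      rw [← Units.val_mul, inv_mul_cancel, Units.val_one, Matrix.one_apply, Matrix.one_apply]
      simp
    rw [Matrix.mul_apply, sum_lt hk] at h
    · exact h
    · intro l hl
      rw [(GLk n k).inv_mem hg _ l (Or.inr hl), if_neg, zero_mul]
      rintro rfl
      exact absurd i.2 (not_lt.2 hl)

theorem emb_unemb {n k : ℕ} (hk : k ≤ n) (g : G n) (hg : g ∈ GLk n k) :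
    emb n k hk (unemb n k hk g hg) = g := by
  apply Units.ext
  ext i j
  rw [emb_val]
  by_cases h : i.1 < k ∧ j.1 < k
  · rw [embM_lt _ h.1 h.2]; rfl
  · rw [embM_ge _ (by omega), hg i j (by omega)]


theorem GLk_top {n k : ℕ} (hk : n ≤ k) (g : G n) : g ∈ GLk n k :=
  fun i j hij => by have := i.2; have := j.2; omega

theorem GLk_mono {n k l : ℕ} (hkl : k ≤ l) : GLk n k ≤ GLk n l :=
  fun _ hg i j hij => hg i j (by omega)

theorem emb_GO {O : Subring ℂ} {n k : ℕ} (hk : k ≤ n) {g : G k} :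
    emb n k hk g ∈ GO O n ↔ g ∈ GO O k := by
  constructor
  · intro h i j
    have := h ⟨i.1, lt_of_lt_of_le i.2 hk⟩ ⟨j.1, lt_of_lt_of_le j.2 hk⟩
    rw [emb_val, emb_inv_val] at this
    simpa [embM] using this
  · intro h i j
    rw [emb_val, emb_inv_val]
    by_cases hij : i.1 < k ∧ j.1 < k
    · rw [embM_lt _ hij.1 hij.2, embM_lt _ hij.1 hij.2]
      exact h _ _
    · rw [embM_ge _ (by omega), embM_ge _ (by omega)]
      split_ifs
      · exact ⟨O.one_mem, O.one_mem⟩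
      · exact ⟨O.zero_mem, O.zero_mem⟩

/-- composition with `emb` preserves polynomiality -/
theorem PolG.emb {ι : Type} {n m k : ℕ} (hk : k ≤ n) {S : Set (ι → G m)} {Φ : (ι → G m) → G k}
    (h : PolG S Φ) : PolG S (fun ρ => emb n k hk (Φ ρ)) := by
  rw [polG_iff] at *
  intro i j
  constructor
  · simp only [emb_val]
    by_cases hij : i.1 < k ∧ j.1 < k
    · simp only [embM_lt _ hij.1 hij.2]
      exact (h _ _).1
    · simp only [embM_ge (n := n) (k := k) _ (i := i) (j := j) (by omega)]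
      exact PolOn.const _
  · simp only [emb_inv_val]
    by_cases hij : i.1 < k ∧ j.1 < k
    · simp only [embM_lt _ hij.1 hij.2]
      exact (h _ _).2
    · simp only [embM_ge (n := n) (k := k) _ (i := i) (j := j) (by omega)]
      exact PolOn.const _


theorem scal_mem_GLk {n k l : ℕ} (hkl : k ≤ l) (a : ℂˣ) : scal n k a ∈ GLk n l := by
  intro i j hij
  show Matrix.diagonal _ i j = _
  rw [Matrix.diagonal_apply]
  by_cases h : i = j
  · subst h
    have : ¬ i.1 < k := by omega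
    simp [this]
  · rw [if_neg h, if_neg h]

theorem scal_mul_comm {n k : ℕ} (a : ℂˣ) {g : G n} (hg : g ∈ GLk n k) :
    scal n k a * g = g * scal n k a := by
  apply Units.ext
  ext i j
  show ((Matrix.diagonal fun l : Fin n => ((if l.1 < k then a else 1 : ℂˣ) : ℂ)) * g.1) i j =
    (g.1 * (Matrix.diagonal fun l : Fin n => ((if l.1 < k then a else 1 : ℂˣ) : ℂ))) i j
  rw [Matrix.diagonal_mul, Matrix.mul_diagonal]
  by_cases hi : i.1 < k
  · by_cases hj : j.1 < k
    · simp only [hi, hj, if_true]; exact mul_comm _ _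
    · have h0 : g.1 i j = 0 := (hg i j (Or.inr (not_lt.1 hj))).trans
        (if_neg (by rintro rfl; exact hj hi))
      rw [h0]; simp
  · by_cases hj : j.1 < k
    · have h0 : g.1 i j = 0 := (hg i j (Or.inl (not_lt.1 hi))).trans
        (if_neg (by rintro rfl; exact hi hj))
      rw [h0]; simp
    · simp [hi, hj]

theorem scal_mul (n k : ℕ) (a b : ℂˣ) : scal n k (a * b) = scal n k a * scal n k b := by
  apply Units.ext
  show Matrix.diagonal _ = Matrix.diagonal _ * Matrix.diagonal _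
  rw [Matrix.diagonal_mul_diagonal]
  congr 1
  funext i
  by_cases h : i.1 < k <;> simp [h]

theorem scal_one (n k : ℕ) : scal n k 1 = 1 := by
  apply Units.ext
  show Matrix.diagonal _ = (1 : Matrix (Fin n) (Fin n) ℂ)
  rw [← Matrix.diagonal_one]
  congr 1
  funext i
  simp


end emb

/-! ## approximability -/

section Appr

variable {ι κ : Type} {n m : ℕ} {O : Subring ℂ}

/-- the integral points -/
def IntPts (O : Subring ℂ) (S : Set (ι → G n)) (Q : Set ι) : Set (ι → G n) :=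
  {ρ | ρ ∈ S ∧ ∀ x ∈ Q, ρ x ∈ GO O n}

theorem appr_iff {S : Set (ι → G n)} {Q : Set ι} {ρ : ι → G n} :
    Appr O S Q ρ ↔ ρ ∈ Cal.zcl (Pol ι n) (IntPts O S Q) := by
  constructor
  · intro h F hF hv
    exact h F hF fun ρ' h1 h2 => hv ρ' ⟨h1, h2⟩
  · intro h F hF hv
    exact h F hF fun ρ' h1 => hv ρ' h1.1 h1.2


theorem Appr.mono {S S' : Set (ι → G n)} {Q Q' : Set ι} {ρ : ι → G n} (h : Appr O S Q ρ)
    (hS : S ⊆ S') (hQ : Q' ⊆ Q) : Appr O S' Q' ρ :=
  fun F hF hv => h F hF fun ρ' h1 h2 => hv ρ' (hS h1) fun x hx => h2 x (hQ hx)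

theorem Appr.mono' {S S' : Set (ι → G n)} {Q Q' : Set ι} {ρ : ι → G n} (h : Appr O S Q ρ)
    (hS : ∀ ρ' ∈ S, (∀ x ∈ Q, ρ' x ∈ GO O n) → ρ' ∈ S' ∧ ∀ x ∈ Q', ρ' x ∈ GO O n) :
    Appr O S' Q' ρ :=
  fun F hF hv => h F hF fun ρ' h1 h2 => hv ρ' (hS ρ' h1 h2).1 (hS ρ' h1 h2).2

/-- **(Map)** -/
theorem Appr.map {S : Set (ι → G n)} {Q : Set ι} {S' : Set (κ → G m)} {Q' : Set κ}
    {ρ' : κ → G m} (h : Appr O S' Q' ρ') (Φ : (κ → G m) → (ι → G n))
    (hΦ : ∀ x, PolG S' (fun σ => Φ σ x)) (hρ' : ρ' ∈ S')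
    (hS : ∀ σ ∈ S', (∀ y ∈ Q', σ y ∈ GO O m) → Φ σ ∈ S)
    (hQ : ∀ σ ∈ S', (∀ y ∈ Q', σ y ∈ GO O m) → ∀ x ∈ Q, Φ σ x ∈ GO O n) :
    Appr O S Q (Φ ρ') := by
  intro F hF hv
  obtain ⟨F', hF', h1⟩ := Pol.comp hΦ hF
  have h1' : ∀ σ ∈ S', F (Φ σ) = F' σ := h1
  rw [h1' ρ' hρ']
  exact h F' hF' fun σ h2 h3 => by rw [← h1' σ h2]; exact hv _ (hS σ h2 h3) (hQ σ h2 h3)

/-- **(Map)**, with the target point given by an equation -/
theorem Appr.map' {S : Set (ι → G n)} {Q : Set ι} {S' : Set (κ → G m)} {Q' : Set κ}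
    {ρ' : κ → G m} {ρ : ι → G n} (h : Appr O S' Q' ρ') (Φ : (κ → G m) → (ι → G n))
    (hΦ : ∀ x, PolG S' (fun σ => Φ σ x)) (hρ' : ρ' ∈ S') (hρ : Φ ρ' = ρ)
    (hS : ∀ σ ∈ S', (∀ y ∈ Q', σ y ∈ GO O m) → Φ σ ∈ S)
    (hQ : ∀ σ ∈ S', (∀ y ∈ Q', σ y ∈ GO O m) → ∀ x ∈ Q, Φ σ x ∈ GO O n) :
    Appr O S Q ρ := hρ ▸ h.map Φ hΦ hρ' hS hQ

/-- **(Map)** when `Φ ρ'` agrees with `ρ` only at the names in `R` and membership in `S` only
depends on the names in `R`, `Q ⊆ R`. -/
theorem Appr.congrOn {S : Set (ι → G n)} {Q R : Set ι} {ρ ρ' : ι → G n} (h : Appr O S Q ρ')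
    (hS : ∀ σ τ : ι → G n, (∀ x ∈ R, σ x = τ x) → σ ∈ S → τ ∈ S) (hQR : Q ⊆ R)
    (he : ∀ x ∈ R, ρ' x = ρ x) : Appr O S Q ρ := by
  intro F hF hv
  -- glue `ρ` off `R`
  have h1 := h _ (Cal.glue_left_mem (κ := fun _ : ι => Fin n) hF R ρ) fun σ hσ hσ' =>
    hv (Cal.glue (κ := fun _ : ι => Fin n) R σ ρ)
      (hS σ _ (fun x hx => by simp [Cal.glue, hx]) hσ)
      (fun x hx => by
        have := hQR hx
        simpa [Cal.glue, this] using hσ' x hx)
  have h2 : Cal.glue (κ := fun _ : ι => Fin n) R ρ' ρ = ρ := by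
    funext x
    by_cases hx : x ∈ R
    · simp [Cal.glue, hx, he x hx]
    · simp [Cal.glue, hx]
  rwa [h2] at h1



/-- transitivity: if `ρ` is approximable by points of `S` which are `Q`-integral, and all these
points are approximable in `(S', Q')`, then so is `ρ`. -/
theorem Appr.trans {S S' : Set (ι → G n)} {Q Q' : Set ι} {ρ : ι → G n} (h : Appr O S Q ρ)
    (h' : ∀ σ ∈ S, (∀ x ∈ Q, σ x ∈ GO O n) → Appr O S' Q' σ) : Appr O S' Q' ρ :=
  fun F hF hv => h F hF fun σ h1 h2 => h' σ h1 h2 F hF hv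


theorem Good.exists_unit (hO : Good O) : ∃ u : ℂ, u ∈ O ∧ u⁻¹ ∈ O ∧ u ≠ 0 ∧
    Function.Injective fun k : ℕ => u ^ k := by
  obtain ⟨u, h1, h2, h3⟩ := hO
  refine ⟨u, h1, by simpa using h2, u.ne_zero, ?_⟩
  have key : ∀ a b : ℕ, a < b → (u : ℂ) ^ a ≠ (u : ℂ) ^ b := by
    intro a b hab h
    have h4 : u ^ a = u ^ b := Units.ext (by simpa using h)
    have h5 : u ^ (b - a) = 1 := by
      have h6 : u ^ b = u ^ a * u ^ (b - a) := by rw [← pow_add, Nat.add_sub_cancel' hab.le]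
      rw [h6] at h4
      exact mul_left_cancel (a := u ^ a) (by rw [mul_one]; exact h4.symm)
    exact h3 (b - a) (by omega) h5
  intro a b hab
  rcases lt_trichotomy a b with h | h | h
  · exact absurd hab (key a b h)
  · exact h
  · exact absurd hab.symm (key b a h)

/-- **(Free)**: assignments with prescribed ranks `k x`: the integral ones are dense. -/
theorem appr_free (hO : Good O) (k : ι → ℕ) {ρ : ι → G n} (hρ : ∀ x, ρ x ∈ GLk n (k x)) :
    Appr O {σ : ι → G n | ∀ x, σ x ∈ GLk n (k x)} Set.univ ρ := by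
  obtain ⟨u, hu, hu', hu0, hinf⟩ := hO.exists_unit
  set l : ι → ℕ := fun x => min n (k x) with hl
  have hln : ∀ x, l x ≤ n := fun x => min_le_left _ _
  have hmem : ∀ x (g : G n), g ∈ GLk n (k x) ↔ g ∈ GLk n (l x) := by
    intro x g
    constructor
    · intro h i j hij
      refine h i j ?_
      have := i.2; have := j.2
      simp only [hl] at hij
      omega
    · exact fun h => GLk_mono (min_le_right _ _) h
  have h1 := Cal.free (κ := fun x : ι => Fin (l x)) u hu hu' hu0 hinf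
    (fun x => unemb n (l x) (hln x) (ρ x) ((hmem x _).1 (hρ x)))
  rw [appr_iff]
  have hρ' : ρ = fun x => emb n (l x) (hln x) (unemb n (l x) (hln x) (ρ x)
      ((hmem x _).1 (hρ x))) := by
    funext x; rw [emb_unemb]
  rw [hρ']
  refine Cal.map (φ := fun (τ : ∀ x : ι, GL (Fin (l x)) ℂ) (x : ι) => emb n (l x) (hln x) (τ x))
    (fun F hF => ?_) (fun τ hτ => ?_) h1
  · refine Cal.comp_mem (κ := fun _ : ι => Fin n) (Cal.PolFam fun x : ι => Fin (l x)) _
      (fun x i j => ?_) (fun x i j => ?_) hF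
    · show (fun τ : ∀ x : ι, GL (Fin (l x)) ℂ => embM n (l x) (τ x).1 i j) ∈ _
      by_cases hij : i.1 < l x ∧ j.1 < l x
      · simp only [embM_lt _ hij.1 hij.2]
        exact Cal.ent_mem (κ := fun x : ι => Fin (l x)) x _ _
      · simp only [embM_ge (n := n) (k := l x) _ (i := i) (j := j) (by omega)]
        exact Subalgebra.algebraMap_mem _ _
    · show (fun τ : ∀ x : ι, GL (Fin (l x)) ℂ => embM n (l x) ((τ x)⁻¹).1 i j) ∈ _
      by_cases hij : i.1 < l x ∧ j.1 < l x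
      · simp only [embM_lt _ hij.1 hij.2]
        exact Cal.ient_mem (κ := fun x : ι => Fin (l x)) x _ _
      · simp only [embM_ge (n := n) (k := l x) _ (i := i) (j := j) (by omega)]
        exact Subalgebra.algebraMap_mem _ _
  · refine ⟨fun x => (hmem x _).2 (emb_mem _ _), fun x _ => ?_⟩
    rw [emb_GO, GO_eq]
    exact hτ x (Set.mem_univ x)

/-- (Free) for a list of free names with ranks -/
theorem appr_freeList (hO : Good O) (L : List (ι × ℕ)) (Q : Set ι) {ρ : ι → G n}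
    (hρ : ∀ z ∈ L, ρ z.1 ∈ GLk n z.2) :
    Appr O {σ : ι → G n | ∀ z ∈ L, σ z.1 ∈ GLk n z.2} Q ρ := by
  classical
  -- the rank of `x` is the minimum of the prescribed ranks
  have key : ∀ L : List (ι × ℕ), ∃ k : ι → ℕ, ∀ σ : ι → G n,
      (∀ x, σ x ∈ GLk n (k x)) ↔ ∀ z ∈ L, σ z.1 ∈ GLk n z.2 := by
    intro L
    induction L with
    | nil => exact ⟨fun _ => n, fun σ => ⟨by simp, fun _ x => GLk_top le_rfl _⟩⟩
    | cons z L ih =>
      obtain ⟨k, hk⟩ := ih
      refine ⟨Function.update k z.1 (min (k z.1) z.2), fun σ => ?_⟩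
      simp only [List.mem_cons, forall_eq_or_imp, ← hk σ]
      constructor
      · intro h
        refine ⟨?_, fun x => ?_⟩
        · have := h z.1
          rw [Function.update_self] at this
          exact GLk_mono (min_le_right _ _) this
        · by_cases hx : x = z.1
          · subst hx
            have := h z.1
            rw [Function.update_self] at this
            exact GLk_mono (min_le_left _ _) this
          · have := h x
            rwa [Function.update_of_ne hx] at this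
      · rintro ⟨h1, h2⟩ x
        by_cases hx : x = z.1
        · subst hx
          rw [Function.update_self]
          intro i j hij
          rcases le_total (k z.1) z.2 with hle | hle
          · rw [min_eq_left hle] at hij; exact h2 z.1 i j hij
          · rw [min_eq_right hle] at hij; exact h1 i j hij
        · rw [Function.update_of_ne hx]; exact h2 x
  obtain ⟨k, hk⟩ := key L
  have := appr_free hO k ((hk ρ).2 hρ)
  exact this.mono (fun σ hσ => (hk σ).1 hσ) (Set.subset_univ _)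


end Appr

end Crest.Agent.R003
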