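import Crest.Agent.R003.App638

/-!
# Row 3 (S0003): more group and scalar lemmas (helper486), on top of App638
-/

set_option autoImplicit false

namespace Crest.Agent.R003

/-! ### diagonal matrices and scalars -/

theorem dg_val {n : ℕ} (d : Fin n → ℂˣ) : (dg d).1 = Matrix.diagonal fun i => (d i : ℂ) := rfl


theorem dg_mul {n : ℕ} (d d' : Fin n → ℂˣ) : dg d * dg d' = dg fun i => d i * d' i := by
  apply Units.ext
  rw [Units.val_mul, dg_val, dg_val, dg_val, Matrix.diagonal_mul_diagonal]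
  simp

theorem dg_one {n : ℕ} : dg (fun _ : Fin n => (1 : ℂˣ)) = 1 := by
  apply Units.ext
  rw [dg_val]
  simp

theorem dg_inv {n : ℕ} (d : Fin n → ℂˣ) : (dg d)⁻¹ = dg fun i => (d i)⁻¹ := by
  rw [inv_eq_iff_mul_eq_one, dg_mul]
  simp [dg_one]

theorem dg_apply {n : ℕ} (d : Fin n → ℂˣ) (i j : Fin n) :
    (dg d).1 i j = if i = j then (d i : ℂ) else 0 := by
  rw [dg_val, Matrix.diagonal_apply]

theorem dg_mem_GLk {n k : ℕ} {d : Fin n → ℂˣ} (h : ∀ i : Fin n, k ≤ i.1 → d i = 1) :
    dg d ∈ GLk n k := by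
  intro i j hij
  rw [dg_apply]
  by_cases hh : i = j
  · subst hh
    have : k ≤ i.1 := by rcases hij with h | h <;> exact h
    simp [h i this]
  · simp [hh]

theorem dsg_mem_GLk_of_le {n k : ℕ} (e c : List Bool) (σ : Bool → Bool → ℂˣ) (h : c.length ≤ k) :
    dsg n e c σ ∈ GLk n k := by
  apply dg_mem_GLk
  intro i hi
  have : lab c i.1 = none := by
    simp only [lab, List.getElem?_eq_none_iff]; omega
  rw [this]
  cases lab e i.1 <;> rfl

theorem dsg_one {n : ℕ} (e c : List Bool) {σ : Bool → Bool → ℂˣ} (h : ∀ x y, σ x y = 1) :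
    dsg n e c σ = 1 := by
  rw [dsg, ← dg_one]
  congr 1
  funext i
  split <;> simp [h]

theorem scal_comm {n k : ℕ} (a : ℂˣ) {g : G n} (hg : g ∈ GLk n k) :
    scal n k a * g = g * scal n k a := by
  apply Units.ext
  rw [Units.val_mul, Units.val_mul, scal, dg_val]
  ext i j
  rw [Matrix.diagonal_mul, Matrix.mul_diagonal]
  by_cases hi : i.1 < k
  · by_cases hj : j.1 < k
    · simp [hi, hj, mul_comm]
    · rw [hg i j (Or.inr (by omega))]
      by_cases hij : i = j
      · subst hij; omega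
      · simp [hij]
  · rw [hg i j (Or.inl (by omega))]
    by_cases hij : i = j
    · subst hij; simp
    · simp [hij]

/-! ### integrality -/

theorem IsSc.pow {O : Subring ℂ} {a : ℂˣ} (ha : IsSc O a) (m : ℕ) : IsSc O (a ^ m) := by
  induction m with
  | zero => simpa using IsSc.one
  | succ m ih => rw [pow_succ]; exact ih.mul ha

theorem dg_mem_GO_of_isSc {O : Subring ℂ} {n : ℕ} {d : Fin n → ℂˣ} (h : ∀ i, IsSc O (d i)) :
    dg d ∈ GO O n := by
  intro i j
  rw [dg_inv, dg_apply, dg_apply]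
  by_cases hij : i = j
  · simp only [hij, if_true]
    exact ⟨(h j).1, (h j).inv.1⟩
  · simp only [hij, if_false]
    exact ⟨O.zero_mem, O.zero_mem⟩

theorem dsg_mem_GO {O : Subring ℂ} {n : ℕ} (e c : List Bool) {σ : Bool → Bool → ℂˣ}
    (h : ∀ x y, IsSc O (σ x y)) : dsg n e c σ ∈ GO O n := by
  apply dg_mem_GO_of_isSc
  intro i
  split
  · exact h _ _
  · exact IsSc.one

end Crest.Agent.R003
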