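import Mathlib

-- ▼ part R003/Str644
section

/-!
R003/Str644: Jordan normal form over an algebraically closed field (from the PID structure theorem)
and its consequences:
* `exists_jordan_basis`  : Jordan basis of an endomorphism;
* `exists_jordan_matrix` : matrix form;
-/

set_option autoImplicit false

open Polynomial Module

namespace Crest.Agent.R003.Str

universe u v

section Quot

variable {F : Type u} [Field F]

/-- the standard basis `(X-λ)^(e-1-j)` of `F[X]/((X-λ)^e)` -/
theorem exists_basis_quot (lam : F) (e : ℕ) :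
    ∃ b : Basis (Fin e) F (F[X] ⧸ (F[X] ∙ (X - C lam) ^ e)),
      ∀ j : Fin e, (X : F[X]) • b j = lam • b j +
        if h : 0 < j.1 then b ⟨j.1 - 1, by omega⟩ else 0 := by
  classical
  set S : Submodule F[X] F[X] := F[X] ∙ (X - C lam) ^ e with hS
  have hmon : ((X - C lam) ^ e).Monic := (monic_X_sub_C lam).pow e
  have hfr : Module.finrank F (F[X] ⧸ S) = e := by
    have := finrank_quotient_span_eq_natDegree (f := (X - C lam) ^ e)
    rw [natDegree_pow, natDegree_X_sub_C, mul_one] at this
    exact this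
  have hfd : Module.Finite F (F[X] ⧸ S) := by
    by_cases he : e = 0
    · subst he
      have hT : S = ⊤ := by
        rw [hS, pow_zero]
        exact Ideal.span_singleton_one
      have : Subsingleton (F[X] ⧸ S) := Submodule.Quotient.subsingleton_iff.mpr hT
      infer_instance
    · exact Module.finite_of_finrank_pos (by omega)
  let v : Fin e → (F[X] ⧸ S) := fun j => Submodule.Quotient.mk ((X - C lam) ^ (e - 1 - j.1))
  have hspan : ⊤ ≤ Submodule.span F (Set.range v) := by
    intro x _
    obtain ⟨p, rfl⟩ := Submodule.Quotient.mk_surjective S x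
    have hp : p = (taylor lam p).sum fun i a => C a * (X - C lam) ^ i := (sum_taylor_eq p lam).symm
    rw [hp, Polynomial.sum_def]
    have : (Submodule.Quotient.mk (∑ n ∈ (taylor lam p).support,
        C ((taylor lam p).coeff n) * (X - C lam) ^ n) : F[X] ⧸ S)
        = ∑ n ∈ (taylor lam p).support, (taylor lam p).coeff n •
          (Submodule.Quotient.mk ((X - C lam) ^ n) : F[X] ⧸ S) := by
      rw [← Submodule.mkQ_apply, map_sum]
      refine Finset.sum_congr rfl fun n _ => ?_
      rw [← smul_eq_C_mul, Submodule.mkQ_apply, Submodule.Quotient.mk_smul]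
    rw [this]
    refine Submodule.sum_mem _ fun n _ => Submodule.smul_mem _ _ ?_
    by_cases hn : n < e
    · refine Submodule.subset_span ⟨⟨e - 1 - n, by omega⟩, ?_⟩
      show Submodule.Quotient.mk ((X - C lam) ^ (e - 1 - (e - 1 - n))) = _
      congr 2
      omega
    · have : (Submodule.Quotient.mk ((X - C lam) ^ n) : F[X] ⧸ S) = 0 := by
        rw [Submodule.Quotient.mk_eq_zero, hS, Submodule.mem_span_singleton]
        refine ⟨(X - C lam) ^ (n - e), ?_⟩
        rw [smul_eq_mul, ← pow_add]
        congr 1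
        omega
      rw [this]
      exact Submodule.zero_mem _
  refine ⟨basisOfTopLeSpanOfCardEqFinrank v hspan (by simp [hfr]), fun j => ?_⟩
  simp only [coe_basisOfTopLeSpanOfCardEqFinrank]
  have hX : ∀ q : F[X], (X : F[X]) • (Submodule.Quotient.mk q : F[X] ⧸ S)
      = lam • (Submodule.Quotient.mk q : F[X] ⧸ S) + Submodule.Quotient.mk (q * (X - C lam)) := by
    intro q
    rw [← Submodule.Quotient.mk_smul, ← Submodule.Quotient.mk_smul, ← Submodule.Quotient.mk_add,
      smul_eq_mul, smul_eq_C_mul]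
    congr 1
    ring
  rw [hX]
  congr 1
  rw [← pow_succ]
  split_ifs with h
  · show _ = Submodule.Quotient.mk ((X - C lam) ^ (e - 1 - (j.1 - 1)))
    congr 2
    have := j.2
    omega
  · rw [Submodule.Quotient.mk_eq_zero, hS, Submodule.mem_span_singleton]
    refine ⟨1, ?_⟩
    rw [one_smul]
    congr 1
    have := j.2
    omega

end Quot

section Jordan

variable {F : Type u} [Field F] [IsAlgClosed F]

/-- **Jordan normal form**, basis version (blocks are allowed to be empty). -/
theorem exists_jordan_basis_aux {V : Type v} [AddCommGroup V] [Module F V] [FiniteDimensional F V]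
    (f : V →ₗ[F] V) :
    ∃ (n : ℕ) (lam : Fin n → F) (e : Fin n → ℕ) (b : Basis (Σ i, Fin (e i)) F V),
      ∀ (i : Fin n) (j : Fin (e i)), f (b ⟨i, j⟩) = lam i • b ⟨i, j⟩ +
        if h : 0 < j.1 then b ⟨i, ⟨j.1 - 1, by omega⟩⟩ else 0 := by
  classical
  obtain ⟨ι, _, p, hp, e, ⟨φ⟩⟩ := Module.equiv_directSum_of_isTorsion
    (R := F[X]) (M := AEval' f) (AEval.isTorsion_of_finiteDimensional F V f)
  -- each `p i` is associated to `X - C (lam i)`
  have hlam : ∀ i, ∃ lam : F, (F[X] ∙ p i ^ e i : Submodule F[X] F[X])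
      = F[X] ∙ (X - C lam) ^ e i := by
    intro i
    have hdeg : (p i).degree = 1 := IsAlgClosed.degree_eq_one_of_irreducible F (hp i)
    obtain ⟨lam, hl⟩ := Polynomial.exists_root_of_degree_eq_one hdeg
    refine ⟨lam, ?_⟩
    have hass : Associated (X - C lam) (p i) :=
      (Polynomial.irreducible_X_sub_C lam).associated_of_dvd (hp i) (dvd_iff_isRoot.mpr hl)
    have h2 : Associated ((X - C lam) ^ e i) (p i ^ e i) := hass.pow_pow
    exact (Ideal.span_singleton_eq_span_singleton.mpr h2).symm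
  choose lam hlam using hlam
  have hb : ∀ i, ∃ b : Basis (Fin (e i)) F (F[X] ⧸ (F[X] ∙ p i ^ e i)),
      ∀ j : Fin (e i), (X : F[X]) • b j = lam i • b j +
        if h : 0 < j.1 then b ⟨j.1 - 1, by omega⟩ else 0 := by
    intro i
    rw [hlam i]
    exact exists_basis_quot (lam i) (e i)
  choose b hb using hb
  let B0 : Basis (Σ i, Fin (e i)) F (Π i : ι, F[X] ⧸ (F[X] ∙ p i ^ e i)) := Pi.basis b
  have hB0 : ∀ i (j : Fin (e i)), B0 ⟨i, j⟩ = Pi.single i (b i j) := fun i j => Pi.basis_apply _ _
  let ψ : AEval' f ≃ₗ[F[X]] (Π i : ι, F[X] ⧸ (F[X] ∙ p i ^ e i)) :=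
    φ.trans (DirectSum.linearEquivFunOnFintype F[X] ι (fun i => F[X] ⧸ (F[X] ∙ p i ^ e i)))
  let ψF : V ≃ₗ[F] (Π i : ι, F[X] ⧸ (F[X] ∙ p i ^ e i)) :=
    (AEval'.of f).trans (ψ.restrictScalars F)
  let B1 : Basis (Σ i, Fin (e i)) F V := B0.map ψF.symm
  have hX : ∀ x : V, ψF (f x) = (X : F[X]) • ψF x := by
    intro x
    show ψ (AEval'.of f (f x)) = X • ψ (AEval'.of f x)
    rw [← map_smul, AEval'.X_smul_of]
  have hB1 : ∀ (i : ι) (j : Fin (e i)), f (B1 ⟨i, j⟩) = lam i • B1 ⟨i, j⟩ +
        if h : 0 < j.1 then B1 ⟨i, ⟨j.1 - 1, by omega⟩⟩ else 0 := by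
    intro i j
    apply ψF.injective
    rw [hX]
    have h1 : ∀ x, ψF (B1 x) = B0 x := by intro x; simp [B1]
    rw [h1, hB0, map_add, map_smul, h1, hB0, ← Pi.single_smul, hb i j, Pi.single_add]
    congr 1
    · funext k
      by_cases hk : k = i
      · subst hk
        simp
      · simp [hk]
    split_ifs with h
    · rw [h1, hB0]
    · simp
  let ε := (Fintype.equivFin ι).symm
  refine ⟨Fintype.card ι, lam ∘ ε, e ∘ ε, B1.reindex (Equiv.sigmaCongrLeft (β := fun i => Fin (e i)) ε).symm, ?_⟩
  intro i j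
  have := hB1 (ε i) j
  simp only [Basis.reindex_apply, Equiv.symm_symm, Function.comp]
  exact this

/-- **Jordan normal form**, basis version, all blocks non-empty. -/
theorem exists_jordan_basis {V : Type v} [AddCommGroup V] [Module F V] [FiniteDimensional F V]
    (f : V →ₗ[F] V) :
    ∃ (n : ℕ) (lam : Fin n → F) (e : Fin n → ℕ) (b : Basis (Σ i, Fin (e i)) F V),
      (∀ i, 0 < e i) ∧
      ∀ (i : Fin n) (j : Fin (e i)), f (b ⟨i, j⟩) = lam i • b ⟨i, j⟩ +
        if h : 0 < j.1 then b ⟨i, ⟨j.1 - 1, by omega⟩⟩ else 0 := by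
  classical
  obtain ⟨n, lam, e, b, hb⟩ := exists_jordan_basis_aux f
  let ε := (Fintype.equivFin {i : Fin n // 0 < e i}).symm
  let α : (Σ i : {i : Fin n // 0 < e i}, Fin (e i.1)) ≃ (Σ i, Fin (e i)) :=
    { toFun := fun x => ⟨x.1.1, x.2⟩
      invFun := fun x => ⟨⟨x.1, lt_of_le_of_lt (Nat.zero_le _) x.2.2⟩, x.2⟩
      left_inv := fun x => rfl
      right_inv := fun x => rfl }
  let β : (Σ i : Fin (Fintype.card {i : Fin n // 0 < e i}), Fin (e (ε i).1)) ≃
      (Σ i : {i : Fin n // 0 < e i}, Fin (e i.1)) :=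
    Equiv.sigmaCongrLeft (β := fun i : {i : Fin n // 0 < e i} => Fin (e i.1)) ε
  refine ⟨_, fun i => lam (ε i).1, fun i => e (ε i).1, b.reindex (β.trans α).symm,
    fun i => (ε i).2, ?_⟩
  intro i j
  have := hb (ε i).1 j
  simp only [Basis.reindex_apply, Equiv.symm_symm, Equiv.trans_apply]
  exact this

end Jordan

/-- A *Jordan system* for an endomorphism. -/
structure JSys {F : Type u} [Field F] {V : Type v} [AddCommGroup V] [Module F V]
    (f : V →ₗ[F] V) where
  /-- number of blocks -/
  n : ℕ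
  /-- eigenvalues -/
  lam : Fin n → F
  /-- block sizes -/
  e : Fin n → ℕ
  /-- the Jordan basis -/
  b : Basis (Σ i, Fin (e i)) F V
  pos : ∀ i, 0 < e i
  spec : ∀ (i : Fin n) (j : Fin (e i)), f (b ⟨i, j⟩) = lam i • b ⟨i, j⟩ +
        if h : 0 < j.1 then b ⟨i, ⟨j.1 - 1, by omega⟩⟩ else 0

theorem exists_JSys {F : Type u} [Field F] [IsAlgClosed F] {V : Type v} [AddCommGroup V]
    [Module F V] [FiniteDimensional F V] (f : V →ₗ[F] V) : Nonempty (JSys f) := by
  obtain ⟨n, lam, e, b, h1, h2⟩ := exists_jordan_basis f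
  exact ⟨⟨n, lam, e, b, h1, h2⟩⟩

namespace JSys

variable {F : Type u} [Field F] {V : Type v} [AddCommGroup V] [Module F V]
  {f : V →ₗ[F] V} (J : JSys f)

/-- the shifted operator -/
theorem shift (μ : F) (i : Fin J.n) (j : Fin (J.e i)) :
    (f - algebraMap F _ μ) (J.b ⟨i, j⟩) = (J.lam i - μ) • J.b ⟨i, j⟩ +
        if h : 0 < j.1 then J.b ⟨i, ⟨j.1 - 1, by omega⟩⟩ else 0 := by
  rw [LinearMap.sub_apply, J.spec, Module.algebraMap_end_apply, sub_smul]
  abel

/-- powers of the shifted operator on the blocks of eigenvalue `μ` -/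
theorem shift_pow {μ : F} (k : ℕ) (i : Fin J.n) (hi : J.lam i = μ) (j : Fin (J.e i)) :
    ((f - algebraMap F _ μ) ^ k) (J.b ⟨i, j⟩) =
        if h : k ≤ j.1 then J.b ⟨i, ⟨j.1 - k, by omega⟩⟩ else 0 := by
  induction k with
  | zero => simp
  | succ k ih =>
    rw [pow_succ', Module.End.mul_apply, ih]
    by_cases h1 : k ≤ j.1
    · rw [dif_pos h1, J.shift, hi, sub_self, zero_smul, zero_add]
      by_cases h2 : k + 1 ≤ j.1
      · rw [dif_pos (by show 0 < j.1 - k; omega), dif_pos h2]
        congr 2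
      · rw [dif_neg (by show ¬ 0 < j.1 - k; omega), dif_neg h2]
    · rw [dif_neg h1, map_zero, dif_neg (by omega)]

/-- blocks of other eigenvalues are in the range -/
theorem mem_range_of_ne {μ : F} (k : ℕ) (i : Fin J.n) (hi : J.lam i ≠ μ) (j : Fin (J.e i)) :
    J.b ⟨i, j⟩ ∈ LinearMap.range ((f - algebraMap F _ μ) ^ k) := by
  induction k generalizing j with
  | zero => simp
  | succ k ih =>
    obtain ⟨j, hj⟩ := j
    induction j with
    | zero =>
      obtain ⟨x, hx⟩ := ih ⟨0, hj⟩
      refine ⟨(J.lam i - μ)⁻¹ • x, ?_⟩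
      rw [map_smul, pow_succ', Module.End.mul_apply, hx, J.shift]
      simp only [lt_self_iff_false, dite_false, add_zero]
      rw [smul_smul, inv_mul_cancel₀ (sub_ne_zero.mpr hi), one_smul]
    | succ j ihj =>
      obtain ⟨x, hx⟩ := ih ⟨j + 1, hj⟩
      obtain ⟨y, hy⟩ := ihj (by omega)
      refine ⟨(J.lam i - μ)⁻¹ • (x - y), ?_⟩
      rw [map_smul, map_sub, hy, pow_succ', Module.End.mul_apply, hx, J.shift]
      simp only [Nat.succ_pos, dite_true, Nat.add_sub_cancel, add_sub_cancel_right]
      rw [smul_smul, inv_mul_cancel₀ (sub_ne_zero.mpr hi), one_smul]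

open Classical in
/-- number of basis vectors killed by `(f-μ)^k` -/
noncomputable def cnt (μ : F) (k : ℕ) : ℕ :=
  Fintype.card {x : (Σ i, Fin (J.e i)) // J.lam x.1 = μ ∧ x.2.1 < k}

theorem finrank_ker [FiniteDimensional F V] (μ : F) (k : ℕ) :
    finrank F (LinearMap.ker ((f - algebraMap F _ μ) ^ k)) = J.cnt μ k := by
  classical
  set g := (f - algebraMap F _ μ) ^ k with hg
  have htot : Fintype.card (Σ i, Fin (J.e i)) = finrank F V := (finrank_eq_card_basis J.b).symm
  have hrn := LinearMap.finrank_range_add_finrank_ker g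
  -- lower bound for the kernel
  have h1 : J.cnt μ k ≤ finrank F (LinearMap.ker g) := by
    have hli : LinearIndependent F (fun x : {x : (Σ i, Fin (J.e i)) // J.lam x.1 = μ ∧ x.2.1 < k} =>
        (⟨J.b x.1, by
          rw [LinearMap.mem_ker, hg]
          obtain ⟨⟨i, j⟩, hi, hj⟩ := x
          simp only at hi hj ⊢
          rw [J.shift_pow k i hi j, dif_neg (by omega)]⟩ : LinearMap.ker g)) := by
      apply LinearIndependent.of_comp (LinearMap.ker g).subtype
      exact J.b.linearIndependent.comp _ Subtype.val_injective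
    have := hli.fintype_card_le_finrank
    simpa [cnt] using this
  -- lower bound for the range
  have h2 : Fintype.card {x : (Σ i, Fin (J.e i)) // ¬ (J.lam x.1 = μ ∧ x.2.1 < k)} ≤
      finrank F (LinearMap.range g) := by
    let sh : {x : (Σ i, Fin (J.e i)) // ¬ (J.lam x.1 = μ ∧ x.2.1 < k)} → (Σ i, Fin (J.e i)) :=
      fun x => if J.lam x.1.1 = μ then ⟨x.1.1, ⟨x.1.2.1 - k, by omega⟩⟩ else x.1
    have hsh : Function.Injective sh := by
      rintro ⟨⟨i, j⟩, hx⟩ ⟨⟨i', j'⟩, hx'⟩ h
      simp only [sh] at h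
      by_cases hi : J.lam i = μ
      · by_cases hi' : J.lam i' = μ
        · rw [if_pos hi, if_pos hi'] at h
          simp only [hi, hi', true_and, not_lt] at hx hx'
          have h0 : i = i' := congrArg Sigma.fst h
          subst h0
          simp only [Sigma.mk.injEq, heq_eq_eq, true_and, Fin.mk.injEq] at h
          have : j = j' := by ext; omega
          subst this
          rfl
        · rw [if_pos hi, if_neg hi'] at h
          have h0 : i = i' := congrArg Sigma.fst h
          exact absurd (h0 ▸ hi) hi'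
      · by_cases hi' : J.lam i' = μ
        · rw [if_neg hi, if_pos hi'] at h
          have h0 : i = i' := congrArg Sigma.fst h
          exact absurd (h0 ▸ hi') hi
        · rw [if_neg hi, if_neg hi'] at h
          exact Subtype.ext h
    have hli : LinearIndependent F
        (fun x : {x : (Σ i, Fin (J.e i)) // ¬ (J.lam x.1 = μ ∧ x.2.1 < k)} =>
        (⟨J.b (sh x), by
          obtain ⟨⟨i, j⟩, hx⟩ := x
          simp only [sh]
          by_cases hi : J.lam i = μ
          · rw [if_pos hi]
            simp only [hi, true_and, not_lt] at hx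
            refine ⟨J.b ⟨i, j⟩, ?_⟩
            rw [J.shift_pow k i hi j, dif_pos hx]
          · rw [if_neg hi]
            exact J.mem_range_of_ne k i hi j⟩ : LinearMap.range g)) := by
      apply LinearIndependent.of_comp (LinearMap.range g).subtype
      exact J.b.linearIndependent.comp _ hsh
    exact hli.fintype_card_le_finrank
  have h3 := Fintype.card_subtype_compl (fun x : (Σ i, Fin (J.e i)) => J.lam x.1 = μ ∧ x.2.1 < k)
  have h4 : Fintype.card {x : (Σ i, Fin (J.e i)) // J.lam x.1 = μ ∧ x.2.1 < k} ≤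
      Fintype.card (Σ i, Fin (J.e i)) := Fintype.card_subtype_le _
  have h5 : J.cnt μ k = Fintype.card {x : (Σ i, Fin (J.e i)) // J.lam x.1 = μ ∧ x.2.1 < k} := by
    rw [cnt]
  omega

open Classical in
/-- number of blocks of eigenvalue `μ` and size `> k` -/
noncomputable def nb (μ : F) (k : ℕ) : ℕ := Fintype.card {i : Fin J.n // J.lam i = μ ∧ k < J.e i}

theorem cnt_succ (μ : F) (k : ℕ) : J.cnt μ (k + 1) = J.cnt μ k + J.nb μ k := by
  classical
  have h1 : J.nb μ k = Fintype.card {x : (Σ i, Fin (J.e i)) // J.lam x.1 = μ ∧ x.2.1 = k} := by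
    rw [nb]
    refine Fintype.card_congr
      { toFun := fun i => ⟨⟨i.1, ⟨k, i.2.2⟩⟩, i.2.1, rfl⟩
        invFun := fun x => ⟨x.1.1, x.2.1, by have := x.1.2.2; have := x.2.2; omega⟩
        left_inv := fun i => rfl
        right_inv := ?_ }
    rintro ⟨⟨i, j, hj⟩, hi, hx⟩
    simp only at hx
    subst hx
    rfl
  rw [h1, cnt, cnt, Fintype.card_subtype, Fintype.card_subtype, Fintype.card_subtype,
    ← Finset.card_union_of_disjoint]
  · congr 1
    ext x
    simp only [Finset.mem_filter, Finset.mem_univ, true_and, Finset.mem_union]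
    constructor
    · rintro ⟨h1, h2⟩
      rcases Nat.lt_succ_iff_lt_or_eq.mp h2 with h | h
      · exact Or.inl ⟨h1, h⟩
      · exact Or.inr ⟨h1, h⟩
    · rintro (⟨h1, h2⟩ | ⟨h1, h2⟩)
      · exact ⟨h1, by omega⟩
      · exact ⟨h1, by omega⟩
  · rw [Finset.disjoint_filter]
    rintro x _ ⟨h1, h2⟩ ⟨h3, h4⟩
    omega

theorem card_eq (μ : F) (k : ℕ) :
    (open Classical in Fintype.card {i : Fin J.n // J.lam i = μ ∧ J.e i = k + 1})
      + J.nb μ (k + 1) = J.nb μ k := by
  classical
  rw [nb, nb, Fintype.card_subtype, Fintype.card_subtype, Fintype.card_subtype,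
    ← Finset.card_union_of_disjoint]
  · congr 1
    ext x
    simp only [Finset.mem_filter, Finset.mem_univ, true_and, Finset.mem_union]
    constructor
    · rintro (⟨h1, h2⟩ | ⟨h1, h2⟩)
      · exact ⟨h1, by omega⟩
      · exact ⟨h1, by omega⟩
    · rintro ⟨h1, h2⟩
      by_cases h : J.e x = k + 1
      · exact Or.inl ⟨h1, h⟩
      · exact Or.inr ⟨h1, by omega⟩
  · rw [Finset.disjoint_filter]
    rintro x _ ⟨h1, h2⟩ ⟨h3, h4⟩
    omega

include J in
/-- Two endomorphisms with Jordan systems and equal kernel dimensions are conjugate. -/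
theorem exists_equiv [FiniteDimensional F V] {W : Type*} [AddCommGroup W] [Module F W]
    [FiniteDimensional F W] {g : W →ₗ[F] W} (K : JSys g)
    (h : ∀ (μ : F) (k : ℕ), finrank F (LinearMap.ker ((f - algebraMap F _ μ) ^ k)) =
      finrank F (LinearMap.ker ((g - algebraMap F _ μ) ^ k))) :
    ∃ φ : V ≃ₗ[F] W, ∀ x, φ (f x) = g (φ x) := by
  classical
  have hnb : ∀ μ k, J.nb μ k = K.nb μ k := by
    intro μ k
    have h1 := h μ (k + 1)
    have h2 := h μ k
    rw [J.finrank_ker, K.finrank_ker] at h1 h2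
    rw [J.cnt_succ, K.cnt_succ] at h1
    omega
  have hcard : ∀ c : F × ℕ, Fintype.card {i : Fin J.n // (J.lam i, J.e i) = c} =
      Fintype.card {i : Fin K.n // (K.lam i, K.e i) = c} := by
    rintro ⟨μ, k⟩
    rcases Nat.eq_zero_or_pos k with rfl | hk
    · have h1 : IsEmpty {i : Fin J.n // (J.lam i, J.e i) = (μ, 0)} :=
        ⟨fun i => by
          have := (Prod.ext_iff.mp i.2).2
          have := J.pos i.1
          simp_all⟩
      have h2 : IsEmpty {i : Fin K.n // (K.lam i, K.e i) = (μ, 0)} :=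
        ⟨fun i => by
          have := (Prod.ext_iff.mp i.2).2
          have := K.pos i.1
          simp_all⟩
      rw [Fintype.card_eq_zero, Fintype.card_eq_zero]
    · obtain ⟨k, rfl⟩ : ∃ k', k = k' + 1 := ⟨k - 1, by omega⟩
      have h1 := J.card_eq μ k
      have h2 := K.card_eq μ k
      have h3 := hnb μ k
      have h4 := hnb μ (k + 1)
      have h5 : Fintype.card {i : Fin J.n // (J.lam i, J.e i) = (μ, k + 1)} =
          Fintype.card {i : Fin J.n // J.lam i = μ ∧ J.e i = k + 1} :=
        Fintype.card_congr (Equiv.subtypeEquivRight fun i => by simp)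
      have h6 : Fintype.card {i : Fin K.n // (K.lam i, K.e i) = (μ, k + 1)} =
          Fintype.card {i : Fin K.n // K.lam i = μ ∧ K.e i = k + 1} :=
        Fintype.card_congr (Equiv.subtypeEquivRight fun i => by simp)
      rw [h5, h6]
      have e1 : Fintype.card {i : Fin J.n // J.lam i = μ ∧ J.e i = k + 1} + J.nb μ (k + 1)
          = J.nb μ k := by
        rw [← h1]
      have e2 : Fintype.card {i : Fin K.n // K.lam i = μ ∧ K.e i = k + 1} + K.nb μ (k + 1)
          = K.nb μ k := by
        rw [← h2]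
      omega
  let τ : Fin J.n ≃ Fin K.n := Equiv.ofFiberEquiv (f := fun i => (J.lam i, J.e i))
    (g := fun i => (K.lam i, K.e i)) (fun c => Fintype.equivOfCardEq (hcard c))
  have hτ : ∀ i, (K.lam (τ i), K.e (τ i)) = (J.lam i, J.e i) :=
    fun i => Equiv.ofFiberEquiv_map (f := fun i => (J.lam i, J.e i))
      (g := fun i => (K.lam i, K.e i)) (fun c => Fintype.equivOfCardEq (hcard c)) i
  have hτ1 : ∀ i, K.lam (τ i) = J.lam i := fun i => (Prod.ext_iff.mp (hτ i)).1
  have hτ2 : ∀ i, K.e (τ i) = J.e i := fun i => (Prod.ext_iff.mp (hτ i)).2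
  let σ : (Σ i, Fin (J.e i)) ≃ (Σ i, Fin (K.e i)) :=
    { toFun := fun x => ⟨τ x.1, ⟨x.2.1, by rw [hτ2]; exact x.2.2⟩⟩
      invFun := fun y => ⟨τ.symm y.1, ⟨y.2.1, by
        have := hτ2 (τ.symm y.1); rw [Equiv.apply_symm_apply] at this; rw [← this]; exact y.2.2⟩⟩
      left_inv := by
        rintro ⟨i, j⟩
        have : τ.symm (τ i) = i := τ.symm_apply_apply i
        refine Sigma.ext this ?_
        exact (Fin.heq_ext_iff (congrArg J.e this)).mpr rfl
      right_inv := by
        rintro ⟨i, j⟩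
        have : τ (τ.symm i) = i := τ.apply_symm_apply i
        refine Sigma.ext this ?_
        exact (Fin.heq_ext_iff (congrArg K.e this)).mpr rfl }
  let φ : V ≃ₗ[F] W := J.b.equiv K.b σ
  have hφ : ∀ x, φ (J.b x) = K.b (σ x) := fun x => Basis.equiv_apply _ _ _ _
  refine ⟨φ, fun x => ?_⟩
  have key : (φ.toLinearMap ∘ₗ f) = (g ∘ₗ φ.toLinearMap) := by
    apply J.b.ext
    rintro ⟨i, j⟩
    rw [LinearMap.comp_apply, LinearMap.comp_apply, J.spec]
    show φ (_ + _) = g (φ _)
    rw [map_add, map_smul, hφ]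
    show _ = g (K.b ⟨τ i, ⟨j.1, _⟩⟩)
    rw [K.spec, hτ1]
    congr 1
    split_ifs with h0
    · rw [hφ]
      rfl
    · exact map_zero _
  exact LinearMap.congr_fun key x

end JSys

/-- **Equal kernel dimensions imply conjugate** (endomorphisms). -/
theorem exists_equiv_of_finrank_ker {F : Type u} [Field F] [IsAlgClosed F] {V W : Type*}
    [AddCommGroup V] [Module F V] [FiniteDimensional F V] [AddCommGroup W] [Module F W]
    [FiniteDimensional F W] (f : V →ₗ[F] V) (g : W →ₗ[F] W)
    (h : ∀ (μ : F) (k : ℕ), finrank F (LinearMap.ker ((f - algebraMap F _ μ) ^ k)) =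
      finrank F (LinearMap.ker ((g - algebraMap F _ μ) ^ k))) :
    ∃ φ : V ≃ₗ[F] W, ∀ x, φ (f x) = g (φ x) := by
  obtain ⟨J⟩ := exists_JSys f
  obtain ⟨K⟩ := exists_JSys g
  exact J.exists_equiv K h

end Crest.Agent.R003.Str
end

-- ▼ part R003/Cyc644

/-!
R003/Cyc644: cyclic (nonderogatory) endomorphisms.
* every `f` commutes with some cyclic `c`;
* the commutant of a cyclic `c` is `F[c]`;
* matrix versions;
* matrices with the same ranks of `(X-μ)^k` are conjugate.
-/

set_option autoImplicit false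

open Polynomial Module

namespace Crest.Agent.R003.Str

universe u v

section Cyclic

variable {F : Type u} [Field F] {V : Type v} [AddCommGroup V] [Module F V]

/-- `v` is a cyclic vector of `c` -/
def IsCyc (c : V →ₗ[F] V) (v : V) : Prop := ∀ x : V, ∃ p : F[X], x = aeval c p v

/-- the commutant of a cyclic endomorphism consists of polynomials -/
theorem IsCyc.exists_poly {c : V →ₗ[F] V} {v : V} (h : IsCyc c v) {d : V →ₗ[F] V}
    (hd : Commute d c) : ∃ p : F[X], d = aeval c p := by
  obtain ⟨p, hp⟩ := h (d v)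
  refine ⟨p, LinearMap.ext fun x => ?_⟩
  obtain ⟨q, rfl⟩ := h x
  have h1 : Commute d (aeval c q) := by
    induction q using Polynomial.induction_on' with
    | add p q hp hq => rw [map_add]; exact hp.add_right hq
    | monomial n a =>
      rw [aeval_monomial]
      exact (Algebra.commute_algebraMap_right a d).mul_right (hd.pow_right n)
  have h2 : Commute (aeval c p) (aeval c q) := by
    rw [Commute, SemiconjBy, ← map_mul, ← map_mul, mul_comm]
  calc d (aeval c q v) = (d * aeval c q) v := rfl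
    _ = (aeval c q * d) v := by rw [h1.eq]
    _ = aeval c q (d v) := rfl
    _ = aeval c q (aeval c p v) := by rw [hp]
    _ = (aeval c q * aeval c p) v := rfl
    _ = (aeval c p * aeval c q) v := by rw [h2.eq]
    _ = _ := rfl

theorem IsCyc.span_lt [FiniteDimensional F V] {c : V →ₗ[F] V} {v : V} (h : IsCyc c v) :
    ⊤ ≤ Submodule.span F (Set.range fun j : Fin (finrank F V) => (c ^ j.1) v) := by
  intro x _
  obtain ⟨p, rfl⟩ := h x
  have hm := c.charpoly_monic
  have h1 : aeval c p = aeval c (p %ₘ c.charpoly) := by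
    conv_lhs => rw [← modByMonic_add_div p c.charpoly]
    rw [map_add, map_mul, LinearMap.aeval_self_charpoly, zero_mul, add_zero]
  rw [h1]
  by_cases hV : finrank F V = 0
  · have : Subsingleton V := finrank_zero_iff.mp hV
    rw [Subsingleton.elim (aeval c (p %ₘ c.charpoly) v) 0]
    exact Submodule.zero_mem _
  have hdeg : (p %ₘ c.charpoly).natDegree < finrank F V := by
    have := natDegree_modByMonic_lt p hm (by
      intro h0
      have h2 := c.charpoly_natDegree
      rw [h0, natDegree_one] at h2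
      exact hV h2.symm)
    rwa [c.charpoly_natDegree] at this
  rw [aeval_eq_sum_range' hdeg, LinearMap.sum_apply]
  refine Submodule.sum_mem _ fun j hj => ?_
  rw [LinearMap.smul_apply]
  exact Submodule.smul_mem _ _ (Submodule.subset_span ⟨⟨j, Finset.mem_range.mp hj⟩, rfl⟩)

theorem IsCyc.linearIndependent [FiniteDimensional F V] {c : V →ₗ[F] V} {v : V} (h : IsCyc c v) :
    LinearIndependent F (fun j : Fin (finrank F V) => (c ^ j.1) v) :=
  linearIndependent_of_top_le_span_of_card_eq_finrank h.span_lt (by simp)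

theorem isCyc_of_linearIndependent [FiniteDimensional F V] {c : V →ₗ[F] V} {v : V}
    (h : LinearIndependent F (fun j : Fin (finrank F V) => (c ^ j.1) v)) : IsCyc c v := by
  intro x
  have h1 := h.span_eq_top_of_card_eq_finrank' (by simp)
  have h2 : x ∈ Submodule.span F (Set.range fun j : Fin (finrank F V) => (c ^ j.1) v) := by
    rw [h1]; trivial
  induction h2 using Submodule.span_induction with
  | mem x hx =>
    obtain ⟨j, rfl⟩ := hx
    exact ⟨X ^ j.1, by simp⟩
  | zero => exact ⟨0, by simp⟩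
  | add x y _ _ hx hy =>
    obtain ⟨p, hp⟩ := hx
    obtain ⟨q, hq⟩ := hy
    exact ⟨p + q, by rw [map_add, LinearMap.add_apply, ← hp, ← hq]⟩
  | smul a x _ hx =>
    obtain ⟨p, hp⟩ := hx
    exact ⟨C a * p, by rw [map_mul, aeval_C, Module.End.mul_apply, ← hp]; simp⟩

/-- a Jordan system with pairwise different eigenvalues has a cyclic vector -/
theorem JSys.exists_isCyc {c : V →ₗ[F] V} (K : JSys c) (hinj : Function.Injective K.lam) :
    ∃ v, IsCyc c v := by
  classical
  have hpos := K.pos
  let last : ∀ i, Fin (K.e i) := fun i => ⟨K.e i - 1, Nat.sub_lt (hpos i) one_pos⟩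
  let v : V := ∑ i, K.b ⟨i, last i⟩
  have hkill : ∀ (i : Fin K.n) (j : Fin (K.e i)),
      aeval c ((X - C (K.lam i)) ^ K.e i) (K.b ⟨i, j⟩) = 0 := by
    intro i j
    rw [map_pow, map_sub, aeval_X, aeval_C, K.shift_pow (K.e i) i rfl j,
      dif_neg (by have := j.2; omega)]
  let W : Submodule F V :=
    { carrier := {x | ∃ p : F[X], x = aeval c p v}
      add_mem' := by
        rintro x y ⟨p, hp⟩ ⟨q, hq⟩
        exact ⟨p + q, by rw [map_add, LinearMap.add_apply, ← hp, ← hq]⟩
      zero_mem' := ⟨0, by simp⟩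
      smul_mem' := by
        rintro a x ⟨p, hp⟩
        exact ⟨C a * p, by rw [map_mul, aeval_C, Module.End.mul_apply, ← hp]; simp⟩ }
  have hW : ∀ (q : F[X]) {x : V}, x ∈ W → aeval c q x ∈ W := by
    rintro q x ⟨p, hp⟩
    exact ⟨q * p, by rw [map_mul, Module.End.mul_apply, ← hp]⟩
  have hv : v ∈ W := ⟨1, by simp⟩
  have hlast : ∀ i, K.b ⟨i, last i⟩ ∈ W := by
    intro i
    set q : F[X] := ∏ i' ∈ Finset.univ.erase i, (X - C (K.lam i')) ^ K.e i' with hq
    have hcop : IsCoprime q ((X - C (K.lam i)) ^ K.e i) := by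
      rw [hq]
      refine IsCoprime.prod_left fun i' hi' => IsCoprime.pow ?_
      exact Polynomial.isCoprime_X_sub_C_of_isUnit_sub
        (by
          have : K.lam i' - K.lam i ≠ 0 :=
            sub_ne_zero.mpr fun h => (Finset.ne_of_mem_erase hi') (hinj h)
          exact this.isUnit)
    obtain ⟨r, s, hrs⟩ := hcop
    have h1 : aeval c q v = aeval c q (K.b ⟨i, last i⟩) := by
      show aeval c q (∑ i, K.b ⟨i, last i⟩) = _
      rw [map_sum, Finset.sum_eq_single i]
      · intro i' _ hi'
        have h2 : q = (∏ i'' ∈ (Finset.univ.erase i).erase i', (X - C (K.lam i'')) ^ K.e i'') *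
            (X - C (K.lam i')) ^ K.e i' := by
          rw [hq, mul_comm]
          exact (Finset.mul_prod_erase _ _ (Finset.mem_erase.mpr ⟨hi', Finset.mem_univ _⟩)).symm
        rw [h2, map_mul, Module.End.mul_apply, hkill, map_zero]
      · intro h
        exact absurd (Finset.mem_univ i) h
    have h3 : K.b ⟨i, last i⟩ = aeval c r (aeval c q v) := by
      rw [h1]
      have h4 := congrArg (fun p : F[X] => aeval c p (K.b ⟨i, last i⟩)) hrs
      simp only [map_add, map_mul, map_one, LinearMap.add_apply, Module.End.mul_apply,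
        Module.End.one_apply] at h4
      rw [hkill, map_zero, add_zero] at h4
      exact h4.symm
    rw [h3]
    exact hW r (hW q hv)
  have hall : ∀ (i : Fin K.n) (j : Fin (K.e i)), K.b ⟨i, j⟩ ∈ W := by
    intro i j
    have h1 := K.shift_pow (K.e i - 1 - j.1) i rfl (last i)
    rw [dif_pos (by show K.e i - 1 - j.1 ≤ K.e i - 1; omega)] at h1
    have h2 : K.b ⟨i, j⟩ = aeval c ((X - C (K.lam i)) ^ (K.e i - 1 - j.1)) (K.b ⟨i, last i⟩) := by
      rw [map_pow, map_sub, aeval_X, aeval_C, h1]
      congr 2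
      ext
      have := j.2
      simp only [last]
      omega
    rw [h2]
    exact hW _ (hlast i)
  refine ⟨v, fun x => ?_⟩
  have hx : x ∈ W := by
    have h1 := K.b.span_eq
    have h2 : x ∈ Submodule.span F (Set.range K.b) := by rw [h1]; trivial
    refine (Submodule.span_le.mpr ?_) h2
    rintro _ ⟨⟨i, j⟩, rfl⟩
    exact hall i j
  exact hx

/-- **every endomorphism commutes with a cyclic one** -/
theorem exists_commute_isCyc [IsAlgClosed F] [FiniteDimensional F V] (f : V →ₗ[F] V) :
    ∃ (c : V →ₗ[F] V) (v : V), Commute c f ∧ IsCyc c v := by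
  classical
  obtain ⟨J⟩ := exists_JSys f
  have hinf : Infinite F := IsAlgClosed.instInfinite
  obtain ⟨mu⟩ : Nonempty (Fin J.n ↪ F) := by
    exact ⟨(Fin.valEmbedding).trans (Infinite.natEmbedding F)⟩
  let D : V →ₗ[F] V := J.b.constr F (fun x => (mu x.1 - J.lam x.1) • J.b x)
  have hD : ∀ x, D (J.b x) = (mu x.1 - J.lam x.1) • J.b x := fun x => J.b.constr_basis F _ x
  have hcomm : Commute D f := by
    apply J.b.ext
    rintro ⟨i, j⟩
    rw [Module.End.mul_apply, Module.End.mul_apply, hD, map_smul, J.spec, map_add, map_smul, hD,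
      smul_add, smul_comm]
    congr 1
    split_ifs with h
    · rw [hD]
    · simp
  let K : JSys (D + f) :=
    { n := J.n
      lam := mu
      e := J.e
      b := J.b
      pos := J.pos
      spec := by
        intro i j
        rw [LinearMap.add_apply, hD, J.spec, ← add_assoc, ← add_smul, sub_add_cancel] }
  obtain ⟨v, hv⟩ := K.exists_isCyc mu.injective
  exact ⟨D + f, v, hcomm.add_left (Commute.refl f), hv⟩

end Cyclic

section MatrixForm

variable {F : Type u} [Field F]

/-- the algebra isomorphism matrices = endomorphisms -/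
noncomputable abbrev toE (n : ℕ) : Matrix (Fin n) (Fin n) F ≃ₐ[F] ((Fin n → F) →ₗ[F] (Fin n → F)) :=
  Matrix.toLinAlgEquiv'

theorem toE_apply {n : ℕ} (M : Matrix (Fin n) (Fin n) F) (x : Fin n → F) :
    toE n M x = M.mulVec x := Matrix.toLinAlgEquiv'_apply M x

/-- every matrix commutes with a nonderogatory one -/
theorem exists_commute_cyclic_matrix [IsAlgClosed F] {n : ℕ} (b : Matrix (Fin n) (Fin n) F) :
    ∃ (c : Matrix (Fin n) (Fin n) F) (v : Fin n → F), c * b = b * c ∧
      LinearIndependent F (fun j : Fin n => (c ^ j.1).mulVec v) := by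
  obtain ⟨c, v, h1, h2⟩ := exists_commute_isCyc (toE n b)
  refine ⟨(toE n).symm c, v, ?_, ?_⟩
  · apply (toE n).injective
    rw [map_mul, map_mul, AlgEquiv.apply_symm_apply]
    exact h1.eq
  · have h3 := h2.linearIndependent
    have hn : finrank F (Fin n → F) = n := Module.finrank_fin_fun F
    have h4 := h3.comp (Fin.cast hn.symm) (Fin.cast_injective _)
    have h5 : (fun j : Fin n => (((toE n).symm c) ^ j.1).mulVec v) =
        (fun j : Fin (finrank F (Fin n → F)) => (c ^ j.1) v) ∘ Fin.cast hn.symm := by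
      funext j
      rw [Function.comp, ← toE_apply, map_pow, AlgEquiv.apply_symm_apply]
      rfl
    rw [h5]
    exact h4

/-- the commutant of a nonderogatory matrix -/
theorem exists_poly_of_commute {n : ℕ} {c d : Matrix (Fin n) (Fin n) F} {v : Fin n → F}
    (h : LinearIndependent F (fun j : Fin n => (c ^ j.1).mulVec v)) (hd : d * c = c * d) :
    ∃ p : F[X], d = aeval c p := by
  have hn : finrank F (Fin n → F) = n := Module.finrank_fin_fun F
  have h1 : IsCyc (toE n c) v := by
    apply isCyc_of_linearIndependent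
    have h4 := h.comp (Fin.cast hn) (Fin.cast_injective _)
    have h5 : (fun j : Fin (finrank F (Fin n → F)) => ((toE n c) ^ j.1) v) =
        (fun j : Fin n => (c ^ j.1).mulVec v) ∘ Fin.cast hn := by
      funext j
      rw [Function.comp, ← toE_apply, map_pow]
      rfl
    rw [h5]
    exact h4
  have h2 : Commute (toE n d) (toE n c) := by
    rw [Commute, SemiconjBy, ← map_mul, ← map_mul, hd]
  obtain ⟨p, hp⟩ := h1.exists_poly h2
  refine ⟨p, (toE n).injective ?_⟩
  rw [hp, Polynomial.aeval_algHom_apply]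

/-- matrix form: a nonderogatory matrix has the first `n` powers applied to `v` as a basis; the
determinant form of the condition is open. -/
theorem linearIndependent_iff_det {n : ℕ} (c : Matrix (Fin n) (Fin n) F) (v : Fin n → F) :
    LinearIndependent F (fun j : Fin n => (c ^ j.1).mulVec v) ↔
      (Matrix.of fun j : Fin n => (c ^ j.1).mulVec v).det ≠ 0 := by
  rw [← isUnit_iff_ne_zero, ← Matrix.isUnit_iff_isUnit_det, ← Matrix.linearIndependent_rows_iff_isUnit]
  rfl

theorem finrank_ker_toE {n : ℕ} (M : Matrix (Fin n) (Fin n) F) :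
    finrank F (LinearMap.ker (toE n M)) + M.rank = n := by
  have h := LinearMap.finrank_range_add_finrank_ker (toE n M)
  rw [Module.finrank_fin_fun] at h
  have h1 : M.rank = finrank F (LinearMap.range (toE n M)) := by
    rw [Matrix.rank]
    rfl
  omega

/-- **equal ranks of all `(X-μ)^k` imply conjugate** -/
theorem conj_of_rank_eq [IsAlgClosed F] {n : ℕ} (A B : Matrix (Fin n) (Fin n) F)
    (h : ∀ (μ : F) (k : ℕ), ((A - Matrix.scalar (Fin n) μ) ^ k).rank =
      ((B - Matrix.scalar (Fin n) μ) ^ k).rank) :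
    ∃ P : GL (Fin n) F, B = P.1 * A * (P⁻¹).1 := by
  have hE : ∀ (M : Matrix (Fin n) (Fin n) F) (μ : F) (k : ℕ),
      (toE n M - algebraMap F _ μ) ^ k = toE n ((M - Matrix.scalar (Fin n) μ) ^ k) := by
    intro M μ k
    rw [map_pow, map_sub]
    congr 2
    have : Matrix.scalar (Fin n) μ = algebraMap F (Matrix (Fin n) (Fin n) F) μ := rfl
    rw [this, AlgEquiv.commutes]
  obtain ⟨φ, hφ⟩ := exists_equiv_of_finrank_ker (toE n A) (toE n B) (by
    intro μ k
    rw [hE, hE]
    have h1 := finrank_ker_toE ((A - Matrix.scalar (Fin n) μ) ^ k)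
    have h2 := finrank_ker_toE ((B - Matrix.scalar (Fin n) μ) ^ k)
    have h3 := h μ k
    omega)
  let P : Matrix (Fin n) (Fin n) F := (toE n).symm φ.toLinearMap
  let Q : Matrix (Fin n) (Fin n) F := (toE n).symm φ.symm.toLinearMap
  have hPQ : P * Q = 1 := by
    apply (toE n).injective
    rw [map_mul, AlgEquiv.apply_symm_apply, AlgEquiv.apply_symm_apply, map_one]
    ext x
    simp [Module.End.mul_eq_comp]
  have hQP : Q * P = 1 := by
    apply (toE n).injective
    rw [map_mul, AlgEquiv.apply_symm_apply, AlgEquiv.apply_symm_apply, map_one]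
    ext x
    simp [Module.End.mul_eq_comp]
  have hc : P * A = B * P := by
    apply (toE n).injective
    rw [map_mul, map_mul, AlgEquiv.apply_symm_apply]
    apply LinearMap.ext
    intro x
    exact hφ x
  refine ⟨⟨P, Q, hPQ, hQP⟩, ?_⟩
  show B = P * A * Q
  rw [hc, Matrix.mul_assoc, hPQ, Matrix.mul_one]

theorem rank_pow_of_le {n : ℕ} (M : Matrix (Fin n) (Fin n) F) {k : ℕ} (hk : n ≤ k) :
    (M ^ k).rank = (M ^ n).rank := by
  have h1 := finrank_ker_toE (M ^ k)
  have h2 := finrank_ker_toE (M ^ n)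
  have hn : finrank F (Fin n → F) = n := Module.finrank_fin_fun F
  have h3 : LinearMap.ker (toE n (M ^ k)) = LinearMap.ker (toE n (M ^ n)) := by
    rw [map_pow, map_pow]
    have := Module.End.ker_pow_eq_ker_pow_finrank_of_le (f := toE n M) (m := k) (by rw [hn]; exact hk)
    rw [hn] at this
    exact this
  rw [h3] at h1
  omega

theorem rank_of_not_root {n : ℕ} (A : Matrix (Fin n) (Fin n) F) {μ : F}
    (hμ : ¬ A.charpoly.IsRoot μ) (k : ℕ) : ((A - Matrix.scalar (Fin n) μ) ^ k).rank = n := by
  have h1 : IsUnit (A - Matrix.scalar (Fin n) μ) := by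
    rw [Matrix.isUnit_iff_isUnit_det, isUnit_iff_ne_zero]
    intro h0
    apply hμ
    rw [IsRoot, Matrix.eval_charpoly]
    have h2 : Matrix.scalar (Fin n) μ - A = -(A - Matrix.scalar (Fin n) μ) := by abel
    rw [h2, Matrix.det_neg, h0, mul_zero]
  have h2 := Matrix.rank_of_isUnit _ (h1.pow k)
  rwa [Fintype.card_fin] at h2

/-- **equal characteristic polynomials and equal ranks of all `(X-μ)^k` (`μ` a root, `k ≤ n`)
imply conjugate** -/
theorem conj_of_rank_eq' [IsAlgClosed F] {n : ℕ} (A B : Matrix (Fin n) (Fin n) F)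
    (hch : A.charpoly = B.charpoly)
    (h : ∀ (μ : F), A.charpoly.IsRoot μ → ∀ k ≤ n, ((A - Matrix.scalar (Fin n) μ) ^ k).rank =
      ((B - Matrix.scalar (Fin n) μ) ^ k).rank) :
    ∃ P : GL (Fin n) F, B = P.1 * A * (P⁻¹).1 := by
  refine conj_of_rank_eq A B fun μ k => ?_
  by_cases hμ : A.charpoly.IsRoot μ
  · rcases le_total k n with hk | hk
    · exact h μ hμ k hk
    · rw [rank_pow_of_le _ hk, rank_pow_of_le _ hk]
      exact h μ hμ n le_rfl
  · rw [rank_of_not_root A hμ, rank_of_not_root B (hch ▸ hμ)]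


end MatrixForm

end Crest.Agent.R003.Str
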