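import Mathlib
import Crest.Prelude.Def_CharVarRel
import Crest.Agent.R003.NF452

set_option autoImplicit false

open Crest.NumberTheoryR.CharVarRel MvPolynomial

noncomputable section

namespace Crest.Agent.R003.Nrm

variable {g s r : ℕ}

/-- the variable assignment of a family of matrices -/
def ent (T : RelGen g s → Matrix (Fin r) (Fin r) ℂ) : RelVar g s r → ℂ :=
  fun v => T v.1 v.2.1 v.2.2

/-- multiply the handle matrices by scalars -/
def twist (x : Fin g × Bool → ℂ) (T : RelGen g s → Matrix (Fin r) (Fin r) ℂ) :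
    RelGen g s → Matrix (Fin r) (Fin r) ℂ
  | Sum.inl k => x k • T (Sum.inl k)
  | Sum.inr j => T (Sum.inr j)

/-- degree of an exponent vector in the entries of the handle matrix `k` -/
def dg (k : Fin g × Bool) (m : RelVar g s r →₀ ℕ) : ℕ :=
  ∑ ij : Fin r × Fin r, m (Sum.inl k, ij)

theorem prod_relVar (u : RelVar g s r → ℂ) :
    ∏ v, u v = (∏ k : Fin g × Bool, ∏ ij : Fin r × Fin r, u (Sum.inl k, ij)) *
      ∏ j : Fin s, ∏ ij : Fin r × Fin r, u (Sum.inr j, ij) := by
  rw [Fintype.prod_prod_type u, Fintype.prod_sum_type]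

theorem sum_relVar (u : RelVar g s r → ℕ) :
    ∑ v, u v = (∑ k : Fin g × Bool, ∑ ij : Fin r × Fin r, u (Sum.inl k, ij)) +
      ∑ j : Fin s, ∑ ij : Fin r × Fin r, u (Sum.inr j, ij) := by
  rw [Fintype.sum_prod_type u, Fintype.sum_sum_type]

theorem eval_monomial_twist (x : Fin g × Bool → ℂ) (T : RelGen g s → Matrix (Fin r) (Fin r) ℂ)
    (m : RelVar g s r →₀ ℕ) :
    eval (ent (twist x T)) (monomial m (1 : ℂ)) =
      (∏ k, x k ^ dg k m) * eval (ent T) (monomial m (1 : ℂ)) := by
  simp only [eval_monomial, one_mul]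
  rw [Finsupp.prod_fintype _ _ (fun i => pow_zero _), Finsupp.prod_fintype _ _ (fun i => pow_zero _)]
  rw [prod_relVar, prod_relVar]
  rw [← mul_assoc, ← Finset.prod_mul_distrib]
  congr 1
  refine Finset.prod_congr rfl fun k _ => ?_
  simp only [ent, twist, dg, Matrix.smul_apply, smul_eq_mul, mul_pow]
  rw [Finset.prod_mul_distrib, Finset.prod_pow_eq_pow_sum]

/-- the generic determinant of the handle matrix `k` -/
def gdet (k : Fin g × Bool) : MvPolynomial (RelVar g s r) ℂ :=
  (Matrix.of fun i j : Fin r => (X (Sum.inl k, (i, j)) : MvPolynomial (RelVar g s r) ℂ)).det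

theorem eval_gdet (T : RelGen g s → Matrix (Fin r) (Fin r) ℂ) (k : Fin g × Bool) :
    eval (ent T) (gdet (s := s) (r := r) k) = (T (Sum.inl k)).det := by
  unfold gdet
  rw [RingHom.map_det]
  congr 1
  ext i j
  simp [ent]

/-- degrees reduced modulo `r` -/
def rdg (m : RelVar g s r →₀ ℕ) : Fin g × Bool →₀ ℕ :=
  Finsupp.equivFunOnFinite.symm fun k => dg k m % r

/-- The polynomial in the twisting scalars with coefficients polynomials in the entries. -/
def Phat (f : MvPolynomial (RelVar g s r) ℂ) :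
    MvPolynomial (Fin g × Bool) (MvPolynomial (RelVar g s r) ℂ) :=
  ∑ m ∈ f.support, monomial (rdg m)
    (C (coeff m f) * (∏ k, gdet k ^ (f.totalDegree - dg k m / r)) * monomial m 1)

theorem dg_le (f : MvPolynomial (RelVar g s r) ℂ) {m : RelVar g s r →₀ ℕ} (hm : m ∈ f.support)
    (k : Fin g × Bool) : dg k m ≤ f.totalDegree := by
  refine le_trans ?_ (le_totalDegree hm)
  rw [Finsupp.sum_fintype _ _ (fun i => rfl)]
  unfold dg
  rw [sum_relVar]
  refine le_trans ?_ (Nat.le_add_right _ _)
  exact Finset.single_le_sum (f := fun k => ∑ ij : Fin r × Fin r, m (Sum.inl k, ij))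
    (fun _ _ => Nat.zero_le _) (Finset.mem_univ k)

theorem eval_Phat (f : MvPolynomial (RelVar g s r) ℂ)
    (T : RelGen g s → Matrix (Fin r) (Fin r) ℂ) (x : Fin g × Bool → ℂ)
    (hx : ∀ k, x k ^ r * (T (Sum.inl k)).det = 1) :
    eval x (map (eval (ent T)) (Phat f)) =
      (∏ k, (T (Sum.inl k)).det ^ f.totalDegree) * eval (ent (twist x T)) f := by
  have hf : eval (ent (twist x T)) f =
      ∑ m ∈ f.support, coeff m f * eval (ent (twist x T)) (monomial m (1 : ℂ)) := by
    conv_lhs => rw [f.as_sum]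
    rw [map_sum]
    refine Finset.sum_congr rfl fun m _ => ?_
    rw [show (monomial m (coeff m f) : MvPolynomial (RelVar g s r) ℂ) =
      C (coeff m f) * monomial m 1 by rw [C_mul_monomial, mul_one]]
    rw [map_mul, eval_C]
  rw [hf, Phat, map_sum, map_sum, Finset.mul_sum]
  refine Finset.sum_congr rfl fun m hm => ?_
  rw [map_monomial, eval_monomial, map_mul, map_mul, eval_C, map_prod, eval_monomial_twist]
  rw [Finsupp.prod_fintype _ _ (fun i => pow_zero _)]
  have h1 : ∀ k, eval (ent T) (gdet k ^ (f.totalDegree - dg k m / r)) * x k ^ (rdg m k) =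
      (T (Sum.inl k)).det ^ f.totalDegree * x k ^ dg k m := by
    intro k
    rw [map_pow, eval_gdet]
    have h2 : dg k m / r ≤ f.totalDegree := le_trans (Nat.div_le_self _ _) (dg_le f hm k)
    have h3 : x k ^ dg k m = (x k ^ r) ^ (dg k m / r) * x k ^ (dg k m % r) := by
      rw [← pow_mul, ← pow_add, Nat.div_add_mod]
    have h4 : (T (Sum.inl k)).det ^ f.totalDegree =
        (T (Sum.inl k)).det ^ (f.totalDegree - dg k m / r) * (T (Sum.inl k)).det ^ (dg k m / r) := by
      rw [← pow_add, Nat.sub_add_cancel h2]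
    have h5 : (T (Sum.inl k)).det ^ (dg k m / r) * (x k ^ r) ^ (dg k m / r) = 1 := by
      rw [← mul_pow, mul_comm, hx k, one_pow]
    have h6 : (rdg m : Fin g × Bool →₀ ℕ) k = dg k m % r := rfl
    rw [h6, h3, h4]
    calc _ = (T (Sum.inl k)).det ^ (f.totalDegree - dg k m / r) * 1 * x k ^ (dg k m % r) := by ring
      _ = _ := by rw [← h5]; ring
  calc _ = coeff m f * (∏ k, (eval (ent T) (gdet k ^ (f.totalDegree - dg k m / r)) *
            x k ^ (rdg m k))) * eval (ent T) (monomial m (1 : ℂ)) := by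
        rw [Finset.prod_mul_distrib]; ring
    _ = _ := by
        rw [Finset.prod_congr rfl fun k _ => h1 k, Finset.prod_mul_distrib]; ring

theorem degreeOf_Phat_lt (hr : 1 ≤ r) (f : MvPolynomial (RelVar g s r) ℂ)
    (T : RelGen g s → Matrix (Fin r) (Fin r) ℂ) (k : Fin g × Bool) :
    degreeOf k (map (eval (ent T)) (Phat f)) < r := by
  rw [degreeOf_lt_iff (by omega)]
  intro d hd
  rw [Phat, map_sum] at hd
  have := support_sum hd
  rw [Finset.mem_biUnion] at this
  obtain ⟨m, -, hm⟩ := this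
  rw [map_monomial] at hm
  have := support_monomial_subset hm
  rw [Finset.mem_singleton] at this
  subst this
  exact Nat.mod_lt _ (by omega)

/-- if `f` vanishes at all twists of `T` by `r`-th roots of the inverse determinants, then all
coefficient polynomials of `Phat f` vanish at `T`. -/
theorem coeff_Phat_eq_zero (hr : 1 ≤ r) (f : MvPolynomial (RelVar g s r) ℂ)
    (T : RelGen g s → Matrix (Fin r) (Fin r) ℂ) (hdet : ∀ k, (T (Sum.inl k)).det ≠ 0)
    (hv : ∀ x : Fin g × Bool → ℂ, (∀ k, x k ^ r * (T (Sum.inl k)).det = 1) →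
      eval (ent (twist x T)) f = 0) (α : Fin g × Bool →₀ ℕ) :
    eval (ent T) (coeff α (Phat f)) = 0 := by
  have hroot : ∀ k, ∃ y : ℂ, y ^ r = ((T (Sum.inl k)).det)⁻¹ := fun k =>
    IsAlgClosed.exists_pow_nat_eq _ (by omega)
  choose y hy using hroot
  have hy0 : ∀ k, y k ≠ 0 := by
    intro k h0
    have := hy k
    rw [h0, zero_pow (by omega)] at this
    exact inv_ne_zero (hdet k) this.symm
  let S : Fin g × Bool → Finset ℂ := fun k => (Polynomial.nthRootsFinset r (1 : ℂ)).image (y k * ·)
  have hcard : ∀ k, (S k).card = r := by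
    intro k
    rw [Finset.card_image_of_injective _ (mul_right_injective₀ (hy0 k))]
    exact (Complex.isPrimitiveRoot_exp r (by omega)).card_nthRootsFinset
  have hz : map (eval (ent T)) (Phat f) = 0 := by
    refine eq_zero_of_eval_zero_at_prod_finset _ S (fun k => ?_) (fun x hx => ?_)
    · rw [hcard k]; exact degreeOf_Phat_lt hr f T k
    · have hx' : ∀ k, x k ^ r * (T (Sum.inl k)).det = 1 := by
        intro k
        obtain ⟨w, hw, hwx⟩ := Finset.mem_image.1 (hx k)
        rw [Polynomial.mem_nthRootsFinset (by omega)] at hw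
        rw [← hwx, mul_pow, hw, mul_one, hy k, inv_mul_cancel₀ (hdet k)]
      rw [eval_Phat f T x hx', hv x hx', mul_zero]
  have := congrArg (coeff α) hz
  rwa [coeff_map, coeff_zero] at this

end Crest.Agent.R003.Nrm
end
private theorem rz_260f6afb9f : type_of% @_root_.Crest.Agent.R003.Nrm.twist.eq_1 := @_root_.Crest.Agent.R003.Nrm.twist.eq_1 -- L20
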