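import Mathlib
import Crest.Prelude.Def_CharVarRel
import Crest.Agent.R003.NF452
import Crest.Agent.R003.Det452
import Crest.Agent.R003.Defs
import Crest.Agent.R003.Semi382
import Crest.Agent.R003.App638
import Crest.Agent.R003.Cyc644
import Crest.Agent.R003.Iface

-- ▼ part R003/Fin452
section

set_option autoImplicit false

open Crest.NumberTheoryR.CharVarRel MvPolynomial

noncomputable section

namespace Crest.Agent.R003.Nrm

variable {g s r : ℕ}

/-- the surface relation in an arbitrary group -/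
def RelG {G : Type*} [Group G] (g s : ℕ) (T : RelGen g s → G) : Prop :=
  ((List.finRange g).map fun i =>
      T (Sum.inl (i, false)) * T (Sum.inl (i, true)) *
        (T (Sum.inl (i, false)))⁻¹ * (T (Sum.inl (i, true)))⁻¹).prod *
    ((List.finRange s).map fun j => T (Sum.inr j)).prod = 1

/-- complete reducibility of a family of matrices -/
def SSM {ι : Type*} {r : ℕ} (T : ι → Matrix (Fin r) (Fin r) ℂ) : Prop :=
  ∀ W : Submodule ℂ (Fin r → ℂ), (∀ i, ∀ v ∈ W, (T i).mulVec v ∈ W) →
    ∃ W' : Submodule ℂ (Fin r → ℂ), (∀ i, ∀ v ∈ W', (T i).mulVec v ∈ W') ∧ IsCompl W W'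

/-- `O`-integral points of the relative representation variety with values in `GL_r`:
semisimple, with the boundary matrices in the `GL_r(ℂ)`-classes of the `c j`. -/
structure GLPt (c : Fin s → Matrix.SpecialLinearGroup (Fin r) ℂ) (O : Subring ℂ)
    (T : RelGen g s → GL (Fin r) ℂ) : Prop where
  rel : RelG g s T
  ss : SSM (fun v => (T v).1)
  cls : ∀ j, ∃ h : GL (Fin r) ℂ,
    T (Sum.inr j) = h * Matrix.SpecialLinearGroup.toGL (c j) * h⁻¹
  int : ∀ v, T v ∈ GO O r

theorem isRelSurfaceRep_iff (T : RelGen g s → Matrix.SpecialLinearGroup (Fin r) ℂ) :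
    IsRelSurfaceRep g s r T ↔ RelG g s fun v => Matrix.SpecialLinearGroup.toGL (T v) := by
  unfold IsRelSurfaceRep RelG
  rw [← Matrix.SpecialLinearGroup.toGL_injective.eq_iff (b := 1), map_one, map_mul,
    map_list_prod, map_list_prod, List.map_map, List.map_map]
  simp only [Function.comp_def, map_mul, map_inv]

theorem RelG_conj {G : Type*} [Group G] (P : G) (T : RelGen g s → G) (h : RelG g s T) :
    RelG g s fun v => P * T v * P⁻¹ := by
  unfold RelG at h ⊢
  have h1 := congrArg (MulAut.conj P) h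
  rw [map_one, map_mul, map_list_prod, map_list_prod, List.map_map, List.map_map] at h1
  simp only [Function.comp_def, map_mul, map_inv, MulAut.conj_apply] at h1
  exact h1

theorem comm_central {G : Type*} [Group G] (a b z w : G) (hz : ∀ x, z * x = x * z)
    (hw : ∀ x, w * x = x * w) :
    z * a * (w * b) * (z * a)⁻¹ * (w * b)⁻¹ = a * b * a⁻¹ * b⁻¹ := by
  have h1 : z * a * (w * b) = a * b * (z * w) := by
    rw [hz a, hw b, mul_assoc a z, ← mul_assoc z b w, hz b]; simp only [mul_assoc]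
  have h2 : a * b * a⁻¹ * b⁻¹ * (w * b) * (z * a) = a * b * (w * z) := by
    rw [hw b, hz a, mul_assoc, ← mul_assoc (b * w) a z, mul_assoc b w a, hw a]
    group
  rw [mul_inv_eq_iff_eq_mul, mul_inv_eq_iff_eq_mul, h1, h2, hz w]

/-- twisting the handle generators by central elements preserves the relation -/
theorem RelG_twist {G : Type*} [Group G] (z : Fin g × Bool → G) (hz : ∀ k x, z k * x = x * z k)
    (T T' : RelGen g s → G) (h : RelG g s T) (hl : ∀ k, T' (Sum.inl k) = z k * T (Sum.inl k))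
    (hrr : ∀ j, T' (Sum.inr j) = T (Sum.inr j)) : RelG g s T' := by
  unfold RelG at h ⊢
  simp only [hl, hrr, comm_central _ _ _ _ (hz _) (hz _)]
  exact h

/-- scalar matrices as elements of `GL` -/
def scG (d : ℂˣ) : GL (Fin r) ℂ := Matrix.GeneralLinearGroup.scalar (Fin r) d

theorem scG_val (d : ℂˣ) : (scG d : GL (Fin r) ℂ).1 = Matrix.scalar (Fin r) (d : ℂ) := rfl

theorem scG_comm (d : ℂˣ) (X : GL (Fin r) ℂ) : scG d * X = X * scG d := by
  apply Units.ext
  rw [Units.val_mul, Units.val_mul, scG_val]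
  exact Matrix.scalar_comm _ (Commute.all _) _

theorem exists_scale (hr : 1 ≤ r) (P : GL (Fin r) ℂ) :
    ∃ (d : ℂˣ) (Q : Matrix.SpecialLinearGroup (Fin r) ℂ),
      Matrix.SpecialLinearGroup.toGL Q = scG d * P := by
  have hdet : (P.1 : Matrix (Fin r) (Fin r) ℂ).det ≠ 0 := by
    have := (Matrix.isUnit_iff_isUnit_det _).1 P.isUnit
    exact this.ne_zero
  obtain ⟨y, hy⟩ := IsAlgClosed.exists_pow_nat_eq ((P.1 : Matrix (Fin r) (Fin r) ℂ).det)⁻¹
    (show 0 < r by omega)
  have hy0 : y ≠ 0 := by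
    intro h0
    rw [h0, zero_pow (by omega)] at hy
    exact inv_ne_zero hdet hy.symm
  refine ⟨Units.mk0 y hy0, ⟨y • P.1, ?_⟩, ?_⟩
  · rw [Matrix.det_smul, Fintype.card_fin, hy, inv_mul_cancel₀ hdet]
  · apply Units.ext
    rw [Units.val_mul, scG_val]
    ext i j
    simp [Matrix.SpecialLinearGroup.toGL, Matrix.scalar_apply, Matrix.diagonal_mul]

/-- conjugation by `GL_r(ℂ)` is conjugation by `SL_r(ℂ)` -/
theorem exists_SL_conj (hr : 1 ≤ r) (P : GL (Fin r) ℂ) :
    ∃ Q : Matrix.SpecialLinearGroup (Fin r) ℂ, ∀ X : GL (Fin r) ℂ,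
      P * X * P⁻¹ = Matrix.SpecialLinearGroup.toGL Q * X *
        (Matrix.SpecialLinearGroup.toGL Q)⁻¹ := by
  obtain ⟨d, Q, hQ⟩ := exists_scale hr P
  refine ⟨Q, fun X => ?_⟩
  rw [hQ, scG_comm d P, mul_assoc P (scG d) X, scG_comm d X]
  group

theorem ent_twist_toGL (x : Fin g × Bool → ℂˣ) (T' : RelGen g s → GL (Fin r) ℂ)
    (T : RelGen g s → Matrix.SpecialLinearGroup (Fin r) ℂ)
    (hl : ∀ k, Matrix.SpecialLinearGroup.toGL (T (Sum.inl k)) = scG (x k) * T' (Sum.inl k))
    (hrr : ∀ j, Matrix.SpecialLinearGroup.toGL (T (Sum.inr j)) = T' (Sum.inr j)) :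
    (fun v : RelVar g s r => (T v.1).1 v.2.1 v.2.2) =
      ent (twist (fun k => (x k : ℂ)) fun v => (T' v).1) := by
  funext v
  obtain ⟨v, i, j⟩ := v
  cases v with
  | inl k =>
    have := congrArg (fun M : GL (Fin r) ℂ => M.1 i j) (hl k)
    simp only [Units.val_mul, scG_val, Matrix.scalar_apply, Matrix.diagonal_mul] at this
    simpa [ent, twist] using this
  | inr k =>
    have := congrArg (fun M : GL (Fin r) ℂ => M.1 i j) (hrr k)
    simpa [ent, twist] using this

theorem evalRep_eq (f : MvPolynomial (RelVar g s r) ℂ)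
    (T : RelGen g s → Matrix.SpecialLinearGroup (Fin r) ℂ) :
    evalRep f T = eval (ent fun v => (T v).1) f := by
  unfold evalRep
  rw [MvPolynomial.aeval_eq_eval]
  rfl

/-- integer polynomials evaluated at elements of a subring stay in the subring -/
theorem aeval_mem_subring (O : Subring ℂ) {σ : Type*} (x : σ → ℂ) (hx : ∀ v, x v ∈ O)
    (p : MvPolynomial σ ℤ) : MvPolynomial.aeval x p ∈ O := by
  induction p using MvPolynomial.induction_on with
  | C a =>
    rw [MvPolynomial.algHom_C]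
    simp
  | add p q hp hq => rw [map_add]; exact O.add_mem hp hq
  | mul_X p v hp => rw [map_mul, MvPolynomial.aeval_X]; exact O.mul_mem hp (hx v)

theorem integrallyValued_of_ent {L : Subfield ℂ}
    (T : RelGen g s → Matrix.SpecialLinearGroup (Fin r) ℂ)
    (h : ∀ v i j, (T v).1 i j ∈ OO L) : IsIntegrallyValuedIn L T := by
  intro p _
  have h1 := mem_OO.1 (aeval_mem_subring (OO L)
    (fun v : RelVar g s r => (T v.1).1 v.2.1 v.2.2) (fun v => h v.1 v.2.1 v.2.2) p)
  have h2 : evalRep p T =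
    MvPolynomial.aeval (fun v : RelVar g s r => (T v.1).1 v.2.1 v.2.2) p := rfl
  rw [h2]
  exact h1

/-- the scalars needed in the determinant normalisation -/
theorem scal_mem {F : Subfield ℂ} {x u : ℂ} (hr : 1 ≤ r) (hx : x ^ r * u = 1) (hu : u ∈ OO F)
    (hu' : u⁻¹ ∈ OO F) : x ∈ OO (unitRootField F r) := by
  have hu0 : u ≠ 0 := by rintro rfl; simp at hx
  have hxr : x ^ r = u⁻¹ := eq_inv_of_mul_eq_one_left hx
  rw [mem_OO]
  refine ⟨Subfield.subset_closure (Or.inr ⟨?_, ?_, ?_, ?_⟩), ?_⟩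
  · rw [hxr]; exact (mem_OO.1 hu').1
  · rw [hxr]; exact inv_ne_zero hu0
  · rw [hxr]; exact (mem_OO.1 hu').2
  · rw [hxr, inv_inv]; exact (mem_OO.1 hu).2
  · refine IsIntegral.of_pow (n := r) (by omega) ?_
    rw [hxr]; exact (mem_OO.1 hu').2

theorem det_mem (O : Subring ℂ) (M : Matrix (Fin r) (Fin r) ℂ) (h : ∀ i j, M i j ∈ O) :
    M.det ∈ O := by
  rw [Matrix.det_apply]
  refine O.sum_mem fun σ _ => ?_
  rw [Units.smul_def]
  exact O.zsmul_mem (O.prod_mem fun i _ => h _ _) _

/-- **Normalisation step.**  If polynomials vanishing on the integral `GL_r`-points vanish at a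
conjugate of `T`, then the invariant polynomial `f` of the statement vanishes at `T`. -/
theorem finish (hr : 1 ≤ r) (c : Fin s → Matrix.SpecialLinearGroup (Fin r) ℂ) (L0 : Subfield ℂ)
    (f : MvPolynomial (RelVar g s r) ℂ) (hf : IsConjInvariantRel f)
    (hvan : ∀ T : RelGen g s → Matrix.SpecialLinearGroup (Fin r) ℂ, IsRelSurfaceRep g s r T →
      IsSemisimpleRep T → HasBoundaryClasses c T →
      IsIntegrallyValuedIn (unitRootField L0 r) T → evalRep f T = 0)
    (T : RelGen g s → Matrix.SpecialLinearGroup (Fin r) ℂ) (P : GL (Fin r) ℂ)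
    (hd : ∀ F : MvPolynomial (RelVar g s r) ℂ,
      (∀ T' : RelGen g s → GL (Fin r) ℂ, GLPt c (OO L0) T' → eval (ent fun v => (T' v).1) F = 0) →
      eval (ent fun v => (P * Matrix.SpecialLinearGroup.toGL (T v) * P⁻¹).1) F = 0) :
    evalRep f T = 0 := by
  have key : ∀ T' : RelGen g s → GL (Fin r) ℂ, GLPt c (OO L0) T' → ∀ x : Fin g × Bool → ℂ,
      (∀ k, x k ^ r * ((T' (Sum.inl k)).1 : Matrix (Fin r) (Fin r) ℂ).det = 1) →
      eval (ent (twist x fun v => (T' v).1)) f = 0 := by
    intro T' hT' x hx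
    have hx0 : ∀ k, x k ≠ 0 := by
      intro k h0
      have := hx k
      rw [h0, zero_pow (by omega), zero_mul] at this
      exact zero_ne_one this
    have hcl : ∀ j, ∃ h : Matrix.SpecialLinearGroup (Fin r) ℂ,
        T' (Sum.inr j) = Matrix.SpecialLinearGroup.toGL (h * c j * h⁻¹) := by
      intro j
      obtain ⟨h, hh⟩ := hT'.cls j
      obtain ⟨Q, hQ⟩ := exists_SL_conj hr h
      exact ⟨Q, by rw [hh, hQ, map_mul, map_mul, map_inv]⟩
    choose h hh using hcl
    let T'' : RelGen g s → Matrix.SpecialLinearGroup (Fin r) ℂ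
      | Sum.inl k => ⟨x k • (T' (Sum.inl k)).1, by
          rw [Matrix.det_smul, Fintype.card_fin]; exact hx k⟩
      | Sum.inr j => h j * c j * (h j)⁻¹
    have hl : ∀ k, Matrix.SpecialLinearGroup.toGL (T'' (Sum.inl k)) =
        scG (Units.mk0 (x k) (hx0 k)) * T' (Sum.inl k) := by
      intro k
      apply Units.ext
      rw [Units.val_mul, scG_val]
      ext i j
      simp [T'', Matrix.SpecialLinearGroup.toGL, Matrix.scalar_apply, Matrix.diagonal_mul]
    have hrr : ∀ j, Matrix.SpecialLinearGroup.toGL (T'' (Sum.inr j)) = T' (Sum.inr j) :=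
      fun j => (hh j).symm
    have hent := ent_twist_toGL _ T' T'' hl hrr
    have h1 : IsRelSurfaceRep g s r T'' := by
      rw [isRelSurfaceRep_iff]
      exact RelG_twist _ (fun k X => scG_comm _ X) _ _ hT'.rel hl hrr
    have h2 : IsSemisimpleRep T'' := by
      have hinv : ∀ W : Submodule ℂ (Fin r → ℂ),
          (∀ i, ∀ v ∈ W, (T'' i).1.mulVec v ∈ W) ↔ (∀ i, ∀ v ∈ W, (T' i).1.mulVec v ∈ W) := by
        intro W
        have hl' : ∀ k, (T'' (Sum.inl k)).1 = x k • (T' (Sum.inl k)).1 := fun k => rfl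
        have hr' : ∀ j, (T'' (Sum.inr j)).1 = (T' (Sum.inr j)).1 := fun j =>
          congrArg Units.val (hrr j)
        constructor
        · rintro H (k | j) v hv
          · have := H (Sum.inl k) v hv
            rw [hl', Matrix.smul_mulVec] at this
            exact (W.smul_mem_iff (hx0 k)).1 this
          · have := H (Sum.inr j) v hv
            rwa [hr'] at this
        · rintro H (k | j) v hv
          · rw [hl', Matrix.smul_mulVec]
            exact W.smul_mem _ (H (Sum.inl k) v hv)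
          · rw [hr']; exact H (Sum.inr j) v hv
      intro W hW
      obtain ⟨W', hW', hc⟩ := hT'.ss W ((hinv W).1 hW)
      exact ⟨W', (hinv W').2 hW', hc⟩
    have h3 : HasBoundaryClasses c T'' := fun j => ⟨h j, rfl⟩
    have h4 : IsIntegrallyValuedIn (unitRootField L0 r) T'' := by
      apply integrallyValued_of_ent
      have hmono : OO L0 ≤ OO (unitRootField L0 r) := OO_mono (F_le_unitRootField _ _)
      rintro (k | j) a b
      · have hxk : x k ∈ OO (unitRootField L0 r) := by
          refine scal_mem hr (hx k) (det_mem _ _ fun i j => (hT'.int _ i j).1) ?_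
          have : ((T' (Sum.inl k)).1 : Matrix (Fin r) (Fin r) ℂ).det⁻¹ =
              ((T' (Sum.inl k))⁻¹.1 : Matrix (Fin r) (Fin r) ℂ).det := by
            rw [eq_comm]
            refine eq_inv_of_mul_eq_one_left ?_
            rw [← Matrix.det_mul, ← Units.val_mul, inv_mul_cancel, Units.val_one, Matrix.det_one]
          rw [this]
          exact det_mem _ _ fun i j => (hT'.int _ i j).2
        exact Subring.mul_mem _ hxk (hmono (hT'.int _ a b).1)
      · have : (T'' (Sum.inr j)).1 a b = (T' (Sum.inr j)).1 a b :=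
          congrArg (fun M : GL (Fin r) ℂ => M.1 a b) (hrr j)
        rw [this]
        exact hmono (hT'.int _ a b).1
    have h5 := hvan T'' h1 h2 h3 h4
    rw [evalRep_eq] at h5
    have h6 : (ent (twist x fun v => (T' v).1) : RelVar g s r → ℂ) = ent fun v => (T'' v).1 :=
      hent.symm
    rw [h6]
    exact h5
  have key2 : ∀ α, eval (ent fun v => (P * Matrix.SpecialLinearGroup.toGL (T v) * P⁻¹).1)
      (coeff α (Phat f)) = 0 := by
    intro α
    refine hd _ fun T' hT' => ?_
    refine coeff_Phat_eq_zero hr f _ (fun k => ?_) (key T' hT') α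
    exact ((Matrix.isUnit_iff_isUnit_det _).1 (T' (Sum.inl k)).isUnit).ne_zero
  have key3 : map (eval (ent fun v => (P * Matrix.SpecialLinearGroup.toGL (T v) * P⁻¹).1))
      (Phat f) = 0 := by
    ext α
    rw [coeff_map, key2, coeff_zero]
  have hdet : ∀ k, ((P * Matrix.SpecialLinearGroup.toGL (T k) * P⁻¹).1 :
      Matrix (Fin r) (Fin r) ℂ).det = 1 := by
    intro k
    rw [Units.val_mul, Units.val_mul, Matrix.det_mul, Matrix.det_mul, mul_right_comm,
      ← Matrix.det_mul, ← Units.val_mul, mul_inv_cancel, Units.val_one, Matrix.det_one, one_mul]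
    exact (T k).2
  have key4 := eval_Phat f (fun v => (P * Matrix.SpecialLinearGroup.toGL (T v) * P⁻¹).1)
    (fun _ => 1) (fun k => by rw [hdet]; simp)
  rw [key3, map_zero] at key4
  simp only [hdet, one_pow, Finset.prod_const_one, one_mul] at key4
  have htw : twist (fun _ => (1 : ℂ)) (fun v => (P * Matrix.SpecialLinearGroup.toGL (T v) * P⁻¹).1) =
      fun v => (P * Matrix.SpecialLinearGroup.toGL (T v) * P⁻¹).1 := by
    funext v
    cases v with
    | inl k => simp [twist]
    | inr j => rfl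
  rw [htw] at key4
  obtain ⟨Q, hQ⟩ := exists_SL_conj hr P
  have h7 : (fun v => (Q * T v * Q⁻¹).1 : RelGen g s → Matrix (Fin r) (Fin r) ℂ) =
      fun v => (P * Matrix.SpecialLinearGroup.toGL (T v) * P⁻¹).1 := by
    funext v
    rw [hQ, ← map_inv, ← map_mul, ← map_mul]
    rfl
  rw [← hf Q T, evalRep_eq, h7]
  exact key4.symm

end Crest.Agent.R003.Nrm
end
end

-- ▼ part R003/Burn382
section

set_option autoImplicit false

namespace Crest.Agent.R003.Semi

open Matrix Module

variable {ι m n : Type*}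

/-- value of a word in the matrices `S i` -/
def wordMat [Fintype m] [DecidableEq m] (S : ι → Matrix m m ℂ) (w : List ι) : Matrix m m ℂ :=
  (w.map S).prod

@[simp] theorem wordMat_nil [Fintype m] [DecidableEq m] (S : ι → Matrix m m ℂ) :
    wordMat S [] = 1 := rfl

@[simp] theorem wordMat_cons [Fintype m] [DecidableEq m] (S : ι → Matrix m m ℂ) (i : ι)
    (w : List ι) : wordMat S (i :: w) = S i * wordMat S w := by
  simp [wordMat]

/-- density: a simple module, finite dimensional over `ℂ` -/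
theorem exists_smul_eq {A V : Type*} [Ring A] [Algebra ℂ A] [AddCommGroup V] [Module ℂ V]
    [Module A V] [IsScalarTower ℂ A V] [IsSimpleModule A V] [FiniteDimensional ℂ V]
    (f : V →ₗ[ℂ] V) : ∃ a : A, ∀ v : V, f v = a • v := by
  classical
  have hb := IsSimpleModule.algebraMap_end_bijective_of_isAlgClosed (A := A) (V := V) ℂ
  let F : Module.End (Module.End A V) V :=
    { toFun := f
      map_add' := f.map_add
      map_smul' := fun e v => by
        obtain ⟨c, rfl⟩ := hb.2 e
        simp only [Module.End.smul_def, RingHom.id_apply, Module.algebraMap_end_apply]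
        exact f.map_smul c v }
  let b := Module.finBasis ℂ V
  obtain ⟨a, ha⟩ := jacobson_density (R := A) (M := V) F (Finset.univ.image b)
  refine ⟨a, fun v => ?_⟩
  have h1 : f = Algebra.lsmul ℂ ℂ V a := by
    apply b.ext
    intro i
    exact ha (b i) (Finset.mem_image_of_mem _ (Finset.mem_univ i))
  rw [h1]
  rfl

theorem isSimple_of_MIrr [Fintype m] [DecidableEq m] {S : ι → Matrix m m ℂ} (h : MIrr S) :
    IsSimpleModule (Alg S) (m → ℂ) := by
  rw [isSimpleModule_iff]
  have hne := h.1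
  refine { toNontrivial := ?_, eq_bot_or_eq_top := ?_ }
  · refine ⟨⊥, ⊤, fun h0 => ?_⟩
    obtain ⟨k⟩ := hne
    have : (Pi.single k (1 : ℂ) : m → ℂ) ∈ (⊤ : Submodule (Alg S) (m → ℂ)) := trivial
    rw [← h0, Submodule.mem_bot] at this
    have := congrFun this k
    simp at this
  · intro W
    rcases h.2 _ (inv_restrict W) with h0 | h0
    · left
      rw [eq_bot_iff]
      intro x hx
      have : x ∈ W.restrictScalars ℂ := hx
      rw [h0, Submodule.mem_bot] at this
      rw [Submodule.mem_bot]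
      exact this
    · right
      rw [eq_top_iff]
      intro x _
      have : x ∈ W.restrictScalars ℂ := by rw [h0]; trivial
      exact this

/-- **Burnside's theorem**: the words of an irreducible family span all matrices. -/
theorem span_word_eq_top [Fintype m] [DecidableEq m] {S : ι → Matrix m m ℂ} (h : MIrr S) :
    Submodule.span ℂ (Set.range (wordMat S)) = ⊤ := by
  have hs := isSimple_of_MIrr h
  have hst : IsScalarTower ℂ (Alg S) (m → ℂ) := ⟨fun c a v => rfl⟩
  rw [eq_top_iff]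
  intro M _
  obtain ⟨a, ha⟩ := exists_smul_eq (A := Alg S) (V := m → ℂ) (Matrix.toLin' M)
  have ha' : Matrix.toLin' M = a.1 := LinearMap.ext ha
  have hmem : Matrix.toLin' M ∈ Subalgebra.toSubmodule (Alg S) := by
    rw [ha']; exact a.2
  rw [Algebra.adjoin_eq_span] at hmem
  have hle : (Submonoid.closure (Set.range fun i => Matrix.toLin' (S i)) :
      Set (Module.End ℂ (m → ℂ))) ⊆
      (Matrix.toLin' : Matrix m m ℂ ≃ₗ[ℂ] _) '' Set.range (wordMat S) := by
    intro x hx
    obtain ⟨l, hl, rfl⟩ := Submonoid.exists_list_of_mem_closure hx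
    clear hx
    induction l with
    | nil => exact ⟨1, ⟨[], rfl⟩, by simp; rfl⟩
    | cons y l ih =>
      obtain ⟨i, hi⟩ := hl y (by simp)
      obtain ⟨M', ⟨w, rfl⟩, hM'⟩ := ih (fun z hz => hl z (by simp [hz]))
      refine ⟨S i * wordMat S w, ⟨i :: w, by simp⟩, ?_⟩
      rw [List.prod_cons, ← hM', ← hi, Matrix.toLin'_mul]
      rfl
  have h3 := Submodule.span_mono (R := ℂ) hle hmem
  rw [← LinearEquiv.coe_coe, Submodule.span_image] at h3
  obtain ⟨M', hM', hM''⟩ := h3
  have : M' = M := Matrix.toLin'.injective hM''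
  rwa [← this]

/-- the matrix whose determinant detects that the words `w` form a basis -/
def wordDet [Fintype m] [DecidableEq m] (S : ι → Matrix m m ℂ) (w : m × m → List ι) :
    Matrix (m × m) (m × m) ℂ :=
  Matrix.of fun a b => wordMat S (w a) b.1 b.2

/-- **irreducible implies an open condition** -/
theorem exists_wordDet_ne_zero [Fintype m] [DecidableEq m] {S : ι → Matrix m m ℂ} (h : MIrr S) :
    ∃ w : m × m → List ι, (wordDet S w).det ≠ 0 := by
  obtain ⟨f, hf1, hf2, hf3⟩ := Submodule.exists_fun_fin_finrank_span_eq ℂ (Set.range (wordMat S))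
  have hcard : finrank ℂ (Submodule.span ℂ (Set.range (wordMat S))) = Fintype.card (m × m) := by
    rw [span_word_eq_top h, finrank_top, Module.finrank_matrix]
    simp [Fintype.card_prod]
  let e : m × m ≃ Fin (finrank ℂ (Submodule.span ℂ (Set.range (wordMat S)))) :=
    Fintype.equivFinOfCardEq hcard.symm
  choose w hw using hf1
  refine ⟨fun a => w (e a), ?_⟩
  have hli : LinearIndependent ℂ (fun a => f (e a)) := hf3.comp _ e.injective
  have hli2 : LinearIndependent ℂ (wordDet S (fun a => w (e a))).row := by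
    have h1 : (wordDet S (fun a => w (e a))).row =
        ((LinearEquiv.curry ℂ ℂ m m).symm.toLinearMap) ∘ (fun a => f (e a)) := by
      funext a b
      simp only [wordDet, Matrix.row, Matrix.of_apply, hw, Function.comp]
      rfl
    rw [h1]
    exact hli.map' _ (LinearEquiv.ker _)
  rw [Matrix.linearIndependent_rows_iff_isUnit, Matrix.isUnit_iff_isUnit_det] at hli2
  exact hli2.ne_zero

/-- **the open condition implies irreducible** -/
theorem MIrr_of_wordDet_ne_zero [Fintype m] [DecidableEq m] [Nonempty m] {S : ι → Matrix m m ℂ}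
    (w : m × m → List ι) (hw : (wordDet S w).det ≠ 0) : MIrr S := by
  have hu : IsUnit (wordDet S w) := by
    rw [Matrix.isUnit_iff_isUnit_det]; exact IsUnit.mk0 _ hw
  have hli : LinearIndependent ℂ (wordDet S w).row := Matrix.linearIndependent_rows_iff_isUnit.2 hu
  have hspan : ⊤ ≤ Submodule.span ℂ (Set.range (wordDet S w).row) := by
    rw [LinearIndependent.span_eq_top_of_card_eq_finrank hli]
    simp
  have hspan2 : ∀ M : Matrix m m ℂ, M ∈ Submodule.span ℂ (Set.range (wordMat S)) := by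
    intro M
    have h1 : (fun b : m × m => M b.1 b.2) ∈ Submodule.span ℂ (Set.range (wordDet S w).row) :=
      hspan trivial
    have h2 := Submodule.mem_map_of_mem (f := (LinearEquiv.curry ℂ ℂ m m).toLinearMap) h1
    rw [← Submodule.span_image] at h2
    refine Submodule.span_mono ?_ h2
    rintro _ ⟨_, ⟨a, rfl⟩, rfl⟩
    exact ⟨w a, rfl⟩
  refine ⟨inferInstance, fun W hW => ?_⟩
  have hword : ∀ w : List ι, ∀ x ∈ W, (wordMat S w).mulVec x ∈ W := by
    intro w
    induction w with
    | nil => intro x hx; simpa using hx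
    | cons i w ih =>
      intro x hx
      rw [wordMat_cons, ← Matrix.mulVec_mulVec]
      exact hW i _ (ih x hx)
  have hall : ∀ M : Matrix m m ℂ, ∀ x ∈ W, M.mulVec x ∈ W := by
    intro M x hx
    have := hspan2 M
    induction this using Submodule.span_induction with
    | mem M hM => obtain ⟨w, rfl⟩ := hM; exact hword w x hx
    | zero => simp
    | add M M' _ _ h1 h2 => rw [Matrix.add_mulVec]; exact W.add_mem h1 h2
    | smul c M _ h1 => rw [Matrix.smul_mulVec]; exact W.smul_mem c h1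
  by_cases h0 : W = ⊥
  · exact Or.inl h0
  · right
    obtain ⟨x, hx, hx0⟩ := Submodule.exists_mem_ne_zero_of_ne_bot h0
    obtain ⟨k, hk⟩ : ∃ k, x k ≠ 0 := by
      by_contra hcon
      push Not at hcon
      exact hx0 (funext hcon)
    rw [eq_top_iff]
    intro y _
    have h1 := hall (Matrix.of fun a b => if b = k then y a / x k else 0) x hx
    have h2 : (Matrix.of fun a b => if b = k then y a / x k else 0).mulVec x = y := by
      funext a
      simp only [mulVec, dotProduct, Matrix.of_apply, ite_mul, zero_mul]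
      rw [Finset.sum_ite_eq' Finset.univ k]
      simp [hk]
    rwa [h2] at h1

end Crest.Agent.R003.Semi
end

-- ▼ part R003/Wire638
section

/-!
# Wiring of Part 4 (row 3, helper638): `BlockAppr → S0003`.
-/

set_option autoImplicit false

open Crest.NumberTheoryR.CharVarRel MvPolynomial

noncomputable section

namespace Crest.Agent.R003.Wire

open Nrm Semi Matrix

variable {g s r : ℕ}

/-- all eigenvalues of `X` are roots of unity in `O` -/
def EigSc (O : Subring ℂ) {k : ℕ} (X : G k) : Prop :=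
  ∀ μ : ℂ, X.1.charpoly.IsRoot μ → μ ∈ O ∧ ∃ m : ℕ, 0 < m ∧ μ ^ m = 1

/-- good points: surface relation, classes of `T`, irreducible, integral -/
def GoodPts (O : Subring ℂ) (g s : ℕ) {N : ℕ} (d : Fin N → ℕ)
    (T : ∀ z : Fin N × RelGen g s, G (d z.1)) : Set (∀ z : Fin N × RelGen g s, G (d z.1)) :=
  {T' | (∀ i, RelG (G := G (d i)) g s fun v => T' (i, v)) ∧
    (∀ i j, ∃ h : G (d i), T' (i, Sum.inr j) = h * T (i, Sum.inr j) * h⁻¹) ∧
    (∀ i, MIrr (ι := RelGen g s) (m := Fin (d i)) fun v => (T' (i, v)).1) ∧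
    ∀ z, T' z ∈ GO O (d z.1)}

/-- families of irreducible solutions of the surface relation are approximable by integral
solutions with the same boundary classes. -/
def BlockAppr (O : Subring ℂ) (g s r : ℕ) : Prop :=
  ∀ (N : ℕ) (d : Fin N → ℕ), (∀ i, 0 < d i) → (∀ i, d i ≤ r) →
    ∀ T : ∀ z : Fin N × RelGen g s, G (d z.1),
    (∀ i, RelG (G := G (d i)) g s fun v => T (i, v)) →
    (∀ i, MIrr (ι := RelGen g s) (m := Fin (d i)) fun v => (T (i, v)).1) →
    (∀ i j, EigSc O (T (i, Sum.inr j))) →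
    T ∈ Cal.zcl (Cal.PolFam fun z : Fin N × RelGen g s => Fin (d z.1)) (GoodPts O g s d T)

section block

variable {N : ℕ} {d : Fin N → ℕ} (e : (Σ i, Fin (d i)) ≃ Fin r)

/-- the block sum -/
def bs : (∀ i, G (d i)) →* G r :=
  (Units.map ((Matrix.reindexRingEquiv ℂ e).toRingHom.comp
    (Matrix.blockDiagonal'RingHom (fun i => Fin (d i)) ℂ)).toMonoidHom).comp
      (MulEquiv.piUnits (M := fun i => Matrix (Fin (d i)) (Fin (d i)) ℂ)).symm.toMonoidHom

theorem bs_val (T : ∀ i, G (d i)) :
    (bs e T).1 = (blockDiagonal' fun i => (T i).1).reindex e e := rfl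

theorem bs_apply (T : ∀ i, G (d i)) (a b : Fin r) :
    (bs e T).1 a b = if h : (e.symm a).1 = (e.symm b).1 then
      (T (e.symm b).1).1 (h ▸ (e.symm a).2) (e.symm b).2 else 0 := by
  rw [bs_val, Matrix.reindex_apply, Matrix.submatrix_apply]
  rw [Matrix.blockDiagonal'_apply]
  by_cases h : (e.symm a).1 = (e.symm b).1
  · simp only [h, dite_true]
    generalize e.symm a = x at h ⊢
    generalize e.symm b = y at h ⊢
    obtain ⟨i, x⟩ := x
    obtain ⟨j, y⟩ := y
    simp only at h
    subst h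
    rfl
  · simp [h]

/-- entries of the block sum: either a fixed entry of one block or zero -/
theorem bs_entry (a b : Fin r) : (∃ (i : Fin N) (x y : Fin (d i)),
    ∀ T : ∀ i, G (d i), (bs e T).1 a b = (T i).1 x y) ∨ ∀ T : ∀ i, G (d i), (bs e T).1 a b = 0 := by
  by_cases h : (e.symm a).1 = (e.symm b).1
  · left
    refine ⟨(e.symm b).1, h ▸ (e.symm a).2, (e.symm b).2, fun T => ?_⟩
    rw [bs_apply, dif_pos h]
  · right
    intro T
    rw [bs_apply, dif_neg h]

theorem bs_mem_GO {O : Subring ℂ} {T : ∀ i, G (d i)} (h : ∀ i, T i ∈ GO O (d i)) :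
    bs e T ∈ GO O r := by
  intro a b
  constructor
  · rcases bs_entry e a b with ⟨i, x, y, h1⟩ | h1
    · rw [h1]; exact (h i x y).1
    · rw [h1]; exact O.zero_mem
  · rw [← map_inv]
    rcases bs_entry e a b with ⟨i, x, y, h1⟩ | h1
    · rw [h1]; exact (h i x y).2
    · rw [h1]; exact O.zero_mem

theorem RelG_map {A B : Type*} [Group A] [Group B] (φ : A →* B) (T : RelGen g s → A)
    (h : RelG g s T) : RelG g s fun v => φ (T v) := by
  unfold RelG at h ⊢
  have h1 := congrArg φ h
  rw [map_one, map_mul, map_list_prod, map_list_prod, List.map_map, List.map_map] at h1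
  simp only [Function.comp_def, map_mul, map_inv] at h1
  exact h1

theorem RelG_pi {ι : Type*} {A : ι → Type*} [∀ i, Group (A i)] (T : RelGen g s → ∀ i, A i)
    (h : ∀ i, RelG g s fun v => T v i) : RelG g s T := by
  have key : ∀ i, (((List.finRange g).map fun i =>
      T (Sum.inl (i, false)) * T (Sum.inl (i, true)) *
        (T (Sum.inl (i, false)))⁻¹ * (T (Sum.inl (i, true)))⁻¹).prod *
    ((List.finRange s).map fun j => T (Sum.inr j)).prod) i = 1 := by
    intro i
    have h2 := h i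
    unfold RelG at h2
    rw [← h2]
    refine (map_mul (Pi.evalMonoidHom A i) _ _).trans ?_
    rw [map_list_prod, map_list_prod, List.map_map, List.map_map]
    rfl
  funext i
  exact key i

theorem exists_eigvec {k : ℕ} {A : Matrix (Fin k) (Fin k) ℂ} {μ : ℂ} :
    A.charpoly.IsRoot μ ↔ ∃ v : Fin k → ℂ, v ≠ 0 ∧ A.mulVec v = μ • v := by
  rw [Polynomial.IsRoot, Matrix.eval_charpoly, ← Matrix.exists_mulVec_eq_zero_iff]
  constructor
  · rintro ⟨v, hv, h⟩
    refine ⟨v, hv, ?_⟩
    rw [Matrix.sub_mulVec, sub_eq_zero] at h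
    rw [← h]
    funext i
    simp [Matrix.scalar_apply, Matrix.mulVec_diagonal]
  · rintro ⟨v, hv, h⟩
    refine ⟨v, hv, ?_⟩
    rw [Matrix.sub_mulVec, sub_eq_zero, h]
    funext i
    simp [Matrix.scalar_apply, Matrix.mulVec_diagonal]

theorem isRoot_bs {T : ∀ i, G (d i)} {i : Fin N} {μ : ℂ} (h : (T i).1.charpoly.IsRoot μ) :
    (bs e T).1.charpoly.IsRoot μ := by
  rw [bs_val, Matrix.charpoly_reindex]
  obtain ⟨v, hv, h1⟩ := exists_eigvec.1 h
  -- the vector `incl i v`
  rw [Polynomial.IsRoot, Matrix.eval_charpoly, ← Matrix.exists_mulVec_eq_zero_iff]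
  refine ⟨incl i v, ?_, ?_⟩
  · intro h0
    apply hv
    funext x
    have := congrFun h0 ⟨i, x⟩
    rwa [incl_same] at this
  · rw [Matrix.sub_mulVec, sub_eq_zero]
    have h2 := incl_mulVec (ι := Unit) (fun i (_ : Unit) => (T i).1) i () v
    rw [h2, h1, map_smul]
    funext z
    simp [Matrix.scalar_apply, Matrix.mulVec_diagonal]

end block

theorem charpoly_conj_toGL (P : GL (Fin r) ℂ) (X c h : Matrix.SpecialLinearGroup (Fin r) ℂ)
    (hh : X = h * c * h⁻¹) :
    (P * Matrix.SpecialLinearGroup.toGL X * P⁻¹).1.charpoly = c.1.charpoly := by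
  have h3 : P * Matrix.SpecialLinearGroup.toGL X * P⁻¹ =
      (P * Matrix.SpecialLinearGroup.toGL h) * Matrix.SpecialLinearGroup.toGL c *
        (P * Matrix.SpecialLinearGroup.toGL h)⁻¹ := by
    rw [hh, map_mul, map_mul, map_inv]
    simp only [_root_.mul_inv_rev, mul_assoc]
  have h4 : (Matrix.SpecialLinearGroup.toGL c).1 = c.1 := rfl
  rw [h3, Units.val_mul, Units.val_mul, ← h4, Matrix.coe_units_inv]
  exact Matrix.charpoly_units_conj (P * Matrix.SpecialLinearGroup.toGL h)
    (Matrix.SpecialLinearGroup.toGL c).1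

theorem eval_mem {X σ : Type*} (A : Subalgebra ℂ (X → ℂ)) (f : σ → X → ℂ) (hf : ∀ s, f s ∈ A)
    (F : MvPolynomial σ ℂ) : (fun x => eval (fun s => f s x) F) ∈ A := by
  induction F using MvPolynomial.induction_on with
  | C a => simp only [eval_C]; exact Subalgebra.algebraMap_mem _ a
  | add p q hp hq =>
    simp only [map_add]
    exact A.add_mem hp hq
  | mul_X p v hp =>
    simp only [map_mul, eval_X]
    exact A.mul_mem hp (hf v)

/-- **WIRING**: `BlockAppr` gives the density statement needed by `Nrm.finish`. -/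
theorem hd_of_blockAppr (O : Subring ℂ) (hBA : BlockAppr O g s r)
    (c : Fin s → Matrix.SpecialLinearGroup (Fin r) ℂ)
    (hc : ∀ j, ∀ μ : ℂ, (c j).1.charpoly.IsRoot μ → μ ∈ O ∧ ∃ m : ℕ, 0 < m ∧ μ ^ m = 1)
    (T : RelGen g s → Matrix.SpecialLinearGroup (Fin r) ℂ)
    (hT : RelG g s fun v => Matrix.SpecialLinearGroup.toGL (T v)) (hss : MSS fun v => (T v).1)
    (hcl : ∀ j, ∃ h : Matrix.SpecialLinearGroup (Fin r) ℂ, T (Sum.inr j) = h * c j * h⁻¹) :
    ∃ P : GL (Fin r) ℂ, ∀ F : MvPolynomial (RelVar g s r) ℂ,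
      (∀ T' : RelGen g s → GL (Fin r) ℂ, GLPt c O T' → eval (ent fun v => (T' v).1) F = 0) →
      eval (ent fun v => (P * Matrix.SpecialLinearGroup.toGL (T v) * P⁻¹).1) F = 0 := by
  classical
  obtain ⟨N, d, S, e, H, H', hHH', hH'H, hirr, hTS⟩ := exists_block_matrix (fun v => (T v).1) hss
  -- `P = H'` as a unit
  let P : GL (Fin r) ℂ := ⟨H', H, hH'H, hHH'⟩
  have hP : ∀ v, (P * Matrix.SpecialLinearGroup.toGL (T v) * P⁻¹).1 =
      (blockDiagonal' fun i => S i v).reindex e e := by
    intro v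
    rw [Units.val_mul, Units.val_mul]
    show H' * (T v).1 * H = _
    rw [show (T v).1 = H * (blockDiagonal' fun i => S i v).reindex e e * H' from hTS v]
    calc H' * (H * (blockDiagonal' fun i => S i v).reindex e e * H') * H
        = (H' * H) * (blockDiagonal' fun i => S i v).reindex e e * (H' * H) := by
          simp only [Matrix.mul_assoc]
      _ = _ := by rw [hH'H, Matrix.one_mul, Matrix.mul_one]
  -- the blocks are invertible
  have hu : ∀ v, IsUnit ((blockDiagonal' fun i => S i v).reindex e e) := fun v => by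
    rw [← hP v]; exact Units.isUnit _
  have hdet : ∀ i v, (S i v).det ≠ 0 := by
    intro i v h0
    obtain ⟨x, hx, hx0⟩ := Matrix.exists_mulVec_eq_zero_iff.2 h0
    have h1 : (blockDiagonal' fun i => S i v).det = 0 := by
      rw [← Matrix.exists_mulVec_eq_zero_iff]
      refine ⟨incl i x, ?_, ?_⟩
      · intro h0
        apply hx
        funext y
        have := congrFun h0 ⟨i, y⟩
        rwa [incl_same] at this
      · rw [incl_mulVec (fun i v => S i v) i v x, hx0, map_zero]
    have h2 := (Matrix.isUnit_iff_isUnit_det _).1 (hu v)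
    rw [Matrix.det_reindex_self, h1] at h2
    exact not_isUnit_zero h2
  obtain ⟨T1, hT1'⟩ : ∃ T1 : ∀ z : Fin N × RelGen g s, G (d z.1), ∀ z, (T1 z).1 = S z.1 z.2 :=
    ⟨fun z => Matrix.GeneralLinearGroup.mkOfDetNeZero (S z.1 z.2) (hdet z.1 z.2), fun _ => rfl⟩
  have hT1 : ∀ i v, (T1 (i, v)).1 = S i v := fun i v => hT1' (i, v)
  have hbs : ∀ v, bs e (fun i => (T1 (i, v) : G (d i))) = P * Matrix.SpecialLinearGroup.toGL (T v) * P⁻¹ := by
    intro v
    apply Units.ext
    rw [hP v, bs_val]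
    simp only [hT1]
  have hbsinj : Function.Injective (bs e) := by
    intro A B hAB
    have h1 : (blockDiagonal' fun i => (A i).1).reindex e e =
        (blockDiagonal' fun i => (B i).1).reindex e e := by
      rw [← bs_val, ← bs_val, hAB]
    have h2 := (Matrix.reindex e e).injective h1
    have h3 := Matrix.blockDiagonal'_injective h2
    funext i
    exact Units.ext (congrFun h3 i)
  have hrel : ∀ i, RelG (G := G (d i)) g s fun v => T1 (i, v) := by
    have h1 : RelG g s fun v => bs e (fun i => (T1 (i, v) : G (d i))) := by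
      simp only [hbs]
      exact RelG_conj P _ hT
    have h2 : RelG (G := ∀ i, G (d i)) g s fun v i => T1 (i, v) := by
      unfold RelG at h1 ⊢
      apply hbsinj
      rw [map_one, ← h1, map_mul, map_list_prod, map_list_prod, List.map_map, List.map_map]
      simp only [Function.comp_def, map_mul, map_inv]
    intro i
    exact RelG_map (Pi.evalMonoidHom (fun i => G (d i)) i) (fun v i => (T1 (i, v) : G (d i))) h2
  have hd0 : ∀ i, 0 < d i := fun i => by
    obtain ⟨x⟩ := (hirr i).1
    exact lt_of_le_of_lt (Nat.zero_le _) x.2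
  have hdr : ∀ i, d i ≤ r := by
    intro i
    have h1 := Fintype.card_congr e
    rw [Fintype.card_sigma, Fintype.card_fin] at h1
    simp only [Fintype.card_fin] at h1
    rw [← h1]
    exact Finset.single_le_sum (f := d) (fun _ _ => Nat.zero_le _) (Finset.mem_univ i)
  have heig : ∀ i j, EigSc O (T1 (i, Sum.inr j)) := by
    intro i j μ hμ
    have h1 : (bs e fun i => (T1 (i, Sum.inr j) : G (d i))).1.charpoly.IsRoot μ :=
      isRoot_bs e (T := fun i => T1 (i, Sum.inr j)) hμ
    rw [hbs] at h1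
    obtain ⟨h, hh⟩ := hcl j
    rw [charpoly_conj_toGL P _ _ _ hh] at h1
    exact hc j μ h1
  have hirr' : ∀ i, MIrr (ι := RelGen g s) (m := Fin (d i)) fun v => (T1 (i, v)).1 := by
    intro i
    simp only [hT1]
    exact hirr i
  have hmem := hBA N d hd0 hdr T1 hrel hirr' heig
  refine ⟨P, fun F hF => ?_⟩
  -- the polynomial function on families of blocks
  have hpol : (fun T' : ∀ z : Fin N × RelGen g s, G (d z.1) =>
      eval (ent fun v => (bs e (fun i => (T' (i, v) : G (d i)))).1) F) ∈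
        Cal.PolFam fun z : Fin N × RelGen g s => Fin (d z.1) := by
    have h1 : ∀ x : RelVar g s r, (fun T' : ∀ z : Fin N × RelGen g s, G (d z.1) =>
        (ent fun v => (bs e (fun i => (T' (i, v) : G (d i)))).1) x) ∈
        Cal.PolFam fun z : Fin N × RelGen g s => Fin (d z.1) := by
      rintro ⟨v, a, b⟩
      simp only [ent]
      rcases bs_entry (r := r) e a b with ⟨i, x, y, h⟩ | h
      · simp only [h]
        exact Cal.ent_mem (κ := fun z : Fin N × RelGen g s => Fin (d z.1)) (i, v) x y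
      · simp only [h]
        exact Subalgebra.zero_mem _
    exact eval_mem (Cal.PolFam fun z : Fin N × RelGen g s => Fin (d z.1))
      (fun x T' => (ent fun v => (bs e (fun i => (T' (i, v) : G (d i)))).1) x) h1 F
  have h1 := hmem _ hpol fun T' hT' => hF (fun v => bs e fun i => (T' (i, v) : G (d i))) ?_
  · simp only [hbs] at h1
    exact h1
  · obtain ⟨h1, h2, h3, h4⟩ := hT'
    refine ⟨?_, ?_, ?_, ?_⟩
    · have hp : RelG (G := ∀ i, G (d i)) g s (fun v i => (T' (i, v) : G (d i))) :=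
        RelG_pi (A := fun i => G (d i)) (fun v i => (T' (i, v) : G (d i))) h1
      exact RelG_map (bs e) (fun v i => (T' (i, v) : G (d i))) hp
    · have h6 := MSS_reindex e (MSS_blockDiagonal (ι := RelGen g s) (d := fun i => Fin (d i))
        (fun i v => ((T' (i, v) : G (d i))).1) h3)
      simp only [bs_val]
      exact h6
    · intro j
      choose h hh using fun i => h2 i j
      obtain ⟨h', hh'⟩ := hcl j
      refine ⟨bs e h * P * Matrix.SpecialLinearGroup.toGL h', ?_⟩
      have h5 : (fun i => (T' (i, Sum.inr j) : G (d i))) =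
          h * (fun i => (T1 (i, Sum.inr j) : G (d i))) * h⁻¹ := by
        funext i
        exact hh i
      rw [h5, map_mul, map_mul, map_inv, hbs, hh', map_mul, map_mul, map_inv]
      group
    · exact fun v => bs_mem_GO e fun i => h4 (i, v)

end Crest.Agent.R003.Wire
end
end

-- ▼ part R003/Flag382
section

/-!
# Row 3, part 4: flags adapted to a matrix and the rank inequality (helper382)
-/

set_option autoImplicit false
set_option linter.unusedSectionVars false

namespace Crest.Agent.R003.Flag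

open Matrix Module

/-! ### rank lemmas for endomorphisms -/

section endo

variable {V : Type*} [AddCommGroup V] [Module ℂ V]

/-- the eigenspace -/
def K (f : End ℂ V) (μ : ℂ) : Submodule ℂ V := LinearMap.ker (f - algebraMap ℂ (End ℂ V) μ)

theorem mem_K {f : End ℂ V} {μ : ℂ} {v : V} : v ∈ K f μ ↔ f v = μ • v := by
  simp only [K, LinearMap.mem_ker, LinearMap.sub_apply, Module.algebraMap_end_apply, sub_eq_zero]

theorem K_le (f : End ℂ V) (μ : ℂ) : K f μ ≤ (K f μ).comap f := by
  intro v hv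
  rw [Submodule.mem_comap, mem_K]
  rw [mem_K] at hv
  rw [hv, map_smul, hv]

/-- the induced endomorphism of `V / K` -/
noncomputable def quo (f : End ℂ V) (μ : ℂ) : End ℂ (V ⧸ K f μ) :=
  (K f μ).mapQ (K f μ) f (K_le f μ)

theorem quo_mk (f : End ℂ V) (μ : ℂ) (v : V) :
    quo f μ ((K f μ).mkQ v) = (K f μ).mkQ (f v) := rfl

theorem quo_pow (f : End ℂ V) (μ ν : ℂ) (j : ℕ) (v : V) :
    ((quo f μ - algebraMap ℂ _ ν) ^ j) ((K f μ).mkQ v) =
      (K f μ).mkQ (((f - algebraMap ℂ _ ν) ^ j) v) := by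
  induction j with
  | zero => simp
  | succ j ih =>
    rw [pow_succ', pow_succ', Module.End.mul_apply, Module.End.mul_apply, ih]
    simp only [LinearMap.sub_apply, Module.algebraMap_end_apply, quo_mk, map_sub, map_smul]

theorem range_quo_pow (f : End ℂ V) (μ ν : ℂ) (j : ℕ) :
    LinearMap.range ((quo f μ - algebraMap ℂ _ ν) ^ j) =
      (LinearMap.range ((f - algebraMap ℂ _ ν) ^ j)).map (K f μ).mkQ := by
  ext x
  constructor
  · rintro ⟨y, rfl⟩
    obtain ⟨v, rfl⟩ := (K f μ).mkQ_surjective y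
    exact ⟨_, ⟨v, rfl⟩, (quo_pow f μ ν j v).symm⟩
  · rintro ⟨_, ⟨v, rfl⟩, rfl⟩
    exact ⟨(K f μ).mkQ v, quo_pow f μ ν j v⟩

variable [FiniteDimensional ℂ V]

theorem finrank_map_mkQ (K R : Submodule ℂ V) (h : K ≤ R) :
    finrank ℂ (R.map K.mkQ) + finrank ℂ K = finrank ℂ R := by
  have h1 := LinearMap.finrank_range_add_finrank_ker (K.mkQ.domRestrict R)
  rw [LinearMap.range_domRestrict] at h1
  have h2 : LinearMap.ker (K.mkQ.domRestrict R) = K.comap R.subtype := by
    ext x
    simp
  rw [h2, LinearEquiv.finrank_eq (Submodule.comapSubtypeEquivOfLe h)] at h1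
  exact h1

theorem finrank_map_mkQ_ker {W : Type*} [AddCommGroup W] [Module ℂ W] (φ : V →ₗ[ℂ] W)
    (R : Submodule ℂ V) :
    finrank ℂ (R.map (LinearMap.ker φ).mkQ) = finrank ℂ (R.map φ) := by
  have hinj : Function.Injective ((LinearMap.ker φ).liftQ φ le_rfl) := by
    rw [← LinearMap.ker_eq_bot, Submodule.ker_liftQ_eq_bot _ _ _ le_rfl]
  have h1 : R.map φ = (R.map (LinearMap.ker φ).mkQ).map ((LinearMap.ker φ).liftQ φ le_rfl) := by
    rw [← Submodule.map_comp, Submodule.liftQ_mkQ]
  rw [h1]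
  exact (LinearEquiv.finrank_eq (Submodule.equivMapOfInjective _ hinj _))

/-- `ν ≠ μ` -/
theorem R1 (f : End ℂ V) {μ ν : ℂ} (h : ν ≠ μ) (j : ℕ) :
    finrank ℂ (LinearMap.range ((quo f μ - algebraMap ℂ _ ν) ^ j)) + finrank ℂ (K f μ) ≤
      finrank ℂ (LinearMap.range ((f - algebraMap ℂ _ ν) ^ j)) := by
  rw [range_quo_pow]
  refine (finrank_map_mkQ _ _ ?_).le
  intro x hx
  have h1 : ∀ j : ℕ, ((f - algebraMap ℂ (End ℂ V) ν) ^ j) x = (μ - ν) ^ j • x := by
    intro j
    induction j with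
    | zero => simp
    | succ j ih =>
      rw [pow_succ', Module.End.mul_apply, ih, map_smul, LinearMap.sub_apply,
        Module.algebraMap_end_apply, mem_K.1 hx, ← sub_smul, smul_smul, pow_succ]
  refine ⟨((μ - ν) ^ j)⁻¹ • x, ?_⟩
  rw [map_smul, h1, smul_smul, inv_mul_cancel₀, one_smul]
  exact pow_ne_zero _ (sub_ne_zero.2 h.symm)

/-- `ν = μ` -/
theorem R2 (f : End ℂ V) (μ : ℂ) (j : ℕ) :
    finrank ℂ (LinearMap.range ((quo f μ - algebraMap ℂ _ μ) ^ j)) ≤
      finrank ℂ (LinearMap.range ((f - algebraMap ℂ _ μ) ^ (j + 1))) := by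
  rw [range_quo_pow]
  have h1 := finrank_map_mkQ_ker (f - algebraMap ℂ (End ℂ V) μ)
    (LinearMap.range ((f - algebraMap ℂ (End ℂ V) μ) ^ j))
  have h2 : (LinearMap.range ((f - algebraMap ℂ (End ℂ V) μ) ^ j)).map
      (f - algebraMap ℂ (End ℂ V) μ) =
      LinearMap.range ((f - algebraMap ℂ (End ℂ V) μ) ^ (j + 1)) := by
    rw [pow_succ', Module.End.mul_eq_comp, LinearMap.range_comp]
  rw [h2] at h1
  exact h1.le

end endo

/-! ### rank lemmas for block matrices -/

section blk

variable {m n : Type*} [Fintype m] [DecidableEq m] [Fintype n] [DecidableEq n]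

theorem rank_add_le' (A B : Matrix m n ℂ) : (A + B).rank ≤ A.rank + B.rank := by
  have h1 : LinearMap.range (A + B).mulVecLin ≤
      LinearMap.range A.mulVecLin ⊔ LinearMap.range B.mulVecLin := by
    rintro _ ⟨x, rfl⟩
    rw [Matrix.mulVecLin_add, LinearMap.add_apply]
    exact Submodule.add_mem_sup ⟨x, rfl⟩ ⟨x, rfl⟩
  exact (Submodule.finrank_mono h1).trans (Submodule.finrank_add_le_finrank_add_finrank _ _)

theorem rank_fromBlocks_le (A : Matrix m m ℂ) (C : Matrix m n ℂ) (Z : Matrix n n ℂ) :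
    (fromBlocks A C (0 : Matrix n m ℂ) Z).rank ≤ Fintype.card m + Z.rank := by
  have h1 : fromBlocks A C (0 : Matrix n m ℂ) Z =
      fromRows (1 : Matrix m m ℂ) (0 : Matrix n m ℂ) * fromCols A C +
      fromRows (0 : Matrix m n ℂ) (1 : Matrix n n ℂ) *
        (Z * fromCols (0 : Matrix n m ℂ) (1 : Matrix n n ℂ)) := by
    simp only [fromRows_mul, Matrix.mul_fromCols, Matrix.mul_zero, Matrix.mul_one,
      Matrix.one_mul, Matrix.zero_mul]
    ext i j
    rcases i with i | i <;> rcases j with j | j <;> simp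
  rw [h1]
  refine (rank_add_le' _ _).trans (add_le_add ?_ ?_)
  · refine (rank_mul_le_left _ _).trans (rank_le_card_width _)
  · exact (rank_mul_le_right _ _).trans (rank_mul_le_left _ _)

theorem fromBlocks_pow (A : Matrix m m ℂ) (C : Matrix m n ℂ) (Z : Matrix n n ℂ) (j : ℕ) :
    ∃ (A' : Matrix m m ℂ) (C' : Matrix m n ℂ),
      (fromBlocks A C (0 : Matrix n m ℂ) Z) ^ j = fromBlocks A' C' (0 : Matrix n m ℂ) (Z ^ j) := by
  induction j with
  | zero => exact ⟨1, 0, by simp⟩
  | succ j ih =>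
    obtain ⟨A', C', h⟩ := ih
    refine ⟨A' * A, A' * C + C' * Z, ?_⟩
    rw [pow_succ, h, fromBlocks_multiply, pow_succ]
    simp

theorem fromBlocks_zero_pow (C : Matrix m n ℂ) (Z : Matrix n n ℂ) (j : ℕ) :
    (fromBlocks (0 : Matrix m m ℂ) C (0 : Matrix n m ℂ) Z) ^ (j + 1) =
      fromBlocks (0 : Matrix m m ℂ) (C * Z ^ j) (0 : Matrix n m ℂ) (Z ^ (j + 1)) := by
  induction j with
  | zero => simp
  | succ j ih =>
    rw [pow_succ, ih, fromBlocks_multiply]
    simp [Matrix.mul_assoc, ← pow_succ]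

theorem rank_pow_zero_le (C : Matrix m n ℂ) (Z : Matrix n n ℂ) (j : ℕ) :
    ((fromBlocks (0 : Matrix m m ℂ) C (0 : Matrix n m ℂ) Z) ^ (j + 1)).rank ≤ (Z ^ j).rank := by
  have h1 : (fromBlocks (0 : Matrix m m ℂ) C (0 : Matrix n m ℂ) Z) ^ (j + 1) =
      fromRows C Z * (Z ^ j * fromCols (0 : Matrix n m ℂ) (1 : Matrix n n ℂ)) := by
    rw [fromBlocks_zero_pow, Matrix.mul_fromCols, Matrix.mul_zero, Matrix.mul_one, fromRows_mul,
      Matrix.mul_fromCols, Matrix.mul_fromCols, Matrix.mul_zero, Matrix.mul_zero]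
    ext i j
    rcases i with i | i <;> rcases j with j | j <;> simp [pow_succ']
  rw [h1]
  exact (rank_mul_le_right _ _).trans (rank_mul_le_left _ _)

theorem sub_fromBlocks (μ ν : ℂ) (C : Matrix m n ℂ) (Z : Matrix n n ℂ) :
    fromBlocks (μ • (1 : Matrix m m ℂ)) C (0 : Matrix n m ℂ) Z - algebraMap ℂ _ ν =
      fromBlocks ((μ - ν) • (1 : Matrix m m ℂ)) C (0 : Matrix n m ℂ) (Z - algebraMap ℂ _ ν) := by
  rw [Algebra.algebraMap_eq_smul_one, Algebra.algebraMap_eq_smul_one, sub_smul]
  ext i j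
  rcases i with i | i <;> rcases j with j | j <;> simp [Matrix.one_apply]

theorem rank_pow_submatrix (M : Matrix m m ℂ) (e : n ≃ m) (ν : ℂ) (j : ℕ) :
    ((M.submatrix e e - algebraMap ℂ _ ν) ^ j).rank = ((M - algebraMap ℂ _ ν) ^ j).rank := by
  have h2 : M.submatrix e e - algebraMap ℂ _ ν = (M - algebraMap ℂ _ ν).submatrix e e := by
    rw [Algebra.algebraMap_eq_smul_one, Algebra.algebraMap_eq_smul_one]
    ext i j
    simp [Matrix.one_apply]
  have h1 : (M.submatrix e e - algebraMap ℂ _ ν) ^ j =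
      ((M - algebraMap ℂ _ ν) ^ j).submatrix e e := by
    rw [h2]
    induction j with
    | zero =>
      ext i j
      simp [Matrix.one_apply]
    | succ j ih =>
      rw [pow_succ, pow_succ, ih, Matrix.submatrix_mul_equiv]
  rw [h1, rank_submatrix]

end blk

/-! ### flags -/

/-- total size of a flag type -/
def size : List (ℂˣ × ℕ) → ℕ
  | [] => 0
  | x :: l => x.2 + size l

/-- `Y` is block upper triangular with scalar diagonal blocks `μ_i · 1` of size `m_i`. -/
def IsFlagMat : (l : List (ℂˣ × ℕ)) → Matrix (Fin (size l)) (Fin (size l)) ℂ → Prop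
  | [], _ => True
  | x :: l, Y => ∃ (B : Matrix (Fin x.2) (Fin (size l)) ℂ)
      (Y' : Matrix (Fin (size l)) (Fin (size l)) ℂ),
      Y = (fromBlocks ((x.1 : ℂ) • (1 : Matrix (Fin x.2) (Fin x.2) ℂ)) B 0 Y').submatrix
        finSumFinEquiv.symm finSumFinEquiv.symm ∧ IsFlagMat l Y'

/-- `f` dominates the flag type `l`: all rank of `(Y-ν)^j`, `Y` of flag type `l`, are at most
those of `f`. -/
def Dom {V : Type*} [AddCommGroup V] [Module ℂ V] (l : List (ℂˣ × ℕ)) (f : End ℂ V) : Prop :=
  ∀ Y, IsFlagMat l Y → ∀ (ν : ℂ) (j : ℕ), ((Y - algebraMap ℂ _ ν) ^ j).rank ≤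
    finrank ℂ (LinearMap.range ((f - algebraMap ℂ _ ν) ^ j))

theorem Dom_cons {V : Type*} [AddCommGroup V] [Module ℂ V] [FiniteDimensional ℂ V]
    (l : List (ℂˣ × ℕ)) (f : End ℂ V) (μ : ℂˣ) (h : Dom l (quo f μ))
    (hl : size l + finrank ℂ (K f μ) = finrank ℂ V) :
    Dom ((μ, finrank ℂ (K f μ)) :: l) f := by
  rintro Y ⟨B, Y', rfl, hY'⟩ ν j
  refine (le_of_eq (rank_pow_submatrix _ finSumFinEquiv.symm ν j)).trans ?_
  rw [sub_fromBlocks]
  by_cases hν : ν = μ
  · subst hν
    rcases j with _ | j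
    · rw [pow_zero, pow_zero, rank_one, Module.End.one_eq_id, LinearMap.range_id, finrank_top]
      simp only [Fintype.card_sum, Fintype.card_fin]
      omega
    · rw [sub_self, zero_smul]
      exact (rank_pow_zero_le _ _ _).trans ((h Y' hY' μ j).trans (R2 f μ j))
  · obtain ⟨A', C', hAC⟩ := fromBlocks_pow (((μ : ℂ) - ν) • (1 : Matrix (Fin (finrank ℂ (K f μ))) (Fin (finrank ℂ (K f μ))) ℂ)) B
      (Y' - algebraMap ℂ _ ν) j
    rw [hAC]
    refine (rank_fromBlocks_le _ _ _).trans ?_
    rw [Fintype.card_fin, add_comm]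
    exact (Nat.add_le_add_right (h Y' hY' ν j) _).trans (R1 f hν j)

theorem quo_surjective {V : Type*} [AddCommGroup V] [Module ℂ V] {f : End ℂ V} (μ : ℂ)
    (hf : Function.Surjective f) : Function.Surjective (quo f μ) := by
  intro y
  obtain ⟨v, rfl⟩ := (K f μ).mkQ_surjective y
  obtain ⟨w, rfl⟩ := hf v
  exact ⟨(K f μ).mkQ w, rfl⟩

theorem quo_eigenvalue {V : Type*} [AddCommGroup V] [Module ℂ V] [FiniteDimensional ℂ V]
    {f : End ℂ V} {μ ν : ℂ} (h : (quo f μ).HasEigenvalue ν) : f.HasEigenvalue ν := by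
  by_contra hcon
  -- `f - ν` is injective, hence surjective, hence `quo f μ - ν` is surjective, hence injective
  have h1 : LinearMap.ker (f - algebraMap ℂ (End ℂ V) ν) = ⊥ := by
    rw [Module.End.hasEigenvalue_iff, Module.End.eigenspace_def, not_not] at hcon
    exact hcon
  have h2 : Function.Surjective (f - algebraMap ℂ (End ℂ V) ν) :=
    LinearMap.injective_iff_surjective.1 (LinearMap.ker_eq_bot.1 h1)
  have h3 : Function.Surjective (quo f μ - algebraMap ℂ (End ℂ (V ⧸ K f μ)) ν) := by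
    intro y
    obtain ⟨v, rfl⟩ := (K f μ).mkQ_surjective y
    obtain ⟨w, rfl⟩ := h2 v
    refine ⟨(K f μ).mkQ w, ?_⟩
    simpa using quo_pow f μ ν 1 w
  have h4 := LinearMap.ker_eq_bot.2 (LinearMap.injective_iff_surjective.2 h3)
  rw [Module.End.hasEigenvalue_iff, Module.End.eigenspace_def] at h
  exact h h4

/-- **Existence of adapted flags.** -/
theorem exists_flag : ∀ (k : ℕ) (V : Type) [AddCommGroup V] [Module ℂ V] [FiniteDimensional ℂ V]
    (_ : finrank ℂ V = k) (f : End ℂ V) (_ : Function.Surjective f),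
    ∃ (l : List (ℂˣ × ℕ)) (Y : Matrix (Fin (size l)) (Fin (size l)) ℂ)
      (ψ : V ≃ₗ[ℂ] (Fin (size l) → ℂ)), (∀ x ∈ l, 0 < x.2) ∧
      (∀ x ∈ l, f.HasEigenvalue (x.1 : ℂ)) ∧ IsFlagMat l Y ∧ (∀ v, ψ (f v) = Y *ᵥ ψ v) ∧
      Dom l f := by
  intro k
  induction k using Nat.strong_induction_on with
  | _ k ih =>
  intro V _ _ _ hk f hf
  rcases Nat.eq_zero_or_pos k with rfl | hpos
  · have hV : Subsingleton V := finrank_zero_iff.1 hk
    let ψ : V ≃ₗ[ℂ] (Fin (size []) → ℂ) :=
      { toFun := fun _ => 0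
        map_add' := fun _ _ => by simp
        map_smul' := fun _ _ => by simp
        invFun := fun _ => 0
        left_inv := fun _ => Subsingleton.elim _ _
        right_inv := fun _ => by funext i; exact i.elim0 }
    refine ⟨[], 0, ψ, by simp, by simp, trivial, fun v => ?_, ?_⟩
    · funext i; exact i.elim0
    · intro Y _ ν j
      refine (rank_le_card_width _).trans ?_
      exact (Fintype.card_fin 0).le.trans (Nat.zero_le _)
  · have hfp : 0 < finrank ℂ V := by omega
    have : Nontrivial V := finrank_pos_iff.1 hfp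
    obtain ⟨μ0, hμ0⟩ := Module.End.exists_eigenvalue f
    have hinj : Function.Injective f := LinearMap.injective_iff_surjective.2 hf
    have hμ0' : μ0 ≠ 0 := by
      rintro rfl
      obtain ⟨v, hv, hv0⟩ := hμ0.exists_hasEigenvector
      rw [Module.End.mem_eigenspace_iff, zero_smul] at hv
      exact hv0 (hinj (by rw [hv, map_zero]))
    obtain ⟨μ, rfl⟩ : ∃ μ : ℂˣ, (μ : ℂ) = μ0 := ⟨Units.mk0 μ0 hμ0', rfl⟩
    have hKpos : 0 < finrank ℂ (K f μ) := by
      rw [finrank_pos_iff, Submodule.nontrivial_iff_ne_bot]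
      rw [Module.End.hasEigenvalue_iff, Module.End.eigenspace_def] at hμ0
      exact hμ0
    have hq := Submodule.finrank_quotient_add_finrank (K f (μ : ℂ))
    obtain ⟨l, Y', ψ', hl1, hl2, hY', hψ', hdom⟩ := ih (finrank ℂ (V ⧸ K f (μ : ℂ))) (by omega)
      (V ⧸ K f (μ : ℂ)) rfl (quo f μ) (quo_surjective _ hf)
    have hsize : size l = finrank ℂ (V ⧸ K f (μ : ℂ)) := by
      have := LinearEquiv.finrank_eq ψ'
      simpa using this.symm
    -- a projection to `K`
    obtain ⟨π, hπ⟩ := LinearMap.exists_leftInverse_of_injective (K f (μ : ℂ)).subtype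
      (Submodule.ker_subtype _)
    have hπ' : ∀ v : K f (μ : ℂ), π v = v := fun v => LinearMap.congr_fun hπ v
    let φ : K f (μ : ℂ) ≃ₗ[ℂ] (Fin (finrank ℂ (K f (μ : ℂ))) → ℂ) :=
      (Module.finBasis ℂ (K f (μ : ℂ))).equivFun
    let θ0 : V →ₗ[ℂ] (K f (μ : ℂ)) × (V ⧸ K f (μ : ℂ)) := π.prod (K f (μ : ℂ)).mkQ
    have hθ0 : Function.Injective θ0 := by
      rw [← LinearMap.ker_eq_bot, LinearMap.ker_eq_bot']
      intro v hv
      have h1 : π v = 0 := congrArg Prod.fst hv
      have h2 : (K f (μ : ℂ)).mkQ v = 0 := congrArg Prod.snd hv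
      rw [Submodule.mkQ_apply, Submodule.Quotient.mk_eq_zero] at h2
      have h3 := hπ' ⟨v, h2⟩
      rw [h1] at h3
      exact (congrArg Subtype.val h3).symm
    have hθ1 : Function.Surjective θ0 := by
      rintro ⟨a, b⟩
      obtain ⟨v, rfl⟩ := (K f (μ : ℂ)).mkQ_surjective b
      refine ⟨v + ((a - π v : K f (μ : ℂ)) : V), ?_⟩
      apply Prod.ext
      · change π (v + ((a - π v : K f (μ : ℂ)) : V)) = a
        rw [map_add, hπ']
        abel
      · change (K f (μ : ℂ)).mkQ (v + ((a - π v : K f (μ : ℂ)) : V)) = (K f (μ : ℂ)).mkQ v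
        rw [map_add]
        have : (K f (μ : ℂ)).mkQ ((a - π v : K f (μ : ℂ)) : V) = 0 := by
          rw [Submodule.mkQ_apply, Submodule.Quotient.mk_eq_zero]
          exact (a - π v).2
        rw [this, add_zero]
    let θ : V ≃ₗ[ℂ] (K f (μ : ℂ)) × (V ⧸ K f (μ : ℂ)) := LinearEquiv.ofBijective θ0 ⟨hθ0, hθ1⟩
    have hθ : ∀ v, θ v = (π v, (K f (μ : ℂ)).mkQ v) := fun v => rfl
    let χ : V ≃ₗ[ℂ] (Fin (finrank ℂ (K f (μ : ℂ))) ⊕ Fin (size l) → ℂ) :=
      (θ.trans (LinearEquiv.prodCongr φ ψ')).trans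
        (LinearEquiv.sumArrowLequivProdArrow _ _ ℂ ℂ).symm
    have hχl : ∀ v i, χ v (Sum.inl i) = φ (π v) i := fun v i => rfl
    have hχr : ∀ v i, χ v (Sum.inr i) = ψ' ((K f (μ : ℂ)).mkQ v) i := fun v i => rfl
    let ψ : V ≃ₗ[ℂ] (Fin (finrank ℂ (K f (μ : ℂ)) + size l) → ℂ) :=
      χ.trans (LinearEquiv.funCongrLeft ℂ ℂ finSumFinEquiv.symm)
    have hψ : ∀ v i, ψ v i = χ v (finSumFinEquiv.symm i) := fun v i => rfl
    -- the off-diagonal block
    let Bl : (Fin (size l) → ℂ) →ₗ[ℂ] (Fin (finrank ℂ (K f (μ : ℂ))) → ℂ) :=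
      φ.toLinearMap ∘ₗ π ∘ₗ f ∘ₗ θ.symm.toLinearMap ∘ₗ
        (LinearMap.inr ℂ (K f (μ : ℂ)) (V ⧸ K f (μ : ℂ))) ∘ₗ ψ'.symm.toLinearMap
    let B := LinearMap.toMatrix' Bl
    have hB : ∀ v, B *ᵥ (ψ' ((K f (μ : ℂ)).mkQ v)) =
        φ (π (f (θ.symm (0, (K f (μ : ℂ)).mkQ v)))) := by
      intro v
      have h1 : B *ᵥ (ψ' ((K f (μ : ℂ)).mkQ v)) = Bl (ψ' ((K f (μ : ℂ)).mkQ v)) := by
        rw [← Matrix.toLin'_apply, Matrix.toLin'_toMatrix']
      rw [h1]
      simp only [Bl, LinearMap.comp_apply, LinearEquiv.coe_coe, LinearEquiv.symm_apply_apply]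
      rfl
    have hfinal : ∀ v, ψ (f v) = ((fromBlocks ((μ : ℂ) • (1 : Matrix _ _ ℂ)) B 0 Y').submatrix
        finSumFinEquiv.symm finSumFinEquiv.symm) *ᵥ ψ v := by
      intro v
      have hkey : χ (f v) = (fromBlocks ((μ : ℂ) • (1 : Matrix _ _ ℂ)) B 0 Y') *ᵥ χ v := by
        have hsplit : χ v = Sum.elim (φ (π v)) (ψ' ((K f (μ : ℂ)).mkQ v)) := by
          funext i
          rcases i with i | i
          · exact hχl v i
          · exact hχr v i
        rw [hsplit, fromBlocks_mulVec]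
        funext i
        rcases i with i | i
        · rw [hχl]
          simp only [Sum.elim_inl, Sum.elim_comp_inl, Sum.elim_comp_inr]
          rw [hB]
          have h1 : v = (π v : V) + θ.symm (0, (K f (μ : ℂ)).mkQ v) := by
            apply θ.injective
            rw [map_add, LinearEquiv.apply_symm_apply, hθ, hθ, hπ']
            apply Prod.ext
            · simp
            · have : (K f (μ : ℂ)).mkQ (π v : V) = 0 := by
                rw [Submodule.mkQ_apply, Submodule.Quotient.mk_eq_zero]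
                exact (π v).2
              simp [this]
          have h2 : f v = (μ : ℂ) • (π v : V) + f (θ.symm (0, (K f (μ : ℂ)).mkQ v)) := by
            conv_lhs => rw [h1]
            rw [map_add, mem_K.1 (π v).2]
          rw [h2, map_add, map_smul, map_add, map_smul, hπ', smul_mulVec, one_mulVec]
        · rw [hχr]
          simp only [Sum.elim_inr, Sum.elim_comp_inl, Sum.elim_comp_inr, Matrix.zero_mulVec,
            zero_add]
          rw [← quo_mk, hψ']
      funext i
      rw [hψ, hkey]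
      simp only [mulVec, dotProduct, Matrix.submatrix_apply]
      rw [← Equiv.sum_comp finSumFinEquiv.symm]
      rfl
    refine ⟨(μ, finrank ℂ (K f (μ : ℂ))) :: l,
      (fromBlocks ((μ : ℂ) • (1 : Matrix _ _ ℂ)) B 0 Y').submatrix
        finSumFinEquiv.symm finSumFinEquiv.symm, ψ, ?_, ?_, ⟨B, Y', rfl, hY'⟩, ?_, ?_⟩
    · intro x hx
      rcases List.mem_cons.1 hx with rfl | hx
      · exact hKpos
      · exact hl1 x hx
    · intro x hx
      rcases List.mem_cons.1 hx with rfl | hx
      · exact hμ0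
      · exact quo_eigenvalue (hl2 x hx)
    · exact hfinal
    · exact Dom_cons l f μ hdom (by omega)

end Crest.Agent.R003.Flag
private theorem rz_9c26b60bfa : type_of% @_root_.Crest.Agent.R003.Flag.size.eq_def := @_root_.Crest.Agent.R003.Flag.size.eq_def -- L204
private theorem rz_d7c386d2a2 : type_of% @_root_.Crest.Agent.R003.Flag.size.eq_1 := @_root_.Crest.Agent.R003.Flag.size.eq_1 -- L204
end

-- ▼ part R003/FlagD382
section

/-!
# Row 3, part 4: the open condition "same conjugacy class" on matrices of a fixed flag type (helper382)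
-/

set_option autoImplicit false
set_option linter.unusedSectionVars false

namespace Crest.Agent.R003.Flag

open Matrix Module

/-! ### minors -/

section minors

variable {m n : Type*} [Fintype m] [Fintype n]

theorem exists_minor (A : Matrix m n ℂ) :
    ∃ (r : Fin A.rank → m) (c : Fin A.rank → n), (A.submatrix r c).det ≠ 0 := by
  classical
  have hf0 := Submodule.exists_fun_fin_finrank_span_eq ℂ (Set.range A.col)
  rw [← rank_eq_finrank_span_cols] at hf0
  obtain ⟨f, hf1, _, hf3⟩ := hf0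
  choose c hc using hf1
  have hB : (A.submatrix id c).rank = A.rank := by
    rw [← rank_transpose]
    have h1 : LinearIndependent ℂ ((A.submatrix id c)ᵀ).row := by
      have : ((A.submatrix id c)ᵀ).row = f := by
        funext i
        rw [← hc i]
        rfl
      rw [this]; exact hf3
    rw [h1.rank_matrix, Fintype.card_fin]
  have hg0 := Submodule.exists_fun_fin_finrank_span_eq ℂ
    (Set.range (A.submatrix id c).row)
  rw [← rank_eq_finrank_span_row, hB] at hg0
  obtain ⟨g, hg1, _, hg3⟩ := hg0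
  choose r hr using hg1
  refine ⟨r, c, ?_⟩
  have h2 : LinearIndependent ℂ (A.submatrix r c).row := by
    have : (A.submatrix r c).row = g := by
      funext i
      rw [← hr i]
      rfl
    rw [this]; exact hg3
  rw [Matrix.linearIndependent_rows_iff_isUnit, Matrix.isUnit_iff_isUnit_det] at h2
  exact h2.ne_zero

theorem le_rank_of_minor (A : Matrix m n ℂ) {R : ℕ} (r : Fin R → m) (c : Fin R → n)
    (h : (A.submatrix r c).det ≠ 0) : R ≤ A.rank := by
  have h1 : (A.submatrix r c).rank = R := by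
    rw [rank_of_det_ne_zero h, Fintype.card_fin]
  rw [← h1]
  exact rank_submatrix_le A r c

end minors

theorem algebraMap_eq_scalar (k : ℕ) (ν : ℂ) :
    algebraMap ℂ (Matrix (Fin k) (Fin k) ℂ) ν = Matrix.scalar (Fin k) ν := by
  ext i j
  simp [Matrix.algebraMap_matrix_apply, Matrix.scalar_apply, Matrix.diagonal_apply]

/-- the minor as a polynomial in the entries -/
noncomputable def minorPoly {k R : ℕ} (ν : ℂ) (j : ℕ) (r c : Fin R → Fin k) :
    MvPolynomial (Fin k × Fin k) ℂ :=
  ((((mvPolynomialX (Fin k) (Fin k) ℂ) - algebraMap ℂ _ ν) ^ j).submatrix r c).det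

theorem eval_minorPoly {k R : ℕ} (ν : ℂ) (j : ℕ) (r c : Fin R → Fin k)
    (Y : Matrix (Fin k) (Fin k) ℂ) :
    MvPolynomial.eval (fun p => Y p.1 p.2) (minorPoly ν j r c) =
      (((Y - algebraMap ℂ _ ν) ^ j).submatrix r c).det := by
  rw [minorPoly, RingHom.map_det]
  congr 1
  have h1 : (MvPolynomial.eval fun p : Fin k × Fin k => Y p.1 p.2).mapMatrix
      (((mvPolynomialX (Fin k) (Fin k) ℂ) - algebraMap ℂ _ ν) ^ j) =
      (Y - algebraMap ℂ _ ν) ^ j := by
    rw [map_pow, map_sub, mvPolynomialX_mapMatrix_eval]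
    congr 2
    ext a b
    by_cases hab : a = b
    · subst hab
      simp [Matrix.algebraMap_matrix_apply]
    · simp [Matrix.algebraMap_matrix_apply, hab]
  rw [← h1]
  rfl

/-- openness of the rank conditions -/
theorem exists_open {k : ℕ} (Y0 : Matrix (Fin k) (Fin k) ℂ) (E : Finset ℂ) :
    ∃ D : MvPolynomial (Fin k × Fin k) ℂ, MvPolynomial.eval (fun p => Y0 p.1 p.2) D ≠ 0 ∧
      ∀ Y : Matrix (Fin k) (Fin k) ℂ, MvPolynomial.eval (fun p => Y p.1 p.2) D ≠ 0 →
        ∀ ν ∈ E, ∀ j ≤ k, ((Y0 - algebraMap ℂ _ ν) ^ j).rank ≤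
          ((Y - algebraMap ℂ _ ν) ^ j).rank := by
  classical
  choose r c h using fun (p : ℂ × ℕ) => exists_minor ((Y0 - algebraMap ℂ _ p.1) ^ p.2)
  refine ⟨∏ ν ∈ E, ∏ j ∈ Finset.range (k + 1), minorPoly ν j (r (ν, j)) (c (ν, j)), ?_, ?_⟩
  · rw [map_prod, Finset.prod_ne_zero_iff]
    intro ν _
    rw [map_prod, Finset.prod_ne_zero_iff]
    intro j _
    rw [eval_minorPoly]
    exact h (ν, j)
  · intro Y hY ν hν j hj
    rw [map_prod, Finset.prod_ne_zero_iff] at hY
    have h1 := hY ν hν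
    rw [map_prod, Finset.prod_ne_zero_iff] at h1
    have h2 := h1 j (Finset.mem_range.2 (by omega))
    rw [eval_minorPoly] at h2
    exact le_rank_of_minor _ _ _ h2

/-! ### characteristic polynomials of flagged matrices -/

theorem charpoly_flag : ∀ (l : List (ℂˣ × ℕ)) (Y : Matrix (Fin (size l)) (Fin (size l)) ℂ),
    IsFlagMat l Y → Y.charpoly =
      (l.map fun x => (Polynomial.X - Polynomial.C (x.1 : ℂ)) ^ x.2).prod
  | [], Y, _ => by
    have : IsEmpty (Fin (size [])) := by
      change IsEmpty (Fin 0); infer_instance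
    simp [Matrix.charpoly]
  | x :: l, Y, h => by
    obtain ⟨B, Y', rfl, hY'⟩ := h
    have h1 : ((fromBlocks ((x.1 : ℂ) • (1 : Matrix (Fin x.2) (Fin x.2) ℂ)) B 0 Y').submatrix
        finSumFinEquiv.symm finSumFinEquiv.symm).charpoly =
        (fromBlocks ((x.1 : ℂ) • (1 : Matrix (Fin x.2) (Fin x.2) ℂ)) B 0 Y').charpoly :=
      Matrix.charpoly_reindex finSumFinEquiv _
    refine h1.trans ?_
    rw [charpoly_fromBlocks_zero₂₁, charpoly_flag l Y' hY', List.map_cons, List.prod_cons]
    congr 1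
    have h2 : ((x.1 : ℂ) • (1 : Matrix (Fin x.2) (Fin x.2) ℂ)) =
        Matrix.diagonal fun _ => (x.1 : ℂ) := by
      ext i j
      simp [Matrix.one_apply, Matrix.diagonal_apply]
    rw [h2, Matrix.charpoly_diagonal]
    simp

/-- flag type, with the size as a hypothesis -/
def IsFlagG (l : List (ℂˣ × ℕ)) (k : ℕ) (Y : Matrix (Fin k) (Fin k) ℂ) : Prop :=
  ∃ h : size l = k, IsFlagMat l (Y.submatrix (Fin.cast h) (Fin.cast h))

theorem isFlagG_self (l : List (ℂˣ × ℕ)) (Y : Matrix (Fin (size l)) (Fin (size l)) ℂ) :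
    IsFlagG l (size l) Y ↔ IsFlagMat l Y := by
  constructor
  · rintro ⟨_, h⟩
    exact h
  · intro h
    exact ⟨rfl, h⟩

theorem rank_conj_pow {k : ℕ} (H Y : GL (Fin k) ℂ) (ν : ℂ) (j : ℕ) :
    (((H * Y * H⁻¹).1 - algebraMap ℂ _ ν) ^ j).rank = ((Y.1 - algebraMap ℂ _ ν) ^ j).rank := by
  have e4 : (H * Y * H⁻¹).1 - algebraMap ℂ _ ν =
      H.1 * (Y.1 - algebraMap ℂ _ ν) * (H⁻¹).1 := by
    have e5 : (H * Y * H⁻¹).1 = H.1 * Y.1 * (H⁻¹).1 := rfl
    have e6 : H.1 * (H⁻¹).1 = 1 := by
      rw [← Units.val_mul, mul_inv_cancel, Units.val_one]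
    have e7 : H.1 * algebraMap ℂ (Matrix (Fin k) (Fin k) ℂ) ν * (H⁻¹).1 =
        algebraMap ℂ _ ν := by
      rw [← Algebra.commutes, Matrix.mul_assoc, e6, Matrix.mul_one]
    rw [Matrix.mul_sub, Matrix.sub_mul, e7, ← e5]
  have e3 : ((H * Y * H⁻¹).1 - algebraMap ℂ _ ν) ^ j =
      H.1 * (Y.1 - algebraMap ℂ _ ν) ^ j * (H⁻¹).1 := by
    rw [e4]
    exact Units.conj_pow H _ j
  rw [e3, rank_mul_eq_left_of_isUnit_det _ _ (Matrix.isUnit_iff_isUnit_det _ |>.1 (H⁻¹).isUnit),
    rank_mul_eq_right_of_isUnit_det _ _ (Matrix.isUnit_iff_isUnit_det _ |>.1 H.isUnit)]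

theorem charpoly_conj {k : ℕ} (H Y : GL (Fin k) ℂ) :
    (H * Y * H⁻¹).1.charpoly = Y.1.charpoly := by
  have e5 : (H * Y * H⁻¹).1 = H.1 * Y.1 * (H⁻¹).1 := rfl
  rw [e5, Matrix.coe_units_inv]
  exact Matrix.charpoly_units_conj H Y.1

/-- **Main theorem on flags.** The open condition `D` is a polynomial in the entries of the matrix
itself (in any basis). -/
theorem flag_open (k : ℕ) (X : GL (Fin k) ℂ) :
    ∃ (l : List (ℂˣ × ℕ)) (H Y0 : GL (Fin k) ℂ) (D : MvPolynomial (Fin k × Fin k) ℂ),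
      (∀ x ∈ l, 0 < x.2) ∧ (∀ x ∈ l, X.1.charpoly.IsRoot (x.1 : ℂ)) ∧
      IsFlagG l k Y0.1 ∧ X = H * Y0 * H⁻¹ ∧
      MvPolynomial.eval (fun p => X.1 p.1 p.2) D ≠ 0 ∧
      ∀ X' h' Y' : GL (Fin k) ℂ, IsFlagG l k Y'.1 → X' = h' * Y' * h'⁻¹ →
        MvPolynomial.eval (fun p => X'.1 p.1 p.2) D ≠ 0 →
        ∃ P : GL (Fin k) ℂ, X' = P * X * P⁻¹ := by
  classical
  have hsurj : Function.Surjective (Matrix.toLin' X.1) := by
    intro y
    refine ⟨(X⁻¹).1.mulVec y, ?_⟩
    rw [Matrix.toLin'_apply, Matrix.mulVec_mulVec, ← Units.val_mul, mul_inv_cancel,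
      Units.val_one, Matrix.one_mulVec]
  obtain ⟨l, Y, ψ, h1, h2, h3, h4, h5⟩ := exists_flag k (Fin k → ℂ) (by simp)
    (Matrix.toLin' X.1) hsurj
  have hsize : size l = k := by
    have := LinearEquiv.finrank_eq ψ
    simpa using this.symm
  subst hsize
  -- the base change
  let H : GL (Fin (size l)) ℂ :=
    ⟨LinearMap.toMatrix' ψ.symm.toLinearMap, LinearMap.toMatrix' ψ.toLinearMap, by
      rw [← LinearMap.toMatrix'_comp]; simp, by
      rw [← LinearMap.toMatrix'_comp]; simp⟩
  let Y0 : GL (Fin (size l)) ℂ := H⁻¹ * X * H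
  have hY0 : Y0.1 = Y := by
    apply Matrix.toLin'.injective
    have e1 : Y0.1 = (H⁻¹).1 * X.1 * H.1 := rfl
    rw [e1, Matrix.toLin'_mul, Matrix.toLin'_mul]
    have e2 : Matrix.toLin' (H⁻¹).1 = ψ.toLinearMap := by
      change Matrix.toLin' (LinearMap.toMatrix' ψ.toLinearMap) = _
      rw [Matrix.toLin'_toMatrix']
    have e3 : Matrix.toLin' H.1 = ψ.symm.toLinearMap := by
      change Matrix.toLin' (LinearMap.toMatrix' ψ.symm.toLinearMap) = _
      rw [Matrix.toLin'_toMatrix']
    rw [e2, e3]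
    refine LinearMap.ext fun v => ?_
    simp only [LinearMap.comp_apply, LinearEquiv.coe_coe]
    rw [h4, LinearEquiv.apply_symm_apply, Matrix.toLin'_apply]
  have hconj : X = H * Y0 * H⁻¹ := by
    simp only [Y0]; group
  -- ranks of powers
  have hrk : ∀ (ν : ℂ) (j : ℕ), finrank ℂ (LinearMap.range
      ((Matrix.toLin' X.1 - algebraMap ℂ (End ℂ (Fin (size l) → ℂ)) ν) ^ j)) =
      ((X.1 - algebraMap ℂ _ ν) ^ j).rank := by
    intro ν j
    have e1 : (Matrix.toLin' X.1 - algebraMap ℂ (End ℂ (Fin (size l) → ℂ)) ν) ^ j =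
        Matrix.toLin' ((X.1 - algebraMap ℂ _ ν) ^ j) := by
      have e0 : Matrix.toLin' X.1 - algebraMap ℂ (End ℂ (Fin (size l) → ℂ)) ν =
          Matrix.toLinAlgEquiv' (X.1 - algebraMap ℂ _ ν) := by
        rw [map_sub, AlgEquiv.commutes]
        rfl
      rw [e0, ← map_pow]
      rfl
    rw [e1]
    rfl
  obtain ⟨D, hD1, hD2⟩ := exists_open X.1 ((l.map fun x => (x.1 : ℂ)).toFinset)
  refine ⟨l, H, Y0, D, h1, ?_, ?_, hconj, hD1, ?_⟩
  · intro x hx
    have := h2 x hx
    rw [Module.End.hasEigenvalue_iff_isRoot_charpoly] at this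
    rwa [Matrix.charpoly_toLin'] at this
  · rw [isFlagG_self, hY0]; exact h3
  · intro X' h' Y' hY' hX' hD
    rw [isFlagG_self] at hY'
    have hch : X.1.charpoly = X'.1.charpoly := by
      rw [hX', charpoly_conj, hconj, charpoly_conj, hY0, charpoly_flag l Y h3,
        charpoly_flag l Y'.1 hY']
    obtain ⟨P, hP⟩ := Str.conj_of_rank_eq' X.1 X'.1 hch (by
      intro μ hμ j hj
      rw [← algebraMap_eq_scalar]
      refine le_antisymm (hD2 X'.1 hD μ ?_ j hj) ?_
      · rw [hconj, charpoly_conj, hY0, charpoly_flag l Y h3, Polynomial.IsRoot.def,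
          Polynomial.eval_list_prod, List.prod_eq_zero_iff] at hμ
        rw [List.mem_map] at hμ
        obtain ⟨q, hq, hq0⟩ := hμ
        rw [List.mem_map] at hq
        obtain ⟨x, hx, rfl⟩ := hq
        rw [List.mem_toFinset, List.mem_map]
        refine ⟨x, hx, ?_⟩
        rw [Polynomial.eval_pow, Polynomial.eval_sub, Polynomial.eval_X, Polynomial.eval_C] at hq0
        have := (pow_eq_zero_iff (h1 x hx).ne').1 hq0
        exact (sub_eq_zero.1 this).symm
      · rw [← hrk, hX', rank_conj_pow]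
        exact h5 Y'.1 hY' μ j)
    exact ⟨P, Units.ext hP⟩

end Crest.Agent.R003.Flag
end

-- ▼ part R003/WireB638
section

/-!
# Wiring of Part 4 (row 3, helper638): `Sys4Stmt → BlockAppr`.
-/

set_option autoImplicit false

open Crest.NumberTheoryR.CharVarRel MvPolynomial

noncomputable section

namespace Crest.Agent.R003.Wire

open Nrm Semi Matrix

variable {g s r : ℕ}

/-- the solution set of the system of Part 4, in flag form -/
def S4 (g s r : ℕ) {N : ℕ} (d : Fin N → ℕ) (hd : ∀ i, d i ≤ r)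
    (l : Fin N → Fin s → List (ℂˣ × ℕ)) : Set (Fin N × RelGen g s → G r) :=
  {σ | (∀ z : Fin N × RelGen g s, σ z ∈ GLk r (d z.1)) ∧ (∀ i, RelG g s fun v => σ (i, v)) ∧
    ∀ i j, ∃ h Y : G (d i), Flag.IsFlagG (l i j) (d i) Y.1 ∧
      σ (i, Sum.inr j) = emb r (d i) (hd i) (h * Y * h⁻¹)}

/-- the statement of the system of Part 4 -/
def Sys4Stmt (O : Subring ℂ) (g s r : ℕ) : Prop :=
  ∀ (N : ℕ) (d : Fin N → ℕ) (hd : ∀ i, d i ≤ r) (l : Fin N → Fin s → List (ℂˣ × ℕ)),
    (∀ i, 0 < d i) → (∀ i j, ∀ x ∈ l i j, 0 < x.2 ∧ IsSc O x.1) →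
    ∀ T : ∀ z : Fin N × RelGen g s, G (d z.1), (∀ i, RelG (G := G (d i)) g s fun v => T (i, v)) →
    (∀ i j, ∃ H Y : G (d i), Flag.IsFlagG (l i j) (d i) Y.1 ∧ T (i, Sum.inr j) = H * Y * H⁻¹) →
    Appr O (S4 g s r d hd l) Set.univ (fun z => emb r (d z.1) (hd z.1) (T z))

theorem det_mem {X β : Type*} [Fintype β] [DecidableEq β] (A : Subalgebra ℂ (X → ℂ))
    {M : X → Matrix β β ℂ} (hM : ∀ i j, (fun x => M x i j) ∈ A) :
    (fun x => (M x).det) ∈ A := by
  have h0 : (fun x => (M x).det) = ∑ σ : Equiv.Perm β,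
      ((Equiv.Perm.sign σ : ℤ) : ℂ) • ∏ i, (fun x => M x (σ i) i) := by
    funext x
    rw [Matrix.det_apply, Finset.sum_apply]
    refine Finset.sum_congr rfl fun σ _ => ?_
    rw [Pi.smul_apply, Finset.prod_apply, Units.smul_def, zsmul_eq_mul, smul_eq_mul]
  rw [h0]
  exact A.sum_mem fun σ _ => A.smul_mem (A.prod_mem fun i _ => hM (σ i) i) _

theorem wordMat_mem {X ι m : Type*} [Fintype m] [DecidableEq m] (A : Subalgebra ℂ (X → ℂ))
    {S : X → ι → Matrix m m ℂ} (hS : ∀ v i j, (fun x => S x v i j) ∈ A) (w : List ι) :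
    ∀ i j, (fun x => wordMat (S x) w i j) ∈ A := by
  induction w with
  | nil =>
    intro i j
    simp only [wordMat_nil]
    exact A.algebraMap_mem _
  | cons v w ih =>
    intro i j
    simp only [wordMat_cons, Matrix.mul_apply]
    have h0 : (fun x => ∑ k, S x v i k * wordMat (S x) w k j) =
        ∑ k, (fun x => S x v i k) * (fun x => wordMat (S x) w k j) := by
      funext x
      rw [Finset.sum_apply]
      rfl
    rw [h0]
    exact A.sum_mem fun k _ => A.mul_mem (hS v i k) (ih k j)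

theorem blockAppr_of_sys4 {O : Subring ℂ} (h : Sys4Stmt O g s r) : BlockAppr O g s r := by
  classical
  intro N d hd0 hd T hrel hirr heig
  choose l H Y0 D h1 h2 h3 h4 h5 h6 using fun i j => Flag.flag_open (d i) (T (i, Sum.inr j))
  have hA := h N d hd l hd0 (fun i j x hx => ⟨h1 i j x hx, ?_⟩) T hrel
    (fun i j => ⟨H i j, Y0 i j, h3 i j, h4 i j⟩)
  swap
  · obtain ⟨h7, m, hm, h8⟩ := heig i j _ (h2 i j x hx)
    refine ⟨h7, m, hm, Units.ext ?_⟩
    simpa using h8
  choose w hw using fun i => exists_wordDet_ne_zero (hirr i)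
  -- the map to families of blocks
  let φ : (Fin N × RelGen g s → G r) → ∀ z : Fin N × RelGen g s, G (d z.1) := fun σ z =>
    if hz : σ z ∈ GLk r (d z.1) then unemb r (d z.1) (hd z.1) (σ z) hz else 1
  have hφ2 : ∀ σ : Fin N × RelGen g s → G r, (∀ z : Fin N × RelGen g s, σ z ∈ GLk r (d z.1)) →
      ∀ z, emb r (d z.1) (hd z.1) (φ σ z) = σ z := by
    intro σ hσ z
    simp only [φ, dif_pos (hσ z)]
    exact emb_unemb _ _ _
  have hφ1 : φ (fun z => emb r (d z.1) (hd z.1) (T z)) = T := by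
    funext z
    apply emb_injective (hd z.1)
    exact hφ2 (fun z => emb r (d z.1) (hd z.1) (T z)) (fun z => emb_mem (hd z.1) (T z)) z
  -- polynomiality
  have hent : ∀ (z : Fin N × RelGen g s) (i j : Fin (d z.1)), ∀ σ ∈ S4 g s r d hd l,
      (φ σ z).1 i j = (σ z).1 (Fin.castLE (hd z.1) i) (Fin.castLE (hd z.1) j) ∧
      ((φ σ z)⁻¹).1 i j = ((σ z)⁻¹).1 (Fin.castLE (hd z.1) i) (Fin.castLE (hd z.1) j) := by
    intro z i j σ hσ
    have h7 : φ σ z = unemb r (d z.1) (hd z.1) (σ z) (hσ.1 z) := by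
      simp only [φ, dif_pos (hσ.1 z)]
    rw [h7]
    exact ⟨rfl, rfl⟩
  have hcomp : ∀ f ∈ Cal.PolFam (fun z : Fin N × RelGen g s => Fin (d z.1)),
      (fun σ => f (φ σ)) ∈ PolOn (S4 g s r d hd l) := by
    intro f hf
    refine Cal.comp_mem (κ := fun z : Fin N × RelGen g s => Fin (d z.1))
      (PolOn (S4 g s r d hd l)) φ (fun z i j => ?_) (fun z i j => ?_) hf
    · exact ⟨_, Pol.ent z (Fin.castLE (hd z.1) i) (Fin.castLE (hd z.1) j),
        fun σ hσ => (hent z i j σ hσ).1⟩
    · exact ⟨_, Pol.ient z (Fin.castLE (hd z.1) i) (Fin.castLE (hd z.1) j),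
        fun σ hσ => (hent z i j σ hσ).2⟩
  intro f hf hv
  -- the open conditions
  let A := Cal.PolFam (fun z : Fin N × RelGen g s => Fin (d z.1))
  let FD : Fin N → Fin s → (∀ z : Fin N × RelGen g s, G (d z.1)) → ℂ := fun i j T' =>
    eval (fun p : Fin (d i) × Fin (d i) => ((T' (i, Sum.inr j) : G (d i))).1 p.1 p.2) (D i j)
  let FW : Fin N → (∀ z : Fin N × RelGen g s, G (d z.1)) → ℂ := fun i T' =>
    (wordDet (fun v => ((T' (i, v) : G (d i))).1) (w i)).det
  have hFD : ∀ i j, FD i j ∈ A := fun i j =>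
    eval_mem A (fun (p : Fin (d i) × Fin (d i)) T' => ((T' (i, Sum.inr j) : G (d i))).1 p.1 p.2)
      (fun p => Cal.ent_mem (κ := fun z : Fin N × RelGen g s => Fin (d z.1)) (i, Sum.inr j)
        p.1 p.2) (D i j)
  have hFW : ∀ i, FW i ∈ A := by
    intro i
    refine det_mem A fun a b => ?_
    exact wordMat_mem A (S := fun (T' : ∀ z : Fin N × RelGen g s, G (d z.1)) (v : RelGen g s) =>
        ((T' (i, v) : G (d i))).1)
      (fun v x y => Cal.ent_mem (κ := fun z : Fin N × RelGen g s => Fin (d z.1)) (i, v) x y)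
      (w i a) b.1 b.2
  have hF : f * (∏ i, (∏ j, FD i j) * FW i) ∈ A :=
    A.mul_mem hf (A.prod_mem fun i _ => A.mul_mem (A.prod_mem fun j _ => hFD i j) (hFW i))
  obtain ⟨F', hF', hF1⟩ := hcomp _ hF
  have hF1' : ∀ σ ∈ S4 g s r d hd l, (f * (∏ i, (∏ j, FD i j) * FW i)) (φ σ) = F' σ := hF1
  have hT0 : (fun z => emb r (d z.1) (hd z.1) (T z)) ∈ S4 g s r d hd l := by
    refine ⟨fun z => emb_mem _ _, fun i => ?_, fun i j => ⟨H i j, Y0 i j, h3 i j, ?_⟩⟩
    · exact RelG_map (emb r (d i) (hd i)) (fun v => (T (i, v) : G (d i))) (hrel i)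
    · show emb r (d i) (hd i) (T (i, Sum.inr j)) = _
      rw [h4 i j]
  have h7 := hA F' hF' fun σ hσ hσ' => ?_
  · rw [← hF1' _ hT0, hφ1] at h7
    rw [Pi.mul_apply] at h7
    refine (mul_eq_zero.1 h7).resolve_right ?_
    rw [Finset.prod_apply]
    refine Finset.prod_ne_zero_iff.2 fun i _ => ?_
    rw [Pi.mul_apply, Finset.prod_apply]
    refine mul_ne_zero (Finset.prod_ne_zero_iff.2 fun j _ => h5 i j) (hw i)
  · rw [← hF1' σ hσ, Pi.mul_apply]
    by_cases h0 : (∏ i, (∏ j, FD i j) * FW i) (φ σ) = 0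
    · rw [h0, mul_zero]
    · rw [Finset.prod_apply] at h0
      replace h0 := Finset.prod_ne_zero_iff.1 h0
      rw [hv (φ σ) ?_, zero_mul]
      have h8 : ∀ i, (∀ j, FD i j (φ σ) ≠ 0) ∧ FW i (φ σ) ≠ 0 := by
        intro i
        have := h0 i (Finset.mem_univ i)
        rw [Pi.mul_apply, Finset.prod_apply] at this
        have h9 := mul_ne_zero_iff.1 this
        exact ⟨fun j => Finset.prod_ne_zero_iff.1 h9.1 j (Finset.mem_univ j), h9.2⟩
      refine ⟨fun i => ?_, fun i j => ?_, fun i => ?_, fun z => ?_⟩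
      · -- the relation
        have h9 := hσ.2.1 i
        have h10 : RelG g s fun v => emb r (d i) (hd i) (φ σ (i, v) : G (d i)) := by
          have : (fun v => emb r (d i) (hd i) (φ σ (i, v) : G (d i))) = fun v => σ (i, v) := by
            funext v
            exact hφ2 σ hσ.1 (i, v)
          rw [this]; exact h9
        unfold RelG at h10 ⊢
        apply emb_injective (hd i)
        rw [map_one, ← h10, map_mul, map_list_prod, map_list_prod, List.map_map, List.map_map]
        simp only [Function.comp_def, map_mul, map_inv]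
      · obtain ⟨h', Y', hY', hX'⟩ := hσ.2.2 i j
        have h9 : (φ σ (i, Sum.inr j) : G (d i)) = h' * Y' * h'⁻¹ := by
          apply emb_injective (hd i)
          rw [← hX']
          exact hφ2 σ hσ.1 (i, Sum.inr j)
        exact h6 i j _ h' Y' hY' h9 ((h8 i).1 j)
      · have : Nonempty (Fin (d i)) := ⟨⟨0, hd0 i⟩⟩
        exact MIrr_of_wordDet_ne_zero (w i) (h8 i).2
      · have h9 := hσ' z (Set.mem_univ z)
        rw [← hφ2 σ hσ.1 z, emb_GO] at h9
        exact h9

end Crest.Agent.R003.Wire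
end
end

-- ▼ part R003/Final638
section

/-!
# The final assembly (row 3, helper638): S0003 from the elimination theorem, the closed surface
statements and the system of Part 4.
-/

set_option autoImplicit false

open Crest.NumberTheoryR.CharVarRel MvPolynomial

noncomputable section

namespace Crest.Agent.R003.Wire

open Nrm Semi Matrix

variable {g s r : ℕ}

theorem good_OO (K : Subfield ℂ) (n : ℕ) : Good (OO (rootField K n)) :=
  ⟨u0, u0_mem K n, u0_inv_mem K n, fun _ hm => u0_pow_ne_one hm⟩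

/-- **S0003** from `BlockAppr`. -/
theorem result_of_blockAppr (hr : 1 ≤ r)
    (c : Fin s → Matrix.SpecialLinearGroup (Fin r) ℂ) (hc : ∀ j, IsQuasiUnipotent (c j))
    (K : Subfield ℂ)
    (hcK : ∀ j, ∀ μ : ℂ, (c j).1.charpoly.IsRoot μ → μ ∈ K) (n : ℕ)
    (hBA : BlockAppr (OO (rootField K n)) g s r)
    (f : MvPolynomial (RelVar g s r) ℂ) (hf : IsConjInvariantRel f)
    (hvan : ∀ T : RelGen g s → Matrix.SpecialLinearGroup (Fin r) ℂ, IsRelSurfaceRep g s r T →
      IsSemisimpleRep T → HasBoundaryClasses c T →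
      IsIntegrallyValuedIn (unitRootField (rootField K n) r) T → evalRep f T = 0)
    (T : RelGen g s → Matrix.SpecialLinearGroup (Fin r) ℂ) (hT : IsRelSurfaceRep g s r T)
    (hss : IsSemisimpleRep T) (hcl : HasBoundaryClasses c T) :
    evalRep f T = 0 := by
  obtain ⟨P, hP⟩ := hd_of_blockAppr (OO (rootField K n)) hBA c (fun j μ hμ => by
    obtain ⟨m, hm, h1⟩ := hc j μ hμ
    exact ⟨(rootOfUnity_mem (K_le_rootField K n (hcK j μ hμ)) hm h1).1, m, hm, h1⟩)
    T ((isRelSurfaceRep_iff T).1 hT) hss hcl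
  exact finish hr c (rootField K n) f hf hvan T P hP

/-- **S0003** from the three remaining inputs. -/
theorem result_of_three (hr : 1 ≤ r)
    (c : Fin s → Matrix.SpecialLinearGroup (Fin r) ℂ) (hc : ∀ j, IsQuasiUnipotent (c j))
    (K : Subfield ℂ)
    (hcK : ∀ j, ∀ μ : ℂ, (c j).1.charpoly.IsRoot μ → μ ∈ K) (n : ℕ)
    (hE : ElimStatement (OO (rootField K n)) r (r + 1))
    (hC : ∀ k, k ≤ r → Closed (OO (rootField K n)) k)
    (hS4 : ∀ O : Subring ℂ, ElimStatement O r (r + 1) → Good O → (∀ k < r + 1, Closed O k) →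
      Sys4Stmt O g s r)
    (f : MvPolynomial (RelVar g s r) ℂ) (hf : IsConjInvariantRel f)
    (hvan : ∀ T : RelGen g s → Matrix.SpecialLinearGroup (Fin r) ℂ, IsRelSurfaceRep g s r T →
      IsSemisimpleRep T → HasBoundaryClasses c T →
      IsIntegrallyValuedIn (unitRootField (rootField K n) r) T → evalRep f T = 0)
    (T : RelGen g s → Matrix.SpecialLinearGroup (Fin r) ℂ) (hT : IsRelSurfaceRep g s r T)
    (hss : IsSemisimpleRep T) (hcl : HasBoundaryClasses c T) :
    evalRep f T = 0 :=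
  result_of_blockAppr hr c hc K hcK n
    (blockAppr_of_sys4 (hS4 _ hE (good_OO K n) fun k hk => hC k (by omega))) f hf hvan T hT hss hcl

end Crest.Agent.R003.Wire
end
end

-- ▼ part R003/Sys4_452
section

/-!
# Row 3: the system of Part 4 (helper452)
-/

set_option autoImplicit false

open Crest.NumberTheoryR.CharVarRel

namespace Crest.Agent.R003.Sys4

/-! ### names -/

/-- name encoding: tag, component, index, level -/
def nm (a i j t : ℕ) : ℕ := Nat.pair a (Nat.pair i (Nat.pair j t))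

theorem nm_inj {a i j t a' i' j' t' : ℕ} (h : nm a i j t = nm a' i' j' t') :
    a = a' ∧ i = i' ∧ j = j' ∧ t = t' := by
  unfold nm at h
  rw [Nat.pair_eq_pair, Nat.pair_eq_pair, Nat.pair_eq_pair] at h
  exact h

/-- decoding -/
def dec (x : ℕ) : ℕ × ℕ × ℕ × ℕ :=
  (x.unpair.1, x.unpair.2.unpair.1, x.unpair.2.unpair.2.unpair.1, x.unpair.2.unpair.2.unpair.2)

theorem dec_nm (a i j t : ℕ) : dec (nm a i j t) = (a, i, j, t) := by
  unfold dec nm
  simp only [Nat.unpair_pair]

/-! ### compositions -/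

/-- total size of a composition -/
def sz (μ : List (ℕ × ℂˣ)) : ℕ := (μ.map Prod.fst).sum

@[simp] theorem sz_nil : sz [] = 0 := rfl
@[simp] theorem sz_cons (m : ℕ) (a : ℂˣ) (μ : List (ℕ × ℂˣ)) : sz ((m, a) :: μ) = m + sz μ := rfl

/-- labels: `m` zeros followed by `k` ones -/
def lb (m k : ℕ) : List Bool := List.replicate m false ++ List.replicate k true

@[simp] theorem lb_length (m k : ℕ) : (lb m k).length = m + k := by simp [lb]
@[simp] theorem lb_count_false (m k : ℕ) : (lb m k).count false = m := by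
  simp [lb, List.count_replicate]
@[simp] theorem lb_count_true (m k : ℕ) : (lb m k).count true = k := by
  simp [lb, List.count_replicate]

/-- block upper triangular with scalar diagonal blocks -/
def InLU (n : ℕ) : List (ℕ × ℂˣ) → G n → Prop
  | [], p => p = 1
  | (m, a) :: μ, p => ∃ q, InLU n μ q ∧
      IsPar (lb m (sz μ)) (lb m (sz μ)) (fun b => if b then q else scal n m a) p

/-- the P-word of a composition at level `t` -/
def LL (i j t : ℕ) : List (ℕ × ℂˣ) → Wd
  | [] => []
  | (m, _) :: μ => [Lt.par (nm 5 i j t) [] (fun _ _ => 1) (lb m (sz μ)) (lb m (sz μ))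
      (fun b => if b then nm 4 i j t else nm 3 i j t)]

/-- the chain of roots of a composition at level `t` -/
def ch (i j : ℕ) : ℕ → List (ℕ × ℂˣ) → List Root
  | _, [] => []
  | t, (m, a) :: μ => ⟨m, a, [Lt.full (nm 3 i j t) false]⟩ ::
      ⟨sz μ, 1, LL i j (t + 1) μ ++ [Lt.full (nm 4 i j t) false]⟩ :: ch i j (t + 1) μ

variable {n : ℕ}

theorem dsg_nil (c : List Bool) (σ : Bool → Bool → ℂˣ) : dsg n [] c σ = 1 := by
  apply Units.ext
  show Matrix.diagonal _ = (1 : Matrix (Fin n) (Fin n) ℂ)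
  rw [← Matrix.diagonal_one]
  congr 1

theorem eval_nil (ρ : ℕ → G n) : Wd.eval ρ [] = 1 := rfl
theorem eval_cons (ρ : ℕ → G n) (l : Lt) (w : Wd) : Wd.eval ρ (l :: w) = l.eval ρ * Wd.eval ρ w := by
  simp [Wd.eval]
theorem eval_append (ρ : ℕ → G n) (w w' : Wd) :
    Wd.eval ρ (w ++ w') = Wd.eval ρ w * Wd.eval ρ w' := by
  simp [Wd.eval]

theorem eval_LL_cons (ρ : ℕ → G n) (i j t m : ℕ) (a : ℂˣ) (μ : List (ℕ × ℂˣ)) :
    Wd.eval ρ (LL i j t ((m, a) :: μ)) = ρ (nm 5 i j t) := by
  rw [LL, eval_cons, eval_nil, mul_one]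
  show dsg n [] _ _ * ρ (nm 5 i j t) = _
  rw [dsg_nil, one_mul]

theorem ch_sol (ρ : ℕ → G n) (i j : ℕ) (μ : List (ℕ × ℂˣ)) : ∀ t : ℕ,
    (∀ R ∈ ch i j t μ, Root.Sol R ρ) → Wd.Sat ρ (LL i j t μ) (sz μ) →
    InLU n μ (Wd.eval ρ (LL i j t μ)) := by
  induction μ with
  | nil => intro t _ _; rfl
  | cons ma μ ih =>
    obtain ⟨m, a⟩ := ma
    intro t h1 h2
    have r1 := h1 _ (List.mem_cons_self ..)
    have r2 := h1 _ (List.mem_cons_of_mem _ (List.mem_cons_self ..))
    have r3 : ∀ R ∈ ch i j (t + 1) μ, Root.Sol R ρ := fun R hR =>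
      h1 R (List.mem_cons_of_mem _ (List.mem_cons_of_mem _ hR))
    have e1 : ρ (nm 3 i j t) = scal n m a := by
      have := r1.2
      simp only [eval_cons, eval_nil, mul_one] at this
      have h3 : scal n m a * (ρ (nm 3 i j t))⁻¹ = 1 := this
      exact (mul_inv_eq_one.1 h3).symm
    have e2 : ρ (nm 4 i j t) = Wd.eval ρ (LL i j (t + 1) μ) := by
      have := r2.2
      simp only [eval_append, eval_cons, eval_nil, mul_one, scal_one, one_mul] at this
      have h3 : Wd.eval ρ (LL i j (t + 1) μ) * (ρ (nm 4 i j t))⁻¹ = 1 := this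
      exact (mul_inv_eq_one.1 h3).symm
    have s2 : Wd.Sat ρ (LL i j (t + 1) μ) (sz μ) := fun l hl =>
      r2.1 l (List.mem_append_left _ hl)
    refine ⟨_, ih (t + 1) r3 s2, ?_⟩
    rw [eval_LL_cons]
    have h3 := h2 (Lt.par (nm 5 i j t) [] (fun _ _ => 1) (lb m (sz μ)) (lb m (sz μ))
      (fun b => if b then nm 4 i j t else nm 3 i j t)) (List.mem_singleton_self _)
    have h4 : IsPar (lb m (sz μ)) (lb m (sz μ))
      (fun b => ρ (if b then nm 4 i j t else nm 3 i j t)) (ρ (nm 5 i j t)) := h3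
    convert h4 using 1
    funext b
    cases b <;> simp [e1, e2]

theorem ch_exists (i j : ℕ) (μ : List (ℕ × ℂˣ)) : ∀ (t : ℕ) (p : G n), InLU n μ p →
    ∃ f3 f4 f5 : ℕ → G n, ∀ ρ : ℕ → G n, (∀ t', t ≤ t' → ρ (nm 3 i j t') = f3 t' ∧
      ρ (nm 4 i j t') = f4 t' ∧ ρ (nm 5 i j t') = f5 t') →
      (∀ R ∈ ch i j t μ, Root.Sol R ρ) ∧ Wd.Sat ρ (LL i j t μ) (sz μ) ∧
        Wd.eval ρ (LL i j t μ) = p := by
  induction μ with
  | nil =>
    intro t p hp
    refine ⟨fun _ => 1, fun _ => 1, fun _ => 1, fun ρ _ => ⟨?_, ?_, ?_⟩⟩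
    · intro R hR; simp [ch] at hR
    · intro l hl; simp [LL] at hl
    · rw [LL, eval_nil]; exact hp.symm
  | cons ma μ ih =>
    obtain ⟨m, a⟩ := ma
    intro t p hp
    obtain ⟨q, hq, hpar⟩ := hp
    obtain ⟨f3, f4, f5, hf⟩ := ih (t + 1) q hq
    refine ⟨Function.update f3 t (scal n m a), Function.update f4 t q, Function.update f5 t p,
      fun ρ hρ => ?_⟩
    obtain ⟨e3, e4, e5⟩ := hρ t le_rfl
    rw [Function.update_self] at e3 e4 e5
    obtain ⟨g1, g2, g3⟩ := hf ρ (fun t' ht' => by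
      have := hρ t' (by omega)
      rwa [Function.update_of_ne (by omega), Function.update_of_ne (by omega),
        Function.update_of_ne (by omega)] at this)
    have hblk := hpar.blk
    refine ⟨?_, ?_, ?_⟩
    · intro R hR
      rcases List.mem_cons.1 hR with rfl | hR
      · refine ⟨fun l hl => ?_, ?_⟩
        · rw [List.mem_singleton.1 hl]
          show ρ (nm 3 i j t) ∈ GLk n m
          rw [e3]
          exact scal_mem_GLk le_rfl a
        · show scal n m a * Wd.eval ρ [Lt.full (nm 3 i j t) false] = 1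
          rw [eval_cons, eval_nil, mul_one]
          show scal n m a * (ρ (nm 3 i j t))⁻¹ = 1
          rw [e3, mul_inv_cancel]
      rcases List.mem_cons.1 hR with rfl | hR
      · refine ⟨fun l hl => ?_, ?_⟩
        · rcases List.mem_append.1 hl with hl | hl
          · exact g2 l hl
          · rw [List.mem_singleton.1 hl]
            show ρ (nm 4 i j t) ∈ GLk n (sz μ)
            rw [e4]
            have := hblk true
            simpa using this
        · show scal n (sz μ) 1 * Wd.eval ρ (LL i j (t + 1) μ ++ [Lt.full (nm 4 i j t) false]) = 1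
          rw [eval_append, eval_cons, eval_nil, mul_one, g3, scal_one, one_mul]
          show q * (ρ (nm 4 i j t))⁻¹ = 1
          rw [e4, mul_inv_cancel]
      · exact g1 R hR
    · intro l hl
      have hl' := List.mem_singleton.1 hl
      rw [hl']
      show IsPar (lb m (sz μ)) (lb m (sz μ))
        (fun b => ρ (if b then nm 4 i j t else nm 3 i j t)) (ρ (nm 5 i j t))
      rw [e5]
      convert hpar using 1
      funext b
      cases b <;> simp [e3, e4]
    · rw [eval_LL_cons, e5]

/-! ### the system -/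

section system
variable (g s N : ℕ) (d : Fin N → ℕ) (comp : Fin N → Fin s → List (ℕ × ℂˣ))

/-- the handle part of the word of the component `i` -/
def hW (i : ℕ) : Wd := (List.finRange g).flatMap fun (k : Fin g) =>
  [Lt.full (nm 0 i k 0) true, Lt.full (nm 1 i k 0) true, Lt.full (nm 0 i k 0) false,
    Lt.full (nm 1 i k 0) false]

/-- the boundary part of the word of the component `i` -/
def bW (i : ℕ) (c : Fin s → List (ℕ × ℂˣ)) : Wd := (List.finRange s).flatMap fun (j : Fin s) =>
  Lt.full (nm 2 i j 0) true :: (LL i j 0 (c j) ++ [Lt.full (nm 2 i j 0) false])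

/-- the main root of the component `i` -/
def RT (i : Fin N) : Root := ⟨d i, 1, hW g i ++ bW s i (comp i)⟩

/-- the system -/
def SY : Sys := ⟨(List.finRange N).flatMap fun (i : Fin N) => RT g s N d comp i ::
  (List.finRange s).flatMap fun (j : Fin s) => ch i j 0 (comp i j), []⟩

end system

/-! ### occurrences -/

/-- both signs -/
def pm (V : Multiset (ℕ × ℕ)) : Multiset (ℕ × ℕ × Bool) :=
  V.map (fun v => (v.1, v.2, true)) + V.map (fun v => (v.1, v.2, false))

theorem pm_add (A B : Multiset (ℕ × ℕ)) : pm (A + B) = pm A + pm B := by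
  unfold pm; rw [Multiset.map_add, Multiset.map_add]; abel


theorem pm_sum {α : Type*} (l : List α) (f : α → Multiset (ℕ × ℕ)) :
    pm (l.map f).sum = (l.map fun a => pm (f a)).sum := by
  induction l with
  | nil => rfl
  | cons a l ih => simp only [List.map_cons, List.sum_cons, pm_add, ih]

theorem sum_flatMap {α β M : Type*} [AddCommMonoid M] (l : List α) (f : α → List β) (φ : β → M) :
    ((l.flatMap f).map φ).sum = (l.map fun a => ((f a).map φ).sum).sum := by
  induction l with
  | nil => rfl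
  | cons a l ih => simp only [List.flatMap_cons, List.map_append, List.sum_append, List.map_cons,
      List.sum_cons, ih]

/-- the full names of a chain -/
def Vc (i j : ℕ) : ℕ → List (ℕ × ℂˣ) → Multiset (ℕ × ℕ)
  | _, [] => 0
  | t, (m, _) :: μ => {(nm 3 i j t, m)} + {(nm 4 i j t, sz μ)} + Vc i j (t + 1) μ

/-- the P-names of a chain -/
def Pc (i j : ℕ) : ℕ → List (ℕ × ℂˣ) → Multiset ℕ
  | _, [] => 0
  | t, _ :: μ => {nm 5 i j t} + Pc i j (t + 1) μ

theorem occ_app (w w' : Wd) (k : ℕ) : Wd.occ (w ++ w') k = Wd.occ w k + Wd.occ w' k := by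
  simp [Wd.occ]

theorem occ_full1 (x : ℕ) (ε : Bool) (k : ℕ) : Wd.occ [Lt.full x ε] k = {(x, k, ε)} := by
  simp [Wd.occ, Lt.occ]

theorem pn_app (w w' : Wd) : Wd.pn (w ++ w') = Wd.pn w + Wd.pn w' := by
  simp [Wd.pn]

theorem pn_full1 (x : ℕ) (ε : Bool) : Wd.pn [Lt.full x ε] = 0 := by
  simp [Wd.pn, Lt.pn]

theorem occ_chain (i j : ℕ) (μ : List (ℕ × ℂˣ)) : ∀ t,
    Wd.occ (LL i j t μ) (sz μ) + ((ch i j t μ).map Root.occ).sum = pm (Vc i j t μ) := by
  induction μ with
  | nil => intro t; simp [LL, ch, Vc, pm, Wd.occ]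
  | cons ma μ ih =>
    obtain ⟨m, a⟩ := ma
    intro t
    have h1 : Wd.occ (LL i j t ((m, a) :: μ)) (sz ((m, a) :: μ)) =
        {(nm 3 i j t, m, true)} + {(nm 4 i j t, sz μ, true)} := by
      simp only [LL, Wd.occ, List.map_cons, List.map_nil, List.sum_cons, List.sum_nil, Lt.occ,
        lb_count_false, lb_count_true, if_true, Bool.false_eq_true, if_false, add_zero]
      rfl
    rw [h1, ch, List.map_cons, List.map_cons, List.sum_cons, List.sum_cons, Vc, pm_add, pm_add,
      ← ih (t + 1)]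
    have h2 : Root.occ ⟨m, a, [Lt.full (nm 3 i j t) false]⟩ = {(nm 3 i j t, m, false)} :=
      occ_full1 _ _ _
    have h3 : Root.occ ⟨sz μ, 1, LL i j (t + 1) μ ++ [Lt.full (nm 4 i j t) false]⟩ =
        Wd.occ (LL i j (t + 1) μ) (sz μ) + {(nm 4 i j t, sz μ, false)} := by
      show Wd.occ _ _ = _
      rw [occ_app, occ_full1]
    rw [h2, h3]
    have h4 : pm {(nm 3 i j t, m)} = {(nm 3 i j t, m, true)} + {(nm 3 i j t, m, false)} := rfl
    have h5 : pm {(nm 4 i j t, sz μ)} = {(nm 4 i j t, sz μ, true)} + {(nm 4 i j t, sz μ, false)} :=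
      rfl
    rw [h4, h5]
    abel

theorem pn_chain (i j : ℕ) (μ : List (ℕ × ℂˣ)) : ∀ t,
    Wd.pn (LL i j t μ) + ((ch i j t μ).map Root.pn).sum = Pc i j t μ := by
  induction μ with
  | nil => intro t; simp [LL, ch, Pc, Wd.pn]
  | cons ma μ ih =>
    obtain ⟨m, a⟩ := ma
    intro t
    have h1 : Wd.pn (LL i j t ((m, a) :: μ)) = {nm 5 i j t} := by
      simp [LL, Wd.pn, Lt.pn]
    rw [h1, ch, List.map_cons, List.map_cons, List.sum_cons, List.sum_cons, Pc, ← ih (t + 1)]
    have h2 : Root.pn ⟨m, a, [Lt.full (nm 3 i j t) false]⟩ = 0 := pn_full1 _ _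
    have h3 : Root.pn ⟨sz μ, 1, LL i j (t + 1) μ ++ [Lt.full (nm 4 i j t) false]⟩ =
        Wd.pn (LL i j (t + 1) μ) := by
      show Wd.pn _ = _
      rw [pn_app, pn_full1, add_zero]
    rw [h2, h3]
    abel

/-- all full names of the system -/
def VV (g s N : ℕ) (d : Fin N → ℕ) (comp : Fin N → Fin s → List (ℕ × ℂˣ)) : Multiset (ℕ × ℕ) :=
  ((List.finRange N).map fun (i : Fin N) =>
    ((List.finRange g).map fun (k : Fin g) => ({(nm 0 i k 0, d i)} + {(nm 1 i k 0, d i)} :
      Multiset (ℕ × ℕ))).sum +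
    ((List.finRange s).map fun (j : Fin s) => ({(nm 2 i j 0, d i)} + Vc i j 0 (comp i j) :
      Multiset (ℕ × ℕ))).sum).sum

/-- all P-names of the system -/
def PP (s N : ℕ) (comp : Fin N → Fin s → List (ℕ × ℂˣ)) : Multiset ℕ :=
  ((List.finRange N).map fun (i : Fin N) => ((List.finRange s).map fun (j : Fin s) => Pc i j 0 (comp i j)).sum).sum

theorem sum_map_add' {α M : Type*} [AddCommMonoid M] (l : List α) (f h : α → M) :
    (l.map f).sum + (l.map h).sum = (l.map fun a => f a + h a).sum := by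
  induction l with
  | nil => simp
  | cons a l ih =>
    simp only [List.map_cons, List.sum_cons, ← ih]
    abel

section system
variable {g s N : ℕ} {d : Fin N → ℕ} {comp : Fin N → Fin s → List (ℕ × ℂˣ)}

theorem occ_SY (hd : ∀ i j, sz (comp i j) = d i) :
    (SY g s N d comp).occ = pm (VV g s N d comp) := by
  unfold SY Sys.occ VV
  rw [sum_flatMap, pm_sum]
  congr 1
  refine List.map_congr_left fun i _ => ?_
  rw [List.map_cons, List.sum_cons, pm_add, pm_sum, pm_sum]
  have h1 : Root.occ (RT g s N d comp i) = Wd.occ (hW g i) (d i) + Wd.occ (bW s i (comp i)) (d i) :=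
    occ_app _ _ _
  rw [h1, add_assoc]
  congr 1
  · unfold hW Wd.occ
    rw [sum_flatMap]
    congr 1
  · unfold bW Wd.occ
    rw [sum_flatMap, sum_flatMap, sum_map_add']
    congr 1
    refine List.map_congr_left fun j _ => ?_
    have h2 := occ_chain i j (comp i j) 0
    rw [hd i j] at h2
    rw [pm_add, ← h2]
    simp only [List.map_cons, List.map_nil, List.map_append, List.sum_append, List.sum_cons,
      List.sum_nil, Lt.occ, Wd.occ]
    have h4 : pm {(nm 2 i j 0, d i)} = {(nm 2 i j 0, d i, true)} + {(nm 2 i j 0, d i, false)} := rfl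
    rw [h4]
    abel

theorem pn_SY : (SY g s N d comp).pn = PP s N comp := by
  unfold SY Sys.pn PP
  rw [sum_flatMap]
  congr 1
  refine List.map_congr_left fun i _ => ?_
  rw [List.map_cons, List.sum_cons]
  have h1 : Root.pn (RT g s N d comp i) = Wd.pn (hW g i) + Wd.pn (bW s i (comp i)) :=
    pn_app _ _
  have h0 : Wd.pn (hW g i) = 0 := by
    unfold hW Wd.pn
    rw [sum_flatMap]
    refine List.sum_eq_zero fun x hx => ?_
    obtain ⟨k, _, rfl⟩ := List.mem_map.1 hx
    simp [Lt.pn]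
  rw [h1, h0, zero_add]
  unfold bW Wd.pn
  rw [sum_flatMap, sum_flatMap, sum_map_add']
  congr 1
  refine List.map_congr_left fun j _ => ?_
  rw [← pn_chain i j (comp i j) 0]
  simp [Lt.pn, Wd.pn]

/-! ### nodup -/

theorem nodup_sum {α : Type*} (l : List α) (hl : l.Nodup) (f : α → Multiset ℕ) (φ : ℕ → ℕ)
    (ψ : α → ℕ) (hψ : Function.Injective ψ) (h1 : ∀ a ∈ l, (f a).Nodup)
    (h2 : ∀ a ∈ l, ∀ x ∈ f a, φ x = ψ a) : (l.map f).sum.Nodup := by
  induction l with
  | nil => simp
  | cons a l ih =>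
    rw [List.map_cons, List.sum_cons, Multiset.nodup_add]
    rw [List.nodup_cons] at hl
    refine ⟨h1 a (List.mem_cons_self ..), ih hl.2 (fun b hb => h1 b (List.mem_cons_of_mem _ hb))
      (fun b hb => h2 b (List.mem_cons_of_mem _ hb)), ?_⟩
    rw [Multiset.disjoint_left]
    intro x hx hx'
    have h3 := h2 a (List.mem_cons_self ..) x hx
    have h4 : ∃ b ∈ l, x ∈ f b := by
      clear ih hl h1 h2 h3 hx
      induction l with
      | nil => simp at hx'
      | cons b l ih =>
        rw [List.map_cons, List.sum_cons, Multiset.mem_add] at hx'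
        rcases hx' with hx' | hx'
        · exact ⟨b, List.mem_cons_self .., hx'⟩
        · obtain ⟨b', hb', h⟩ := ih hx'
          exact ⟨b', List.mem_cons_of_mem _ hb', h⟩
    obtain ⟨b, hb, hxb⟩ := h4
    have h5 := h2 b (List.mem_cons_of_mem _ hb) x hxb
    have h6 : a = b := hψ (h3.symm.trans h5)
    exact hl.1 (h6 ▸ hb)

theorem mem_list_sum {α β : Type*} {l : List α} {f : α → Multiset β} {x : β} :
    x ∈ (l.map f).sum ↔ ∃ a ∈ l, x ∈ f a := by
  induction l with
  | nil => simp
  | cons a l ih => simp [ih]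

theorem mem_Vc {i j : ℕ} (μ : List (ℕ × ℂˣ)) : ∀ {t x}, x ∈ (Vc i j t μ).map Prod.fst →
    ∃ a t', (a = 3 ∨ a = 4) ∧ t ≤ t' ∧ x = nm a i j t' := by
  induction μ with
  | nil => intro t x hx; simp [Vc] at hx
  | cons ma μ ih =>
    intro t x hx
    rw [Vc, Multiset.map_add, Multiset.map_add, Multiset.mem_add, Multiset.mem_add] at hx
    rcases hx with (hx | hx) | hx
    · exact ⟨3, t, Or.inl rfl, le_rfl, by simpa using hx⟩
    · exact ⟨4, t, Or.inr rfl, le_rfl, by simpa using hx⟩
    · obtain ⟨a, t', h1, h2, h3⟩ := ih hx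
      exact ⟨a, t', h1, by omega, h3⟩

theorem nodup_Vc (i j : ℕ) (μ : List (ℕ × ℂˣ)) : ∀ t, ((Vc i j t μ).map Prod.fst).Nodup := by
  induction μ with
  | nil => intro t; simp [Vc]
  | cons ma μ ih =>
    intro t
    rw [Vc, Multiset.map_add, Multiset.map_add, Multiset.nodup_add]
    refine ⟨?_, ih (t + 1), ?_⟩
    · rw [Multiset.nodup_add]
      refine ⟨by simp, by simp, ?_⟩
      rw [Multiset.disjoint_left]
      intro x hx hx'
      simp only [Multiset.map_singleton, Multiset.mem_singleton] at hx hx'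
      have := (nm_inj (hx.symm.trans hx')).1
      omega
    · rw [Multiset.disjoint_left]
      intro x hx hx'
      obtain ⟨a, t', _, h2, h3⟩ := mem_Vc μ hx'
      rw [Multiset.mem_add] at hx
      rcases hx with hx | hx <;>
      · simp only [Multiset.map_singleton, Multiset.mem_singleton] at hx
        have := (nm_inj (hx.symm.trans h3)).2.2.2
        omega

theorem mem_Pc {i j : ℕ} (μ : List (ℕ × ℂˣ)) : ∀ {t x}, x ∈ Pc i j t μ →
    ∃ t', t ≤ t' ∧ x = nm 5 i j t' := by
  induction μ with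
  | nil => intro t x hx; simp [Pc] at hx
  | cons ma μ ih =>
    intro t x hx
    rw [Pc, Multiset.mem_add] at hx
    rcases hx with hx | hx
    · exact ⟨t, le_rfl, by simpa using hx⟩
    · obtain ⟨t', h2, h3⟩ := ih hx
      exact ⟨t', by omega, h3⟩

theorem nodup_Pc (i j : ℕ) (μ : List (ℕ × ℂˣ)) : ∀ t, (Pc i j t μ).Nodup := by
  induction μ with
  | nil => intro t; simp [Pc]
  | cons ma μ ih =>
    intro t
    rw [Pc, Multiset.nodup_add]
    refine ⟨by simp, ih (t + 1), ?_⟩
    rw [Multiset.disjoint_left]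
    intro x hx hx'
    obtain ⟨t', h2, h3⟩ := mem_Pc μ hx'
    simp only [Multiset.mem_singleton] at hx
    have := (nm_inj (hx.symm.trans h3)).2.2.2
    omega

theorem nodup_PP : (PP s N comp).Nodup := by
  unfold PP
  refine nodup_sum _ (List.nodup_finRange N) _ (fun x => (dec x).2.1) (fun i => i.1)
    Fin.val_injective (fun i _ => ?_) (fun i _ x hx => ?_)
  · refine nodup_sum _ (List.nodup_finRange s) _ (fun x => (dec x).2.2.1) (fun i => i.1)
      Fin.val_injective (fun j _ => nodup_Pc _ _ _ _) (fun j _ x hx => ?_)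
    obtain ⟨t', _, rfl⟩ := mem_Pc _ hx
    rw [dec_nm]
  · obtain ⟨j, _, hx⟩ := mem_list_sum.1 hx
    obtain ⟨t', _, rfl⟩ := mem_Pc _ hx
    rw [dec_nm]

theorem map_list_sum' {α β γ : Type*} (l : List α) (f : α → Multiset β) (h : β → γ) :
    ((l.map f).sum).map h = (l.map fun a => (f a).map h).sum := by
  induction l with
  | nil => simp
  | cons a l ih => simp [ih]

theorem nodup_VV : ((VV g s N d comp).map Prod.fst).Nodup := by
  unfold VV
  rw [map_list_sum']
  have hA : ∀ (i : Fin N) (x : ℕ), x ∈ (((List.finRange g).map fun k : Fin g =>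
      ({(nm 0 i k 0, d i)} + {(nm 1 i k 0, d i)} : Multiset (ℕ × ℕ))).sum).map Prod.fst →
      ∃ (a : ℕ) (k : Fin g), a ≤ 1 ∧ x = nm a i k 0 := by
    intro i x hx
    rw [map_list_sum'] at hx
    obtain ⟨k, _, hx⟩ := mem_list_sum.1 hx
    rw [Multiset.map_add, Multiset.mem_add] at hx
    rcases hx with hx | hx
    · exact ⟨0, k, by omega, by simpa using hx⟩
    · exact ⟨1, k, by omega, by simpa using hx⟩
  have hB : ∀ (i : Fin N) (j : Fin s) (x : ℕ), x ∈ (({(nm 2 i j 0, d i)} + Vc i j 0 (comp i j) :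
      Multiset (ℕ × ℕ))).map Prod.fst → ∃ (a t : ℕ), 2 ≤ a ∧ x = nm a i j t := by
    intro i j x hx
    rw [Multiset.map_add, Multiset.mem_add] at hx
    rcases hx with hx | hx
    · exact ⟨2, 0, by omega, by simpa using hx⟩
    · obtain ⟨a, t', h1, _, h3⟩ := mem_Vc _ hx
      exact ⟨a, t', by omega, h3⟩
  refine nodup_sum _ (List.nodup_finRange N) _ (fun x => (dec x).2.1) (fun i => i.1)
    Fin.val_injective (fun i _ => ?_) (fun i _ x hx => ?_)
  · rw [Multiset.map_add, Multiset.nodup_add]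
    refine ⟨?_, ?_, ?_⟩
    · rw [map_list_sum']
      refine nodup_sum _ (List.nodup_finRange g) _ (fun x => (dec x).2.2.1) (fun i => i.1)
        Fin.val_injective (fun k _ => ?_) (fun k _ x hx => ?_)
      · rw [Multiset.map_add, Multiset.nodup_add]
        refine ⟨by simp, by simp, ?_⟩
        rw [Multiset.disjoint_left]
        intro x hx hx'
        simp only [Multiset.map_singleton, Multiset.mem_singleton] at hx hx'
        have := (nm_inj (hx.symm.trans hx')).1
        omega
      · rw [Multiset.map_add, Multiset.mem_add] at hx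
        rcases hx with hx | hx <;>
        · simp only [Multiset.map_singleton, Multiset.mem_singleton] at hx
          rw [hx, dec_nm]
    · rw [map_list_sum']
      refine nodup_sum _ (List.nodup_finRange s) _ (fun x => (dec x).2.2.1) (fun i => i.1)
        Fin.val_injective (fun j _ => ?_) (fun j _ x hx => ?_)
      · rw [Multiset.map_add, Multiset.nodup_add]
        refine ⟨by simp, nodup_Vc _ _ _ _, ?_⟩
        rw [Multiset.disjoint_left]
        intro x hx hx'
        simp only [Multiset.map_singleton, Multiset.mem_singleton] at hx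
        obtain ⟨a, t', h1, _, h3⟩ := mem_Vc _ hx'
        have := (nm_inj (hx.symm.trans h3)).1
        omega
      · obtain ⟨a, t, _, rfl⟩ := hB i j x hx
        rw [dec_nm]
    · rw [Multiset.disjoint_left]
      intro x hx hx'
      obtain ⟨a, k, h1, h2⟩ := hA i x hx
      rw [map_list_sum'] at hx'
      obtain ⟨j, _, hx'⟩ := mem_list_sum.1 hx'
      obtain ⟨a', t, h3, h4⟩ := hB i j x hx'
      have := (nm_inj (h2.symm.trans h4)).1
      omega
  · rw [Multiset.map_add, Multiset.mem_add] at hx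
    rcases hx with hx | hx
    · obtain ⟨a, k, _, rfl⟩ := hA i x hx
      rw [dec_nm]
    · rw [map_list_sum'] at hx
      obtain ⟨j, _, hx⟩ := mem_list_sum.1 hx
      obtain ⟨a, t, _, rfl⟩ := hB i j x hx
      rw [dec_nm]

theorem tag_VV {x : ℕ} (hx : x ∈ (VV g s N d comp).map Prod.fst) : (dec x).1 ≤ 4 := by
  unfold VV at hx
  rw [map_list_sum'] at hx
  obtain ⟨i, _, hx⟩ := mem_list_sum.1 hx
  rw [Multiset.map_add, Multiset.mem_add] at hx
  rcases hx with hx | hx
  · rw [map_list_sum'] at hx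
    obtain ⟨k, _, hx⟩ := mem_list_sum.1 hx
    rw [Multiset.map_add, Multiset.mem_add] at hx
    rcases hx with hx | hx <;>
    · simp only [Multiset.map_singleton, Multiset.mem_singleton] at hx
      rw [hx, dec_nm]; simp
  · rw [map_list_sum'] at hx
    obtain ⟨j, _, hx⟩ := mem_list_sum.1 hx
    rw [Multiset.map_add, Multiset.mem_add] at hx
    rcases hx with hx | hx
    · simp only [Multiset.map_singleton, Multiset.mem_singleton] at hx
      rw [hx, dec_nm]; simp
    · obtain ⟨a, t', h1, _, h3⟩ := mem_Vc _ hx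
      rw [h3, dec_nm]
      show a ≤ 4
      omega

theorem tag_PP {x : ℕ} (hx : x ∈ PP s N comp) : (dec x).1 = 5 := by
  unfold PP at hx
  obtain ⟨i, _, hx⟩ := mem_list_sum.1 hx
  obtain ⟨j, _, hx⟩ := mem_list_sum.1 hx
  obtain ⟨t', _, rfl⟩ := mem_Pc _ hx
  rw [dec_nm]

/-! ### well-formedness -/

/-- untwisted letters of rank `k` -/
def GL1 (k : ℕ) : Lt → Prop
  | Lt.full _ _ => True
  | Lt.par _ _ σ c c' _ => c.length = k ∧ (∀ b, c.count b = c'.count b) ∧ ∀ x y, σ x y = 1

theorem WF_of_GL1 (O : Subring ℂ) {k : ℕ} (w : Wd) : (∀ l ∈ w, GL1 k l) → ∀ prev, Wd.WF O w k prev := by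
  induction w with
  | nil => intro _ prev; trivial
  | cons l w ih =>
    intro h prev
    have h1 := h l (List.mem_cons_self ..)
    have h2 := ih fun l' hl' => h l' (List.mem_cons_of_mem _ hl')
    cases l with
    | full x ε => exact h2 none
    | par p e σ c c' g =>
      exact ⟨h1.1, h1.2.1, Or.inl h1.2.2, fun x y => by rw [h1.2.2]; exact IsSc.one, h2 _⟩

theorem GL1_LL (i j t : ℕ) (μ : List (ℕ × ℂˣ)) : ∀ l ∈ LL i j t μ, GL1 (sz μ) l := by
  cases μ with
  | nil => intro l hl; simp [LL] at hl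
  | cons ma μ =>
    intro l hl
    rw [LL, List.mem_singleton] at hl
    rw [hl]
    exact ⟨by rw [lb_length]; rfl, fun b => rfl, fun _ _ => rfl⟩

theorem WF_ch (O : Subring ℂ) (n i j : ℕ) (μ : List (ℕ × ℂˣ)) : ∀ t, sz μ ≤ n →
    (∀ ma ∈ μ, IsSc O ma.2) → ∀ R ∈ ch i j t μ, R.WF O n := by
  induction μ with
  | nil => intro t _ _ R hR; simp [ch] at hR
  | cons ma μ ih =>
    obtain ⟨m, a⟩ := ma
    intro t h1 h2 R hR
    rw [sz_cons] at h1
    rcases List.mem_cons.1 hR with rfl | hR
    · exact ⟨by show m ≤ n; omega, h2 _ (List.mem_cons_self ..), trivial⟩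
    rcases List.mem_cons.1 hR with rfl | hR
    · refine ⟨by show sz μ ≤ n; omega, IsSc.one, WF_of_GL1 O _ (fun l hl => ?_) _⟩
      rcases List.mem_append.1 hl with hl | hl
      · exact GL1_LL _ _ _ _ l hl
      · rw [List.mem_singleton.1 hl]; trivial
    · exact ih (t + 1) (by omega) (fun ma hma => h2 ma (List.mem_cons_of_mem _ hma)) R hR

theorem WF_SY (O : Subring ℂ) (n : ℕ) (hn : ∀ i, d i ≤ n) (hd : ∀ i j, sz (comp i j) = d i)
    (hsc : ∀ i j, ∀ ma ∈ comp i j, IsSc O ma.2) : (SY g s N d comp).WF O n := by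
  refine ⟨fun R hR => ?_, fun z hz => ?_, VV g s N d comp, occ_SY hd, ?_⟩
  · obtain ⟨i, _, hR⟩ := List.mem_flatMap.1 hR
    rcases List.mem_cons.1 hR with rfl | hR
    · refine ⟨hn i, IsSc.one, WF_of_GL1 O _ (fun l hl => ?_) _⟩
      rcases List.mem_append.1 hl with hl | hl
      · obtain ⟨k, _, hl⟩ := List.mem_flatMap.1 hl
        simp only [List.mem_cons, List.not_mem_nil, or_false] at hl
        rcases hl with rfl | rfl | rfl | rfl <;> trivial
      · obtain ⟨j, _, hl⟩ := List.mem_flatMap.1 hl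
        rcases List.mem_cons.1 hl with rfl | hl
        · trivial
        rcases List.mem_append.1 hl with hl | hl
        · have := GL1_LL _ _ _ _ l hl
          rwa [hd i j] at this
        · rw [List.mem_singleton.1 hl]; trivial
    · obtain ⟨j, _, hR⟩ := List.mem_flatMap.1 hR
      exact WF_ch O n i j _ 0 (by rw [hd]; exact hn i) (hsc i j) R hR
  · simp [SY] at hz
  · rw [pn_SY, Multiset.nodup_add, Multiset.nodup_add]
    refine ⟨⟨nodup_VV, nodup_PP, ?_⟩, by simp [SY], ?_⟩
    · rw [Multiset.disjoint_left]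
      intro x hx hx'
      have h1 := tag_VV hx
      have h2 := tag_PP hx'
      omega
    · rw [Multiset.disjoint_left]
      intro x _ hx
      simp [SY] at hx

end system

end Crest.Agent.R003.Sys4
private theorem rz_3db229bf2a : type_of% @_root_.Crest.Agent.R003.Sys4.LL.eq_1 := @_root_.Crest.Agent.R003.Sys4.LL.eq_1 -- L58
private theorem rz_dd50c3e555 : type_of% @_root_.Crest.Agent.R003.Sys4.Pc.eq_def := @_root_.Crest.Agent.R003.Sys4.Pc.eq_def -- L240
private theorem rz_aea589b68e : type_of% @_root_.Crest.Agent.R003.Sys4.Pc.eq_1 := @_root_.Crest.Agent.R003.Sys4.Pc.eq_1 -- L240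
private theorem rz_5b36b4f72e : type_of% @_root_.Crest.Agent.R003.Sys4.Vc.eq_def := @_root_.Crest.Agent.R003.Sys4.Vc.eq_def -- L235
private theorem rz_6fd512060f : type_of% @_root_.Crest.Agent.R003.Sys4.Vc.eq_1 := @_root_.Crest.Agent.R003.Sys4.Vc.eq_1 -- L235
private theorem rz_304dec146b : type_of% @_root_.Crest.Agent.R003.Sys4.ch.eq_def := @_root_.Crest.Agent.R003.Sys4.ch.eq_def -- L64
private theorem rz_aeb56f756b : type_of% @_root_.Crest.Agent.R003.Sys4.ch.eq_1 := @_root_.Crest.Agent.R003.Sys4.ch.eq_1 -- L64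
end

-- ▼ part R003/Brd452
section

/-!
# Row 3: bridge between the flag matrices of helper382 and the P-words (helper452)
-/

set_option autoImplicit false

open Matrix Crest.Agent.R003.Flag

namespace Crest.Agent.R003.Sys4

/-- the composition of a flag type -/
def cm (l : List (ℂˣ × ℕ)) : List (ℕ × ℂˣ) := l.map Prod.swap

@[simp] theorem cm_nil : cm [] = [] := rfl
@[simp] theorem cm_cons (x : ℂˣ × ℕ) (l : List (ℂˣ × ℕ)) : cm (x :: l) = (x.2, x.1) :: cm l := rfl

theorem sz_cm (l : List (ℂˣ × ℕ)) : sz (cm l) = size l := by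
  induction l with
  | nil => rfl
  | cons x l ih => rw [cm_cons, sz_cons, ih]; rfl

theorem lab_lb_lt {m k i : ℕ} (h : i < m) : lab (lb m k) i = some false := by
  show (lb m k)[i]? = _
  unfold lb
  rw [List.getElem?_append_left (by simpa using h), List.getElem?_replicate]
  simp [h]

theorem lab_lb_ge {m k i : ℕ} (h : m ≤ i) (h' : i < m + k) : lab (lb m k) i = some true := by
  show (lb m k)[i]? = _
  unfold lb
  rw [List.getElem?_append_right (by simpa using h), List.getElem?_replicate]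
  simp only [List.length_replicate]
  rw [if_pos (by omega)]

theorem lab_lb_none {m k i : ℕ} (h : m + k ≤ i) : lab (lb m k) i = none := by
  show (lb m k)[i]? = _
  rw [List.getElem?_eq_none]
  rw [lb_length]; exact h

theorem lab_false {m k i : ℕ} (h : lab (lb m k) i = some false) : i < m := by
  by_contra h1
  by_cases h2 : i < m + k
  · rw [lab_lb_ge (by omega) h2] at h; simp at h
  · rw [lab_lb_none (by omega)] at h; simp at h

theorem lab_true {m k i : ℕ} (h : lab (lb m k) i = some true) : m ≤ i ∧ i < m + k := by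
  by_cases h1 : i < m
  · rw [lab_lb_lt h1] at h; simp at h
  · by_cases h2 : i < m + k
    · exact ⟨by omega, h2⟩
    · rw [lab_lb_none (by omega)] at h; simp at h

theorem take_false {m k i : ℕ} (h : i ≤ m) : ((lb m k).take i).count false = i := by
  unfold lb
  rw [List.take_append_of_le_length (by simpa using h), List.take_replicate, List.count_replicate]
  simp [h]

theorem take_true {m k i : ℕ} (h : m ≤ i) (h' : i ≤ m + k) :
    ((lb m k).take i).count true = i - m := by
  unfold lb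
  rw [List.take_append, List.count_append, List.take_replicate, List.take_replicate,
    List.count_replicate, List.count_replicate]
  simp only [List.length_replicate]
  have : min (i - m) k = i - m := by omega
  simp [this]

theorem size_cons (x : ℂˣ × ℕ) (l : List (ℂˣ × ℕ)) : size (x :: l) = x.2 + size l := rfl

theorem scal_apply {n k : ℕ} (a : ℂˣ) (i j : Fin n) :
    (scal n k a).1 i j = if i = j then (if i.1 < k then (a : ℂ) else 1) else 0 := by
  show Matrix.diagonal (fun i : Fin n => (((if i.1 < k then a else 1 : ℂˣ)) : ℂ)) i j = _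
  rw [Matrix.diagonal_apply]
  by_cases h : i = j
  · rw [if_pos h, if_pos h]
    by_cases h2 : i.1 < k
    · rw [if_pos h2, if_pos h2]
    · rw [if_neg h2, if_neg h2]; rfl
  · rw [if_neg h, if_neg h]

/-- flag matrices give P-words -/
theorem inLU_of_flag (n : ℕ) (l : List (ℂˣ × ℕ)) : ∀ (hk : size l ≤ n) (Y : G (size l)),
    IsFlagMat l Y.1 → InLU n (cm l) (emb n (size l) hk Y) := by
  induction l with
  | nil =>
    intro hk Y _
    show emb n (size []) hk Y = 1
    have : Y = 1 := by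
      apply Units.ext
      ext i j
      exact absurd i.2 (by simp [size])
    rw [this, map_one]
  | cons x l ih =>
    intro hk Y hY
    obtain ⟨B, Y', hY1, hY2⟩ := hY
    rw [size_cons] at hk
    have hdet : Y'.det ≠ 0 := by
      have h1 : (Y.1 : Matrix (Fin (size (x :: l))) (Fin (size (x :: l))) ℂ).det ≠ 0 :=
        ((Matrix.isUnit_iff_isUnit_det _).1 Y.isUnit).ne_zero
      rw [hY1] at h1
      change ((fromBlocks ((x.1 : ℂ) • (1 : Matrix (Fin x.2) (Fin x.2) ℂ)) B 0 Y').submatrix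
        finSumFinEquiv.symm finSumFinEquiv.symm : Matrix (Fin (x.2 + size l)) (Fin (x.2 + size l)) ℂ).det ≠ 0 at h1
      rw [Matrix.det_submatrix_equiv_self, Matrix.det_fromBlocks_zero₂₁] at h1
      exact right_ne_zero_of_mul h1
    let Yu : G (size l) := Matrix.GeneralLinearGroup.mkOfDetNeZero Y' hdet
    have hYu : Yu.1 = Y' := rfl
    refine ⟨emb n (size l) (by omega) Yu, ih _ Yu (by rw [hYu]; exact hY2), ?_⟩
    have hsz : sz (List.map Prod.swap l) = size l := sz_cm l
    rw [hsz]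
    have hent : ∀ (i j : ℕ) (hi : i < x.2 + size l) (hj : j < x.2 + size l),
        Y.1 (⟨i, hi⟩ : Fin (size (x :: l))) (⟨j, hj⟩ : Fin (size (x :: l))) =
        fromBlocks ((x.1 : ℂ) • (1 : Matrix (Fin x.2) (Fin x.2) ℂ)) B 0 Y'
          (finSumFinEquiv.symm ⟨i, hi⟩) (finSumFinEquiv.symm ⟨j, hj⟩) := by
      intro i j hi hj
      rw [hY1]; rfl
    have hinl : ∀ (i : ℕ) (hi : i < x.2) (hi' : i < x.2 + size l),
        (finSumFinEquiv.symm (⟨i, hi'⟩ : Fin (x.2 + size l)) : Fin x.2 ⊕ Fin (size l)) =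
          Sum.inl ⟨i, hi⟩ := by
      intro i hi hi'
      rw [Equiv.symm_apply_eq, finSumFinEquiv_apply_left]
      rfl
    have hinr : ∀ (i : ℕ) (hi : x.2 ≤ i) (hi' : i < x.2 + size l),
        (finSumFinEquiv.symm (⟨i, hi'⟩ : Fin (x.2 + size l)) : Fin x.2 ⊕ Fin (size l)) =
          Sum.inr ⟨i - x.2, by omega⟩ := by
      intro i hi hi'
      rw [Equiv.symm_apply_eq, finSumFinEquiv_apply_right]
      ext
      simp only [Fin.val_natAdd]
      omega
    refine ⟨by rw [lb_length]; exact hk, fun _ => rfl, ?_, fun b => ?_, ?_, ?_⟩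
    · rw [lb_length]; exact emb_mem _ _
    · cases b
      · rw [lb_count_false]; exact scal_mem_GLk le_rfl _
      · rw [lb_count_true]; exact emb_mem _ _
    · intro i j a b ha hb hab
      have hab' : a = true ∧ b = false := by
        revert hab; cases a <;> cases b <;> simp
      obtain ⟨rfl, rfl⟩ := hab'
      obtain ⟨h1, h2⟩ := lab_true ha
      have h3 := lab_false hb
      rw [emb_val, embM_lt _ (by rw [size_cons]; exact h2) (by rw [size_cons]; omega), hent _ _ h2 (by omega),
        hinr _ h1 h2, hinl _ h3 (by omega)]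
      rfl
    · intro i j u v a ha hb hu hv
      cases a
      · have h1 := lab_false ha
        have h3 := lab_false hb
        rw [take_false h1.le] at hu
        rw [take_false h3.le] at hv
        have hui : u = i := Fin.ext hu
        have hvj : v = j := Fin.ext hv
        subst hui hvj
        rw [emb_val, embM_lt _ (by rw [size_cons]; omega) (by rw [size_cons]; omega),
          hent _ _ (by omega) (by omega), hinl _ h1 (by omega), hinl _ h3 (by omega)]
        simp only [fromBlocks_apply₁₁, Matrix.smul_apply, Matrix.one_apply,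
          smul_eq_mul, mul_ite, mul_one, mul_zero, Bool.false_eq_true, if_false, scal_apply,
          Fin.ext_iff, h1, if_true]
      · obtain ⟨h1, h2⟩ := lab_true ha
        obtain ⟨h3, h4⟩ := lab_true hb
        rw [take_true h1 h2.le] at hu
        rw [take_true h3 h4.le] at hv
        rw [emb_val, embM_lt _ (by rw [size_cons]; omega) (by rw [size_cons]; omega),
          hent _ _ (by omega) (by omega), hinr _ h1 h2, hinr _ h3 h4]
        simp only [if_true, fromBlocks_apply₂₂]
        rw [emb_val, embM_lt _ (by omega) (by omega), hYu]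
        congr 1
        · exact Fin.ext hu.symm
        · exact Fin.ext hv.symm

/-- P-words give flag matrices -/
theorem flag_of_inLU (n : ℕ) (l : List (ℂˣ × ℕ)) : ∀ (hk : size l ≤ n) (P : G n),
    InLU n (cm l) P → IsFlagMat l (P.1.submatrix (Fin.castLE hk) (Fin.castLE hk)) := by
  induction l with
  | nil => intro _ _ _; trivial
  | cons x l ih =>
    intro hk P hP
    obtain ⟨q, hq, hpar⟩ := hP
    have hsz : sz (List.map Prod.swap l) = size l := sz_cm l
    rw [hsz] at hpar
    have hk' := hk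
    rw [size_cons] at hk'
    have hl : size l ≤ n := by omega
    refine ⟨Matrix.of fun i j => P.1 ⟨i.1, by omega⟩ ⟨x.2 + j.1, by omega⟩,
      q.1.submatrix (Fin.castLE hl) (Fin.castLE hl), ?_, ih hl q hq⟩
    ext i j
    obtain ⟨a, rfl⟩ := (finSumFinEquiv (m := x.2) (n := size l)).surjective i
    obtain ⟨b, rfl⟩ := (finSumFinEquiv (m := x.2) (n := size l)).surjective j
    rw [Matrix.submatrix_apply, Matrix.submatrix_apply, Equiv.symm_apply_apply,
      Equiv.symm_apply_apply]
    rcases a with a | a <;> rcases b with b | b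
    · simp only [fromBlocks_apply₁₁, finSumFinEquiv_apply_left]
      have h1 := hpar.diag ⟨a.1, by omega⟩ ⟨b.1, by omega⟩ ⟨a.1, by omega⟩ ⟨b.1, by omega⟩ false
        (lab_lb_lt a.2) (lab_lb_lt b.2) (take_false a.2.le).symm (take_false b.2.le).symm
      simp only [Bool.false_eq_true, if_false, scal_apply, a.2, if_true] at h1
      have h2 : P.1 (Fin.castLE hk (Fin.castAdd (size l) a)) (Fin.castLE hk (Fin.castAdd (size l) b)) =
        P.1 ⟨a.1, by omega⟩ ⟨b.1, by omega⟩ := rfl
      rw [h2, h1]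
      simp [Matrix.one_apply, Fin.ext_iff]
    · simp only [fromBlocks_apply₁₂, finSumFinEquiv_apply_left, finSumFinEquiv_apply_right,
        Matrix.of_apply]
      rfl
    · simp only [fromBlocks_apply₂₁, finSumFinEquiv_apply_left, finSumFinEquiv_apply_right,
        Matrix.zero_apply]
      exact hpar.zero ⟨x.2 + a.1, by omega⟩ ⟨b.1, by omega⟩ true false
        (lab_lb_ge (by simp) (by simp)) (lab_lb_lt b.2) (by simp)
    · simp only [fromBlocks_apply₂₂, finSumFinEquiv_apply_right, Matrix.submatrix_apply]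
      have h1 := hpar.diag ⟨x.2 + a.1, by omega⟩ ⟨x.2 + b.1, by omega⟩ ⟨a.1, by omega⟩
        ⟨b.1, by omega⟩ true (lab_lb_ge (by simp) (by simp)) (lab_lb_ge (by simp) (by simp))
        (by rw [take_true (by simp) (by simp)]; simp)
        (by rw [take_true (by simp) (by simp)]; simp)
      simp only [if_true] at h1
      exact h1

theorem inLU_of_flagG {n k : ℕ} (l : List (ℂˣ × ℕ)) (hk : k ≤ n) (Y : G k)
    (h : IsFlagG l k Y.1) : InLU n (cm l) (emb n k hk Y) := by
  obtain ⟨rfl, h⟩ := h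
  exact inLU_of_flag n l hk Y h

theorem flagG_of_inLU {n k : ℕ} (l : List (ℂˣ × ℕ)) (hk : k ≤ n) (P : G n) (hP : P ∈ GLk n k)
    (hl : size l = k) (h : InLU n (cm l) P) : IsFlagG l k (unemb n k hk P hP).1 := by
  subst hl
  exact ⟨rfl, flag_of_inLU n l hk P h⟩

end Crest.Agent.R003.Sys4
end

-- ▼ part R003/Blk452

/-!
# Row 3: the block approximation statement of Part 4 (helper452)
-/

set_option autoImplicit false

open Matrix Crest.NumberTheoryR.CharVarRel Crest.Agent.R003.Flag

namespace Crest.Agent.R003.Sys4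


theorem eval_flatMap {n : ℕ} {α : Type*} (ρ : ℕ → G n) (l : List α) (f : α → Wd) :
    Wd.eval ρ (l.flatMap f) = (l.map fun a => Wd.eval ρ (f a)).prod := by
  induction l with
  | nil => rfl
  | cons a l ih => rw [List.flatMap_cons, eval_append, ih, List.map_cons, List.prod_cons]

theorem InLU_mem {n : ℕ} {μ : List (ℕ × ℂˣ)} {p : G n} (h : InLU n μ p) : p ∈ GLk n (sz μ) := by
  cases μ with
  | nil => rw [show p = 1 from h]; exact one_mem _
  | cons x μ =>
    obtain ⟨m, a⟩ := x
    obtain ⟨q, _, hp⟩ := h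
    have := hp.mem
    rwa [lb_length] at this

section main

variable {g s N r : ℕ} {d : Fin N → ℕ} {comp : Fin N → Fin s → List (ℕ × ℂˣ)}

/-- the matrices of the component `i` in `GL_r` -/
def Psi (g s : ℕ) {N r : ℕ} (comp : Fin N → Fin s → List (ℕ × ℂˣ)) (ρ : ℕ → G r) (i : Fin N) :
    RelGen g s → G r
  | Sum.inl k => ρ (nm (if k.2 then 1 else 0) i k.1 0)
  | Sum.inr j => ρ (nm 2 i j 0) * Wd.eval ρ (LL i j 0 (comp i j)) * (ρ (nm 2 i j 0))⁻¹

theorem RT_mem (i : Fin N) : RT g s N d comp i ∈ (SY g s N d comp).roots :=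
  List.mem_flatMap.2 ⟨i, List.mem_finRange i, List.mem_cons_self ..⟩

theorem ch_mem (i : Fin N) (j : Fin s) {R : Root} (hR : R ∈ ch i j 0 (comp i j)) :
    R ∈ (SY g s N d comp).roots :=
  List.mem_flatMap.2 ⟨i, List.mem_finRange i, List.mem_cons_of_mem _
    (List.mem_flatMap.2 ⟨j, List.mem_finRange j, hR⟩)⟩

theorem a_mem (i : Fin N) (k : Fin g) : Lt.full (nm 0 i k 0) true ∈ (RT g s N d comp i).w :=
  List.mem_append_left _ (List.mem_flatMap.2 ⟨k, List.mem_finRange k, by simp⟩)

theorem b_mem (i : Fin N) (k : Fin g) : Lt.full (nm 1 i k 0) true ∈ (RT g s N d comp i).w :=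
  List.mem_append_left _ (List.mem_flatMap.2 ⟨k, List.mem_finRange k, by simp⟩)

theorem h_mem (i : Fin N) (j : Fin s) : Lt.full (nm 2 i j 0) true ∈ (RT g s N d comp i).w :=
  List.mem_append_right _ (List.mem_flatMap.2 ⟨j, List.mem_finRange j, by simp⟩)

theorem LL_mem (i : Fin N) (j : Fin s) {l : Lt} (hl : l ∈ LL i j 0 (comp i j)) :
    l ∈ (RT g s N d comp i).w :=
  List.mem_append_right _ (List.mem_flatMap.2 ⟨j, List.mem_finRange j, by simp [hl]⟩)

theorem eval_RT (ρ : ℕ → G r) (i : Fin N) : Wd.eval ρ (RT g s N d comp i).w =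
    ((List.finRange g).map fun k => Psi g s comp ρ i (Sum.inl (k, false)) *
      Psi g s comp ρ i (Sum.inl (k, true)) * (Psi g s comp ρ i (Sum.inl (k, false)))⁻¹ *
      (Psi g s comp ρ i (Sum.inl (k, true)))⁻¹).prod *
    ((List.finRange s).map fun j => Psi g s comp ρ i (Sum.inr j)).prod := by
  show Wd.eval ρ (hW g i ++ bW s i (comp i)) = _
  rw [eval_append, hW, bW, eval_flatMap, eval_flatMap]
  congr 2
  · refine List.map_congr_left fun k _ => ?_
    simp only [eval_cons, eval_nil, mul_one, Lt.eval, if_true, Bool.false_eq_true, if_false,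
      Psi, mul_assoc]
  · refine List.map_congr_left fun j _ => ?_
    simp only [eval_cons, eval_append, eval_nil, mul_one, Lt.eval, if_true, Bool.false_eq_true,
      if_false, Psi, mul_assoc]

theorem rel_Psi {ρ : ℕ → G r} (hρ : ρ ∈ (SY g s N d comp).Sol r) (i : Fin N) :
    Nrm.RelG g s (Psi g s comp ρ i) := by
  have h := (hρ.1 _ (RT_mem i)).2
  have h1 : scal r (d i) 1 * Wd.eval ρ (RT g s N d comp i).w = 1 := h
  rw [scal_one, one_mul, eval_RT] at h1
  exact h1

theorem InLU_sol (hsz : ∀ i j, sz (comp i j) = d i) {ρ : ℕ → G r}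
    (hρ : ρ ∈ (SY g s N d comp).Sol r) (i : Fin N) (j : Fin s) :
    InLU r (comp i j) (Wd.eval ρ (LL i j 0 (comp i j))) := by
  refine ch_sol ρ i j (comp i j) 0 (fun R hR => hρ.1 R (ch_mem i j hR)) fun l hl => ?_
  have := (hρ.1 _ (RT_mem i)).1 l (LL_mem i j hl)
  rw [hsz]
  exact this

theorem h_GLk {ρ : ℕ → G r} (hρ : ρ ∈ (SY g s N d comp).Sol r) (i : Fin N) (j : Fin s) :
    ρ (nm 2 i j 0) ∈ GLk r (d i) :=
  (hρ.1 _ (RT_mem i)).1 _ (h_mem i j)

theorem P_GLk (hsz : ∀ i j, sz (comp i j) = d i) {ρ : ℕ → G r}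
    (hρ : ρ ∈ (SY g s N d comp).Sol r) (i : Fin N) (j : Fin s) :
    Wd.eval ρ (LL i j 0 (comp i j)) ∈ GLk r (d i) := by
  have := InLU_mem (InLU_sol hsz hρ i j)
  rwa [hsz] at this

theorem Psi_GLk (hsz : ∀ i j, sz (comp i j) = d i) {ρ : ℕ → G r}
    (hρ : ρ ∈ (SY g s N d comp).Sol r) (i : Fin N) (v : RelGen g s) :
    Psi g s comp ρ i v ∈ GLk r (d i) := by
  rcases v with ⟨k, b⟩ | j
  · cases b
    · exact (hρ.1 _ (RT_mem i)).1 _ (a_mem i k)
    · exact (hρ.1 _ (RT_mem i)).1 _ (b_mem i k)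
  · exact mul_mem (mul_mem (h_GLk hρ i j) (P_GLk hsz hρ i j)) (inv_mem (h_GLk hρ i j))





/-- relevant names -/
theorem full_names {R : Root} (hR : R ∈ (SY g s N d comp).roots) {x : ℕ} {ε : Bool}
    (hx : Lt.full x ε ∈ R.w) : x ∈ (SY g s N d comp).names := by
  refine Or.inl ⟨R.k, ε, mem_list_sum.2 ⟨R, hR, ?_⟩⟩
  refine mem_list_sum.2 ⟨_, hx, ?_⟩
  exact Multiset.mem_singleton_self _

theorem pn_names {R : Root} (hR : R ∈ (SY g s N d comp).roots) {p : ℕ} {e c c' : List Bool}
    {σ : Bool → Bool → ℂˣ} {g' : Bool → ℕ} (hx : Lt.par p e σ c c' g' ∈ R.w) :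
    p ∈ (SY g s N d comp).names := by
  refine Or.inr (Or.inl (mem_list_sum.2 ⟨R, hR, ?_⟩))
  refine mem_list_sum.2 ⟨_, hx, ?_⟩
  exact Multiset.mem_singleton_self _

theorem Psi_GO {O : Subring ℂ} {ρ : ℕ → G r} (hρ : ∀ x ∈ (SY g s N d comp).names, ρ x ∈ GO O r)
    (i : Fin N) (v : RelGen g s) : Psi g s comp ρ i v ∈ GO O r := by
  rcases v with ⟨k, b⟩ | j
  · cases b
    · exact hρ _ (full_names (RT_mem i) (a_mem i k))
    · exact hρ _ (full_names (RT_mem i) (b_mem i k))
  · have h1 := hρ _ (full_names (RT_mem i) (h_mem i j))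
    refine mul_mem (mul_mem h1 ?_) (inv_mem h1)
    cases hc : comp i j with
    | nil => rw [LL, eval_nil]; exact one_mem _
    | cons x μ =>
      obtain ⟨m, a⟩ := x
      rw [eval_LL_cons]
      refine hρ _ (pn_names (RT_mem i) (LL_mem i j (l := Lt.par (nm 5 i j 0) [] (fun _ _ => 1)
        (lb m (sz μ)) (lb m (sz μ)) (fun b => if b then nm 4 i j 0 else nm 3 i j 0)) ?_))
      rw [hc, LL]
      exact List.mem_singleton_self _


/-! ### polynomiality -/

theorem Psi_pol (S : Set (ℕ → G r)) (i : Fin N) (v : RelGen g s) :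
    PolG S (fun ρ => Psi g s comp ρ i v) := by
  rcases v with ⟨k, b⟩ | j
  · exact PolG.coord _
  · refine PolG.mul (PolG.mul (PolG.coord _) ?_) (PolG.inv (PolG.coord _))
    cases hc : comp i j with
    | nil => exact PolG.const 1
    | cons x μ =>
      obtain ⟨m, a⟩ := x
      refine PolG.congr (PolG.coord (nm 5 i j 0)) fun ρ _ => ?_
      rw [eval_LL_cons]




/-! ### the target point -/

theorem exists_target (hd : ∀ i, d i ≤ r) (hsz : ∀ i j, sz (comp i j) = d i)
    (T : ∀ z : Fin N × RelGen g s, G (d z.1)) (hrel : ∀ i, Nrm.RelG (G := G (d i)) g s (fun v => T (i, v)))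
    (H Y : ∀ i : Fin N, Fin s → G (d i))
    (hY : ∀ i j, InLU r (comp i j) (emb r (d i) (hd i) (Y i j)))
    (hT : ∀ i j, T (i, Sum.inr j) = H i j * Y i j * (H i j)⁻¹) :
    ∃ ρ ∈ (SY g s N d comp).Sol r, ∀ i v, Psi g s comp ρ i v = emb r (d i) (hd i) (T (i, v)) := by
  classical
  choose f3 f4 f5 hf using fun i j => ch_exists (n := r) (i : Fin N) (j : Fin s) (comp i j) 0 _
    (hY i j)
  let F : ℕ → ℕ → ℕ → ℕ → G r := fun a i j t =>
    if hi : i < N then
      if a = 0 then
        if hk : j < g then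
          emb r (d ⟨i, hi⟩) (hd ⟨i, hi⟩) (T (⟨i, hi⟩, Sum.inl (⟨j, hk⟩, false))) else 1
      else if a = 1 then
        if hk : j < g then
          emb r (d ⟨i, hi⟩) (hd ⟨i, hi⟩) (T (⟨i, hi⟩, Sum.inl (⟨j, hk⟩, true))) else 1
      else if hj : j < s then
        if a = 2 then emb r (d ⟨i, hi⟩) (hd ⟨i, hi⟩) (H ⟨i, hi⟩ ⟨j, hj⟩)
        else if a = 3 then f3 ⟨i, hi⟩ ⟨j, hj⟩ t
        else if a = 4 then f4 ⟨i, hi⟩ ⟨j, hj⟩ t
        else f5 ⟨i, hi⟩ ⟨j, hj⟩ t
      else 1
    else 1
  let ρ : ℕ → G r := fun x => F (dec x).1 (dec x).2.1 (dec x).2.2.1 (dec x).2.2.2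
  have hρF : ∀ a i j t, ρ (nm a i j t) = F a i j t := by
    intro a i j t
    show F (dec (nm a i j t)).1 (dec (nm a i j t)).2.1 (dec (nm a i j t)).2.2.1
      (dec (nm a i j t)).2.2.2 = _
    rw [dec_nm]
  have e0 : ∀ (i : Fin N) (k : Fin g), ρ (nm 0 i k 0) =
      emb r (d i) (hd i) (T (i, Sum.inl (k, false))) := by
    intro i k
    rw [hρF]
    simp only [F]
    rw [dif_pos i.2, if_pos trivial, dif_pos k.2]
  have e1 : ∀ (i : Fin N) (k : Fin g), ρ (nm 1 i k 0) =
      emb r (d i) (hd i) (T (i, Sum.inl (k, true))) := by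
    intro i k
    rw [hρF]
    simp only [F]
    rw [dif_pos i.2, if_neg (by omega), if_pos trivial, dif_pos k.2]
  have e2 : ∀ (i : Fin N) (j : Fin s), ρ (nm 2 i j 0) = emb r (d i) (hd i) (H i j) := by
    intro i j
    rw [hρF]
    simp only [F]
    rw [dif_pos i.2, if_neg (by omega), if_neg (by omega), dif_pos j.2, if_pos trivial]
  have e3 : ∀ (i : Fin N) (j : Fin s), ∀ t', 0 ≤ t' → ρ (nm 3 i j t') = f3 i j t' ∧
      ρ (nm 4 i j t') = f4 i j t' ∧ ρ (nm 5 i j t') = f5 i j t' := by
    intro i j t' _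
    refine ⟨?_, ?_, ?_⟩
    · rw [hρF]
      simp only [F]
      rw [dif_pos i.2, if_neg (by omega), if_neg (by omega), dif_pos j.2, if_neg (by omega),
        if_pos trivial]
    · rw [hρF]
      simp only [F]
      rw [dif_pos i.2, if_neg (by omega), if_neg (by omega), dif_pos j.2, if_neg (by omega),
        if_neg (by omega), if_pos trivial]
    · rw [hρF]
      simp only [F]
      rw [dif_pos i.2, if_neg (by omega), if_neg (by omega), dif_pos j.2, if_neg (by omega),
        if_neg (by omega), if_neg (by omega)]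
  have hPsi : ∀ i v, Psi g s comp ρ i v = emb r (d i) (hd i) (T (i, v)) := by
    intro i v
    rcases v with ⟨k, b⟩ | j
    · cases b
      · exact e0 i k
      · exact e1 i k
    · show ρ (nm 2 i j 0) * Wd.eval ρ (LL i j 0 (comp i j)) * (ρ (nm 2 i j 0))⁻¹ = _
      rw [(hf i j ρ (e3 i j)).2.2, e2, hT, map_mul, map_mul, map_inv]
  refine ⟨ρ, ⟨fun R hR => ?_, fun z hz => ?_⟩, hPsi⟩
  · obtain ⟨i, _, hR⟩ := List.mem_flatMap.1 hR
    rcases List.mem_cons.1 hR with rfl | hR
    · refine ⟨fun l hl => ?_, ?_⟩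
      · rcases List.mem_append.1 hl with hl | hl
        · obtain ⟨k, _, hl⟩ := List.mem_flatMap.1 hl
          simp only [List.mem_cons, List.not_mem_nil, or_false] at hl
          rcases hl with rfl | rfl | rfl | rfl
          · show ρ (nm 0 i k 0) ∈ GLk r (d i)
            rw [e0]; exact emb_mem _ _
          · show ρ (nm 1 i k 0) ∈ GLk r (d i)
            rw [e1]; exact emb_mem _ _
          · show ρ (nm 0 i k 0) ∈ GLk r (d i)
            rw [e0]; exact emb_mem _ _
          · show ρ (nm 1 i k 0) ∈ GLk r (d i)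
            rw [e1]; exact emb_mem _ _
        · obtain ⟨j, _, hl⟩ := List.mem_flatMap.1 hl
          rcases List.mem_cons.1 hl with rfl | hl
          · show ρ (nm 2 i j 0) ∈ GLk r (d i)
            rw [e2]; exact emb_mem _ _
          rcases List.mem_append.1 hl with hl | hl
          · have := (hf i j ρ (e3 i j)).2.1 l hl
            rw [hsz] at this
            exact this
          · rw [List.mem_singleton.1 hl]
            show ρ (nm 2 i j 0) ∈ GLk r (d i)
            rw [e2]; exact emb_mem _ _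
      · show scal r (d i) 1 * Wd.eval ρ (RT g s N d comp i).w = 1
        rw [scal_one, one_mul, eval_RT]
        have h := congrArg (emb r (d i) (hd i)) (hrel i)
        rw [map_one, map_mul, map_list_prod, map_list_prod, List.map_map, List.map_map] at h
        simp only [Function.comp_def, map_mul, map_inv] at h
        simp only [hPsi]
        exact h
    · obtain ⟨j, _, hR⟩ := List.mem_flatMap.1 hR
      exact (hf i j ρ (e3 i j)).1 R hR
  · simp [SY] at hz

end main

/-! ### the system statement -/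

theorem sys4 {O : Subring ℂ} {g s r : ℕ} (hE : ElimStatement O r (r + 1)) (hG : Good O)
    (hC : ∀ k < r + 1, Closed O k) : Wire.Sys4Stmt O g s r := by
  intro N d hd l hd0 hl0 T hrel hT
  choose H Y h3 h4 using hT
  have hl : ∀ i j, size (l i j) = d i := fun i j => (h3 i j).1
  have hsz : ∀ i j, sz ((fun i j => cm (l i j)) i j) = d i := fun i j => by
    rw [← hl i j]; exact sz_cm (l i j)
  have hsc : ∀ i j, ∀ ma ∈ cm (l i j), IsSc O ma.2 := by
    intro i j ma hma
    obtain ⟨x, hx, rfl⟩ := List.mem_map.1 hma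
    exact (hl0 i j x hx).2
  obtain ⟨ρ0, hρ0, hP0⟩ := exists_target (comp := fun i j => cm (l i j)) hd hsz T hrel H Y
    (fun i j => inLU_of_flagG (l i j) (hd i) (Y i j) (h3 i j)) h4
  have hWF := WF_SY (g := g) (comp := fun i j => cm (l i j)) O r hd hsz hsc
  have hadm : Adm (r + 1) (SY g s N d (fun i j => cm (l i j))) := fun R hR =>
    Or.inl (Nat.lt_succ_of_le (hWF.roots R hR).1)
  have happ := hE hG hC _ hWF hadm ρ0 hρ0
  refine Appr.map' happ (fun ρ z => Psi g s (fun i j => cm (l i j)) ρ z.1 z.2)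
    (fun z => Psi_pol _ z.1 z.2) hρ0 (funext fun z => hP0 z.1 z.2) ?_ ?_
  · intro ρ hρ _
    refine ⟨fun z => Psi_GLk hsz hρ z.1 z.2, fun i => rel_Psi hρ i, fun i j => ?_⟩
    have e1 := h_GLk hρ i j
    have e2 := P_GLk hsz hρ i j
    refine ⟨unemb r (d i) (hd i) _ e1, unemb r (d i) (hd i) _ e2,
      flagG_of_inLU (l i j) (hd i) _ e2 (hl i j) (InLU_sol hsz hρ i j), ?_⟩
    rw [map_mul, map_mul, map_inv, emb_unemb, emb_unemb]
    rfl
  · intro ρ _ hi z _
    exact Psi_GO hi z.1 z.2

end Crest.Agent.R003.Sys4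
private theorem rz_d901ddb2eb : type_of% @_root_.Crest.Agent.R003.Sys4.Psi.eq_1 := @_root_.Crest.Agent.R003.Sys4.Psi.eq_1 -- L35
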