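import Mathlib

-- ▼ part R003/Cg475A
section

/-!
# R3 (S0003), Part 3 (iv): linear algebra of centralisers (helper475)
-/

set_option autoImplicit false

namespace Crest.Agent.R003.Cg

open Matrix Module

universe u

variable {E : Type u} [Field E] {n : ℕ}

/-- `ad X (Y) = X Y - Y X` -/
def ad (X : Matrix (Fin n) (Fin n) E) :
    Matrix (Fin n) (Fin n) E →ₗ[E] Matrix (Fin n) (Fin n) E :=
  LinearMap.mulLeft E X - LinearMap.mulRight E X

@[simp] theorem ad_apply (X Y : Matrix (Fin n) (Fin n) E) : ad X Y = X * Y - Y * X := rfl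

/-- the trace form -/
def tf : LinearMap.BilinForm E (Matrix (Fin n) (Fin n) E) :=
  LinearMap.mk₂ E (fun P Q => (P * Q).trace)
    (fun a b c => by rw [add_mul, trace_add])
    (fun a b c => by rw [smul_mul_assoc, trace_smul])
    (fun a b c => by rw [mul_add, trace_add])
    (fun a b c => by rw [mul_smul_comm, trace_smul])

@[simp] theorem tf_apply (P Q : Matrix (Fin n) (Fin n) E) : tf P Q = (P * Q).trace := rfl

theorem tf_comm (P Q : Matrix (Fin n) (Fin n) E) : tf P Q = tf Q P := by
  simp [trace_mul_comm P Q]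

theorem tf_single (P : Matrix (Fin n) (Fin n) E) (i j : Fin n) :
    (P * Matrix.single i j 1).trace = P j i := by
  rw [Matrix.trace_mul_comm]
  simp [Matrix.trace, Matrix.mul_apply, Matrix.single_apply, ite_and]

theorem tf_isRefl : (tf : LinearMap.BilinForm E (Matrix (Fin n) (Fin n) E)).IsRefl := by
  intro P Q h
  rw [tf_comm]; exact h

theorem tf_nondeg : (tf : LinearMap.BilinForm E (Matrix (Fin n) (Fin n) E)).Nondegenerate := by
  have h1 : ∀ P : Matrix (Fin n) (Fin n) E, (∀ Q, (P * Q).trace = 0) → P = 0 := by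
    intro P h
    ext i j
    rw [← tf_single P j i, h]
    rfl
  refine ⟨fun P h => h1 P h, fun P h => h1 P fun Q => ?_⟩
  rw [trace_mul_comm]; exact h Q

theorem trace_ad_mul (X P Q : Matrix (Fin n) (Fin n) E) :
    (ad X P * Q).trace = - (P * ad X Q).trace := by
  rw [ad_apply, ad_apply, sub_mul, mul_sub, trace_sub, trace_sub]
  have h1 : (X * P * Q).trace = (P * (Q * X)).trace := by
    rw [mul_assoc, trace_mul_comm, mul_assoc]
  rw [h1, mul_assoc]
  ring

/-- the orthogonal of the range of `ad X` is the centraliser -/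
theorem orth_range (X : Matrix (Fin n) (Fin n) E) :
    tf.orthogonal (LinearMap.range (ad X)) = LinearMap.ker (ad X) := by
  ext Q
  rw [LinearMap.BilinForm.mem_orthogonal_iff, LinearMap.mem_ker]
  constructor
  · intro h
    apply (tf_nondeg (E := E) (n := n)).1
    intro P
    have h1 := h (ad X P) ⟨P, rfl⟩
    rw [tf_apply, trace_ad_mul, neg_eq_zero] at h1
    rw [tf_comm]
    exact h1
  · rintro h _ ⟨P, rfl⟩
    rw [tf_apply, trace_ad_mul, h, mul_zero, trace_zero, neg_zero]

theorem range_ad (X : Matrix (Fin n) (Fin n) E) :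
    LinearMap.range (ad X) = tf.orthogonal (LinearMap.ker (ad X)) := by
  rw [← orth_range, LinearMap.BilinForm.orthogonal_orthogonal tf_nondeg tf_isRefl]

theorem mem_range_ad (X Q : Matrix (Fin n) (Fin n) E) :
    Q ∈ LinearMap.range (ad X) ↔ ∀ P ∈ LinearMap.ker (ad X), (P * Q).trace = 0 := by
  rw [range_ad, LinearMap.BilinForm.mem_orthogonal_iff]
  rfl

theorem finrank_mat : finrank E (Matrix (Fin n) (Fin n) E) = n ^ 2 := by
  rw [finrank_matrix, Fintype.card_fin, finrank_self]; ring

theorem finrank_ad (X : Matrix (Fin n) (Fin n) E) :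
    finrank E (LinearMap.range (ad X)) + finrank E (LinearMap.ker (ad X)) = n ^ 2 := by
  rw [LinearMap.finrank_range_add_finrank_ker, finrank_mat]

/-- (D) a nonscalar matrix has a centraliser of dimension at most `n² - n` -/
theorem finrank_cen_le (X : Matrix (Fin n) (Fin n) E) (hX : ∀ c : E, X ≠ c • 1) :
    finrank E (LinearMap.ker (ad X)) + n ≤ n ^ 2 := by
  have h1 : ∃ φ : Fin n → E, LinearIndependent E ![φ, φ ᵥ* X] := by
    by_contra hcon
    push Not at hcon
    obtain ⟨a, ha⟩ := (Matrix.toLin' Xᵀ).exists_eq_smul_id_of_forall_notLinearIndependent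
      (fun v => by
        have := hcon v
        rwa [Matrix.toLin'_apply, Matrix.mulVec_transpose])
    apply hX a
    have h2 : Xᵀ = a • 1 := by
      apply Matrix.toLin'.injective
      rw [ha, map_smul, Matrix.toLin'_one]
      rfl
    rw [← Matrix.transpose_transpose X, h2, Matrix.transpose_smul, Matrix.transpose_one]
  obtain ⟨φ, hφ⟩ := h1
  let F : (Fin n → E) →ₗ[E] Matrix (Fin n) (Fin n) E :=
    { toFun := fun w => ad X (Matrix.vecMulVec w φ)
      map_add' := fun a b => by rw [Matrix.add_vecMulVec, map_add]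
      map_smul' := fun a b => by rw [Matrix.smul_vecMulVec, map_smul]; rfl }
  have hF : Function.Injective F := by
    rw [← LinearMap.ker_eq_bot, LinearMap.ker_eq_bot']
    intro w hw
    have hw' : Matrix.vecMulVec (X *ᵥ w) φ = Matrix.vecMulVec w (φ ᵥ* X) := by
      have : X * Matrix.vecMulVec w φ - Matrix.vecMulVec w φ * X = 0 := hw
      rw [Matrix.mul_vecMulVec, Matrix.vecMulVec_mul] at this
      exact sub_eq_zero.1 this
    -- (X w)_i φ_j = w_i (φ X)_j
    ext i
    have h2 := LinearIndependent.pair_iff.1 hφ (-(X *ᵥ w) i) (w i) (by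
      ext j
      have := congrFun (congrFun hw' i) j
      rw [Matrix.vecMulVec_apply, Matrix.vecMulVec_apply] at this
      simp only [Pi.add_apply, Pi.smul_apply, smul_eq_mul, Pi.zero_apply]
      rw [← this]; ring)
    exact h2.2
  have h3 : n ≤ finrank E (LinearMap.range (ad X)) := by
    have h4 : finrank E (LinearMap.range F) = n := by
      rw [LinearMap.finrank_range_of_inj hF, finrank_fin_fun]
    refine h4.symm.le.trans (Submodule.finrank_mono ?_)
    rintro _ ⟨w, rfl⟩
    exact ⟨_, rfl⟩
  have h5 := finrank_ad X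
  omega

/-- independent vectors stay independent along a line, for some nonzero parameter -/
theorem exists_indep {W ι : Type*} [AddCommGroup W] [Module E W] [Infinite E] [Fintype ι]
    [DecidableEq ι] (w w' : ι → W) (h : LinearIndependent E w) :
    ∃ t : E, t ≠ 0 ∧ LinearIndependent E (fun i => w i + t • w' i) := by
  classical
  -- a left inverse
  have hker : LinearMap.ker (Fintype.linearCombination E w) = ⊥ := by
    rw [LinearMap.ker_eq_bot]
    exact h.fintypeLinearCombination_injective
  obtain ⟨G, hG⟩ := LinearMap.exists_leftInverse_of_injective _ hker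
  have hGw : ∀ i, G (w i) = Pi.single i 1 := by
    intro i
    have := LinearMap.congr_fun hG (Pi.single i 1)
    rwa [LinearMap.comp_apply, Fintype.linearCombination_apply_single, one_smul,
      LinearMap.id_apply] at this
  let N : Matrix ι ι E := Matrix.of fun i j => G (w' i) j
  let p : Polynomial E := (1 + (Polynomial.X : Polynomial E) • N.map Polynomial.C).det
  have hp : ∀ t : E, p.eval t = (1 + t • N).det := by
    intro t
    have h1 : p.eval t = (Polynomial.evalRingHom t) p := rfl
    rw [h1, RingHom.map_det]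
    congr 1
    ext i j
    simp [Matrix.one_apply, apply_ite, N]
    ring
  have hp0 : p * Polynomial.X ≠ 0 := by
    apply mul_ne_zero _ Polynomial.X_ne_zero
    intro h0
    have h1 := hp 0
    rw [h0, zero_smul, add_zero, det_one, Polynomial.eval_zero] at h1
    exact zero_ne_one h1
  obtain ⟨t, ht⟩ : ∃ t : E, (p * Polynomial.X).eval t ≠ 0 := by
    by_contra hcon
    push Not at hcon
    exact hp0 (Polynomial.funext fun t => by rw [hcon t, Polynomial.eval_zero])
  rw [Polynomial.eval_mul, Polynomial.eval_X] at ht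
  have ht0 : t ≠ 0 := right_ne_zero_of_mul ht
  have ht1 : (1 + t • N).det ≠ 0 := by rw [← hp]; exact left_ne_zero_of_mul ht
  refine ⟨t, ht0, ?_⟩
  have h2 : LinearIndependent E (1 + t • N).row :=
    Matrix.linearIndependent_rows_of_det_ne_zero ht1
  have h3 : (1 + t • N).row = G ∘ (fun i => w i + t • w' i) := by
    funext i j
    simp only [Function.comp_apply, map_add, map_smul, hGw, Pi.add_apply, Pi.smul_apply]
    simp [Matrix.row, Matrix.one_apply, Pi.single_apply, N, eq_comm]
  rw [h3] at h2
  exact h2.of_comp _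

/-- (A) if the rank of `A` is maximal along the line `A + t B` then `B` maps `ker A` into
`range A`. -/
theorem map_ker_le {V W : Type*} [AddCommGroup V] [Module E V] [AddCommGroup W] [Module E W]
    [FiniteDimensional E W] [Infinite E] (A B : V →ₗ[E] W)
    (h : ∀ t : E, finrank E (LinearMap.range (A + t • B)) ≤ finrank E (LinearMap.range A))
    (y : V) (hy : A y = 0) : B y ∈ LinearMap.range A := by
  classical
  by_contra hcon
  let r := finrank E (LinearMap.range A)
  let b : Basis (Fin r) E (LinearMap.range A) := finBasis E _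
  choose u hu using fun i => (b i).2
  have hli : LinearIndependent E (fun i : Option (Fin r) => (i.elim (B y) (fun i => A (u i)) : W)) := by
    rw [linearIndependent_option]
    constructor
    · have h1 : ((fun i : Option (Fin r) => (i.elim (B y) (fun i => A (u i)) : W)) ∘ some) =
          (LinearMap.range A).subtype ∘ b := by
        funext i
        simp [hu]
      rw [h1]
      exact b.linearIndependent.map' _ (Submodule.ker_subtype _)
    · intro hmem
      apply hcon
      have h2 : Submodule.span E (Set.range ((fun i : Option (Fin r) =>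
          (i.elim (B y) (fun i => A (u i)) : W)) ∘ some)) ≤ LinearMap.range A := by
        rw [Submodule.span_le]
        rintro _ ⟨i, rfl⟩
        exact ⟨u i, rfl⟩
      exact h2 hmem
  obtain ⟨t, ht0, ht⟩ := exists_indep _ (fun i : Option (Fin r) => (i.elim (0 : W) (fun i => B (u i)))) hli
  have hmem : ∀ i : Option (Fin r), ((i.elim (B y) (fun i => A (u i)) : W) +
      t • (i.elim (0 : W) (fun i => B (u i)))) ∈ LinearMap.range (A + t • B) := by
    intro i
    cases i with
    | none =>
      refine ⟨t⁻¹ • y, ?_⟩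
      simp [hy, smul_smul, ht0]
    | some i => exact ⟨u i, by simp⟩
  let w : Option (Fin r) → LinearMap.range (A + t • B) := fun i => ⟨_, hmem i⟩
  have hw : LinearIndependent E w := by
    apply LinearIndependent.of_comp (LinearMap.range (A + t • B)).subtype
    exact ht
  have h3 := hw.fintype_card_le_finrank
  have h4 := h t
  rw [Fintype.card_option, Fintype.card_fin] at h3
  omega

end Crest.Agent.R003.Cg
end

-- ▼ part R003/Cg475B

/-!
# R3 (S0003), Part 3 (iv): cyclic decomposition, `dim [C(X),C(X)] ≥ dim C(X) - n` (helper475)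
-/

set_option autoImplicit false

namespace Crest.Agent.R003.Cg

open Matrix Module Polynomial

universe u

variable {E : Type u} [Field E]

/-- decomposition of a vector space with an operator into cyclic ones -/
theorem exists_cyclic {V : Type u} [AddCommGroup V] [Module E V] [FiniteDimensional E V]
    (φ : V →ₗ[E] V) :
    ∃ (ι : Type u) (_ : Fintype ι) (e : ι → (V →ₗ[E] V)) (w : ι → V),
      (∀ i, Commute (e i) φ) ∧ (∀ i, e i * e i = e i) ∧ (∀ i j, i ≠ j → e i * e j = 0) ∧
      ∑ i, e i = 1 ∧ (∀ i v, ∃ p : E[X], e i v = aeval φ p (w i)) ∧ (∀ i, e i (w i) = w i) := by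
  classical
  have htor : Module.IsTorsion E[X] (AEval' φ) := by
    apply Module.AEval.isTorsion_of_finiteDimensional
  obtain ⟨ι, hι, q, hq, k, ⟨Θ₀⟩⟩ := Module.equiv_directSum_of_isTorsion (R := E[X]) htor
  let Q : ι → Type u := fun i => E[X] ⧸ (Submodule.span E[X] {q i ^ k i})
  let Θ : AEval' φ ≃ₗ[E[X]] (∀ i, E[X] ⧸ (Submodule.span E[X] {q i ^ k i})) :=
    Θ₀.trans (DirectSum.linearEquivFunOnFintype E[X] ι _)
  let one : ∀ i, E[X] ⧸ (Submodule.span E[X] {q i ^ k i}) := fun i => Submodule.Quotient.mk 1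
  let P : ι → (AEval' φ →ₗ[E[X]] AEval' φ) := fun i =>
    Θ.symm.toLinearMap ∘ₗ LinearMap.single E[X] _ i ∘ₗ LinearMap.proj i ∘ₗ Θ.toLinearMap
  have hP : ∀ i x, Θ (P i x) = Pi.single i (Θ x i) := by
    intro i x
    simp [P]
  have hPP : ∀ i x, P i (P i x) = P i x := by
    intro i x
    apply Θ.injective
    rw [hP, hP, Pi.single_eq_same]
  have hPP' : ∀ i j, i ≠ j → ∀ x, P i (P j x) = 0 := by
    intro i j hij x
    apply Θ.injective
    rw [hP, hP, Pi.single_eq_of_ne hij, map_zero, Pi.single_zero]
  have hPs : ∀ x, ∑ i, P i x = x := by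
    intro x
    apply Θ.injective
    rw [map_sum]
    simp_rw [hP]
    exact Finset.univ_sum_single (Θ x)
  let o : V ≃ₗ[E] AEval' φ := AEval'.of φ
  have hoX : ∀ v, o (φ v) = (X : E[X]) • o v := fun v => (AEval'.X_smul_of φ v).symm
  have hoE : ∀ (p : E[X]) (x : AEval' φ), o.symm (p • x) = aeval φ p (o.symm x) := fun p x =>
    AEval.of_symm_smul φ p x
  let e : ι → (V →ₗ[E] V) := fun i =>
    o.symm.toLinearMap ∘ₗ (P i).restrictScalars E ∘ₗ o.toLinearMap
  have he : ∀ i v, e i v = o.symm (P i (o v)) := fun i v => rfl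
  refine ⟨ι, hι, e, fun i => o.symm (Θ.symm (Pi.single i (one i))), ?_, ?_, ?_, ?_, ?_, ?_⟩
  · intro i
    apply LinearMap.ext
    intro v
    rw [Module.End.mul_apply, Module.End.mul_apply, he, he, hoX, map_smul, hoE, aeval_X]
  · intro i
    apply LinearMap.ext
    intro v
    rw [Module.End.mul_apply, he, he, LinearEquiv.apply_symm_apply, hPP]
  · intro i j hij
    apply LinearMap.ext
    intro v
    rw [Module.End.mul_apply, he, he, LinearEquiv.apply_symm_apply, hPP' i j hij, map_zero]
    rfl
  · apply LinearMap.ext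
    intro v
    rw [LinearMap.sum_apply]
    simp_rw [he]
    rw [← map_sum, hPs, LinearEquiv.symm_apply_apply]
    rfl
  · intro i v
    obtain ⟨p, hp⟩ := Submodule.Quotient.mk_surjective _ (Θ (o v) i)
    refine ⟨p, ?_⟩
    rw [he, ← hoE]
    congr 1
    apply Θ.injective
    rw [hP, map_smul, LinearEquiv.apply_symm_apply, ← hp, ← Pi.single_smul]
    congr 1
    change _ = Submodule.Quotient.mk (p • (1 : E[X]))
    rw [smul_eq_mul, mul_one]
  · intro i
    rw [he, LinearEquiv.apply_symm_apply]
    congr 1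
    apply Θ.injective
    rw [hP, LinearEquiv.apply_symm_apply, Pi.single_eq_same]

/-- matrix version -/
theorem exists_cyclic_mat {n : ℕ} (X : Matrix (Fin n) (Fin n) E) :
    ∃ (ι : Type u) (_ : Fintype ι) (e : ι → Matrix (Fin n) (Fin n) E) (w : ι → (Fin n → E)),
      (∀ i, e i * X = X * e i) ∧ (∀ i, e i * e i = e i) ∧ (∀ i j, i ≠ j → e i * e j = 0) ∧
      ∑ i, e i = 1 ∧ (∀ i v, ∃ p : E[X], e i *ᵥ v = (aeval X p) *ᵥ (w i)) ∧
      (∀ i, e i *ᵥ w i = w i) := by
  obtain ⟨ι, hι, e, w, h1, h2, h3, h4, h5, h6⟩ := exists_cyclic (Matrix.toLinAlgEquiv' X)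
  refine ⟨ι, hι, fun i => Matrix.toLinAlgEquiv'.symm (e i), w, ?_, ?_, ?_, ?_, ?_, ?_⟩
  · intro i
    apply Matrix.toLinAlgEquiv'.injective
    rw [map_mul, map_mul, AlgEquiv.apply_symm_apply]
    exact (h1 i)
  · intro i
    rw [← map_mul, h2]
  · intro i j hij
    rw [← map_mul, h3 i j hij, map_zero]
  · rw [← map_sum, h4, map_one]
  · intro i v
    obtain ⟨p, hp⟩ := h5 i v
    refine ⟨p, ?_⟩
    have h7 : ∀ (A : Matrix (Fin n) (Fin n) E) (v : Fin n → E),
        A *ᵥ v = Matrix.toLinAlgEquiv' A v := fun A v => (Matrix.toLinAlgEquiv'_apply A v).symm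
    rw [h7, h7, AlgEquiv.apply_symm_apply, hp]
    congr 1
    rw [← Polynomial.aeval_algHom_apply]
  · intro i
    have h7 : ∀ (A : Matrix (Fin n) (Fin n) E) (v : Fin n → E),
        A *ᵥ v = Matrix.toLinAlgEquiv' A v := fun A v => (Matrix.toLinAlgEquiv'_apply A v).symm
    rw [h7, AlgEquiv.apply_symm_apply, h6]

theorem commute_aeval {R : Type*} [Ring R] [Algebra E R] {a b : R} (h : Commute a b) (p : E[X]) :
    Commute a (aeval b p) := by
  induction p using Polynomial.induction_on' with
  | add p q hp hq => rw [map_add]; exact hp.add_right hq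
  | monomial k c =>
    rw [aeval_monomial]
    exact (Algebra.commute_algebraMap_right c a).mul_right (h.pow_right k)

/-- the span of the commutators of elements of `C(X)` -/
def com {n : ℕ} (X : Matrix (Fin n) (Fin n) E) : Submodule E (Matrix (Fin n) (Fin n) E) :=
  Submodule.span E {Z | ∃ Y ∈ LinearMap.ker (ad X), ∃ Y' ∈ LinearMap.ker (ad X),
    Z = Y * Y' - Y' * Y}

theorem mem_ker_ad {n : ℕ} (X Y : Matrix (Fin n) (Fin n) E) :
    Y ∈ LinearMap.ker (ad X) ↔ X * Y = Y * X := by
  rw [LinearMap.mem_ker, ad_apply, sub_eq_zero]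

theorem finrank_ker_le_com {n : ℕ} (X : Matrix (Fin n) (Fin n) E) :
    finrank E (LinearMap.ker (ad X)) ≤ n + finrank E (com X) := by
  obtain ⟨ι, hι, e, w, h1, h2, h3, h4, h5, h6⟩ := exists_cyclic_mat X
  let Φ : LinearMap.ker (ad X) →ₗ[E] (Fin n → E) :=
    { toFun := fun Y => ∑ i, e i *ᵥ (Y.1 *ᵥ w i)
      map_add' := fun a b => by
        simp only [Submodule.coe_add, Matrix.add_mulVec, Matrix.mulVec_add, Finset.sum_add_distrib]
      map_smul' := fun c a => by
        simp only [Submodule.coe_smul, Matrix.smul_mulVec, Matrix.mulVec_smul, Finset.smul_sum,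
          RingHom.id_apply] }
  have hker : ∀ Y ∈ LinearMap.ker Φ, (Y : Matrix (Fin n) (Fin n) E) ∈ com X := by
    intro Y hY
    have hYX := (mem_ker_ad X Y.1).1 Y.2
    have hsum : ∑ i, e i *ᵥ (Y.1 *ᵥ w i) = 0 := hY
    have h7 : ∀ j, e j *ᵥ (Y.1 *ᵥ w j) = 0 := by
      intro j
      have h8 := congrArg (fun v => e j *ᵥ v) hsum
      simp only [Matrix.mulVec_zero] at h8
      rw [Matrix.mulVec_sum, Finset.sum_eq_single j] at h8
      · rw [Matrix.mulVec_mulVec, h2] at h8
        exact h8
      · intro i _ hij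
        rw [Matrix.mulVec_mulVec, h3 j i (Ne.symm hij), Matrix.zero_mulVec]
      · simp
    have hYe : ∀ j, e j * Y.1 * e j = 0 := by
      intro j
      apply Matrix.toLin'.injective
      apply LinearMap.ext
      intro v
      rw [Matrix.toLin'_apply, map_zero, LinearMap.zero_apply, mul_assoc, ← Matrix.mulVec_mulVec,
        ← Matrix.mulVec_mulVec]
      obtain ⟨p, hp⟩ := h5 j v
      have hc1 : Commute (e j) (aeval X p) := commute_aeval (h1 j) p
      have hc2 : Commute Y.1 (aeval X p) := commute_aeval hYX.symm p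
      rw [hp, Matrix.mulVec_mulVec _ Y.1, hc2.eq, ← Matrix.mulVec_mulVec, Matrix.mulVec_mulVec _ (e j),
        hc1.eq, ← Matrix.mulVec_mulVec, h7, Matrix.mulVec_zero]
    have hdec : Y.1 = ∑ i, ∑ j, e i * Y.1 * e j := by
      calc Y.1 = (∑ i, e i) * Y.1 * (∑ j, e j) := by rw [h4, one_mul, mul_one]
        _ = ∑ i, ∑ j, e i * Y.1 * e j := by
          rw [Finset.sum_mul, Finset.sum_mul]
          refine Finset.sum_congr rfl fun i _ => ?_
          rw [← Finset.mul_sum]
    rw [hdec]
    refine Submodule.sum_mem _ fun i _ => Submodule.sum_mem _ fun j _ => ?_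
    by_cases hij : i = j
    · subst hij
      rw [hYe]; exact Submodule.zero_mem _
    · apply Submodule.subset_span
      have hei : ∀ i, X * e i = e i * X := fun i => (h1 i).symm
      refine ⟨e i, (mem_ker_ad X _).2 (hei i), e i * Y.1 * e j, (mem_ker_ad X _).2 ?_, ?_⟩
      · rw [← mul_assoc, ← mul_assoc, hei, mul_assoc (e i) X, hYX, mul_assoc, mul_assoc, mul_assoc, hei,
          mul_assoc]
      · rw [← mul_assoc, ← mul_assoc, h2, mul_assoc (e i * Y.1), h3 j i (Ne.symm hij), mul_zero,
          sub_zero]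
  have h8 := LinearMap.finrank_range_add_finrank_ker Φ
  have h9 : finrank E (LinearMap.range Φ) ≤ n := by
    have := Submodule.finrank_le (LinearMap.range Φ)
    rwa [finrank_fin_fun] at this
  have h10 : finrank E (LinearMap.ker Φ) ≤ finrank E (com X) := by
    let ψ : LinearMap.ker Φ →ₗ[E] com X :=
      LinearMap.codRestrict (com X)
        ((LinearMap.ker (ad X)).subtype ∘ₗ (LinearMap.ker Φ).subtype) (fun Y => hker Y.1 Y.2)
    apply LinearMap.finrank_le_finrank_of_injective (f := ψ)
    intro a b hab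
    have := congrArg Subtype.val hab
    exact Subtype.ext (Subtype.ext this)
  omega

/-- (C) the orthogonal of `[C(X),C(X)]` -/
theorem finrank_orth_com {n : ℕ} (X : Matrix (Fin n) (Fin n) E) :
    finrank E (tf.orthogonal (com X)) + finrank E (LinearMap.ker (ad X)) ≤ n ^ 2 + n := by
  have h1 := finrank_ker_le_com X
  have h2 := LinearMap.BilinForm.finrank_orthogonal (tf_nondeg (E := E) (n := n)) (com X)
  have h3 := Submodule.finrank_le (com X)
  rw [finrank_mat] at h2 h3
  omega

end Crest.Agent.R003.Cg
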