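import Crest.Agent.R003.Defs

/-!
# Row 3 (S0003): the corner of step S5 (helper832)

The list `K~` of atoms `000,001,100,010,α,β,101,011,110,111`, its four labellings, and the matrix
`Θ = N₁ D₁₃ N₃`.
-/

set_option autoImplicit false

namespace Crest.Agent.R003

/-! ### restriction of labels -/


theorem restr_length832 {c d : List Bool} (h : c.length = d.length) (b : Bool) :
    (restr c d b).length = c.count b := by
  unfold restr
  rw [List.length_map]
  induction c generalizing d with
  | nil => simp
  | cons x c ih =>
    cases d with
    | nil => simp at h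
    | cons y d =>
      rw [List.zip_cons_cons]
      have h' : c.length = d.length := by simpa using h
      by_cases hx : x = b
      · subst hx
        rw [List.filter_cons_of_pos (by simp), List.count_cons_self]
        simp only [List.length_cons]
        rw [ih h']
      · rw [List.filter_cons_of_neg (by simpa using hx),
          List.count_cons_of_ne (by simpa using hx)]
        exact ih h'

/-- the label of `restr c d b` at the standardised position of `i` is the label of `d` at `i` -/
theorem lab_restr {c d : List Bool} (h : c.length = d.length) {b : Bool} {i : ℕ}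
    (hi : lab c i = some b) : lab (restr c d b) ((c.take i).count b) = lab d i := by
  induction c generalizing d i with
  | nil => simp [lab] at hi
  | cons x c ih =>
    cases d with
    | nil => simp at h
    | cons y d =>
      have h' : c.length = d.length := by simpa using h
      cases i with
      | zero =>
        have hx : x = b := by simpa [lab] using hi
        subst hx
        simp [restr, lab]
      | succ i =>
        have hi' : lab c i = some b := by simpa [lab] using hi
        have := ih h' hi'
        by_cases hx : x = b
        · subst hx
          have e1 : restr (x :: c) (y :: d) x = y :: restr c d x := by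
            unfold restr
            rw [List.zip_cons_cons, List.filter_cons_of_pos (by simp), List.map_cons]
          rw [e1, List.take_succ_cons, List.count_cons_self]
          simpa [lab] using this
        · have e1 : restr (x :: c) (y :: d) b = restr c d b := by
            unfold restr
            rw [List.zip_cons_cons, List.filter_cons_of_neg (by simpa using hx)]
          rw [e1, List.take_succ_cons, List.count_cons_of_ne (by simpa using hx)]
          simpa [lab] using this

/-- standardised positions determine positions -/
theorem take_count_inj {Λ : Type} [DecidableEq Λ] {c : List Λ} {b : Λ} {i j : ℕ}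
    (hi : lab c i = some b) (hj : lab c j = some b)
    (h : (c.take i).count b = (c.take j).count b) : i = j := by
  by_contra hne
  wlog hlt : i < j generalizing i j
  · exact this hj hi h.symm (Ne.symm hne) (by omega)
  have hi' : i < c.length := by
    by_contra hh
    rw [lab, List.getElem?_eq_none (by omega)] at hi
    cases hi
  have h1 : (c.take (i + 1)).count b = (c.take i).count b + 1 := by
    rw [List.take_add_one, List.count_append]
    rw [show (c)[i]? = some b from hi]
    simp
  have h2 : (c.take (i + 1)).count b ≤ (c.take j).count b :=
    (List.take_sublist_take_left (by omega)).count_le b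
  omega

theorem take_count_lt {Λ : Type} [DecidableEq Λ] {c : List Λ} {b : Λ} {i : ℕ}
    (hi : lab c i = some b) : (c.take i).count b < c.count b := by
  have h1 : (c.take (i + 1)).count b = (c.take i).count b + 1 := by
    rw [List.take_add_one, List.count_append]
    rw [show (c)[i]? = some b from hi]
    simp
  have h2 : (c.take (i + 1)).count b ≤ c.count b := (List.take_sublist _ _).count_le b
  omega







/-! ### the corner -/

/-- atoms of the new corner -/
inductive Atm : Type
  | a000 | a001 | a100 | a010 | al | be | a101 | a011 | a110 | a111
  deriving DecidableEq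

/-- sizes of the atoms -/
structure Sz : Type where
  (s000 s001 s100 s010 m s101 s011 s110 s111 : ℕ)

namespace Sz

variable {Λ : Type}

/-- the corner with labels `f` -/
def lst (z : Sz) (f : Atm → Λ) : List Λ :=
  List.replicate z.s000 (f .a000) ++ (List.replicate z.s001 (f .a001) ++
  (List.replicate z.s100 (f .a100) ++ (List.replicate z.s010 (f .a010) ++
  (List.replicate z.m (f .al) ++ (List.replicate z.m (f .be) ++
  (List.replicate z.s101 (f .a101) ++ (List.replicate z.s011 (f .a011) ++
  (List.replicate z.s110 (f .a110) ++ List.replicate z.s111 (f .a111)))))))))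

/-- size of an atom -/
def size (z : Sz) : Atm → ℕ
  | .a000 => z.s000
  | .a001 => z.s001
  | .a100 => z.s100
  | .a010 => z.s010
  | .al => z.m
  | .be => z.m
  | .a101 => z.s101
  | .a011 => z.s011
  | .a110 => z.s110
  | .a111 => z.s111

/-- start of an atom -/
def start (z : Sz) : Atm → ℕ
  | .a000 => 0
  | .a001 => z.s000
  | .a100 => z.s000 + z.s001
  | .a010 => z.s000 + z.s001 + z.s100
  | .al => z.s000 + z.s001 + z.s100 + z.s010
  | .be => z.s000 + z.s001 + z.s100 + z.s010 + z.m
  | .a101 => z.s000 + z.s001 + z.s100 + z.s010 + z.m + z.m
  | .a011 => z.s000 + z.s001 + z.s100 + z.s010 + z.m + z.m + z.s101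
  | .a110 => z.s000 + z.s001 + z.s100 + z.s010 + z.m + z.m + z.s101 + z.s011
  | .a111 => z.s000 + z.s001 + z.s100 + z.s010 + z.m + z.m + z.s101 + z.s011 + z.s110

/-- total size -/
def tot (z : Sz) : ℕ :=
  z.s000 + z.s001 + z.s100 + z.s010 + z.m + z.m + z.s101 + z.s011 + z.s110 + z.s111

theorem lst_length (z : Sz) (f : Atm → Λ) : (z.lst f).length = z.tot := by
  simp only [lst, List.length_append, List.length_replicate, tot]
  omega


/-- every position below the total size lies in exactly one atom -/
theorem exists_atm (z : Sz) {i : ℕ} (hi : i < z.tot) :
    ∃ a t, t < z.size a ∧ i = z.start a + t := by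
  unfold tot at hi
  by_cases h0 : i < z.s000
  · exact ⟨.a000, i, h0, by simp [start]⟩
  by_cases h1 : i < z.s000 + z.s001
  · exact ⟨.a001, i - z.s000, by simp only [size]; omega, by simp only [start]; omega⟩
  by_cases h2 : i < z.s000 + z.s001 + z.s100
  · exact ⟨.a100, i - (z.s000 + z.s001), by simp only [size]; omega, by simp only [start]; omega⟩
  by_cases h3 : i < z.s000 + z.s001 + z.s100 + z.s010
  · exact ⟨.a010, i - (z.s000 + z.s001 + z.s100), by simp only [size]; omega,
      by simp only [start]; omega⟩
  by_cases h4 : i < z.s000 + z.s001 + z.s100 + z.s010 + z.m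
  · exact ⟨.al, i - (z.s000 + z.s001 + z.s100 + z.s010), by simp only [size]; omega,
      by simp only [start]; omega⟩
  by_cases h5 : i < z.s000 + z.s001 + z.s100 + z.s010 + z.m + z.m
  · exact ⟨.be, i - (z.s000 + z.s001 + z.s100 + z.s010 + z.m), by simp only [size]; omega,
      by simp only [start]; omega⟩
  by_cases h6 : i < z.s000 + z.s001 + z.s100 + z.s010 + z.m + z.m + z.s101
  · exact ⟨.a101, i - (z.s000 + z.s001 + z.s100 + z.s010 + z.m + z.m), by simp only [size]; omega,
      by simp only [start]; omega⟩
  by_cases h7 : i < z.s000 + z.s001 + z.s100 + z.s010 + z.m + z.m + z.s101 + z.s011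
  · exact ⟨.a011, i - (z.s000 + z.s001 + z.s100 + z.s010 + z.m + z.m + z.s101),
      by simp only [size]; omega, by simp only [start]; omega⟩
  by_cases h8 : i < z.s000 + z.s001 + z.s100 + z.s010 + z.m + z.m + z.s101 + z.s011 + z.s110
  · exact ⟨.a110, i - (z.s000 + z.s001 + z.s100 + z.s010 + z.m + z.m + z.s101 + z.s011),
      by simp only [size]; omega, by simp only [start]; omega⟩
  · exact ⟨.a111, i - (z.s000 + z.s001 + z.s100 + z.s010 + z.m + z.m + z.s101 + z.s011 + z.s110),
      by simp only [size]; omega, by simp only [start]; omega⟩

/-- number of labels `b` (for the labelling `f`) before the atom `a` -/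
def pre (z : Sz) (f : Atm → Bool) (b : Bool) : Atm → ℕ
  | .a000 => 0
  | .a001 => if f .a000 = b then z.s000 else 0
  | .a100 => (if f .a000 = b then z.s000 else 0) + if f .a001 = b then z.s001 else 0
  | .a010 => (if f .a000 = b then z.s000 else 0) + (if f .a001 = b then z.s001 else 0) +
      if f .a100 = b then z.s100 else 0
  | .al => (if f .a000 = b then z.s000 else 0) + (if f .a001 = b then z.s001 else 0) +
      (if f .a100 = b then z.s100 else 0) + if f .a010 = b then z.s010 else 0
  | .be => (if f .a000 = b then z.s000 else 0) + (if f .a001 = b then z.s001 else 0) +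
      (if f .a100 = b then z.s100 else 0) + (if f .a010 = b then z.s010 else 0) +
      if f .al = b then z.m else 0
  | .a101 => (if f .a000 = b then z.s000 else 0) + (if f .a001 = b then z.s001 else 0) +
      (if f .a100 = b then z.s100 else 0) + (if f .a010 = b then z.s010 else 0) +
      (if f .al = b then z.m else 0) + if f .be = b then z.m else 0
  | .a011 => (if f .a000 = b then z.s000 else 0) + (if f .a001 = b then z.s001 else 0) +
      (if f .a100 = b then z.s100 else 0) + (if f .a010 = b then z.s010 else 0) +
      (if f .al = b then z.m else 0) + (if f .be = b then z.m else 0) +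
      if f .a101 = b then z.s101 else 0
  | .a110 => (if f .a000 = b then z.s000 else 0) + (if f .a001 = b then z.s001 else 0) +
      (if f .a100 = b then z.s100 else 0) + (if f .a010 = b then z.s010 else 0) +
      (if f .al = b then z.m else 0) + (if f .be = b then z.m else 0) +
      (if f .a101 = b then z.s101 else 0) + if f .a011 = b then z.s011 else 0
  | .a111 => (if f .a000 = b then z.s000 else 0) + (if f .a001 = b then z.s001 else 0) +
      (if f .a100 = b then z.s100 else 0) + (if f .a010 = b then z.s010 else 0) +
      (if f .al = b then z.m else 0) + (if f .be = b then z.m else 0) +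
      (if f .a101 = b then z.s101 else 0) + (if f .a011 = b then z.s011 else 0) +
      if f .a110 = b then z.s110 else 0

theorem getElem_seg {Λ : Type} (A B : List Λ) (s t k : ℕ) (a : Λ) (ht : t < s)
    (hk : k = A.length + t) : (A ++ (List.replicate s a ++ B))[k]? = some a := by
  subst hk
  rw [List.getElem?_append_right (by omega), List.getElem?_append_left (by simp; omega)]
  simp [ht]

theorem count_seg (A B : List Bool) (s t k : ℕ) (a b : Bool) (ht : t < s)
    (hk : k = A.length + t) :
    ((A ++ (List.replicate s a ++ B)).take k).count b = A.count b + if a = b then t else 0 := by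
  subst hk
  rw [List.take_length_add_append, List.count_append, List.take_append_of_le_length (by simp; omega),
    List.take_replicate, List.count_replicate, min_eq_left ht.le]
  simp


/-- the part of the list before an atom -/
def preL {Λ : Type} (z : Sz) (f : Atm → Λ) : Atm → List Λ
  | .a000 => []
  | .a001 => List.replicate z.s000 (f .a000)
  | .a100 => List.replicate z.s000 (f .a000) ++
      List.replicate z.s001 (f .a001)
  | .a010 => List.replicate z.s000 (f .a000) ++
      List.replicate z.s001 (f .a001) ++
      List.replicate z.s100 (f .a100)
  | .al => List.replicate z.s000 (f .a000) ++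
      List.replicate z.s001 (f .a001) ++
      List.replicate z.s100 (f .a100) ++
      List.replicate z.s010 (f .a010)
  | .be => List.replicate z.s000 (f .a000) ++
      List.replicate z.s001 (f .a001) ++
      List.replicate z.s100 (f .a100) ++
      List.replicate z.s010 (f .a010) ++
      List.replicate z.m (f .al)
  | .a101 => List.replicate z.s000 (f .a000) ++
      List.replicate z.s001 (f .a001) ++
      List.replicate z.s100 (f .a100) ++
      List.replicate z.s010 (f .a010) ++
      List.replicate z.m (f .al) ++
      List.replicate z.m (f .be)
  | .a011 => List.replicate z.s000 (f .a000) ++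
      List.replicate z.s001 (f .a001) ++
      List.replicate z.s100 (f .a100) ++
      List.replicate z.s010 (f .a010) ++
      List.replicate z.m (f .al) ++
      List.replicate z.m (f .be) ++
      List.replicate z.s101 (f .a101)
  | .a110 => List.replicate z.s000 (f .a000) ++
      List.replicate z.s001 (f .a001) ++
      List.replicate z.s100 (f .a100) ++
      List.replicate z.s010 (f .a010) ++
      List.replicate z.m (f .al) ++
      List.replicate z.m (f .be) ++
      List.replicate z.s101 (f .a101) ++
      List.replicate z.s011 (f .a011)
  | .a111 => List.replicate z.s000 (f .a000) ++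
      List.replicate z.s001 (f .a001) ++
      List.replicate z.s100 (f .a100) ++
      List.replicate z.s010 (f .a010) ++
      List.replicate z.m (f .al) ++
      List.replicate z.m (f .be) ++
      List.replicate z.s101 (f .a101) ++
      List.replicate z.s011 (f .a011) ++
      List.replicate z.s110 (f .a110)

theorem preL_length {Λ : Type} (z : Sz) (f : Atm → Λ) (a : Atm) :
    (z.preL f a).length = z.start a := by
  cases a <;> simp only [preL, start, List.length_append, List.length_replicate, List.length_nil]

theorem preL_count (z : Sz) (f : Atm → Bool) (b : Bool) (a : Atm) :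
    (z.preL f a).count b = z.pre f b a := by
  cases a <;> simp only [preL, pre, List.count_append, List.count_replicate, List.count_nil,
    beq_iff_eq]

theorem lst_split {Λ : Type} (z : Sz) (f : Atm → Λ) (a : Atm) :
    ∃ B, z.lst f = z.preL f a ++ (List.replicate (z.size a) (f a) ++ B) := by
  cases a
  case a111 => exact ⟨[], by simp [lst, preL, size]⟩
  all_goals exact ⟨_, by simp only [lst, preL, size, List.append_assoc, List.nil_append]; rfl⟩

theorem lst_getElem {Λ : Type} (z : Sz) (f : Atm → Λ) (a : Atm) (t : ℕ) (ht : t < z.size a) :
    (z.lst f)[z.start a + t]? = some (f a) := by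
  obtain ⟨B, hB⟩ := z.lst_split f a
  rw [hB]
  exact getElem_seg _ _ _ _ _ _ ht (by rw [preL_length])

theorem lst_count_take (z : Sz) (f : Atm → Bool) (b : Bool) (a : Atm) (t : ℕ)
    (ht : t < z.size a) :
    ((z.lst f).take (z.start a + t)).count b = z.pre f b a + if f a = b then t else 0 := by
  obtain ⟨B, hB⟩ := z.lst_split f a
  rw [hB, count_seg _ _ _ t _ _ _ ht (by rw [preL_length]), preL_count]

end Sz

/-! ### sign matrices -/

/-- diagonal entries of `dsg` as a function on `ℕ` -/
noncomputable def dsv (e c : List Bool) (σ : Bool → Bool → ℂˣ) (k : ℕ) : ℂˣ :=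
  match lab e k, lab c k with
  | some x, some y => σ x y
  | _, _ => 1

theorem dsg_apply {n : ℕ} (e c : List Bool) (σ : Bool → Bool → ℂˣ) (i j : Fin n) :
    (dsg n e c σ).1 i j = if i = j then (dsv e c σ i.1 : ℂ) else 0 := by
  unfold dsg dg
  simp only [Matrix.diagonal_apply]
  rfl

theorem dsv_of_le {e c : List Bool} {σ : Bool → Bool → ℂˣ} {k : ℕ}
    (h : e.length ≤ k ∨ c.length ≤ k) : dsv e c σ k = 1 := by
  unfold dsv lab
  rcases h with h | h
  · rw [List.getElem?_eq_none h]
  · rw [List.getElem?_eq_none h]
    cases e[k]? <;> rfl

theorem dsv_of_some {e c : List Bool} {σ : Bool → Bool → ℂˣ} {k : ℕ} {x y : Bool}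
    (h1 : lab e k = some x) (h2 : lab c k = some y) : dsv e c σ k = σ x y := by
  unfold dsv
  rw [h1, h2]

theorem dsg_mem_GLk832 {n k : ℕ} {e c : List Bool} {σ : Bool → Bool → ℂˣ}
    (h : e.length ≤ k ∨ c.length ≤ k) : dsg n e c σ ∈ GLk n k := by
  intro i j hij
  rw [dsg_apply]
  split_ifs with hh
  · subst hh
    have : k ≤ i.1 := by rcases hij with h | h <;> exact h
    rw [dsv_of_le (by rcases h with h | h; exacts [Or.inl (h.trans this), Or.inr (h.trans this)])]
    rfl
  · rfl


end Crest.Agent.R003
private theorem rz_7936f4a2bb : type_of% @_root_.Crest.Agent.R003.Sz.pre.eq_1 := @_root_.Crest.Agent.R003.Sz.pre.eq_1 -- L294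
private theorem rz_d4408fab25 : type_of% @_root_.Crest.Agent.R003.Sz.preL.eq_1 := @_root_.Crest.Agent.R003.Sz.preL.eq_1 -- L343
private theorem rz_79590286f1 : type_of% @_root_.Crest.Agent.R003.Sz.size.eq_1 := @_root_.Crest.Agent.R003.Sz.size.eq_1 -- L225
private theorem rz_86b18ed451 : type_of% @_root_.Crest.Agent.R003.Sz.start.eq_1 := @_root_.Crest.Agent.R003.Sz.start.eq_1 -- L238
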