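import Mathlib
import Crest.Agent.R003.Iface

-- ▼ part R003/Gap537
section

/-! R003 (S0003): gap combinatorics for the driver.  helper537 -/

set_option autoImplicit false

namespace Crest.Agent.R003

section Gap

variable {N : Type*} [DecidableEq N]

/-- A nonempty duplicate-free list of signed names closed under partners contains a pair
`x^s ... x^{-s}` whose interior is empty or contains a letter whose partner is not in the interior. -/
theorem exists_min_pair (g : List (N × Bool)) (hne : g ≠ [])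
    (hcl : ∀ z ∈ g, (z.1, !z.2) ∈ g) (hnd : g.Nodup) :
    ∃ (u m v : List (N × Bool)) (x : N) (s : Bool),
      g = u ++ (x, s) :: (m ++ (x, !s) :: v) ∧
        (m = [] ∨ ∃ z ∈ m, (z.1, !z.2) ∉ m) := by
  classical
  -- the set of lengths of interiors
  have hex : ∃ n : ℕ, ∃ (u m v : List (N × Bool)) (x : N) (s : Bool),
      g = u ++ (x, s) :: (m ++ (x, !s) :: v) ∧ m.length = n := by
    obtain ⟨z, hz⟩ := List.exists_mem_of_ne_nil g hne
    have hz' := hcl z hz
    obtain ⟨u, v, huv⟩ := List.append_of_mem hz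
    obtain ⟨x, s⟩ := z
    rw [huv] at hz'
    rcases List.mem_append.1 hz' with h | h
    · obtain ⟨a, b, hab⟩ := List.append_of_mem h
      refine ⟨b.length, a, b, v, x, !s, ?_, rfl⟩
      rw [huv, hab]
      simp
    · rcases List.mem_cons.1 h with h | h
      · simp at h
      · obtain ⟨a, b, hab⟩ := List.append_of_mem h
        exact ⟨a.length, u, a, b, x, s, by rw [huv, hab], rfl⟩
  obtain ⟨u, m, v, x, s, hg, hm⟩ := Nat.find_spec hex
  refine ⟨u, m, v, x, s, hg, ?_⟩
  by_contra hcon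
  push Not at hcon
  obtain ⟨hm0, hm1⟩ := hcon
  obtain ⟨z, hz⟩ := List.exists_mem_of_ne_nil m hm0
  have hz' := hm1 z hz
  obtain ⟨a, b, hab⟩ := List.append_of_mem hz
  obtain ⟨y, t⟩ := z
  rw [hab] at hz'
  rcases List.mem_append.1 hz' with h | h
  · obtain ⟨c, d, hcd⟩ := List.append_of_mem h
    refine Nat.find_min hex (m := d.length) ?_ ⟨u ++ (x, s) :: c, d, b ++ (x, !s) :: v, y, !t, ?_, rfl⟩
    · rw [← hm, hab, hcd]; simp; omega
    · rw [hg, hab, hcd]; simp
  · rcases List.mem_cons.1 h with h | h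
    · simp at h
    · obtain ⟨c, d, hcd⟩ := List.append_of_mem h
      refine Nat.find_min hex (m := c.length) ?_
        ⟨u ++ (x, s) :: a, c, d ++ (x, !s) :: v, y, t, ?_, rfl⟩
      · rw [← hm, hab, hcd]; simp; omega
      · rw [hg, hab, hcd]; simp

/-- Trichotomy for a gap all of whose letters have their partners in the gap:
either an adjacent pair, or an interleaved pair of pairs. -/
theorem gap_cases (g : List (N × Bool)) (hne : g ≠ [])
    (hcl : ∀ z ∈ g, (z.1, !z.2) ∈ g) (hnd : g.Nodup) :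
    (∃ (u v : List (N × Bool)) (x : N) (s : Bool), g = u ++ (x, s) :: (x, !s) :: v) ∨
    (∃ (b a1 a2 a3 b' : List (N × Bool)) (x y : N) (s t : Bool), x ≠ y ∧
      g = b ++ (x, s) :: (a1 ++ (y, t) :: (a2 ++ (x, !s) :: (a3 ++ (y, !t) :: b')))) := by
  classical
  obtain ⟨u, m, v, x, s, hg, hm⟩ := exists_min_pair g hne hcl hnd
  rcases hm with rfl | ⟨z, hz, hz'⟩
  · exact Or.inl ⟨u, v, x, s, by simpa using hg⟩
  · right
    obtain ⟨y, t⟩ := z
    have hyg : (y, t) ∈ g := by rw [hg]; simp [hz]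
    have hy' := hcl _ hyg
    simp only at hy' hz'
    have hxy : x ≠ y := by
      rintro rfl
      -- then (x,t) occurs in m, and also outside
      rw [hg] at hnd
      have h1 : (x, t) ∈ m := hz
      rw [List.nodup_append] at hnd
      obtain ⟨_, h2, _⟩ := hnd
      rw [List.nodup_cons] at h2
      obtain ⟨h3, h4⟩ := h2
      by_cases hts : t = s
      · subst hts; exact h3 (by simp [h1])
      · have hts' : t = !s := by cases t <;> cases s <;> simp_all
        subst hts'
        rw [List.nodup_append] at h4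
        exact h4.2.2 _ h1 _ (by simp) rfl
    obtain ⟨a, b, hab⟩ := List.append_of_mem hz
    rw [hg] at hy'
    rcases List.mem_append.1 hy' with h | h
    · obtain ⟨c, d, hcd⟩ := List.append_of_mem h
      refine ⟨c, d, a, b, v, y, x, !t, s, hxy.symm, ?_⟩
      rw [hg, hab, hcd]; simp
    · rcases List.mem_cons.1 h with h | h
      · exact absurd (Prod.mk.inj h).1.symm hxy
      · rcases List.mem_append.1 h with h | h
        · exact absurd h hz'
        · rcases List.mem_cons.1 h with h | h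
          · exact absurd (Prod.mk.inj h).1.symm hxy
          · obtain ⟨c, d, hcd⟩ := List.append_of_mem h
            refine ⟨u, a, b, c, d, x, y, s, t, hxy, ?_⟩
            rw [hg, hab, hcd]; simp

end Gap

end Crest.Agent.R003

namespace Crest.Agent.R003

section Rotate

variable {α : Type*} (P : α → Prop) [DecidablePred P]

/-- A cyclic word containing both a `P`-letter and a non-`P`-letter can be rotated so that it starts
with a `P`-letter followed by a maximal nonempty block of non-`P`-letters. -/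
theorem exists_rotated_gap (w : List α) (hP : ∃ a ∈ w, P a) (hN : ∃ b ∈ w, ¬ P b) :
    ∃ (p : α) (g rest : List α), w ~r (p :: (g ++ rest)) ∧ P p ∧ g ≠ [] ∧ (∀ z ∈ g, ¬ P z) ∧
      (rest = [] ∨ ∃ p' r, rest = p' :: r ∧ P p') := by
  classical
  obtain ⟨b, hb, hbN⟩ := hN
  obtain ⟨a, ha, haP⟩ := hP
  obtain ⟨u, v, rfl⟩ := List.append_of_mem hb
  -- rotate to b :: (v ++ u)
  have h1 : (u ++ b :: v) ~r (b :: (v ++ u)) := by
    simpa using (List.isRotated_append (l := u) (l' := b :: v))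
  have ha' : a ∈ v ++ u := by
    have h2 : a ∈ b :: (v ++ u) := (h1.perm.mem_iff).1 ha
    rcases List.mem_cons.1 h2 with h | h
    · exact absurd (h ▸ haP) hbN
    · exact h
  -- last P-letter of v ++ u
  have key : ∀ l : List α, (∃ a ∈ l, P a) → ∃ A p B, l = A ++ p :: B ∧ P p ∧ ∀ z ∈ B, ¬ P z := by
    intro l
    induction l with
    | nil => rintro ⟨_, h, _⟩; simp at h
    | cons x l ih =>
      rintro ⟨y, hy, hyP⟩
      by_cases hl : ∃ a ∈ l, P a
      · obtain ⟨A, p, B, rfl, hp, hB⟩ := ih hl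
        exact ⟨x :: A, p, B, rfl, hp, hB⟩
      · rcases List.mem_cons.1 hy with h | h
        · subst h
          refine ⟨[], y, l, rfl, hyP, ?_⟩
          intro z hz hzP
          exact hl ⟨z, hz, hzP⟩
        · exact absurd ⟨y, h, hyP⟩ hl
  obtain ⟨A, p, B, hAB, hp, hB⟩ := key (v ++ u) ⟨a, ha', haP⟩
  have h3 : (b :: (v ++ u)) ~r (p :: (B ++ (b :: A))) := by
    rw [hAB]
    have := List.isRotated_append (l := b :: A) (l' := p :: B)
    simpa using this
  refine ⟨p, (B ++ (b :: A)).takeWhile (fun z => !decide (P z)),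
    (B ++ (b :: A)).dropWhile (fun z => !decide (P z)), ?_, hp, ?_, ?_, ?_⟩
  · rw [List.takeWhile_append_dropWhile]
    exact h1.trans h3
  · cases B with
    | nil => simp [hbN]
    | cons x B => simp [hB x (by simp)]
  · intro z hz
    have := List.mem_takeWhile_imp hz
    simpa using this
  · rcases h : (B ++ (b :: A)).dropWhile (fun z => !decide (P z)) with _ | ⟨p', r⟩
    · exact Or.inl rfl
    · right
      refine ⟨p', r, rfl, ?_⟩
      have := List.dropWhile_get_zero_not (p := fun z => !decide (P z)) (B ++ (b :: A))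
        (by rw [h]; simp)
      simpa [h] using this

end Rotate

end Crest.Agent.R003
end

-- ▼ part R003/Cases537
section

/-! R003 (S0003): the case distinction of the driver, on an abstract letter type.  helper537 -/

set_option autoImplicit false

namespace Crest.Agent.R003

variable {L N : Type*} [DecidableEq N]

/-- Case distinction for a cyclic word containing a P-letter and a full letter, all of whose full
letters have their partners in the word. `F` embeds full letters, `f` recognises them. -/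
theorem letter_cases (F : N × Bool → L) (f : L → Option (N × Bool)) (hF : ∀ z, f (F z) = some z)
    (hf : ∀ l z, f l = some z → l = F z) (w : List L)
    (hP : ∃ p ∈ w, f p = none) (hN : ∃ z, F z ∈ w)
    (hnd : (w.filterMap f).Nodup) (hcl : ∀ z, F z ∈ w → F (z.1, !z.2) ∈ w) :
    (∃ (v : List L) (x : N) (s : Bool), w ~r (F (x, s) :: F (x, !s) :: v) ∧ ∃ p ∈ v, f p = none) ∨
    (∃ (p p' : L) (b a : List (N × Bool)) (c d : List L) (x : N) (s : Bool),
      f p = none ∧ f p' = none ∧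
      w ~r (p :: (b.map F ++ F (x, s) :: (a.map F ++ p' :: (c ++ F (x, !s) :: d))))) ∨
    (∃ (p : L) (b a1 a2 a3 : List (N × Bool)) (b' : List L) (x y : N) (s t : Bool),
      f p = none ∧ x ≠ y ∧
      w ~r (p :: (b.map F ++ F (x, s) :: (a1.map F ++ F (y, t) :: (a2.map F ++
        F (x, !s) :: (a3.map F ++ F (y, !t) :: b')))))) := by
  classical
  obtain ⟨p0, hp0, hp0P⟩ := hP
  obtain ⟨z0, hz0⟩ := hN
  obtain ⟨p, g, rest, hrot, hp, hg, hgN, hrest⟩ :=
    exists_rotated_gap (fun l : L => f l = none) w ⟨p0, hp0, hp0P⟩ ⟨F z0, hz0, by simp [hF]⟩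
  -- g is a list of full letters
  have hmapg : ∀ l : List L, (∀ z ∈ l, ¬ f z = none) → ∃ l0 : List (N × Bool), l = l0.map F := by
    intro l
    induction l with
    | nil => intro _; exact ⟨[], rfl⟩
    | cons z l ih =>
      intro h
      obtain ⟨l0, hl0⟩ := ih (fun y hy => h y (List.mem_cons_of_mem _ hy))
      have hz := h z (by simp)
      obtain ⟨z', hz'⟩ := Option.ne_none_iff_exists'.1 hz
      exact ⟨z' :: l0, by rw [hl0, hf z z' hz']; rfl⟩
  obtain ⟨g0, rfl⟩ := hmapg g hgN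
  have hg0 : g0 ≠ [] := by rintro rfl; exact hg rfl
  have hmem : ∀ l, l ∈ w ↔ l ∈ p :: (g0.map F ++ rest) := fun l => hrot.perm.mem_iff
  have hnd' : ((p :: (g0.map F ++ rest)).filterMap f).Nodup :=
    ((hrot.perm.filterMap f).nodup_iff).1 hnd
  have hfm : ∀ l : List (N × Bool), (l.map F).filterMap f = l := by
    intro l
    induction l with
    | nil => rfl
    | cons z l ih => rw [List.map_cons, List.filterMap_cons_some (hF z), ih]
  have hnd2 : (g0 ++ rest.filterMap f).Nodup := by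
    rw [List.filterMap_cons_none hp, List.filterMap_append, hfm] at hnd'
    exact hnd'
  have hFinj : Function.Injective F := by
    intro a b hab
    have := congrArg f hab
    rw [hF, hF] at this
    exact Option.some.inj this
  have hFp : ∀ z, F z ≠ p := by
    rintro z rfl; rw [hF] at hp; exact absurd hp (by simp)
  by_cases hout : ∃ z ∈ g0, F (z.1, !z.2) ∈ rest
  · -- S2
    right; left
    obtain ⟨⟨x, s⟩, hz, hz'⟩ := hout
    obtain ⟨b, a, hba⟩ := List.append_of_mem hz
    rcases hrest with h | ⟨p', r, hr, hp'⟩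
    · rw [h] at hz'; simp at hz'
    · rw [hr] at hz'
      have hz'' : F (x, !s) ∈ r := by
        rcases List.mem_cons.1 hz' with h | h
        · have h' : f (F (x, !s)) = f p' := congrArg f h
          rw [hF, hp'] at h'; exact absurd h' (by simp)
        · exact h
      obtain ⟨c, d, hcd⟩ := List.append_of_mem hz''
      refine ⟨p, p', b, a, c, d, x, s, hp, hp', ?_⟩
      refine hrot.trans ?_
      rw [hba, hr, hcd]
      simp only [List.map_append, List.map_cons, List.append_assoc, List.cons_append]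
      exact List.IsRotated.refl _
  · push Not at hout
    have hclg : ∀ z ∈ g0, (z.1, !z.2) ∈ g0 := by
      intro z hz
      have h1 : F z ∈ w := (hmem _).2 (List.mem_cons_of_mem _ (List.mem_append_left _
        (List.mem_map_of_mem hz)))
      have h2 := (hmem _).1 (hcl z h1)
      rcases List.mem_cons.1 h2 with h | h
      · exact absurd h (hFp _)
      · rcases List.mem_append.1 h with h | h
        · obtain ⟨y, hy, hyz⟩ := List.mem_map.1 h
          rw [← hFinj hyz]; exact hy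
        · exact absurd h (hout z hz)
    rcases gap_cases g0 hg0 hclg (List.Nodup.of_append_left hnd2) with
      ⟨u, v, x, s, hu⟩ | ⟨b, a1, a2, a3, b', x, y, s, t, hxy, hu⟩
    · left
      refine ⟨v.map F ++ rest ++ p :: u.map F, x, s, ?_, p, by simp, hp⟩
      refine hrot.trans ?_
      rw [hu]
      have := List.isRotated_append (l := p :: u.map F) (l' := F (x, s) :: F (x, !s) :: (v.map F ++ rest))
      simpa only [List.map_append, List.map_cons, List.append_assoc, List.cons_append] using this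
    · right; right
      refine ⟨p, b, a1, a2, a3, b'.map F ++ rest, x, y, s, t, hp, hxy, ?_⟩
      refine hrot.trans ?_
      rw [hu]
      simp only [List.map_append, List.map_cons, List.append_assoc, List.cons_append]
      exact List.IsRotated.refl _

end Crest.Agent.R003
end

-- ▼ part R003/Driver537

/-! R003 (S0003): the driver of the elimination theorem (Dershowitz–Manna induction and case
distinction), from the step lemmas S0–S9, U1, U2.  helper537 -/

set_option autoImplicit false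

namespace Crest.Agent.R003

/-- rotation invariance of everything -/
def RotInv (O : Subring ℂ) (n : ℕ) : Prop :=
  ∀ (k : ℕ) (ξ : ℂˣ) (u v : Wd) (rest : List Root) (fr : List (ℕ × ℕ)) (ρ : ℕ → G n),
    Sys.WF O n ⟨⟨k, ξ, u ++ v⟩ :: rest, fr⟩ → ρ ∈ Sys.Sol n ⟨⟨k, ξ, u ++ v⟩ :: rest, fr⟩ →
    Sys.WF O n ⟨⟨k, ξ, v ++ u⟩ :: rest, fr⟩ ∧ ρ ∈ Sys.Sol n ⟨⟨k, ξ, v ++ u⟩ :: rest, fr⟩ ∧
      (Red O n ⟨⟨k, ξ, v ++ u⟩ :: rest, fr⟩ ρ → Red O n ⟨⟨k, ξ, u ++ v⟩ :: rest, fr⟩ ρ)

/-- permutation invariance of everything -/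
def PermInv (O : Subring ℂ) (n : ℕ) : Prop :=
  ∀ (l l' : List Root) (fr : List (ℕ × ℕ)) (ρ : ℕ → G n), l.Perm l' →
    Sys.WF O n ⟨l, fr⟩ → ρ ∈ Sys.Sol n ⟨l, fr⟩ →
    Sys.WF O n ⟨l', fr⟩ ∧ ρ ∈ Sys.Sol n ⟨l', fr⟩ ∧ (Red O n ⟨l', fr⟩ ρ → Red O n ⟨l, fr⟩ ρ)

/-- all steps -/
structure Steps (O : Subring ℂ) (n : ℕ) : Prop where
  s0 : S0 O n
  s1 : S1 O n
  s2 : S2 O n
  s3 : S3 O n
  s4 : S4 O n
  s5 : S5 O n
  s6 : S6 O n
  s7 : S7 O n
  s8 : S8 O n
  s9 : S9 O n
  u1 : U1 O n
  u2 : U2 O n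

/-- the base case: no roots -/
def BaseCase (O : Subring ℂ) (n : ℕ) : Prop :=
  Good O → ∀ (fr : List (ℕ × ℕ)) (ρ : ℕ → G n), Sys.WF O n ⟨[], fr⟩ → ρ ∈ Sys.Sol n ⟨[], fr⟩ →
    Appr O (Sys.Sol n ⟨[], fr⟩) (Sys.names ⟨[], fr⟩) ρ

namespace Driver

/-- recognise full letters -/
def toFull : Lt → Option (ℕ × Bool)
  | Lt.full x ε => some (x, ε)
  | Lt.par _ _ _ _ _ _ => none

/-- the full letter -/
def F (z : ℕ × Bool) : Lt := Lt.full z.1 z.2

theorem toFull_F (z : ℕ × Bool) : toFull (F z) = some z := rfl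

theorem toFull_eq_some {l : Lt} {z : ℕ × Bool} (h : toFull l = some z) : l = F z := by
  cases l with
  | full x ε => simp only [toFull, Option.some.injEq] at h; subst h; rfl
  | par => simp [toFull] at h

theorem toFull_eq_none {l : Lt} (h : toFull l = none) :
    ∃ p e σ c c' g, l = Lt.par p e σ c c' g := by
  cases l with
  | full x ε => simp [toFull] at h
  | par p e σ c c' g => exact ⟨p, e, σ, c, c', g, rfl⟩

theorem isFull_map (l : List (ℕ × Bool)) : Wd.isFull (l.map F) := by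
  intro z hz
  obtain ⟨y, _, rfl⟩ := List.mem_map.1 hz
  trivial

variable {O : Subring ℂ} {n : ℕ}

/-- well-formedness of the P-letters of a word -/
theorem wf_par {w : Wd} {k : ℕ} {prev : Option (List Bool)} (h : Wd.WF O w k prev)
    {p : ℕ} {e : List Bool} {σ : Bool → Bool → ℂˣ} {c c' : List Bool} {g : Bool → ℕ}
    (hm : Lt.par p e σ c c' g ∈ w) : c.length = k ∧ ∀ b, c.count b = c'.count b := by
  induction w generalizing prev with
  | nil => simp at hm
  | cons l w ih =>
    cases l with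
    | full x ε =>
      rcases List.mem_cons.1 hm with h' | h'
      · cases h'
      · exact ih h h'
    | par p1 e1 σ1 c1 c1' g1 =>
      rcases List.mem_cons.1 hm with h' | h'
      · cases h'; exact ⟨h.1, h.2.1⟩
      · exact ih h.2.2.2.2 h'

theorem count_add_count (c : List Bool) (b : Bool) : c.count b + c.count (!b) = c.length :=
  List.count_add_count_not c b

/-- a rotated root -/
theorem red_of_rotated (hrot : RotInv O n) {k : ℕ} {ξ : ℂˣ} {w w' : Wd} (hw : w ~r w')
    {rest : List Root} {fr : List (ℕ × ℕ)} {ρ : ℕ → G n}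
    (hWF : Sys.WF O n ⟨⟨k, ξ, w⟩ :: rest, fr⟩) (hρ : ρ ∈ Sys.Sol n ⟨⟨k, ξ, w⟩ :: rest, fr⟩) :
    Sys.WF O n ⟨⟨k, ξ, w'⟩ :: rest, fr⟩ ∧ ρ ∈ Sys.Sol n ⟨⟨k, ξ, w'⟩ :: rest, fr⟩ ∧
      (Red O n ⟨⟨k, ξ, w'⟩ :: rest, fr⟩ ρ → Red O n ⟨⟨k, ξ, w⟩ :: rest, fr⟩ ρ) := by
  obtain ⟨m, hm⟩ := hw
  have h1 : w = w.take (m % w.length) ++ w.drop (m % w.length) := (List.take_append_drop _ _).symm
  have h2 : w' = w.drop (m % w.length) ++ w.take (m % w.length) := by
    rw [← hm, List.rotate_eq_drop_append_take_mod]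
  rw [h2]
  have := hrot k ξ (w.take (m % w.length)) (w.drop (m % w.length)) rest fr ρ
    (by rw [← h1]; exact hWF) (by rw [← h1]; exact hρ)
  rw [← h1] at this
  exact this

theorem wd_last_append (u v : Wd) (d : Option (List Bool)) :
    Wd.last (u ++ v) d = Wd.last v (Wd.last u d) := by
  induction u generalizing d with
  | nil => rfl
  | cons l u ih => cases l <;> simp only [List.cons_append, Wd.last, ih]

/-- multiplicities of occurrences -/
theorem occ_count_le_one {S : Sys} (h : S.WF O n) (z : ℕ × ℕ × Bool) : S.occ.count z ≤ 1 := by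
  classical
  obtain ⟨V, hV, hnd⟩ := h.lin
  have hVnd : V.Nodup := by
    have h1 : (V.map Prod.fst).Nodup :=
      (Multiset.nodup_add.1 (Multiset.nodup_add.1 hnd).1).1
    exact Multiset.Nodup.of_map _ h1
  rw [hV, Multiset.count_add]
  obtain ⟨x, k, ε⟩ := z
  have hinj : ∀ s : Bool, Function.Injective (fun v : ℕ × ℕ => (v.1, v.2, s)) := by
    intro s a b hab
    simp only [Prod.mk.injEq] at hab
    exact Prod.ext hab.1 hab.2.1
  have hne : ∀ s s' : Bool, s ≠ s' →
      (V.map (fun v => (v.1, v.2, s))).count ((x, k, s') : ℕ × ℕ × Bool) = 0 := by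
    intro s s' hs
    rw [Multiset.count_eq_zero]
    intro hm
    obtain ⟨v, _, hv⟩ := Multiset.mem_map.1 hm
    simp only [Prod.mk.injEq] at hv
    exact hs hv.2.2
  have hone : ∀ s : Bool, (V.map (fun v => (v.1, v.2, s))).count ((x, k, s) : ℕ × ℕ × Bool) ≤ 1 := by
    intro s
    exact Multiset.nodup_iff_count_le_one.1 (hVnd.map (hinj s)) _
  cases ε
  · have h1 := hne true false (by simp)
    have h2 := hone false
    omega
  · have h1 := hne false true (by simp)
    have h2 := hone true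
    omega

/-- partners exist -/
theorem partner_mem {S : Sys} (h : S.WF O n) {x k : ℕ} {ε : Bool} (hm : (x, k, ε) ∈ S.occ) :
    (x, k, !ε) ∈ S.occ := by
  obtain ⟨V, hV, hnd⟩ := h.lin
  rw [hV, Multiset.mem_add] at hm ⊢
  rcases hm with hm | hm
  · obtain ⟨v, hv, hv'⟩ := Multiset.mem_map.1 hm
    simp only [Prod.mk.injEq] at hv'
    obtain ⟨rfl, rfl, rfl⟩ := hv'
    right
    exact Multiset.mem_map.2 ⟨v, hv, rfl⟩
  · obtain ⟨v, hv, hv'⟩ := Multiset.mem_map.1 hm
    simp only [Prod.mk.injEq] at hv'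
    obtain ⟨rfl, rfl, rfl⟩ := hv'
    left
    exact Multiset.mem_map.2 ⟨v, hv, rfl⟩

theorem sum_list_mem {α β : Type*} (l : List α) (f : α → Multiset β) (z : β) :
    z ∈ (l.map f).sum ↔ ∃ a ∈ l, z ∈ f a := by
  induction l with
  | nil => simp
  | cons a l ih => simp [ih]

theorem mem_occ {S : Sys} {z : ℕ × ℕ × Bool} :
    z ∈ S.occ ↔ ∃ r ∈ S.roots, ∃ l ∈ r.w, z ∈ Lt.occ r.k l := by
  show z ∈ (S.roots.map Root.occ).sum ↔ _
  rw [sum_list_mem]
  constructor
  · rintro ⟨r, hr, h⟩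
    obtain ⟨l, hl, h'⟩ := (sum_list_mem r.w (Lt.occ r.k) z).1 h
    exact ⟨r, hr, l, hl, h'⟩
  · rintro ⟨r, hr, l, hl, h'⟩
    exact ⟨r, hr, (sum_list_mem r.w (Lt.occ r.k) z).2 ⟨l, hl, h'⟩⟩

/-- the full letters of the first root have no duplicates -/
theorem nodup_full {S : Sys} (h : S.WF O n) {r : Root} (hr : r ∈ S.roots) :
    (r.w.filterMap toFull).Nodup := by
  classical
  rw [List.nodup_iff_count_le_one]
  intro z
  have h1 : (r.w.filterMap toFull).count z ≤ (Wd.occ r.w r.k).count (z.1, r.k, z.2) := by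
    have : ∀ w : Wd, (w.filterMap toFull).count z ≤ (Wd.occ w r.k).count (z.1, r.k, z.2) := by
      intro w
      induction w with
      | nil => simp [Wd.occ]
      | cons l w ih =>
        have e1 : Wd.occ (l :: w) r.k = Lt.occ r.k l + Wd.occ w r.k := by
          simp [Wd.occ]
        rw [e1, Multiset.count_add]
        cases l with
        | full x ε =>
          show List.count z ((x, ε) :: List.filterMap toFull w) ≤ _
          rw [List.count_cons]
          have e2 : (Lt.occ r.k (Lt.full x ε)).count (z.1, r.k, z.2) =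
              if ((x, ε) == z) = true then 1 else 0 := by
            simp only [Lt.occ, Multiset.count_singleton, beq_iff_eq]
            congr 1
            simp only [true_and, eq_iff_iff, Prod.ext_iff]
            constructor
            · rintro ⟨a, b⟩; exact ⟨a.symm, b.symm⟩
            · rintro ⟨a, b⟩; exact ⟨a.symm, b.symm⟩
          omega
        | par p e σ c c' g =>
          rw [List.filterMap_cons_none rfl]
          omega
    exact this r.w
  have h2 : (Wd.occ r.w r.k).count (z.1, r.k, z.2) ≤ S.occ.count (z.1, r.k, z.2) := by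
    have h3 : Root.occ r ≤ S.occ := by
      obtain ⟨u, v, huv⟩ := List.append_of_mem hr
      show r.occ ≤ (S.roots.map Root.occ).sum
      rw [huv]
      simp only [List.map_append, List.map_cons, List.sum_append, List.sum_cons]
      rw [add_left_comm]
      exact Multiset.le_add_right _ _
    exact Multiset.count_le_of_le _ h3
  exact h1.trans (h2.trans (occ_count_le_one h _))

/-- degenerate P-letters of a root can be removed -/
theorem red_degenerate (hst : Steps O n) (hrot : RotInv O n) (k : ℕ) (ξ : ℂˣ) (w : Wd)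
    (rest : List Root) (fr : List (ℕ × ℕ)) (ρ : ℕ → G n)
    (hWF : Sys.WF O n ⟨⟨k, ξ, w⟩ :: rest, fr⟩) (hρ : ρ ∈ Sys.Sol n ⟨⟨k, ξ, w⟩ :: rest, fr⟩)
    (hdeg : ∃ l ∈ w, toFull l = none ∧ ¬ l.Nd) : Red O n ⟨⟨k, ξ, w⟩ :: rest, fr⟩ ρ := by
  classical
  obtain ⟨l, hl, hlf, hlN⟩ := hdeg
  obtain ⟨u, v, rfl⟩ := List.append_of_mem hl
  obtain ⟨hWF1, hρ1, hred1⟩ := red_of_rotated hrot (w' := l :: (v ++ u))
    (by simpa using List.isRotated_append (l := u) (l' := l :: v)) hWF hρ
  refine hred1 ?_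
  clear hred1 hWF hρ hl
  generalize v ++ u = w1 at hWF1 hρ1 ⊢
  obtain ⟨p, e, σ, c, c', g, rfl⟩ := toFull_eq_none hlf
  -- the constant label
  obtain ⟨t, ht⟩ : ∃ t : Bool, c.count (!t) = 0 := by
    simp only [Lt.Nd] at hlN
    push Not at hlN
    obtain ⟨b, hb⟩ := hlN
    exact ⟨!b, by rw [Bool.not_not]; omega⟩
  have hrWF := hWF1.roots _ (List.mem_cons_self)
  obtain ⟨hkn, hξ, hw⟩ := hrWF
  simp only [Wd.WF] at hw
  obtain ⟨hlen, hcnt, hsg, hsc, hw1⟩ := hw
  rcases List.eq_nil_or_concat' w1 with rfl | ⟨w2, l0, rfl⟩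
  · exact hst.s7 k ξ p e c c' σ g rest fr ρ hWF1 hρ1
  by_cases hσ : ∀ x y, σ x y = 1
  · -- no sign on p; look at the next letter
    obtain ⟨l1, w3, hw3⟩ : ∃ l1 w3, w2 ++ [l0] = l1 :: w3 := by
      cases w2 with
      | nil => exact ⟨l0, [], rfl⟩
      | cons a w2 => exact ⟨a, w2 ++ [l0], rfl⟩
    rw [hw3] at hWF1 hρ1 hw1 ⊢
    cases l1 with
    | full x ε =>
      exact hst.s0 k ξ p e c c' σ g t _ rest fr ρ ht hσ (by simp) (by
        simp only [Wd.WF] at hw1 ⊢; exact hw1) hWF1 hρ1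
    | par p1 e1 σ1 c1 c1' g1 =>
      by_cases hσ1 : ∀ x y, σ1 x y = 1
      · exact hst.s0 k ξ p e c c' σ g t _ rest fr ρ ht hσ (by simp) (by
          simp only [Wd.WF] at hw1 ⊢
          exact ⟨hw1.1, hw1.2.1, Or.inl hσ1, hw1.2.2.2⟩) hWF1 hρ1
      · exact hst.u2 k ξ p p1 e c c' e1 c1 c1' σ σ1 g g1 t w3 rest fr ρ (by rw [← hcnt]; exact ht)
          hσ1 hWF1 hρ1
  · -- sign on p : the previous letter is a P-letter
    rcases hsg with h | h
    · exact absurd h hσ
    · have h1 : Wd.last (Lt.par p e σ c c' g :: (w2 ++ [l0])) none =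
          Wd.last [l0] (Wd.last w2 (some c')) := by
        simp only [Wd.last]
        rw [wd_last_append]
      change Wd.last (Lt.par p e σ c c' g :: (w2 ++ [l0])) none = some e at h
      rw [h1] at h
      cases l0 with
      | full x ε => simp [Wd.last] at h
      | par p0 e0 σ0 c0 c0' g0 =>
        have hr : (Lt.par p e σ c c' g :: (w2 ++ [Lt.par p0 e0 σ0 c0 c0' g0])) ~r
            (Lt.par p0 e0 σ0 c0 c0' g0 :: Lt.par p e σ c c' g :: w2) := by
          have h2 := List.isRotated_append (l := Lt.par p e σ c c' g :: w2)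
            (l' := [Lt.par p0 e0 σ0 c0 c0' g0])
          simpa using h2
        obtain ⟨hWF2, hρ2, hred2⟩ := red_of_rotated hrot hr hWF1 hρ1
        exact hred2 (hst.u1 k ξ p0 p e0 c0 c0' e c c' σ0 σ g0 g t w2 rest fr ρ ht hσ hWF2 hρ2)

/-- a root of maximal rank, all P-letters nondegenerate -/
theorem red_main (hst : Steps O n) (hrot : RotInv O n) (hperm : PermInv O n)
    {k0 : ℕ} (hC : ∀ k < k0, Closed O k) (k : ℕ) (ξ : ℂˣ) (w : Wd)
    (rest : List Root) (fr : List (ℕ × ℕ)) (ρ : ℕ → G n)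
    (hWF : Sys.WF O n ⟨⟨k, ξ, w⟩ :: rest, fr⟩) (hρ : ρ ∈ Sys.Sol n ⟨⟨k, ξ, w⟩ :: rest, fr⟩)
    (hAdm : Adm k0 ⟨⟨k, ξ, w⟩ :: rest, fr⟩) (hw0 : w ≠ [])
    (hmax : ∀ r ∈ rest, r.k ≤ k)
    (hnd : ∀ r ∈ (⟨k, ξ, w⟩ : Root) :: rest, r.k = k → ∀ l ∈ r.w, toFull l = none → l.Nd) :
    Red O n ⟨⟨k, ξ, w⟩ :: rest, fr⟩ ρ := by
  classical
  have hlocate : ∀ x ε, (x, k, ε) ∈ Sys.occ ⟨⟨k, ξ, w⟩ :: rest, fr⟩ →
      ∃ r ∈ (⟨k, ξ, w⟩ : Root) :: rest, r.k = k ∧ Lt.full x ε ∈ r.w := by
    intro x ε hx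
    obtain ⟨r, hr, l, hl, hx'⟩ := mem_occ.1 hx
    have hrk : r.k ≤ k := by
      rcases List.mem_cons.1 hr with h | h
      · rw [h]
      · exact hmax r h
    cases l with
    | full y δ =>
      simp only [Lt.occ, Multiset.mem_singleton, Prod.mk.injEq] at hx'
      obtain ⟨rfl, hk, rfl⟩ := hx'
      exact ⟨r, hr, hk.symm, hl⟩
    | par p e σ c c' g =>
      exfalso
      have hlen := (wf_par (hWF.roots r hr).2.2 hl).1
      have hb : ∃ b, c.count b = k := by
        simp only [Lt.occ, Multiset.insert_eq_cons, Multiset.mem_cons, Multiset.mem_singleton,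
          Prod.mk.injEq] at hx'
        rcases hx' with h | h
        · exact ⟨false, h.2.1.symm⟩
        · exact ⟨true, h.2.1.symm⟩
      obtain ⟨b, hb⟩ := hb
      have h1 := count_add_count c b
      have h2 : r.k = k := by omega
      have h3 : (Lt.par p e σ c c' g).Nd := hnd r hr h2 _ hl rfl
      have h4 : 0 < c.count (!b) := h3 (!b)
      omega
  by_cases hS1 : ∃ z : ℕ × Bool, F z ∈ w ∧ F (z.1, !z.2) ∉ w
  · -- S1
    obtain ⟨⟨x, ε⟩, hz, hz'⟩ := hS1
    have hx : (x, k, ε) ∈ Sys.occ ⟨⟨k, ξ, w⟩ :: rest, fr⟩ := mem_occ.2 ⟨⟨k, ξ, w⟩, List.mem_cons_self, _, hz, by simp [F, Lt.occ]⟩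
    obtain ⟨r', hr', hrk, hxr⟩ := hlocate _ _ (partner_mem hWF hx)
    rcases List.mem_cons.1 hr' with h | h
    · rw [h] at hxr; exact absurd hxr hz'
    · obtain ⟨r1, r2, hr12⟩ := List.append_of_mem h
      obtain ⟨k', ξ', w'⟩ := r'
      simp only at hrk hxr
      subst hrk
      obtain ⟨u, v, rfl⟩ := List.append_of_mem hz
      obtain ⟨u', v', rfl⟩ := List.append_of_mem hxr
      have hp : ((⟨k', ξ, u ++ F (x, ε) :: v⟩ : Root) :: rest).Perm
          (⟨k', ξ, u ++ F (x, ε) :: v⟩ :: ⟨k', ξ', u' ++ Lt.full x (!ε) :: v'⟩ :: (r1 ++ r2)) := by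
        rw [hr12]
        exact (List.perm_middle).cons _
      obtain ⟨hWF1, hρ1, hred1⟩ := hperm _ _ fr ρ hp hWF hρ
      exact hred1 (hst.s1 k' ξ ξ' u v u' v' x ε (r1 ++ r2) fr ρ hWF1 hρ1)
  push Not at hS1
  have hcl : ∀ z, F z ∈ w → F (z.1, !z.2) ∈ w := hS1
  by_cases hP : ∃ p ∈ w, toFull p = none
  · by_cases hN : ∃ z, F z ∈ w
    · rcases letter_cases F toFull toFull_F (fun l z h => toFull_eq_some h) w hP hN
        (nodup_full hWF (r := ⟨k, ξ, w⟩) (List.mem_cons_self)) hcl with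
        ⟨v, x, s, hr, _⟩ | ⟨p, p', b, a, c, d, x, s, hp, hp', hr⟩ |
        ⟨p, b, a1, a2, a3, b', x, y, s, t, hp, hxy, hr⟩
      · obtain ⟨hWF1, hρ1, hred1⟩ := red_of_rotated hrot hr hWF hρ
        exact hred1 (hst.s3 k ξ [] v x s rest fr ρ hWF1 hρ1)
      · obtain ⟨hWF1, hρ1, hred1⟩ := red_of_rotated hrot hr hWF hρ
        have hpm : p ∈ w := (hr.perm.mem_iff).2 (by simp)
        have hpm' : p' ∈ w := (hr.perm.mem_iff).2 (by simp)
        have hpn := hnd _ (List.mem_cons_self) rfl p hpm hp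
        have hpn' := hnd _ (List.mem_cons_self) rfl p' hpm' hp'
        obtain ⟨p1, e1, σ1, c1, c1', g1, rfl⟩ := toFull_eq_none hp
        obtain ⟨p2, e2, σ2, c2, c2', g2, rfl⟩ := toFull_eq_none hp'
        have hc1 := (wf_par (hWF.roots _ (List.mem_cons_self)).2.2 hpm).2
        exact hred1 (hst.s2 k ξ (b.map F) (a.map F) c d x s p1 p2 e1 e2 c1 c1' c2 c2' σ1 σ2 g1 g2
          rest fr ρ (isFull_map b) (isFull_map a) (fun t => by rw [← hc1 t]; exact hpn t)
          (fun t => hpn' t) hWF1 hρ1)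
      · obtain ⟨hWF1, hρ1, hred1⟩ := red_of_rotated hrot hr hWF hρ
        have hpm : p ∈ w := (hr.perm.mem_iff).2 (by simp)
        have hpn := hnd _ (List.mem_cons_self) rfl p hpm hp
        obtain ⟨p1, e1, σ1, c1, c1', g1, rfl⟩ := toFull_eq_none hp
        have hc1 := (wf_par (hWF.roots _ (List.mem_cons_self)).2.2 hpm).2
        exact hred1 (hst.s4 k ξ (b.map F) (a1.map F) (a2.map F) (a3.map F) b' x y s t p1 e1 c1 c1'
          σ1 g1 rest fr ρ (isFull_map b) (isFull_map a1) (isFull_map a2) (isFull_map a3)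
          (fun t => by rw [← hc1 t]; exact hpn t) hWF1 hρ1)
    · -- only P-letters
      have hall : ∀ l ∈ w, toFull l = none := by
        intro l hl
        cases h : toFull l with
        | none => rfl
        | some z => exact absurd ⟨z, by rw [← toFull_eq_some h]; exact hl⟩ hN
      have hNd : ∀ l ∈ w, l.Nd := fun l hl => hnd _ (List.mem_cons_self) rfl l hl (hall l hl)
      have hcc : ∀ p e σ c c' g, Lt.par p e σ c c' g ∈ w → ∀ b, c.count b = c'.count b :=
        fun p e σ c c' g h => (wf_par (hWF.roots _ (List.mem_cons_self)).2.2 h).2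
      rcases w with _ | ⟨l1, _ | ⟨l2, _ | ⟨l3, w'⟩⟩⟩
      · exact absurd rfl hw0
      · obtain ⟨p1, e1, σ1, c1, c1', g1, rfl⟩ := toFull_eq_none (hall l1 (by simp))
        exact hst.s7 k ξ p1 e1 c1 c1' σ1 g1 rest fr ρ hWF hρ
      · obtain ⟨p1, e1, σ1, c1, c1', g1, rfl⟩ := toFull_eq_none (hall l1 (by simp))
        obtain ⟨p2, e2, σ2, c2, c2', g2, rfl⟩ := toFull_eq_none (hall l2 (by simp))
        exact hst.s6 k ξ p1 p2 e1 e2 c1 c1' c2 c2' σ1 σ2 g1 g2 rest fr ρ
          (fun t => by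
            rw [← hcc _ _ _ _ _ _ (List.mem_cons_self) t]
            exact hNd (Lt.par p1 e1 σ1 c1 c1' g1) (List.mem_cons_self) t)
          (fun t => hNd (Lt.par p2 e2 σ2 c2 c2' g2) (by simp) t) hWF hρ
      · obtain ⟨p1, e1, σ1, c1, c1', g1, rfl⟩ := toFull_eq_none (hall l1 (by simp))
        obtain ⟨p2, e2, σ2, c2, c2', g2, rfl⟩ := toFull_eq_none (hall l2 (by simp))
        obtain ⟨p3, e3, σ3, c3, c3', g3, rfl⟩ := toFull_eq_none (hall l3 (by simp))
        exact hst.s5 k ξ w' p1 p2 p3 e1 e2 e3 c1 c1' c2 c2' c3 c3' σ1 σ2 σ3 g1 g2 g3 rest fr ρ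
          (fun t => by
            rw [← hcc _ _ _ _ _ _ (List.mem_cons_self) t]
            exact hNd (Lt.par p1 e1 σ1 c1 c1' g1) (List.mem_cons_self) t)
          (fun t => hNd (Lt.par p2 e2 σ2 c2 c2' g2) (by simp) t)
          (fun t => hNd (Lt.par p3 e3 σ3 c3 c3' g3) (by simp) t) hWF hρ
  · -- closed root
    push Not at hP
    have hfull : Wd.isFull w := by
      intro l hl
      have := hP l hl
      cases l with
      | full x ε => trivial
      | par => exact absurd rfl this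
    have hk : k < k0 := by
      rcases hAdm _ (List.mem_cons_self) with h | ⟨_, l, hl, hlN⟩
      · exact h
      · exfalso
        have h1 := hfull l hl
        cases l with
        | full x ε => exact hlN
        | par => exact h1
    refine hst.s9 k ξ w rest fr ρ (hC k hk) hfull ?_ hWF hρ
    intro x ε hx
    obtain ⟨l, hl, hx'⟩ := (sum_list_mem w (Lt.occ k) _).1 hx
    have h1 := hfull l hl
    cases l with
    | full y δ =>
      simp only [Lt.occ, Multiset.mem_singleton, Prod.mk.injEq] at hx'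
      obtain ⟨rfl, _, rfl⟩ := hx'
      refine (sum_list_mem w (Lt.occ k) _).2 ⟨Lt.full x (!ε), hcl (x, ε) hl, ?_⟩
      simp [Lt.occ]
    | par => exact absurd h1 (by simp [Lt.IsFull])

/-- some step applies -/
theorem red_of_ne_nil (hst : Steps O n) (hrot : RotInv O n) (hperm : PermInv O n)
    {k0 : ℕ} (hC : ∀ k < k0, Closed O k) (S : Sys) (ρ : ℕ → G n) (hWF : S.WF O n)
    (hAdm : Adm k0 S) (hρ : ρ ∈ S.Sol n) (hne : S.roots ≠ []) : Red O n S ρ := by
  classical
  obtain ⟨roots, fr⟩ := S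
  simp only at hne
  -- bring a root to the front
  have hfront : ∀ r ∈ roots, ∃ rest, roots.Perm (r :: rest) := by
    intro r hr
    obtain ⟨u, v, rfl⟩ := List.append_of_mem hr
    exact ⟨u ++ v, List.perm_middle⟩
  -- empty roots
  by_cases h8 : ∃ r ∈ roots, r.w = []
  · obtain ⟨⟨k, ξ, w⟩, hr, hw⟩ := h8
    simp only at hw
    subst hw
    obtain ⟨rest, hp⟩ := hfront _ hr
    obtain ⟨hWF1, hρ1, hred1⟩ := hperm _ _ fr ρ hp hWF hρ
    exact hred1 (hst.s8 k ξ rest fr ρ hWF1 hρ1)
  push Not at h8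
  -- maximal rank
  obtain ⟨r, hr, hmax⟩ : ∃ r ∈ roots, ∀ r' ∈ roots, r'.k ≤ r.k := by
    have hfin : ∃ r ∈ roots.toFinset, ∀ r' ∈ roots.toFinset, r'.k ≤ r.k :=
      Finset.exists_max_image roots.toFinset (fun r => r.k)
        (by obtain ⟨a, ha⟩ := List.exists_mem_of_ne_nil _ hne; exact ⟨a, by simpa using ha⟩)
    obtain ⟨r, hr, h⟩ := hfin
    exact ⟨r, by simpa using hr, fun r' hr' => h r' (by simpa using hr')⟩
  by_cases hdeg : ∃ r' ∈ roots, r'.k = r.k ∧ ∃ l ∈ r'.w, toFull l = none ∧ ¬ l.Nd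
  · obtain ⟨r', hr', _, hl⟩ := hdeg
    obtain ⟨k, ξ, w⟩ := r'
    obtain ⟨rest, hp⟩ := hfront _ hr'
    obtain ⟨hWF1, hρ1, hred1⟩ := hperm _ _ fr ρ hp hWF hρ
    exact hred1 (red_degenerate hst hrot k ξ w rest fr ρ hWF1 hρ1 hl)
  push Not at hdeg
  obtain ⟨k, ξ, w⟩ := r
  obtain ⟨rest, hp⟩ := hfront _ hr
  obtain ⟨hWF1, hρ1, hred1⟩ := hperm _ _ fr ρ hp hWF hρ
  refine hred1 (red_main hst hrot hperm hC k ξ w rest fr ρ hWF1 hρ1 ?_ (h8 _ hr) ?_ ?_)
  · intro r' hr'
    exact hAdm r' ((hp.mem_iff).2 hr')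
  · intro r' hr'
    exact hmax r' ((hp.mem_iff).2 (List.mem_cons_of_mem _ hr'))
  · intro r' hr' hk l hl hlf
    exact hdeg r' ((hp.mem_iff).2 hr') hk l hl hlf

end Driver

/-- **The driver**: the elimination theorem from the steps. -/
theorem elim_of_steps {O : Subring ℂ} {n : ℕ} (hst : Steps O n) (hrot : RotInv O n)
    (hperm : PermInv O n) (hbase : BaseCase O n) (k0 : ℕ) : ElimStatement O n k0 := by
  intro hG hC S
  induction hS : S.wt using (Multiset.wellFounded_isDershowitzMannaLT (α := ℕ)).induction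
    generalizing S with
  | _ m ih =>
  intro hWF hAdm ρ hρ
  by_cases hne : S.roots = []
  · obtain ⟨roots, fr⟩ := S
    simp only at hne
    subst hne
    exact hbase hG fr ρ hWF hρ
  · obtain ⟨S', ρ', hWF', hlt, hAdm', hρ', happr⟩ :=
      Driver.red_of_ne_nil hst hrot hperm hC S ρ hWF hAdm hρ hne
    exact happr (ih S'.wt (by rw [← hS]; exact hlt) S' rfl hWF' (hAdm' k0 hAdm) ρ' hρ')

end Crest.Agent.R003
private theorem rz_d3f6e22c0b : type_of% @_root_.Crest.Agent.R003.Driver.toFull.eq_1 := @_root_.Crest.Agent.R003.Driver.toFull.eq_1 -- L47
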