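import Mathlib
import Crest.Agent.R003.Gl478A

-- ▼ part R003/Unit992
section

/-!
# Row 3 (S0003), block (U): units of `O[B]` are Zariski dense (helper992)

Step 1: a consequence of Dirichlet's unit theorem.
-/

set_option autoImplicit false

namespace Crest.Agent.R003.Unit

open NumberField

/-- If `φ s` (`s : S`) are embeddings of the number field `E` with pairwise distinct places which do
not exhaust the places of `E`, then the `log ‖φ s ε‖` are linearly independent functions on units. -/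
theorem exists_unit_log_ne_zero {E : Type*} [Field E] [NumberField E] {S : Type*} [Fintype S]
    (φ : S → (E →+* ℂ)) (hinj : Function.Injective (fun s => InfinitePlace.mk (φ s)))
    (w' : InfinitePlace E) (hw' : ∀ s, InfinitePlace.mk (φ s) ≠ w') (m : S → ℝ) (hm : m ≠ 0) :
    ∃ ε : (𝓞 E)ˣ, ∑ s, m s * Real.log ‖φ s ((ε : 𝓞 E) : E)‖ ≠ 0 := by
  classical
  -- it is enough to treat the case when some `m s` is positive
  suffices H : ∀ m : S → ℝ, (∃ s, 0 < m s) →
      ∃ ε : (𝓞 E)ˣ, ∑ s, m s * Real.log ‖φ s ((ε : 𝓞 E) : E)‖ ≠ 0 by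
    by_contra hcon
    push Not at hcon
    obtain ⟨s, hs⟩ := Function.ne_iff.mp hm
    rcases lt_or_gt_of_ne hs with h | h
    · obtain ⟨ε, hε⟩ := H (fun s => - m s) ⟨s, by simpa using h⟩
      apply hε
      have := hcon ε
      simp only [neg_mul, Finset.sum_neg_distrib, neg_eq_zero]
      exact this
    · obtain ⟨ε, hε⟩ := H m ⟨s, h⟩
      exact hε (hcon ε)
  intro m hpos
  -- normalised coefficients
  set a : S → ℝ := fun s => m s / (InfinitePlace.mult (InfinitePlace.mk (φ s)) : ℝ) with ha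
  have hmult : ∀ w : InfinitePlace E, (0 : ℝ) < (InfinitePlace.mult w : ℝ) := fun w => by
    exact_mod_cast InfinitePlace.mult_pos
  obtain ⟨s0, -, hs0⟩ := Finset.exists_max_image Finset.univ a
    (by obtain ⟨s, -⟩ := hpos; exact ⟨s, Finset.mem_univ s⟩)
  have ha0 : 0 < a s0 := by
    obtain ⟨s, hs⟩ := hpos
    have : 0 < a s := div_pos hs (hmult _)
    exact lt_of_lt_of_le this (hs0 s (Finset.mem_univ _))
  obtain ⟨ε, hε⟩ := Units.dirichletUnitTheorem.exists_unit E (InfinitePlace.mk (φ s0))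
  refine ⟨ε, ?_⟩
  set ℓ : InfinitePlace E → ℝ := fun w => (InfinitePlace.mult w : ℝ) * Real.log (w ((ε : 𝓞 E) : E))
    with hℓ
  have hsum : ∑ w, ℓ w = 0 := Units.sum_mult_mul_log ε
  have hneg : ∀ w, w ≠ InfinitePlace.mk (φ s0) → ℓ w < 0 := fun w hw =>
    mul_neg_of_pos_of_neg (hmult w) (hε w hw)
  have hterm : ∀ s, m s * Real.log ‖φ s ((ε : 𝓞 E) : E)‖ = a s * ℓ (InfinitePlace.mk (φ s)) := by
    intro s
    simp only [ha, hℓ, InfinitePlace.apply]
    field_simp
  rw [Finset.sum_congr rfl (fun s _ => hterm s)]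
  apply ne_of_gt
  have h1 : ∀ s, a s0 * ℓ (InfinitePlace.mk (φ s)) ≤ a s * ℓ (InfinitePlace.mk (φ s)) := by
    intro s
    by_cases hs : s = s0
    · rw [hs]
    · have hne : InfinitePlace.mk (φ s) ≠ InfinitePlace.mk (φ s0) := fun h => hs (hinj h)
      exact mul_le_mul_of_nonpos_right (hs0 s (Finset.mem_univ _)) (hneg _ hne).le
  have h2 : 0 < ∑ s, ℓ (InfinitePlace.mk (φ s)) := by
    -- the sum over all places is zero, the remaining ones are negative
    have himg : ∑ s, ℓ (InfinitePlace.mk (φ s)) =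
        ∑ w ∈ Finset.univ.image (fun s => InfinitePlace.mk (φ s)), ℓ w := by
      rw [Finset.sum_image (fun x _ y _ h => hinj h)]
    rw [himg]
    have hsplit := Finset.sum_add_sum_compl (Finset.univ.image (fun s => InfinitePlace.mk (φ s))) ℓ
    rw [hsum] at hsplit
    have hc : ∑ w ∈ (Finset.univ.image (fun s => InfinitePlace.mk (φ s)))ᶜ, ℓ w < 0 := by
      apply Finset.sum_neg'
      · intro w hw
        simp only [Finset.mem_compl, Finset.mem_image, Finset.mem_univ, true_and, not_exists] at hw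
        exact (hneg w (fun h => hw s0 h.symm)).le
      · refine ⟨w', ?_, ?_⟩
        · simp only [Finset.mem_compl, Finset.mem_image, Finset.mem_univ, true_and, not_exists]
          exact hw'
        · exact hneg w' (fun h => hw' s0 h.symm)
    linarith
  calc (0 : ℝ) < a s0 * ∑ s, ℓ (InfinitePlace.mk (φ s)) := mul_pos ha0 h2
    _ = ∑ s, a s0 * ℓ (InfinitePlace.mk (φ s)) := Finset.mul_sum _ _ _
    _ ≤ ∑ s, a s * ℓ (InfinitePlace.mk (φ s)) := Finset.sum_le_sum fun s _ => h1 s

/-! Step 2: the trace polynomial. -/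

open Polynomial

/-- Division of a polynomial by `X - C ν` for a root `ν`. -/
theorem eval_divByMonic_root (χ : ℂ[X]) (ν : ℂ) (hν : χ.eval ν = 0) :
    (χ /ₘ (X - C ν)).eval ν = (derivative χ).eval ν ∧
      ∀ μ : ℂ, χ.eval μ = 0 → μ ≠ ν → (χ /ₘ (X - C ν)).eval μ = 0 := by
  have h : (X - C ν) * (χ /ₘ (X - C ν)) = χ := mul_divByMonic_eq_iff_isRoot.mpr hν
  constructor
  · have h2 := congrArg (fun p => (derivative p).eval ν) h
    simpa using h2
  · intro μ hμ hne
    have h2 := congrArg (fun p => p.eval μ) h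
    simp only [eval_mul, eval_sub, eval_X, eval_C, hμ] at h2
    rcases mul_eq_zero.mp h2 with h3 | h3
    · exact absurd (sub_eq_zero.mp h3) hne
    · exact h3

/-- For `χ ∈ K[X]` monic with integral coefficients, `lam ∈ E` a root, `y ∈ E` integral: there is
`t ∈ K[X]` with integral coefficients whose value at `φ lam` is `φ (y χ'(lam))` and whose value at all
the other roots of `χ` is `0`. -/
theorem exists_trace_poly {K E : Type*} [Field K] [CharZero K] [Field E] [Algebra K E]
    [FiniteDimensional K E] [Algebra K ℂ] (χ : K[X]) (hmon : χ.Monic)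
    (hχ : ∀ i, IsIntegral ℤ (χ.coeff i)) (lam : E)
    (hroot : aeval lam χ = 0) (hlam : IsIntegral ℤ lam)
    (hgen : ∀ φ ψ : E →ₐ[K] ℂ, φ lam = ψ lam → φ = ψ) (y : E) (hy : IsIntegral ℤ y) :
    ∃ t : K[X], (∀ i, IsIntegral ℤ (t.coeff i)) ∧
      (∀ φ : E →ₐ[K] ℂ, aeval (φ lam) t = φ (y * aeval lam (derivative χ))) ∧
      ∀ μ : ℂ, aeval μ χ = 0 → (∀ φ : E →ₐ[K] ℂ, φ lam ≠ μ) → aeval μ t = 0 := by
  classical
  set χE : E[X] := χ.map (algebraMap K E) with hχE
  have hχEmon : χE.Monic := hmon.map _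
  -- the quotient has integral coefficients
  have hq : ∀ i, IsIntegral ℤ ((χE /ₘ (X - C lam)).coeff i) := by
    let R := integralClosure ℤ E
    have hl : ∃ χR : R[X], χR.map (algebraMap R E) = χE := by
      have : χE ∈ Polynomial.lifts (algebraMap R E) := by
        rw [Polynomial.lifts_iff_coeff_lifts]
        intro i
        refine ⟨⟨χE.coeff i, ?_⟩, rfl⟩
        rw [hχE, coeff_map]
        exact (hχ i).map (algebraMap K E : K →+* E).toIntAlgHom
      obtain ⟨χR, hχR⟩ := this
      exact ⟨χR, hχR⟩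
    obtain ⟨χR, hχR⟩ := hl
    let lR : R := ⟨lam, hlam⟩
    have h1 : (χE /ₘ (X - C lam)) = (χR /ₘ (X - C lR)).map (algebraMap R E) := by
      rw [Polynomial.map_divByMonic _ (monic_X_sub_C lR), hχR]
      simp [lR]
    intro i
    rw [h1, coeff_map]
    exact ((χR /ₘ (X - C lR)).coeff i).2
  set P : E[X] := C y * (χE /ₘ (X - C lam)) with hP
  have hPint : ∀ i, IsIntegral ℤ (P.coeff i) := by
    intro i
    rw [hP, coeff_C_mul]
    exact hy.mul (hq i)
  let t : K[X] := ∑ i ∈ Finset.range (P.natDegree + 1), monomial i (Algebra.trace K E (P.coeff i))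
  have htc : ∀ i, t.coeff i = Algebra.trace K E (P.coeff i) := by
    intro i
    simp only [t, finsetSum_coeff, coeff_monomial]
    by_cases hi : i ∈ Finset.range (P.natDegree + 1)
    · rw [Finset.sum_eq_single i]
      · simp
      · intro b _ hb
        rw [if_neg hb]
      · intro h; exact absurd hi h
    · rw [Finset.sum_eq_zero]
      · have : P.natDegree < i := by
          simp only [Finset.mem_range, not_lt] at hi
          omega
        rw [coeff_eq_zero_of_natDegree_lt this, map_zero]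
      · intro b hb
        rw [if_neg]
        intro hbi
        exact hi (hbi ▸ hb)
  have htmap : t.map (algebraMap K ℂ) = ∑ φ : E →ₐ[K] ℂ, P.map (φ : E →+* ℂ) := by
    ext i
    rw [coeff_map, htc, finsetSum_coeff, trace_eq_sum_embeddings (K := K) (E := ℂ)]
    simp [coeff_map]
  have hQ : ∀ φ : E →ₐ[K] ℂ, P.map (φ : E →+* ℂ) =
      C (φ y) * ((χ.map (algebraMap K ℂ)) /ₘ (X - C (φ lam))) := by
    intro φ
    rw [hP, Polynomial.map_mul, map_C, Polynomial.map_divByMonic _ (monic_X_sub_C lam)]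
    congr 2
    · rw [hχE, Polynomial.map_map]
      congr 1
      ext x
      simp
    · simp
  have haev : ∀ μ : ℂ, aeval μ t =
      ∑ φ : E →ₐ[K] ℂ, φ y * ((χ.map (algebraMap K ℂ)) /ₘ (X - C (φ lam))).eval μ := by
    intro μ
    rw [← Polynomial.eval_map_algebraMap, htmap, eval_finsetSum]
    refine Finset.sum_congr rfl fun φ _ => ?_
    rw [hQ, eval_mul, eval_C]
  have hφroot : ∀ φ : E →ₐ[K] ℂ, (χ.map (algebraMap K ℂ)).eval (φ lam) = 0 := by
    intro φ
    rw [Polynomial.eval_map_algebraMap, aeval_algHom_apply, hroot, map_zero]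
  refine ⟨t, ?_, ?_, ?_⟩
  · intro i
    rw [htc]
    exact Algebra.isIntegral_trace (hPint i)
  · intro φ
    rw [haev, Finset.sum_eq_single φ]
    · rw [(eval_divByMonic_root _ _ (hφroot φ)).1, map_mul, derivative_map,
        Polynomial.eval_map_algebraMap, aeval_algHom_apply]
    · intro ψ _ hψ
      rw [(eval_divByMonic_root _ _ (hφroot ψ)).2 _ (hφroot φ), mul_zero]
      intro h
      exact hψ (hgen ψ φ h.symm)
    · intro h
      exact absurd (Finset.mem_univ φ) h
  · intro μ hμ hne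
    rw [haev]
    refine Finset.sum_eq_zero fun φ _ => ?_
    rw [(eval_divByMonic_root _ _ (hφroot φ)).2 μ, mul_zero]
    · rw [Polynomial.eval_map_algebraMap, hμ]
    · exact fun h => hne φ h.symm

/-! Step 3: powers of units congruent to one. -/

theorem exists_pow_sub_one {E : Type*} [Field E] [NumberField E] (ε : (𝓞 E)ˣ) (d : 𝓞 E)
    (hd : d ≠ 0) : ∃ N : ℕ, 0 < N ∧ ∃ y y' : 𝓞 E, (ε : 𝓞 E) ^ N - 1 = y * d ∧
      ((ε⁻¹ : (𝓞 E)ˣ) : 𝓞 E) ^ N - 1 = y' * d := by
  have hne : Ideal.span {d} ≠ ⊥ := by simpa using hd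
  have : Finite (𝓞 E ⧸ Ideal.span {d}) := Ideal.finiteQuotientOfFreeOfNeBot _ hne
  let f := Units.map (Ideal.Quotient.mk (Ideal.span {d}) : 𝓞 E →* 𝓞 E ⧸ Ideal.span {d})
  have hN : (f ε) ^ (Nat.card (𝓞 E ⧸ Ideal.span {d})ˣ) = 1 := pow_card_eq_one'
  refine ⟨Nat.card (𝓞 E ⧸ Ideal.span {d})ˣ, Nat.card_pos, ?_⟩
  have key : ∀ u : (𝓞 E)ˣ, f u = 1 → ∃ y : 𝓞 E, (u : 𝓞 E) - 1 = y * d := by
    intro u hu
    have h1 : (Ideal.Quotient.mk (Ideal.span {d})) ((u : 𝓞 E) - 1) = 0 := by
      rw [map_sub, map_one, sub_eq_zero]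
      exact congrArg Units.val hu
    rw [Ideal.Quotient.eq_zero_iff_mem, Ideal.mem_span_singleton'] at h1
    obtain ⟨y, hy⟩ := h1
    exact ⟨y, hy.symm⟩
  obtain ⟨y, hy⟩ := key (ε ^ _) (by rw [map_pow]; exact hN)
  obtain ⟨y', hy'⟩ := key (ε⁻¹ ^ _) (by rw [map_pow, map_inv, inv_pow, hN, inv_one])
  refine ⟨y, y', ?_, ?_⟩
  · simpa using hy
  · simpa using hy'

/-! Step 4: units of `O[x]/(χ)` separate the characters. -/

theorem exists_extend {K E : Type*} [Field K] [Field E] [Algebra K E] [Algebra.IsAlgebraic K E]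
    (σ : K →+* ℂ) : ∃ τ : E →+* ℂ, τ.comp (algebraMap K E) = σ := by
  algebraize [σ]
  exact ⟨(IsAlgClosed.lift : E →ₐ[K] ℂ), AlgHom.comp_algebraMap _⟩

/-- Hypotheses on `O`: it is the ring of integers of the number field `L ⊂ ℂ`, which is not real and
has an archimedean place which is not above the identity embedding. -/
structure IsIntRing (O : Subring ℂ) (L : Subfield ℂ) : Prop where
  fin : FiniteDimensional ℚ L
  mem : ∀ z, z ∈ O ↔ z ∈ L ∧ IsIntegral ℤ z
  nonreal : ∃ z ∈ L, (starRingEnd ℂ) z ≠ z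
  place : ∃ σ : L →+* ℂ, σ ≠ L.subtype ∧ σ ≠ (starRingEnd ℂ).comp L.subtype

variable {O : Subring ℂ} {L : Subfield ℂ}

/-- For a monic separable `χ` with coefficients in `O` and integers `n ν` for the roots `ν` of `χ`,
not all zero: there are `u v ∈ O[x]` with `u(ν) v(ν) = 1` for all roots `ν` of `χ` and
`∏ |u(ν)|^(n ν) ≠ 1`. -/
theorem exists_unit_poly (hO : IsIntRing O L) (χ : ℂ[X]) (hmon : χ.Monic)
    (hχO : ∀ i, χ.coeff i ∈ O) (hsep : χ.Separable) (R : Finset ℂ) (hR : ∀ ν, ν ∈ R ↔ χ.eval ν = 0)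
    (n : ℂ → ℤ) (ν0 : ℂ) (hν0 : ν0 ∈ R) (hn : n ν0 ≠ 0) :
    ∃ u v : ℂ[X], (∀ i, u.coeff i ∈ O) ∧ (∀ i, v.coeff i ∈ O) ∧
      (∀ ν ∈ R, u.eval ν * v.eval ν = 1) ∧ ∏ ν ∈ R, (u.eval ν) ^ (n ν) ≠ 1 := by
  classical
  have := hO.fin
  -- the polynomial over `L`
  obtain ⟨χL, hχL⟩ : ∃ χL : L[X], χL.map L.subtype = χ := by
    have : χ ∈ Polynomial.lifts L.subtype := by
      rw [Polynomial.lifts_iff_coeff_lifts]
      intro i
      exact ⟨⟨χ.coeff i, ((hO.mem _).mp (hχO i)).1⟩, rfl⟩
    exact this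
  have hamap : (algebraMap L ℂ) = L.subtype := rfl
  have hLmon : χL.Monic := by
    have := hmon
    rw [← hχL] at this
    exact Polynomial.monic_of_injective L.subtype.injective this
  have hLint : ∀ i, IsIntegral ℤ (χL.coeff i) := by
    intro i
    have h1 : IsIntegral ℤ (χ.coeff i) := ((hO.mem _).mp (hχO i)).2
    rw [← hχL, coeff_map] at h1
    exact (isIntegral_algHom_iff (L.subtype.toIntAlgHom) L.subtype.injective).mp h1
  have hLaev : ∀ μ : ℂ, aeval μ χL = χ.eval μ := by
    intro μ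
    rw [← hχL, ← hamap, Polynomial.eval_map_algebraMap]
  -- the field `E = L(ν0)`
  have hint0 : IsIntegral L ν0 := ⟨χL, hLmon, by
    have := hLaev ν0
    rw [(hR ν0).mp hν0] at this
    exact this⟩
  let E := IntermediateField.adjoin L ({ν0} : Set ℂ)
  have : FiniteDimensional L E := IntermediateField.adjoin.finiteDimensional hint0
  have : FiniteDimensional ℚ E := FiniteDimensional.trans ℚ L E
  have : NumberField E := ⟨⟩
  let lam : E := IntermediateField.AdjoinSimple.gen L ν0
  have hlamv : (lam : ℂ) = ν0 := IntermediateField.AdjoinSimple.coe_gen L ν0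
  have hinjE : Function.Injective (algebraMap E ℂ) := (algebraMap E ℂ).injective
  have hEaev : ∀ p : L[X], ((aeval lam p : E) : ℂ) = aeval ν0 p := by
    intro p
    have := (aeval_algHom_apply (E.val) lam p).symm
    simpa [hlamv] using this
  have hroot : aeval lam χL = 0 := by
    apply Subtype.ext
    rw [hEaev, hLaev, (hR ν0).mp hν0]
    rfl
  have hlamint : IsIntegral ℤ lam := by
    have h1 : IsIntegral ℤ ν0 := by
      have h2 : IsIntegral (integralClosure ℤ ℂ) ν0 := by
        have : ∃ χR : (integralClosure ℤ ℂ)[X], χR.map (algebraMap (integralClosure ℤ ℂ) ℂ) = χ := by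
          have : χ ∈ Polynomial.lifts (algebraMap (integralClosure ℤ ℂ) ℂ) := by
            rw [Polynomial.lifts_iff_coeff_lifts]
            intro i
            exact ⟨⟨χ.coeff i, ((hO.mem _).mp (hχO i)).2⟩, rfl⟩
          exact this
        obtain ⟨χR, hχR⟩ := this
        refine ⟨χR, ?_, ?_⟩
        · have := hmon
          rw [← hχR] at this
          exact Polynomial.monic_of_injective (FaithfulSMul.algebraMap_injective _ _) this
        · rw [← Polynomial.eval_map, hχR]
          exact (hR ν0).mp hν0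
      exact isIntegral_trans ν0 h2
    have h3 : IsIntegral ℤ ((algebraMap E ℂ) lam) := by
      rw [show (algebraMap E ℂ) lam = ν0 from hlamv]
      exact h1
    exact (isIntegral_algHom_iff ((algebraMap E ℂ).toIntAlgHom) hinjE).mp h3
  have hgen : ∀ φ ψ : E →ₐ[L] ℂ, φ lam = ψ lam → φ = ψ := by
    intro φ ψ h
    refine IntermediateField.adjoin_algHom_ext L ?_
    intro x hx
    obtain rfl : x = ν0 := hx
    exact h
  -- the derivative
  let d : E := aeval lam (derivative χL)
  have hd : d ≠ 0 := by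
    intro h
    have h1 : ((d : E) : ℂ) = (derivative χ).eval ν0 := by
      rw [hEaev, ← hχL, derivative_map, ← hamap, Polynomial.eval_map_algebraMap]
    rw [h] at h1
    exact hsep.eval₂_derivative_ne_zero (RingHom.id ℂ) (by
      rw [Polynomial.eval₂_id]
      exact (hR ν0).mp hν0) (by
      rw [Polynomial.eval₂_id, ← h1]
      rfl)
  have hdint : IsIntegral ℤ d := by
    let lamR : integralClosure ℤ E := ⟨lam, hlamint⟩
    have h1 : ∃ p : (integralClosure ℤ E)[X], p.map (algebraMap (integralClosure ℤ E) E) =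
        (derivative χL).map (algebraMap L E) := by
      have : (derivative χL).map (algebraMap L E) ∈
          Polynomial.lifts (algebraMap (integralClosure ℤ E) E) := by
        rw [Polynomial.lifts_iff_coeff_lifts]
        intro i
        refine ⟨⟨((derivative χL).map (algebraMap L E)).coeff i, ?_⟩, rfl⟩
        rw [coeff_map, coeff_derivative]
        refine IsIntegral.map ((algebraMap L E).toIntAlgHom) ?_
        refine (hLint _).mul ?_
        have : ((i : L) + 1) = ((i + 1 : ℕ) : L) := by push_cast; ring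
        rw [this]
        have h3 : IsIntegral ℤ (algebraMap ℤ L ((i + 1 : ℕ) : ℤ)) := isIntegral_algebraMap
        simpa using h3
      exact this
    obtain ⟨p, hp⟩ := h1
    have h2 : d = ((p.eval lamR : integralClosure ℤ E) : E) := by
      have : d = ((derivative χL).map (algebraMap L E)).eval lam := by
        rw [Polynomial.eval_map_algebraMap]
      rw [this, ← hp, Polynomial.eval_map]
      exact (Polynomial.hom_eval₂ p (RingHom.id _) (algebraMap (integralClosure ℤ E) E) lamR).symm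
    rw [h2]
    exact (p.eval lamR).2
  -- places
  have hinj : Function.Injective (fun φ : E →ₐ[L] ℂ => InfinitePlace.mk (φ : E →+* ℂ)) := by
    intro φ ψ h
    rcases InfinitePlace.mk_eq_iff.mp h with h1 | h1
    · ext x
      exact RingHom.congr_fun h1 x
    · exfalso
      obtain ⟨z, hz, hzz⟩ := hO.nonreal
      apply hzz
      have h2 := RingHom.congr_fun h1 (algebraMap L E ⟨z, hz⟩)
      rw [ComplexEmbedding.conjugate_coe_eq] at h2
      simp only [AlgHom.coe_toRingHom, AlgHom.commutes] at h2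
      exact h2
  obtain ⟨σ, hσ1, hσ2⟩ := hO.place
  obtain ⟨w', hw'⟩ : ∃ w' : InfinitePlace E, ∀ φ : E →ₐ[L] ℂ,
      InfinitePlace.mk (φ : E →+* ℂ) ≠ w' := by
    obtain ⟨τ, hτ⟩ := exists_extend (E := E) σ
    refine ⟨InfinitePlace.mk τ, ?_⟩
    intro φ h
    have hφ : (φ : E →+* ℂ).comp (algebraMap L E) = L.subtype := AlgHom.comp_algebraMap φ
    rcases InfinitePlace.mk_eq_iff.mp h with h1 | h1
    · apply hσ1
      rw [← hτ, ← h1, hφ]
    · apply hσ2
      rw [← hτ, ← h1]
      ext z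
      rw [RingHom.comp_apply, ComplexEmbedding.conjugate_coe_eq]
      exact congrArg (starRingEnd ℂ) (RingHom.congr_fun hφ z)
  -- the unit
  obtain ⟨ε, hε⟩ := exists_unit_log_ne_zero (fun φ : E →ₐ[L] ℂ => (φ : E →+* ℂ)) hinj w' hw'
    (fun φ => (n (φ lam) : ℝ)) (by
      intro h
      have := congrFun h E.val
      simp only [Pi.zero_apply, Int.cast_eq_zero] at this
      exact hn (by rw [← this]; exact congrArg n hlamv.symm))
  obtain ⟨dO, hdO⟩ : ∃ dO : 𝓞 E, (dO : E) = d := ⟨⟨d, hdint⟩, rfl⟩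
  obtain ⟨N, hN, y, y', hy, hy'⟩ := exists_pow_sub_one ε dO (by
    intro h
    rw [h] at hdO
    exact hd (hdO.symm.trans (map_zero (algebraMap (𝓞 E) E))))
  have hyE : (((ε : 𝓞 E) : E)) ^ N - 1 = (y : E) * d := by
    have := congrArg (algebraMap (𝓞 E) E) hy
    rw [map_sub, map_pow, map_one, map_mul] at this
    rw [← hdO]
    exact this
  have hyE' : ((((ε⁻¹ : (𝓞 E)ˣ) : 𝓞 E) : E)) ^ N - 1 = (y' : E) * d := by
    have := congrArg (algebraMap (𝓞 E) E) hy'
    rw [map_sub, map_pow, map_one, map_mul] at this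
    rw [← hdO]
    exact this
  obtain ⟨t, ht1, ht2, ht3⟩ := exists_trace_poly χL hLmon hLint lam hroot hlamint hgen (y : E)
    (RingOfIntegers.isIntegral_coe y)
  obtain ⟨t', ht1', ht2', ht3'⟩ := exists_trace_poly χL hLmon hLint lam hroot hlamint hgen (y' : E)
    (RingOfIntegers.isIntegral_coe y')
  have hcoef : ∀ p : L[X], (∀ i, IsIntegral ℤ (p.coeff i)) →
      ∀ i, ((1 + p).map L.subtype).coeff i ∈ O := by
    intro p hp i
    rw [coeff_map, hO.mem]
    refine ⟨((1 + p).coeff i).2, ?_⟩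
    refine IsIntegral.map (L.subtype.toIntAlgHom) ?_
    rw [coeff_add, coeff_one]
    refine IsIntegral.add ?_ (hp i)
    split_ifs
    · exact isIntegral_one
    · exact isIntegral_zero
  have hev : ∀ (p : L[X]) (μ : ℂ), ((1 + p).map L.subtype).eval μ = 1 + aeval μ p := by
    intro p μ
    rw [← hamap, Polynomial.eval_map_algebraMap, map_add, map_one]
  have hu : ∀ φ : E →ₐ[L] ℂ, ((1 + t).map L.subtype).eval (φ lam) = φ ((ε : 𝓞 E) : E) ^ N := by
    intro φ
    rw [hev, ht2, ← hyE, map_sub, map_one, map_pow]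
    ring
  have hv : ∀ φ : E →ₐ[L] ℂ, ((1 + t').map L.subtype).eval (φ lam) =
      φ (((ε⁻¹ : (𝓞 E)ˣ) : 𝓞 E) : E) ^ N := by
    intro φ
    rw [hev, ht2', ← hyE', map_sub, map_one, map_pow]
    ring
  have hu1 : ∀ ν ∈ R, (∀ φ : E →ₐ[L] ℂ, φ lam ≠ ν) → ((1 + t).map L.subtype).eval ν = 1 := by
    intro ν hν h
    rw [hev, ht3 ν (by rw [hLaev]; exact (hR ν).mp hν) h, add_zero]
  have hv1 : ∀ ν ∈ R, (∀ φ : E →ₐ[L] ℂ, φ lam ≠ ν) → ((1 + t').map L.subtype).eval ν = 1 := by
    intro ν hν h
    rw [hev, ht3' ν (by rw [hLaev]; exact (hR ν).mp hν) h, add_zero]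
  have hφR : ∀ φ : E →ₐ[L] ℂ, φ lam ∈ R := by
    intro φ
    rw [hR, ← hLaev, aeval_algHom_apply, hroot, map_zero]
  refine ⟨(1 + t).map L.subtype, (1 + t').map L.subtype, hcoef t ht1, hcoef t' ht1', ?_, ?_⟩
  · intro ν hν
    by_cases h : ∃ φ : E →ₐ[L] ℂ, φ lam = ν
    · obtain ⟨φ, rfl⟩ := h
      rw [hu, hv, ← mul_pow, ← map_mul, ← map_mul, ← Units.val_mul, mul_inv_cancel]
      simp
    · push Not at h
      rw [hu1 ν hν h, hv1 ν hν h, one_mul]
  · intro hprod
    have h1 : ∑ ν ∈ R, (n ν : ℝ) * Real.log ‖((1 + t).map L.subtype).eval ν‖ = 0 := by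
      have h2 := congrArg (fun z : ℂ => Real.log ‖z‖) hprod
      simp only [norm_prod, norm_one, Real.log_one] at h2
      rw [Real.log_prod] at h2
      · rw [← h2]
        refine Finset.sum_congr rfl fun ν _ => ?_
        rw [norm_zpow, Real.log_zpow]
      · intro ν hν
        rw [norm_zpow]
        refine zpow_ne_zero _ (norm_ne_zero_iff.mpr ?_)
        by_cases h : ∃ φ : E →ₐ[L] ℂ, φ lam = ν
        · obtain ⟨φ, rfl⟩ := h
          rw [hu]
          refine pow_ne_zero _ ?_
          rw [_root_.map_ne_zero]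
          exact (RingOfIntegers.coe_ne_zero_iff).mpr ε.ne_zero
        · push Not at h
          rw [hu1 ν hν h]
          exact one_ne_zero
    have h3 : ∑ ν ∈ R, (n ν : ℝ) * Real.log ‖((1 + t).map L.subtype).eval ν‖ =
        ∑ ν ∈ Finset.univ.image (fun φ : E →ₐ[L] ℂ => φ lam),
          (n ν : ℝ) * Real.log ‖((1 + t).map L.subtype).eval ν‖ := by
      symm
      refine Finset.sum_subset ?_ ?_
      · intro ν hν
        obtain ⟨φ, -, rfl⟩ := Finset.mem_image.mp hν
        exact hφR φ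
      · intro ν hν hν'
        rw [hu1 ν hν, norm_one, Real.log_one, mul_zero]
        intro φ h
        exact hν' (Finset.mem_image.mpr ⟨φ, Finset.mem_univ _, h⟩)
    rw [h3, Finset.sum_image (fun φ _ ψ _ h => hgen φ ψ h)] at h1
    apply hε
    have h4 : (N : ℝ) * ∑ φ : E →ₐ[L] ℂ, (n (φ lam) : ℝ) * Real.log ‖φ ((ε : 𝓞 E) : E)‖ = 0 := by
      rw [← h1, Finset.mul_sum]
      refine Finset.sum_congr rfl fun φ _ => ?_
      rw [hu, norm_pow, Real.log_pow]
      ring
    rcases mul_eq_zero.mp h4 with h5 | h5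
    · exfalso
      have : N = 0 := by exact_mod_cast h5
      omega
    · exact h5

end Crest.Agent.R003.Unit
end

-- ▼ part R003/Flow992

/-!
# Row 3 (S0003), block (U)+(ii) (helper992)

* `torus_dense`: the units of `O[B]` are Zariski dense in `ℂ[B]ˣ` (`B` separable, integral).
* `flow`: approximable points are stable under `ρ x0 ↦ ρ x0 * q(ρ x1)`.
-/

set_option autoImplicit false

namespace Crest.Agent.R003.Unit

open Polynomial

variable {O : Subring ℂ} {L : Subfield ℂ}

/-- enumeration of the roots of a separable monic complex polynomial -/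
theorem exists_roots (χ : ℂ[X]) (hmon : χ.Monic) (hsep : χ.Separable) (k : ℕ)
    (hk : χ.natDegree = k) :
    ∃ lam : Fin k → ℂ, Function.Injective lam ∧ ∀ ν, χ.eval ν = 0 ↔ ∃ i, lam i = ν := by
  classical
  have hcard : χ.roots.toFinset.card = k := by
    rw [Multiset.toFinset_card_of_nodup (nodup_roots hsep),
      splits_iff_card_roots.mp (IsAlgClosed.splits χ), hk]
  let e := Finset.equivFinOfCardEq hcard
  refine ⟨fun i => (e.symm i : ℂ), ?_, ?_⟩
  · intro i j h
    exact e.symm.injective (Subtype.ext h)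
  · intro ν
    have h1 : χ.eval ν = 0 ↔ ν ∈ χ.roots.toFinset := by
      rw [Multiset.mem_toFinset, mem_roots hmon.ne_zero]
      rfl
    rw [h1]
    constructor
    · intro h
      exact ⟨e ⟨ν, h⟩, by simp⟩
    · rintro ⟨i, rfl⟩
      exact (e.symm i).2

/-- the group of unit vectors `(u(lam i))`, `u ∈ O[x]` invertible modulo `χ` -/
def unitGroup (O : Subring ℂ) {k : ℕ} (lam : Fin k → ℂ) : Submonoid (Fin k → ℂ) where
  carrier := {z | ∃ u v : ℂ[X], (∀ i, u.coeff i ∈ O) ∧ (∀ i, v.coeff i ∈ O) ∧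
    (∀ i, u.eval (lam i) * v.eval (lam i) = 1) ∧ ∀ i, z i = u.eval (lam i)}
  one_mem' := by
    have h1 : ∀ i, (1 : ℂ[X]).coeff i ∈ O := by
      intro i
      rw [coeff_one]
      split_ifs
      · exact O.one_mem
      · exact O.zero_mem
    exact ⟨1, 1, h1, h1, fun i => by simp, fun i => by simp⟩
  mul_mem' := by
    rintro z z' ⟨u, v, hu, hv, huv, hz⟩ ⟨u', v', hu', hv', huv', hz'⟩
    have hm : ∀ p q : ℂ[X], (∀ i, p.coeff i ∈ O) → (∀ i, q.coeff i ∈ O) →
        ∀ i, (p * q).coeff i ∈ O := by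
      intro p q hp hq i
      rw [coeff_mul]
      exact O.sum_mem fun x _ => O.mul_mem (hp _) (hq _)
    refine ⟨u * u', v * v', hm _ _ hu hu', hm _ _ hv hv', fun i => ?_, fun i => ?_⟩
    · rw [eval_mul, eval_mul]
      calc _ = (u.eval (lam i) * v.eval (lam i)) * (u'.eval (lam i) * v'.eval (lam i)) := by ring
        _ = 1 := by rw [huv, huv', one_mul]
    · rw [Pi.mul_apply, hz, hz', eval_mul]

/-- A polynomial vanishing at all `(u(lam i))_i`, `u` a unit of `O[x]/χ`, is zero. -/
theorem unit_dense (hO : IsIntRing O L) {k : ℕ} (χ : ℂ[X]) (hmon : χ.Monic)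
    (hχO : ∀ i, χ.coeff i ∈ O) (hsep : χ.Separable) (lam : Fin k → ℂ)
    (hinj : Function.Injective lam) (hlam : ∀ ν, χ.eval ν = 0 ↔ ∃ i, lam i = ν)
    (F : MvPolynomial (Fin k) ℂ) (hF : ∀ z ∈ unitGroup O lam, MvPolynomial.eval z F = 0) :
    F = 0 := by
  classical
  -- characters
  let ch : (Fin k →₀ ℕ) → (unitGroup O lam →* ℂ) := fun m =>
    { toFun := fun z => ∏ i, (z.1 i) ^ (m i)
      map_one' := by simp
      map_mul' := by
        intro a b
        rw [← Finset.prod_mul_distrib]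
        refine Finset.prod_congr rfl fun i _ => ?_
        rw [Submonoid.coe_mul, Pi.mul_apply, mul_pow] }
  have hch : Function.Injective ch := by
    intro m m' hmm
    by_contra hne
    obtain ⟨i0, hi0⟩ : ∃ i, m i ≠ m' i := by
      by_contra hcon
      push Not at hcon
      exact hne (Finsupp.ext hcon)
    let n : ℂ → ℤ := fun ν => ∑ i, if lam i = ν then ((m i : ℤ) - m' i) else 0
    have hn : ∀ i, n (lam i) = (m i : ℤ) - m' i := by
      intro i
      show (∑ j, if lam j = lam i then ((m j : ℤ) - m' j) else 0) = _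
      rw [Finset.sum_eq_single i]
      · rw [if_pos rfl]
      · intro j _ hj
        rw [if_neg (fun h => hj (hinj h))]
      · simp
    obtain ⟨u, v, hu, hv, huv, hprod⟩ := exists_unit_poly hO χ hmon hχO hsep
      (Finset.univ.image lam) (by
        intro ν
        rw [hlam]
        simp) n (lam i0) (by simp) (by
        rw [hn]
        omega)
    have huv' : ∀ i, u.eval (lam i) * v.eval (lam i) = 1 := fun i => huv _ (by simp)
    have hz : (fun i => u.eval (lam i)) ∈ unitGroup O lam := ⟨u, v, hu, hv, huv', fun i => rfl⟩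
    have h1 := DFunLike.congr_fun hmm ⟨_, hz⟩
    have h2 : ∏ i, (u.eval (lam i)) ^ (m i) = ∏ i, (u.eval (lam i)) ^ (m' i) := h1
    apply hprod
    rw [Finset.prod_image (fun i _ j _ h => hinj h)]
    have hne0 : ∀ i, u.eval (lam i) ≠ 0 := fun i h => by
      have := huv' i
      rw [h, zero_mul] at this
      exact zero_ne_one this
    have h3 : ∏ i, (u.eval (lam i)) ^ (n (lam i)) =
        (∏ i, (u.eval (lam i)) ^ (m i)) / ∏ i, (u.eval (lam i)) ^ (m' i) := by
      rw [← Finset.prod_div_distrib]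
      refine Finset.prod_congr rfl fun i _ => ?_
      rw [hn, zpow_sub₀ (hne0 i), zpow_natCast, zpow_natCast]
    rw [h3, h2, div_self]
    exact Finset.prod_ne_zero_iff.mpr fun i _ => pow_ne_zero _ (hne0 i)
  have hli := (linearIndependent_monoidHom (unitGroup O lam) ℂ).comp ch hch
  rw [linearIndependent_iff'] at hli
  have h0 := hli F.support (fun m => F.coeff m) (by
    ext z
    rw [Finset.sum_apply]
    have h := hF z.1 z.2
    rw [MvPolynomial.eval_eq'] at h
    exact h)
  ext m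
  rw [MvPolynomial.coeff_zero]
  by_cases hm : m ∈ F.support
  · exact h0 m hm
  · rwa [MvPolynomial.notMem_support_iff] at hm

/-- `∑ c_i B^i` -/
def qm {R : Type*} [CommRing R] {k : ℕ} (c : Fin k → R) (B : Matrix (Fin k) (Fin k) R) :
    Matrix (Fin k) (Fin k) R := ∑ i : Fin k, c i • B ^ (i : ℕ)

/-- Cayley-Hamilton: every polynomial in `B` is `∑ c_i B^i`, `c` the coefficients of the remainder
modulo the characteristic polynomial. -/
theorem aeval_eq_qm {k : ℕ} (B : Matrix (Fin k) (Fin k) ℂ) (u : ℂ[X]) :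
    aeval B u = qm (fun i : Fin k => (u %ₘ B.charpoly).coeff i) B := by
  have h1 : aeval B u = aeval B (u %ₘ B.charpoly) := by
    conv_lhs => rw [← modByMonic_add_div u B.charpoly]
    rw [map_add, map_mul, Matrix.aeval_self_charpoly, zero_mul, add_zero]
  have hdeg : B.charpoly.natDegree = k := by
    rw [Matrix.charpoly_natDegree_eq_dim, Fintype.card_fin]
  rw [h1]
  rcases Nat.eq_zero_or_pos k with hk | hk
  · subst hk
    exact Subsingleton.elim _ _
  · have hlt : (u %ₘ B.charpoly).natDegree < k := by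
      have := natDegree_modByMonic_lt u B.charpoly_monic (by
        intro h
        rw [h, natDegree_one] at hdeg
        omega)
      omega
    conv_lhs => rw [as_sum_range' _ k hlt]
    rw [map_sum, ← Fin.sum_univ_eq_sum_range (fun i => aeval B (monomial i
      ((u %ₘ B.charpoly).coeff i)))]
    unfold qm
    refine Finset.sum_congr rfl fun i _ => ?_
    rw [aeval_monomial, Algebra.smul_def]

theorem aeval_entry {k : ℕ} (B : Matrix (Fin k) (Fin k) ℂ) (hB : ∀ i j, B i j ∈ O) (u : ℂ[X])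
    (hu : ∀ i, u.coeff i ∈ O) : ∀ i j, (aeval B u) i j ∈ O := by
  intro i j
  obtain ⟨B', hB'⟩ : ∃ B' : Matrix (Fin k) (Fin k) O, B'.map O.subtype = B :=
    ⟨fun i j => ⟨B i j, hB i j⟩, rfl⟩
  obtain ⟨u', hu'⟩ : ∃ u' : O[X], u'.map O.subtype = u := by
    have : u ∈ Polynomial.lifts O.subtype := by
      rw [Polynomial.lifts_iff_coeff_lifts]
      intro i
      exact ⟨⟨u.coeff i, hu i⟩, rfl⟩
    exact this
  have h1 : aeval B u = (aeval B' u').map O.subtype := by
    rw [← hu', ← hB', aeval_def, aeval_def, eval₂_map]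
    rw [show (Matrix.map (eval₂ (algebraMap O (Matrix (Fin k) (Fin k) O)) B' u') O.subtype) =
      O.subtype.mapMatrix (eval₂ (algebraMap O (Matrix (Fin k) (Fin k) O)) B' u') from rfl,
      hom_eval₂]
    congr 1
    ext a i j
    simp only [RingHom.coe_comp, Function.comp_apply, RingHom.mapMatrix_apply, Matrix.map_apply,
      Matrix.algebraMap_matrix_apply]
    split_ifs
    · rfl
    · rfl
  rw [h1]
  exact ((aeval B' u') i j).2

theorem charpoly_coeff_mem {k : ℕ} (B : Matrix (Fin k) (Fin k) ℂ) (hB : ∀ i j, B i j ∈ O) :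
    ∀ i, B.charpoly.coeff i ∈ O := by
  intro i
  obtain ⟨B', hB'⟩ : ∃ B' : Matrix (Fin k) (Fin k) O, B'.map O.subtype = B :=
    ⟨fun i j => ⟨B i j, hB i j⟩, rfl⟩
  rw [← hB', Matrix.charpoly_map, coeff_map]
  exact (B'.charpoly.coeff i).2

/-- **(U)**: for `B` integral with separable characteristic polynomial the integral units `q_c(B)`
are Zariski dense. -/
theorem torus_dense (hO : IsIntRing O L) {k : ℕ} (B : Matrix (Fin k) (Fin k) ℂ)
    (hB : ∀ i j, B i j ∈ O) (hsep : B.charpoly.Separable) (F : MvPolynomial (Fin k) ℂ)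
    (hF : ∀ (c : Fin k → ℂ), ∀ g ∈ GO O k, g.1 = qm c B → MvPolynomial.eval c F = 0) : F = 0 := by
  classical
  have hdeg : B.charpoly.natDegree = k := by
    rw [Matrix.charpoly_natDegree_eq_dim, Fintype.card_fin]
  obtain ⟨lam, hinj, hlam⟩ := exists_roots B.charpoly B.charpoly_monic hsep k hdeg
  have hV : IsUnit (Matrix.vandermonde lam).det :=
    (Matrix.det_vandermonde_ne_zero_iff.mpr hinj).isUnit
  obtain ⟨W, hW⟩ : ∃ W : Matrix (Fin k) (Fin k) ℂ, W = (Matrix.vandermonde lam)⁻¹ := ⟨_, rfl⟩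
  have hWV : W * Matrix.vandermonde lam = 1 := by
    rw [hW, Matrix.nonsing_inv_mul _ hV]
  obtain ⟨G, hG⟩ : ∃ G : MvPolynomial (Fin k) ℂ, ∀ z, MvPolynomial.eval z G =
      MvPolynomial.eval (W.mulVec z) F := by
    refine ⟨MvPolynomial.bind₁ (fun i => ∑ j, MvPolynomial.C (W i j) * MvPolynomial.X j) F, ?_⟩
    intro z
    have h1 := MvPolynomial.eval₂Hom_bind₁ (RingHom.id ℂ) z
      (fun i => ∑ j, MvPolynomial.C (W i j) * MvPolynomial.X j) F
    refine h1.trans ?_
    show MvPolynomial.eval _ F = _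
    congr 2
    funext i
    simp [Matrix.mulVec, dotProduct]
  have hG0 : G = 0 := by
    refine unit_dense hO B.charpoly B.charpoly_monic (charpoly_coeff_mem B hB) hsep lam hinj hlam G ?_
    rintro z ⟨u, v, hu, hv, huv, hz⟩
    have hdvd : B.charpoly ∣ u * v - 1 := by
      rcases Nat.eq_zero_or_pos k with hk | hk
      · rw [(Polynomial.Monic.natDegree_eq_zero B.charpoly_monic).mp (by omega)]
        exact one_dvd _
      · rw [← modByMonic_eq_zero_iff_dvd B.charpoly_monic]
        apply eq_zero_of_natDegree_lt_card_of_eval_eq_zero _ hinj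
        · intro i
          rw [modByMonic_eq_sub_mul_div, eval_sub, eval_mul, (hlam _).mpr ⟨i, rfl⟩, zero_mul,
            sub_zero, eval_sub, eval_mul, huv, eval_one, sub_self]
        · rw [Fintype.card_fin]
          have := natDegree_modByMonic_lt (u * v - 1) B.charpoly_monic (by
            intro h
            rw [h, natDegree_one] at hdeg
            omega)
          omega
    have hmul : aeval B u * aeval B v = 1 := by
      obtain ⟨w, hw⟩ := hdvd
      have h1 : aeval B (u * v - 1) = 0 := by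
        rw [hw, map_mul, Matrix.aeval_self_charpoly, zero_mul]
      rw [map_sub, map_one, map_mul, sub_eq_zero] at h1
      exact h1
    have hmul' : aeval B v * aeval B u = 1 := by
      rw [← map_mul, mul_comm v u, map_mul, hmul]
    rw [hG]
    refine hF _ ⟨aeval B u, aeval B v, hmul, hmul'⟩
      (fun i j => ⟨aeval_entry B hB u hu i j, aeval_entry B hB v hv i j⟩) ?_
    show aeval B u = _
    rw [aeval_eq_qm]
    congr 1
    have h2 : (Matrix.vandermonde lam).mulVec (fun i : Fin k => (u %ₘ B.charpoly).coeff i) = z := by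
      funext i
      rw [hz]
      rcases Nat.eq_zero_or_pos k with hk | hk
      · subst hk
        exact i.elim0
      have hlt : (u %ₘ B.charpoly).natDegree < k := by
        have := natDegree_modByMonic_lt u B.charpoly_monic (by
          intro h
          rw [h, natDegree_one] at hdeg
          omega)
        omega
      have h3 : u.eval (lam i) = (u %ₘ B.charpoly).eval (lam i) := by
        rw [modByMonic_eq_sub_mul_div, eval_sub, eval_mul, (hlam _).mpr ⟨i, rfl⟩, zero_mul, sub_zero]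
      rw [h3, eval_eq_sum_range' hlt, ← Fin.sum_univ_eq_sum_range (fun j =>
        (u %ₘ B.charpoly).coeff j * lam i ^ j)]
      simp only [Matrix.mulVec, dotProduct, Matrix.vandermonde_apply]
      refine Finset.sum_congr rfl fun j _ => mul_comm _ _
    rw [← h2, Matrix.mulVec_mulVec, hWV, Matrix.one_mulVec]
  apply MvPolynomial.funext
  intro c
  rw [map_zero]
  have h := hG ((Matrix.vandermonde lam).mulVec c)
  rw [Matrix.mulVec_mulVec, hWV, Matrix.one_mulVec, hG0, map_zero] at h
  exact h.symm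

/-! ### (ii): the flow -/

section Flow

variable {ι : Type} {k : ℕ}

/-- evaluation of polynomial functions -/
noncomputable def ev (ρ : ι → G k) : Pol ι k →+* ℂ :=
  (Pi.evalRingHom (fun _ : ι → G k => ℂ) ρ).comp (Pol ι k).val.toRingHom

theorem ev_apply (ρ : ι → G k) (F : Pol ι k) : ev ρ F = F.1 ρ := rfl

/-- polynomials with coefficients polynomial functions -/
abbrev PM (ι : Type) (k : ℕ) := MvPolynomial (Fin k) (Pol ι k)

/-- matrices of such -/
abbrev MM (ι : Type) (k : ℕ) := Matrix (Fin k) (Fin k) (PM ι k)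

/-- the generic matrix -/
def MB (x : ι) : Matrix (Fin k) (Fin k) (Pol ι k) := Matrix.of fun i j =>
  ⟨fun ρ => (ρ x).1 i j, Algebra.subset_adjoin (Or.inl ⟨x, i, j, rfl⟩)⟩

/-- the generic inverse matrix -/
def MI (x : ι) : Matrix (Fin k) (Fin k) (Pol ι k) := Matrix.of fun i j =>
  ⟨fun ρ => ((ρ x)⁻¹).1 i j, Algebra.subset_adjoin (Or.inr ⟨x, i, j, rfl⟩)⟩

theorem MB_map (x : ι) (ρ : ι → G k) : (MB x).map (ev ρ) = (ρ x).1 := rfl

/-- evaluation of polynomials with polynomial coefficients -/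
noncomputable def Ev (ρ : ι → G k) (c : Fin k → ℂ) : PM ι k →+* ℂ :=
  MvPolynomial.eval₂Hom (ev ρ) c

theorem Ev_C (ρ : ι → G k) (c : Fin k → ℂ) (F : Pol ι k) : Ev ρ c (MvPolynomial.C F) = F.1 ρ := by
  unfold Ev
  rw [MvPolynomial.coe_eval₂Hom, MvPolynomial.eval₂_C]
  rfl

theorem Ev_X (ρ : ι → G k) (c : Fin k → ℂ) (i : Fin k) : Ev ρ c (MvPolynomial.X i) = c i := by
  unfold Ev
  rw [MvPolynomial.coe_eval₂Hom, MvPolynomial.eval₂_X]

/-- evaluation of matrices -/
noncomputable def EvM (ρ : ι → G k) (c : Fin k → ℂ) (Q : MM ι k) : Matrix (Fin k) (Fin k) ℂ :=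
  Q.map (Ev ρ c)

theorem EvM_apply (ρ : ι → G k) (c : Fin k → ℂ) (Q : MM ι k) (i j : Fin k) :
    EvM ρ c Q i j = Ev ρ c (Q i j) := rfl

theorem EvM_det (ρ : ι → G k) (c : Fin k → ℂ) (Q : MM ι k) :
    Ev ρ c Q.det = (EvM ρ c Q).det := (Ev ρ c).map_det Q

theorem EvM_adjugate (ρ : ι → G k) (c : Fin k → ℂ) (Q : MM ι k) :
    EvM ρ c Q.adjugate = (EvM ρ c Q).adjugate := by
  unfold EvM
  exact (Ev ρ c).map_adjugate Q

theorem EvM_mul (ρ : ι → G k) (c : Fin k → ℂ) (Q Q' : MM ι k) :
    EvM ρ c (Q * Q') = EvM ρ c Q * EvM ρ c Q' := Matrix.map_mul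

/-- the generic matrix as a matrix of constant polynomials -/
noncomputable def MBC (x : ι) : MM ι k := (MB x).map MvPolynomial.C

/-- the generic inverse matrix as a matrix of constant polynomials -/
noncomputable def MIC (x : ι) : MM ι k := (MI x).map MvPolynomial.C

theorem EvM_MBC (ρ : ι → G k) (c : Fin k → ℂ) (x : ι) : EvM ρ c (MBC x) = (ρ x).1 := by
  ext i j
  exact Ev_C ρ c _

theorem EvM_MIC (ρ : ι → G k) (c : Fin k → ℂ) (x : ι) : EvM ρ c (MIC x) = ((ρ x)⁻¹).1 := by
  ext i j
  exact Ev_C ρ c _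

theorem qm_map {R S : Type*} [CommRing R] [CommRing S] (f : R →+* S) (c : Fin k → R)
    (B : Matrix (Fin k) (Fin k) R) : (qm c B).map f = qm (fun i => f (c i)) (B.map f) := by
  show f.mapMatrix (qm c B) = _
  unfold qm
  rw [map_sum]
  refine Finset.sum_congr rfl fun i _ => ?_
  rw [show B.map f = f.mapMatrix B from rfl, ← map_pow]
  ext a b
  simp [Matrix.map_apply]

/-- the generic `q_c(ρ x1)` -/
noncomputable def QM (x1 : ι) : MM ι k := qm (fun i => MvPolynomial.X i) (MBC x1)

theorem EvM_QM (x1 : ι) (ρ : ι → G k) (c : Fin k → ℂ) :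
    EvM ρ c (QM x1) = qm c (ρ x1).1 := by
  have h := qm_map (Ev ρ c) (fun i => MvPolynomial.X i) (MBC x1)
  refine h.trans ?_
  have h2 : (MBC x1).map (Ev ρ c) = (ρ x1).1 := EvM_MBC ρ c x1
  rw [h2]
  congr 1
  funext i
  exact Ev_X ρ c i

theorem inv_eq_adj (g : G k) (i j : Fin k) : g.1.adjugate i j = (g⁻¹).1 i j * g.1.det := by
  have h2 : g.1 * g.1.adjugate = g.1.det • (1 : Matrix (Fin k) (Fin k) ℂ) :=
    Matrix.mul_adjugate _
  have h3 : (g⁻¹).1 * g.1 = 1 := by rw [← Units.val_mul, inv_mul_cancel]; rfl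
  have h4 : g.1.adjugate = g.1.det • (g⁻¹).1 := by
    calc g.1.adjugate = (g⁻¹).1 * g.1 * g.1.adjugate := by rw [h3, Matrix.one_mul]
      _ = (g⁻¹).1 * (g.1.det • (1 : Matrix (Fin k) (Fin k) ℂ)) := by rw [Matrix.mul_assoc, h2]
      _ = _ := by rw [Matrix.mul_smul, Matrix.mul_one]
  rw [h4, Matrix.smul_apply, smul_eq_mul, mul_comm]

variable [DecidableEq ι]

/-- the property proved by induction in `rep` -/
def Rep (x0 x1 : ι) (F : (ι → G k) → ℂ) : Prop :=
  ∃ (N : ℕ) (a : PM ι k), ∀ (ρ : ι → G k) (c : Fin k → ℂ) (g : G k),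
      g.1 = qm c (ρ x1).1 →
      F (Function.update ρ x0 (ρ x0 * g)) * g.1.det ^ N = Ev ρ c a

theorem rep_ent (x0 x1 y : ι) (i j : Fin k) : Rep x0 x1 (fun ρ : ι → G k => (ρ y).1 i j) := by
  by_cases hy : y = x0
  · subst hy
    refine ⟨0, (MBC y * QM x1 : MM ι k) i j, fun ρ c g hg => ?_⟩
    rw [pow_zero, mul_one, ← EvM_apply, EvM_mul, EvM_MBC, EvM_QM, ← hg]
    show (Function.update ρ y (ρ y * g) y).1 i j = _
    rw [Function.update_self]
    rfl
  · refine ⟨0, (MBC y : MM ι k) i j, fun ρ c g hg => ?_⟩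
    rw [pow_zero, mul_one, ← EvM_apply, EvM_MBC]
    show (Function.update ρ x0 (ρ x0 * g) y).1 i j = _
    rw [Function.update_of_ne hy]

theorem rep_ient (x0 x1 y : ι) (i j : Fin k) :
    Rep x0 x1 (fun ρ : ι → G k => ((ρ y)⁻¹).1 i j) := by
  by_cases hy : y = x0
  · subst hy
    refine ⟨1, ((QM x1).adjugate * MIC y : MM ι k) i j, fun ρ c g hg => ?_⟩
    rw [pow_one, ← EvM_apply, EvM_mul, EvM_MIC, EvM_adjugate, EvM_QM, ← hg]
    show ((Function.update ρ y (ρ y * g) y)⁻¹).1 i j * _ = _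
    rw [Function.update_self, _root_.mul_inv_rev, Units.val_mul, Matrix.mul_apply,
      Matrix.mul_apply, Finset.sum_mul]
    refine Finset.sum_congr rfl fun l _ => ?_
    rw [inv_eq_adj]
    ring
  · refine ⟨0, (MIC y : MM ι k) i j, fun ρ c g hg => ?_⟩
    rw [pow_zero, mul_one, ← EvM_apply, EvM_MIC]
    show ((Function.update ρ x0 (ρ x0 * g) y)⁻¹).1 i j = _
    rw [Function.update_of_ne hy]

theorem rep (x0 x1 : ι) {F : (ι → G k) → ℂ} (hF : F ∈ Pol ι k) : Rep x0 x1 F := by
  have hdet : ∀ (ρ : ι → G k) (c : Fin k → ℂ) (g : G k), g.1 = qm c (ρ x1).1 →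
      g.1.det = Ev ρ c (QM x1).det := by
    intro ρ c g hg
    rw [EvM_det, EvM_QM, hg]
  unfold Pol at hF
  induction hF using Algebra.adjoin_induction with
  | mem F hF =>
    rcases hF with ⟨y, i, j, rfl⟩ | ⟨y, i, j, rfl⟩
    · exact rep_ent x0 x1 y i j
    · exact rep_ient x0 x1 y i j
  | algebraMap r =>
    refine ⟨0, MvPolynomial.C (algebraMap ℂ (Pol ι k) r), fun ρ c g hg => ?_⟩
    rw [pow_zero, mul_one, Ev_C]
    rfl
  | add F1 F2 _ _ h1 h2 =>
    obtain ⟨N1, a1, h1⟩ := h1
    obtain ⟨N2, a2, h2⟩ := h2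
    refine ⟨N1 + N2, a1 * (QM x1).det ^ N2 + a2 * (QM x1).det ^ N1, fun ρ c g hg => ?_⟩
    rw [map_add, map_mul, map_mul, map_pow, map_pow, ← hdet ρ c g hg, ← h1 ρ c g hg,
      ← h2 ρ c g hg, Pi.add_apply]
    ring
  | mul F1 F2 _ _ h1 h2 =>
    obtain ⟨N1, a1, h1⟩ := h1
    obtain ⟨N2, a2, h2⟩ := h2
    refine ⟨N1 + N2, a1 * a2, fun ρ c g hg => ?_⟩
    rw [map_mul, ← h1 ρ c g hg, ← h2 ρ c g hg, Pi.mul_apply]
    ring

/-- the resultant of the characteristic polynomial of `ρ x` and its derivative -/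
noncomputable def disc (x : ι) : Pol ι k :=
  (MB (k := k) x).charpoly.resultant (derivative (MB (k := k) x).charpoly) k (k - 1)

omit [DecidableEq ι] in
theorem disc_ne_zero_iff (x : ι) (ρ : ι → G k) :
    (disc x).1 ρ ≠ 0 ↔ (ρ x).1.charpoly.Separable := by
  have hdeg : (ρ x).1.charpoly.natDegree = k := by
    rw [Matrix.charpoly_natDegree_eq_dim, Fintype.card_fin]
  have h1 : (disc x).1 ρ = (ρ x).1.charpoly.resultant (derivative (ρ x).1.charpoly) := by
    rw [← ev_apply, disc, ← resultant_map_map, ← derivative_map, ← Matrix.charpoly_map, MB_map]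
    congr 1
    · exact hdeg.symm
    · rw [natDegree_derivative, hdeg]
  rw [h1, ne_eq, resultant_eq_zero_iff]
  have h2 : (ρ x).1.charpoly ≠ 0 := (ρ x).1.charpoly_monic.ne_zero
  constructor
  · intro h
    by_contra hc
    exact h ⟨Or.inl h2, hc⟩
  · rintro h ⟨-, h'⟩
    exact h' h

/-- **(ii)** Approximable points are stable under the flow `ρ x0 ↦ ρ x0 * q(ρ x1)`. -/
theorem flow (hO : IsIntRing O L) (S : Set (ι → G k)) (Q : Set ι) (x0 x1 : ι) (hx1 : x1 ∈ Q)
    (hS : ∀ ρ ∈ S, ∀ g : G k, g * ρ x1 = ρ x1 * g → Function.update ρ x0 (ρ x0 * g) ∈ S)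
    (T : ι → G k) (hT : Appr O S Q T) (hsep : (T x1).1.charpoly.Separable) (g : G k) (q : ℂ[X])
    (hg : g.1 = aeval (T x1).1 q) : Appr O S Q (Function.update T x0 (T x0 * g)) := by
  intro F hF hvan
  obtain ⟨N, a, ha⟩ := rep x0 x1 hF
  have key : a.map (ev T) = 0 := by
    ext m
    rw [MvPolynomial.coeff_map, MvPolynomial.coeff_zero, ev_apply]
    have h1 := hT (fun ρ => (disc x1).1 ρ * (a.coeff m).1 ρ)
      (Subalgebra.mul_mem _ (disc x1).2 (a.coeff m).2) (by
        intro ρ hρ hint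
        by_cases hs : (disc x1).1 ρ = 0
        · rw [hs, zero_mul]
        · have hs' := (disc_ne_zero_iff x1 ρ).mp hs
          have h2 : a.map (ev ρ) = 0 := by
            refine torus_dense hO (ρ x1).1 (fun i j => (hint x1 hx1 i j).1) hs' _ ?_
            intro c g' hg' hg'c
            have h3 := ha ρ c g' hg'c
            have hcomm : g' * ρ x1 = ρ x1 * g' := by
              apply Units.ext
              rw [Units.val_mul, Units.val_mul, hg'c, qm, Finset.sum_mul, Finset.mul_sum]
              refine Finset.sum_congr rfl fun i _ => ?_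
              rw [Matrix.smul_mul, Matrix.mul_smul, ← pow_succ, ← pow_succ']
            rw [hvan _ (hS ρ hρ g' hcomm) (by
              intro x hx
              by_cases hx0 : x = x0
              · subst hx0
                rw [Function.update_self]
                exact (GO O k).mul_mem (hint x hx) hg'
              · rw [Function.update_of_ne hx0]
                exact hint x hx), zero_mul] at h3
            rw [MvPolynomial.eval_map]
            exact h3.symm
          rw [← ev_apply, ← ev_apply, ← MvPolynomial.coeff_map, h2, MvPolynomial.coeff_zero,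
            mul_zero])
    exact (mul_eq_zero.mp h1).resolve_left ((disc_ne_zero_iff x1 T).mpr hsep)
  rw [aeval_eq_qm] at hg
  have h4 := ha T _ g hg
  have h5 : Ev T (fun i : Fin k => (q %ₘ (T x1).1.charpoly).coeff i) a = 0 := by
    have h6 : Ev T (fun i : Fin k => (q %ₘ (T x1).1.charpoly).coeff i) a =
        MvPolynomial.eval (fun i : Fin k => (q %ₘ (T x1).1.charpoly).coeff i) (a.map (ev T)) := by
      rw [MvPolynomial.eval_map]
      rfl
    rw [h6, key, map_zero]
  rw [h5] at h4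
  have hdetg : g.1.det ≠ 0 := ((Matrix.isUnit_iff_isUnit_det _).mp g.isUnit).ne_zero
  exact (mul_eq_zero.mp h4).resolve_right (pow_ne_zero _ hdetg)

end Flow

/-- The closed surface equation is preserved by the flow. -/
theorem Z_update {k h : ℕ} (ξ : ℂˣ) (T : Fin h × Bool → G k) (hT : T ∈ Gl.Z k h ξ) (i : Fin h)
    (g : G k) (hg : g * T (i, true) = T (i, true) * g) :
    Function.update T (i, false) (T (i, false) * g) ∈ Gl.Z k h ξ := by
  show ((List.finRange h).map fun j => _).prod = scal k k ξ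
  rw [← show ((List.finRange h).map fun i => T (i, false) * T (i, true) * (T (i, false))⁻¹ *
      (T (i, true))⁻¹).prod = scal k k ξ from hT]
  congr 1
  refine List.map_congr_left fun j _ => ?_
  rw [Function.update_of_ne (a := (j, true)) (a' := (i, false)) (by simp)]
  by_cases hj : j = i
  · subst hj
    rw [Function.update_self]
    have : g * T (j, true) * g⁻¹ = T (j, true) := by rw [hg, mul_inv_cancel_right]
    calc T (j, false) * g * T (j, true) * (T (j, false) * g)⁻¹ * (T (j, true))⁻¹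
        = T (j, false) * (g * T (j, true) * g⁻¹) * (T (j, false))⁻¹ * (T (j, true))⁻¹ := by group
      _ = _ := by rw [this]
  · rw [Function.update_of_ne (by simpa using hj)]

/-- **(ii)** for the closed surface -/
theorem flow_Z (hO : IsIntRing O L) {k h : ℕ} (ξ : ℂˣ) (i : Fin h) (T : Fin h × Bool → G k)
    (hT : Appr O (Gl.Z k h ξ) Set.univ T) (hsep : (T (i, true)).1.charpoly.Separable) (g : G k)
    (q : ℂ[X]) (hg : g.1 = aeval (T (i, true)).1 q) :
    Appr O (Gl.Z k h ξ) Set.univ (Function.update T (i, false) (T (i, false) * g)) :=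
  flow hO (Gl.Z k h ξ) Set.univ (i, false) (i, true) (Set.mem_univ _)
    (fun ρ hρ g' hg' => Z_update ξ ρ hρ i g' hg') T hT hsep g q hg

end Crest.Agent.R003.Unit
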