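import Crest.Agent.R003.Iface
import Crest.Agent.R003.App638

/-!
# The local step lemma (row 3, helper638)
-/

set_option autoImplicit false

namespace Crest.Agent.R003

open Multiset

/-! ## sums over lists of roots -/

/-- occurrences in a list of roots -/
def occL (A : List Root) : Multiset (ℕ × ℕ × Bool) := (A.map Root.occ).sum
/-- names of the P-letters in a list of roots -/
def pnL (A : List Root) : Multiset ℕ := (A.map Root.pn).sum
/-- weight of a list of roots -/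
noncomputable def wtL (A : List Root) : Multiset ℕ := (A.map Root.wt).sum
/-- all names in a list of roots -/
def namesL (A : List Root) : Set ℕ := {x | (∃ k ε, (x, k, ε) ∈ occL A) ∨ x ∈ pnL A}

/-- both signs of every element of `V` -/
def pm (V : Multiset (ℕ × ℕ)) : Multiset (ℕ × ℕ × Bool) :=
  V.map (fun v => (v.1, v.2, true)) + V.map (fun v => (v.1, v.2, false))

@[simp] theorem occL_nil : occL [] = 0 := rfl
@[simp] theorem pnL_nil : pnL [] = 0 := rfl
@[simp] theorem wtL_nil : wtL [] = 0 := rfl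
@[simp] theorem occL_cons (r : Root) (A : List Root) : occL (r :: A) = r.occ + occL A := by
  simp [occL]
@[simp] theorem pnL_cons (r : Root) (A : List Root) : pnL (r :: A) = r.pn + pnL A := by
  simp [pnL]
@[simp] theorem wtL_cons (r : Root) (A : List Root) : wtL (r :: A) = r.wt + wtL A := by
  simp [wtL]
@[simp] theorem occL_append (A B : List Root) : occL (A ++ B) = occL A + occL B := by
  simp [occL]
@[simp] theorem pnL_append (A B : List Root) : pnL (A ++ B) = pnL A + pnL B := by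
  simp [pnL]
@[simp] theorem wtL_append (A B : List Root) : wtL (A ++ B) = wtL A + wtL B := by
  simp [wtL]

theorem Sys.occ_eq (S : Sys) : S.occ = occL S.roots := rfl
theorem Sys.pn_eq (S : Sys) : S.pn = pnL S.roots := rfl
theorem Sys.wt_eq (S : Sys) : S.wt = wtL S.roots := rfl

theorem mem_listSum {β γ : Type*} (f : β → Multiset γ) (L : List β) (x : γ) :
    x ∈ (L.map f).sum ↔ ∃ l ∈ L, x ∈ f l := by
  induction L with
  | nil => simp
  | cons a L ih => simp [ih]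

theorem mem_occL {A : List Root} {z : ℕ × ℕ × Bool} : z ∈ occL A ↔ ∃ r ∈ A, z ∈ r.occ :=
  mem_listSum _ _ _
theorem mem_pnL {A : List Root} {x : ℕ} : x ∈ pnL A ↔ ∃ r ∈ A, x ∈ r.pn := mem_listSum _ _ _

@[simp] theorem pm_zero : pm 0 = 0 := rfl
theorem pm_add (V W : Multiset (ℕ × ℕ)) : pm (V + W) = pm V + pm W := by
  simp only [pm, Multiset.map_add]; abel
theorem pm_singleton (v : ℕ × ℕ) : pm {v} = {(v.1, v.2, true)} + {(v.1, v.2, false)} := rfl

theorem mem_pm {V : Multiset (ℕ × ℕ)} {x k : ℕ} {ε : Bool} :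
    (x, k, ε) ∈ pm V ↔ (x, k) ∈ V := by
  simp only [pm, Multiset.mem_add, Multiset.mem_map, Prod.mk.injEq]
  constructor
  · rintro (⟨v, hv, rfl, rfl, _⟩ | ⟨v, hv, rfl, rfl, _⟩) <;> exact hv
  · intro h
    cases ε
    · exact Or.inr ⟨(x, k), h, rfl, rfl, rfl⟩
    · exact Or.inl ⟨(x, k), h, rfl, rfl, rfl⟩

theorem pm_nodup {V : Multiset (ℕ × ℕ)} (hV : V.Nodup) : (pm V).Nodup := by
  refine Multiset.nodup_add.2 ⟨?_, ?_, ?_⟩
  · refine hV.map ?_
    rintro ⟨a, b⟩ ⟨c, d⟩ h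
    simp only [Prod.mk.injEq, and_true] at h
    exact Prod.ext h.1 h.2
  · refine hV.map ?_
    rintro ⟨a, b⟩ ⟨c, d⟩ h
    simp only [Prod.mk.injEq, and_true] at h
    exact Prod.ext h.1 h.2
  · rw [Multiset.disjoint_left]
    intro z hz hz'
    rw [Multiset.mem_map] at hz hz'
    obtain ⟨v, _, rfl⟩ := hz
    obtain ⟨w, _, h⟩ := hz'
    simp at h

/-! ## consequences of linearity -/

section lin

variable {O : Subring ℂ} {n : ℕ} {S : Sys}

theorem Sys.WF.lin' (h : S.WF O n) : ∃ V : Multiset (ℕ × ℕ), S.occ = pm V ∧ V.Nodup ∧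
    (V.map Prod.fst + S.pn + ((S.free.map Prod.fst : List ℕ) : Multiset ℕ)).Nodup := by
  obtain ⟨V, h1, h2⟩ := h.lin
  refine ⟨V, h1, ?_, h2⟩
  have h3 := (Multiset.nodup_add.1 (Multiset.nodup_add.1 h2).1).1
  exact Multiset.Nodup.of_map _ h3

theorem Sys.WF.occ_nodup (h : S.WF O n) : S.occ.Nodup := by
  obtain ⟨V, h1, h2, _⟩ := h.lin'
  rw [h1]
  exact pm_nodup h2

/-- the rank of a full name is unique -/
theorem Sys.WF.rank_unique (h : S.WF O n) {x k k' : ℕ} {ε ε' : Bool} (h1 : (x, k, ε) ∈ S.occ)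
    (h2 : (x, k', ε') ∈ S.occ) : k = k' := by
  obtain ⟨V, e, hV, h3⟩ := h.lin'
  rw [e, mem_pm] at h1 h2
  have h4 := (Multiset.nodup_add.1 (Multiset.nodup_add.1 h3).1).1
  have := Multiset.inj_on_of_nodup_map h4 _ h1 _ h2 rfl
  exact (Prod.ext_iff.1 this).2

/-- the partner occurrence -/
theorem Sys.WF.partner (h : S.WF O n) {x k : ℕ} {ε : Bool} (h1 : (x, k, ε) ∈ S.occ)
    (ε' : Bool) : (x, k, ε') ∈ S.occ := by
  obtain ⟨V, e, _, _⟩ := h.lin'
  rw [e, mem_pm] at h1 ⊢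
  exact h1

theorem Sys.WF.pn_nodup (h : S.WF O n) : S.pn.Nodup := by
  obtain ⟨V, _, _, h3⟩ := h.lin'
  exact (Multiset.nodup_add.1 (Multiset.nodup_add.1 h3).1).2.1


theorem Sys.WF.occ_not_pn (h : S.WF O n) {x k : ℕ} {ε : Bool} (h1 : (x, k, ε) ∈ S.occ) :
    x ∉ S.pn := by
  obtain ⟨V, e, _, h3⟩ := h.lin'
  rw [e, mem_pm] at h1
  have h4 := (Multiset.nodup_add.1 (Multiset.nodup_add.1 h3).1).2.2
  rw [Multiset.disjoint_left] at h4
  exact h4 (Multiset.mem_map.2 ⟨_, h1, rfl⟩)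

theorem Sys.WF.occ_not_free (h : S.WF O n) {x k : ℕ} {ε : Bool} (h1 : (x, k, ε) ∈ S.occ) :
    x ∉ S.free.map Prod.fst := by
  obtain ⟨V, e, _, h3⟩ := h.lin'
  rw [e, mem_pm] at h1
  have h4 := (Multiset.nodup_add.1 h3).2.2
  rw [Multiset.disjoint_left] at h4
  intro h5
  exact h4 (Multiset.mem_add.2 (Or.inl (Multiset.mem_map.2 ⟨_, h1, rfl⟩))) (Multiset.mem_coe.2 h5)

theorem Sys.WF.pn_not_free (h : S.WF O n) {x : ℕ} (h1 : x ∈ S.pn) :
    x ∉ S.free.map Prod.fst := by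
  obtain ⟨V, e, _, h3⟩ := h.lin'
  have h4 := (Multiset.nodup_add.1 h3).2.2
  rw [Multiset.disjoint_left] at h4
  intro h5
  exact h4 (Multiset.mem_add.2 (Or.inr h1)) (Multiset.mem_coe.2 h5)

end lin

/-! ## congruence -/

section congr

variable {n : ℕ}

theorem Lt.eval_congr {l : Lt} (k : ℕ) {ρ ρ' : ℕ → G n}
    (h : ∀ x, ((∃ k' ε, (x, k', ε) ∈ l.occ k) ∨ x ∈ l.pn) → ρ x = ρ' x) :
    l.eval ρ = l.eval ρ' := by
  cases l with
  | full x ε =>
    have := h x (Or.inl ⟨k, ε, by simp [Lt.occ]⟩)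
    simp [Lt.eval, this]
  | par p e σ c c' g =>
    have := h p (Or.inr (by simp [Lt.pn]))
    simp [Lt.eval, this]

theorem Lt.Sat_congr {l : Lt} {k : ℕ} {ρ ρ' : ℕ → G n}
    (h : ∀ x, ((∃ k' ε, (x, k', ε) ∈ l.occ k) ∨ x ∈ l.pn) → ρ x = ρ' x) (h1 : l.Sat ρ k) :
    l.Sat ρ' k := by
  cases l with
  | full x ε =>
    have := h x (Or.inl ⟨k, ε, by simp [Lt.occ]⟩)
    simpa [Lt.Sat, ← this] using h1
  | par p e σ c c' g =>
    have e1 := h p (Or.inr (by simp [Lt.pn]))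
    have e2 := h (g false) (Or.inl ⟨_, _, by simp [Lt.occ]; exact Or.inl ⟨rfl, rfl⟩⟩)
    have e3 := h (g true) (Or.inl ⟨_, _, by simp [Lt.occ]; exact Or.inr ⟨rfl, rfl⟩⟩)
    have e4 : (fun b => ρ (g b)) = fun b => ρ' (g b) := by
      funext b; cases b
      · exact e2
      · exact e3
    show IsPar c c' (fun b => ρ' (g b)) (ρ' p)
    rw [← e4, ← e1]
    exact h1

theorem Wd.eval_congr {w : Wd} (k : ℕ) {ρ ρ' : ℕ → G n}
    (h : ∀ x, ((∃ k' ε, (x, k', ε) ∈ Wd.occ w k) ∨ x ∈ Wd.pn w) → ρ x = ρ' x) :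
    Wd.eval ρ w = Wd.eval ρ' w := by
  unfold Wd.eval
  congr 1
  refine List.map_congr_left fun l hl => ?_
  refine Lt.eval_congr k fun x hx => h x ?_
  rcases hx with ⟨k', ε, hx⟩ | hx
  · exact Or.inl ⟨k', ε, (mem_listSum _ _ _).2 ⟨l, hl, hx⟩⟩
  · exact Or.inr ((mem_listSum _ _ _).2 ⟨l, hl, hx⟩)

theorem Wd.Sat_congr {w : Wd} {k : ℕ} {ρ ρ' : ℕ → G n}
    (h : ∀ x, ((∃ k' ε, (x, k', ε) ∈ Wd.occ w k) ∨ x ∈ Wd.pn w) → ρ x = ρ' x)
    (h1 : Wd.Sat ρ w k) : Wd.Sat ρ' w k := by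
  intro l hl
  refine Lt.Sat_congr (fun x hx => h x ?_) (h1 l hl)
  rcases hx with ⟨k', ε, hx⟩ | hx
  · exact Or.inl ⟨k', ε, (mem_listSum _ _ _).2 ⟨l, hl, hx⟩⟩
  · exact Or.inr ((mem_listSum _ _ _).2 ⟨l, hl, hx⟩)

theorem Root.Sol_congr {r : Root} {ρ ρ' : ℕ → G n}
    (h : ∀ x, ((∃ k' ε, (x, k', ε) ∈ r.occ) ∨ x ∈ r.pn) → ρ x = ρ' x)
    (h1 : r.Sol ρ) : r.Sol ρ' :=
  ⟨Wd.Sat_congr h h1.1, by rw [← Wd.eval_congr r.k h]; exact h1.2⟩

theorem Root.Sol_congrL {A : List Root} {r : Root} (hr : r ∈ A) {ρ ρ' : ℕ → G n}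
    (h : ∀ x ∈ namesL A, ρ x = ρ' x) (h1 : r.Sol ρ) : r.Sol ρ' := by
  refine Root.Sol_congr (fun x hx => h x ?_) h1
  rcases hx with ⟨k', ε, hx⟩ | hx
  · exact Or.inl ⟨k', ε, mem_occL.2 ⟨r, hr, hx⟩⟩
  · exact Or.inr (mem_pnL.2 ⟨r, hr, hx⟩)

theorem Sys.names_eq (S : Sys) : S.names = namesL S.roots ∪ {x | x ∈ S.free.map Prod.fst} := by
  ext x
  simp only [Sys.names, namesL, Set.mem_setOf_eq, Set.mem_union, Sys.occ_eq, Sys.pn_eq, or_assoc]

theorem Sys.Sol_congr {S : Sys} {ρ ρ' : ℕ → G n} (h : ∀ x ∈ S.names, ρ x = ρ' x)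
    (h1 : ρ ∈ S.Sol n) : ρ' ∈ S.Sol n := by
  rw [Sys.names_eq] at h
  refine ⟨fun r hr => Root.Sol_congrL hr (fun x hx => h x (Or.inl hx)) (h1.1 r hr), ?_⟩
  intro z hz
  rw [← h z.1 (Or.inr (List.mem_map.2 ⟨z, hz, rfl⟩))]
  exact h1.2 z hz

/-- all names are `< N` for some `N`. -/
theorem Sys.exists_fresh (S : Sys) : ∃ N : ℕ, ∀ x ∈ S.names, x < N := by
  classical
  have h1 : ∃ N : ℕ, ∀ z ∈ S.occ, z.1 < N := by
    refine ⟨(S.occ.map Prod.fst).sum + 1, fun z hz => ?_⟩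
    exact Nat.lt_succ_of_le (Multiset.single_le_sum (fun _ _ => Nat.zero_le _) _
      (Multiset.mem_map.2 ⟨z, hz, rfl⟩))
  have h2 : ∃ N : ℕ, ∀ x ∈ S.pn, x < N :=
    ⟨S.pn.sum + 1, fun x hx => Nat.lt_succ_of_le (Multiset.single_le_sum
      (fun _ _ => Nat.zero_le _) _ hx)⟩
  have h3 : ∃ N : ℕ, ∀ x ∈ S.free.map Prod.fst, x < N :=
    ⟨(S.free.map Prod.fst).sum + 1, fun x hx => Nat.lt_succ_of_le (List.single_le_sum
      (fun _ _ => Nat.zero_le _) _ hx)⟩
  obtain ⟨N1, h1⟩ := h1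
  obtain ⟨N2, h2⟩ := h2
  obtain ⟨N3, h3⟩ := h3
  refine ⟨max N1 (max N2 N3), ?_⟩
  rintro x (⟨k, ε, hx⟩ | hx | hx)
  · exact lt_of_lt_of_le (h1 _ hx) (le_max_left _ _)
  · exact lt_of_lt_of_le (h2 _ hx) (le_trans (le_max_left _ _) (le_max_right _ _))
  · exact lt_of_lt_of_le (h3 _ hx) (le_trans (le_max_right _ _) (le_max_right _ _))

end congr

/-! ## the local step lemma -/

/-- names which a step replacing the part `A` of `S` may change: names not in `S`, P-names of `A`,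
full names both occurrences of which are in `A`. -/
def Loc (S : Sys) (A : List Root) : Set ℕ :=
  {x | x ∉ S.names ∨ x ∈ pnL A ∨ ((∃ k, (x, k, true) ∈ occL A) ∧ ∃ k, (x, k, false) ∈ occL A)}

section local_

variable {O : Subring ℂ} {n : ℕ}

theorem Loc.mem_namesL {S : Sys} {A : List Root} {x : ℕ} (h : x ∈ Loc S A) (hx : x ∈ S.names) :
    x ∈ namesL A := by
  rcases h with h | h | ⟨⟨k, h⟩, _⟩
  · exact absurd hx h
  · exact Or.inr h
  · exact Or.inl ⟨k, true, h⟩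

theorem not_loc_of_rest {A rest : List Root} {fr : List (ℕ × ℕ)}
    (hWF : Sys.WF O n ⟨A ++ rest, fr⟩) {x : ℕ} (hx : x ∈ namesL rest ∨ x ∈ fr.map Prod.fst) :
    x ∉ Loc ⟨A ++ rest, fr⟩ A := by
  set S : Sys := ⟨A ++ rest, fr⟩ with hS
  have eocc : S.occ = occL A + occL rest := by rw [Sys.occ_eq, hS, occL_append]
  have epn : S.pn = pnL A + pnL rest := by rw [Sys.pn_eq, hS, pnL_append]
  have hn1 := hWF.occ_nodup
  have hn2 := hWF.pn_nodup
  rw [eocc] at hn1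
  rw [epn] at hn2
  have hd1 := (Multiset.nodup_add.1 hn1).2.2
  have hd2 := (Multiset.nodup_add.1 hn2).2.2
  rw [Multiset.disjoint_left] at hd1 hd2
  have m1 : ∀ {z}, z ∈ occL A → z ∈ S.occ := fun h => by
    rw [eocc]; exact Multiset.mem_add.2 (Or.inl h)
  have m2 : ∀ {z}, z ∈ occL rest → z ∈ S.occ := fun h => by
    rw [eocc]; exact Multiset.mem_add.2 (Or.inr h)
  have m3 : ∀ {z}, z ∈ pnL A → z ∈ S.pn := fun h => by
    rw [epn]; exact Multiset.mem_add.2 (Or.inl h)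
  have m4 : ∀ {z}, z ∈ pnL rest → z ∈ S.pn := fun h => by
    rw [epn]; exact Multiset.mem_add.2 (Or.inr h)
  rcases hx with (⟨k, ε, hx⟩ | hx) | hx
  · rintro (h | h | ⟨⟨k1, h1⟩, k2, h2⟩)
    · exact h (Or.inl ⟨k, ε, m2 hx⟩)
    · exact hWF.occ_not_pn (m2 hx) (m3 h)
    · cases ε
      · have := hWF.rank_unique (m2 hx) (m1 h2)
        subst this
        exact hd1 h2 hx
      · have := hWF.rank_unique (m2 hx) (m1 h1)
        subst this
        exact hd1 h1 hx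
  · rintro (h | h | ⟨⟨k1, h1⟩, _⟩)
    · exact h (Or.inr (Or.inl (m4 hx)))
    · exact hd2 h hx
    · exact hWF.occ_not_pn (m1 h1) (m4 hx)
  · rintro (h | h | ⟨⟨k1, h1⟩, _⟩)
    · exact h (Or.inr (Or.inr hx))
    · exact hWF.pn_not_free (m3 h) hx
    · exact hWF.occ_not_free (m1 h1) hx

/-- **LOCAL STEP LEMMA.** The part `A` of a system is replaced by `B` and new free names `fr'`. -/
theorem local_step (A B rest : List Root) (fr fr' : List (ℕ × ℕ)) (ρ ρ' : ℕ → G n)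
    (Vd Vn : Multiset (ℕ × ℕ)) (Φ : (ℕ → G n) → (ℕ → G n))
    (hWF : Sys.WF O n ⟨A ++ rest, fr⟩) (hρ : ρ ∈ Sys.Sol n ⟨A ++ rest, fr⟩)
    -- the new part is well formed
    (hB : ∀ r ∈ B, r.WF O n) (hfr' : ∀ z ∈ fr', z.2 ≤ n)
    (hVd : ∀ v ∈ Vd, (v.1, v.2, true) ∈ occL A ∧ (v.1, v.2, false) ∈ occL A) (hVdn : Vd.Nodup)
    (hocc : occL A + pm Vn = occL B + pm Vd)
    (hnd : (Vn.map Prod.fst + pnL B + ((fr'.map Prod.fst : List ℕ) : Multiset ℕ)).Nodup)
    (hfresh : ∀ y ∈ Vn.map Prod.fst + pnL B + ((fr'.map Prod.fst : List ℕ) : Multiset ℕ),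
      y ∈ Vd.map Prod.fst ∨ y ∈ pnL A ∨ y ∉ Sys.names ⟨A ++ rest, fr⟩)
    (hwt : Multiset.IsDershowitzMannaLT (wtL B) (wtL A))
    (hAdm : ∀ k0, Adm k0 ⟨A, []⟩ → Adm k0 ⟨B, []⟩)
    -- the new point
    (h1 : ∀ r ∈ B, r.Sol ρ') (h2 : ∀ z ∈ fr', ρ' z.1 ∈ GLk n z.2)
    (h3 : ∀ x ∉ Loc ⟨A ++ rest, fr⟩ A, ρ' x = ρ x)
    -- the map
    (h4 : ∀ x, PolG {σ : ℕ → G n | (∀ r ∈ B, r.Sol σ) ∧ ∀ z ∈ fr', σ z.1 ∈ GLk n z.2}
      (fun σ => Φ σ x))
    (h5 : ∀ x ∉ Loc ⟨A ++ rest, fr⟩ A, ∀ σ, Φ σ x = σ x)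
    (h6 : ∀ σ : ℕ → G n, (∀ r ∈ B, r.Sol σ) → (∀ z ∈ fr', σ z.1 ∈ GLk n z.2) →
      ∀ r ∈ A, r.Sol (Φ σ))
    (h7 : ∀ σ : ℕ → G n, (∀ r ∈ B, r.Sol σ) → (∀ z ∈ fr', σ z.1 ∈ GLk n z.2) →
      (∀ x, x ∈ Sys.names ⟨B ++ rest, fr' ++ fr⟩ → σ x ∈ GO O n) →
      ∀ x ∈ namesL A, x ∈ Loc ⟨A ++ rest, fr⟩ A → Φ σ x ∈ GO O n)
    (h8 : ∀ x ∈ namesL A, x ∈ Loc ⟨A ++ rest, fr⟩ A → Φ ρ' x = ρ x) :
    Red O n ⟨A ++ rest, fr⟩ ρ := by
  classical
  set S : Sys := ⟨A ++ rest, fr⟩ with hS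
  set S' : Sys := ⟨B ++ rest, fr' ++ fr⟩ with hS'
  have eocc : S.occ = occL A + occL rest := by rw [Sys.occ_eq, hS, occL_append]
  have epn : S.pn = pnL A + pnL rest := by rw [Sys.pn_eq, hS, pnL_append]
  have eocc' : S'.occ = occL B + occL rest := by rw [Sys.occ_eq, hS', occL_append]
  have epn' : S'.pn = pnL B + pnL rest := by rw [Sys.pn_eq, hS', pnL_append]
  have keep : ∀ x, x ∈ namesL rest ∨ x ∈ fr.map Prod.fst → x ∉ Loc S A :=
    fun x hx => not_loc_of_rest hWF hx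
  -- names of `S` outside `Loc` are names of `rest` or `fr`
  have keep' : ∀ x ∈ S.names, x ∉ Loc S A → x ∈ namesL rest ∨ x ∈ fr.map Prod.fst := by
    intro x hx hx'
    rw [Sys.names_eq] at hx
    rcases hx with hx | hx
    · rcases hx with ⟨k, ε, hx⟩ | hx
      · have hx2 := hx
        rw [hS, occL_append, Multiset.mem_add] at hx
        rcases hx with hx | hx
        · have hp := hWF.partner (x := x) (k := k) (ε := ε) hx2 (!ε)
          rw [eocc, Multiset.mem_add] at hp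
          rcases hp with hp | hp
          · exfalso
            apply hx'
            refine Or.inr (Or.inr ?_)
            cases ε
            · exact ⟨⟨k, hp⟩, k, hx⟩
            · exact ⟨⟨k, hx⟩, k, hp⟩
          · exact Or.inl (Or.inl ⟨k, _, hp⟩)
        · exact Or.inl (Or.inl ⟨k, ε, hx⟩)
      · rw [hS, pnL_append, Multiset.mem_add] at hx
        rcases hx with hx | hx
        · exact absurd (Or.inr (Or.inl hx)) hx'
        · exact Or.inl (Or.inr hx)
    · exact Or.inr hx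
  have names' : ∀ x, x ∈ namesL rest ∨ x ∈ fr.map Prod.fst → x ∈ S'.names := by
    rintro x ((⟨k, ε, hx⟩ | hx) | hx)
    · exact Or.inl ⟨k, ε, by rw [eocc']; exact Multiset.mem_add.2 (Or.inr hx)⟩
    · exact Or.inr (Or.inl (by rw [epn']; exact Multiset.mem_add.2 (Or.inr hx)))
    · exact Or.inr (Or.inr (by rw [hS']; simp only [List.map_append, List.mem_append]; exact Or.inr hx))
  refine ⟨S', ρ', ⟨?_, ?_, ?_⟩, ?_, ?_, ?_, ?_⟩
  · intro r hr
    rcases List.mem_append.1 hr with hr | hr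
    · exact hB r hr
    · exact hWF.roots r (List.mem_append.2 (Or.inr hr))
  · intro z hz
    rcases List.mem_append.1 hz with hz | hz
    · exact hfr' z hz
    · exact hWF.free z hz
  · obtain ⟨V, e, hV, hn⟩ := hWF.lin'
    have hle : Vd ≤ V := by
      rw [Multiset.le_iff_subset hVdn]
      intro v hv
      have := (hVd v hv).1
      have h' : (v.1, v.2, true) ∈ S.occ := by rw [eocc]; exact Multiset.mem_add.2 (Or.inl this)
      rw [e, mem_pm] at h'
      exact h'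
    obtain ⟨W, rfl⟩ := Multiset.le_iff_exists_add.1 hle
    refine ⟨W + Vn, ?_, ?_⟩
    · show S'.occ = pm (W + Vn)
      rw [eocc', pm_add]
      rw [eocc, pm_add] at e
      have h9 : pm Vd + (occL B + occL rest) = pm Vd + (pm W + pm Vn) := by
        calc pm Vd + (occL B + occL rest) = (occL B + pm Vd) + occL rest := by abel
          _ = (occL A + pm Vn) + occL rest := by rw [hocc]
          _ = (occL A + occL rest) + pm Vn := by abel
          _ = pm Vd + (pm W + pm Vn) := by rw [e]; abel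
      exact add_left_cancel h9
    · have hn' : (W.map Prod.fst + pnL rest + ((fr.map Prod.fst : List ℕ) : Multiset ℕ) +
          (Vd.map Prod.fst + pnL A)).Nodup := by
        have e2 : (W.map Prod.fst + pnL rest + ((fr.map Prod.fst : List ℕ) : Multiset ℕ) +
          (Vd.map Prod.fst + pnL A)) = (Vd + W).map Prod.fst + S.pn +
            ((S.free.map Prod.fst : List ℕ) : Multiset ℕ) := by
          rw [epn, Multiset.map_add]
          show _ = _ + _ + (pnL A + pnL rest) + ((fr.map Prod.fst : List ℕ) : Multiset ℕ)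
          abel
        rw [e2]; exact hn
      obtain ⟨hn1, hn2, hn3⟩ := Multiset.nodup_add.1 hn'
      have e3 : (W + Vn).map Prod.fst + S'.pn + ((S'.free.map Prod.fst : List ℕ) : Multiset ℕ)
          = (W.map Prod.fst + pnL rest + ((fr.map Prod.fst : List ℕ) : Multiset ℕ)) +
            (Vn.map Prod.fst + pnL B + ((fr'.map Prod.fst : List ℕ) : Multiset ℕ)) := by
        rw [epn', Multiset.map_add]
        show _ + (pnL B + pnL rest) + (((fr' ++ fr).map Prod.fst : List ℕ) : Multiset ℕ) = _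
        rw [List.map_append, ← Multiset.coe_add]
        abel
      rw [e3]
      refine Multiset.nodup_add.2 ⟨hn1, hnd, ?_⟩
      rw [Multiset.disjoint_left] at hn3 ⊢
      intro y hy hy'
      rcases hfresh y hy' with h | h | h
      · exact hn3 hy (Multiset.mem_add.2 (Or.inl h))
      · exact hn3 hy (Multiset.mem_add.2 (Or.inr h))
      · apply h
        rcases Multiset.mem_add.1 hy with hy | hy
        · rcases Multiset.mem_add.1 hy with hy | hy
          · obtain ⟨w, hw, rfl⟩ := Multiset.mem_map.1 hy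
            refine Or.inl ⟨w.2, true, ?_⟩
            rw [e, mem_pm]
            exact Multiset.mem_add.2 (Or.inr hw)
          · refine Or.inr (Or.inl ?_)
            rw [epn]
            exact Multiset.mem_add.2 (Or.inr hy)
        · exact Or.inr (Or.inr (Multiset.mem_coe.1 hy))
  · obtain ⟨X, Y, Z, hZ, e1, e2, h⟩ := hwt
    refine ⟨X + wtL rest, Y, Z, hZ, ?_, ?_, h⟩
    · rw [Sys.wt_eq, hS', wtL_append, e1]; abel
    · rw [Sys.wt_eq, hS, wtL_append, e2]; abel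
  · intro k0 hk r hr
    rcases List.mem_append.1 hr with hr | hr
    · exact hAdm k0 (fun r hr => hk r (List.mem_append.2 (Or.inl hr))) r hr
    · exact hk r (List.mem_append.2 (Or.inr hr))
  · refine ⟨fun r hr => ?_, fun z hz => ?_⟩
    · rcases List.mem_append.1 hr with hr | hr
      · exact h1 r hr
      · refine Root.Sol_congrL hr (fun x hx => ?_) (hρ.1 r (List.mem_append.2 (Or.inr hr)))
        exact (h3 x (keep x (Or.inl hx))).symm
    · rcases List.mem_append.1 hz with hz | hz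
      · exact h2 z hz
      · rw [h3 z.1 (keep _ (Or.inr (List.mem_map.2 ⟨z, hz, rfl⟩)))]
        exact hρ.2 z hz
  · intro hA
    have hsub : ∀ σ ∈ S'.Sol n, (∀ r ∈ B, r.Sol σ) ∧ ∀ z ∈ fr', σ z.1 ∈ GLk n z.2 :=
      fun σ hσ => ⟨fun r hr => hσ.1 r (List.mem_append.2 (Or.inl hr)),
        fun z hz => hσ.2 z (List.mem_append.2 (Or.inl hz))⟩
    have hρ'S : ρ' ∈ S'.Sol n := by
      refine ⟨fun r hr => ?_, fun z hz => ?_⟩
      · rcases List.mem_append.1 hr with hr | hr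
        · exact h1 r hr
        · refine Root.Sol_congrL hr (fun x hx => ?_) (hρ.1 r (List.mem_append.2 (Or.inr hr)))
          exact (h3 x (keep x (Or.inl hx))).symm
      · rcases List.mem_append.1 hz with hz | hz
        · exact h2 z hz
        · rw [h3 z.1 (keep _ (Or.inr (List.mem_map.2 ⟨z, hz, rfl⟩)))]
          exact hρ.2 z hz
    have hmap : Appr O (S.Sol n) S.names (Φ ρ') := by
      refine hA.map Φ (fun x => (h4 x).mono fun σ hσ => hsub σ hσ) hρ'S ?_ ?_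
      · intro σ hσ _
        refine ⟨fun r hr => ?_, fun z hz => ?_⟩
        · rcases List.mem_append.1 hr with hr | hr
          · exact h6 σ (hsub σ hσ).1 (hsub σ hσ).2 r hr
          · refine Root.Sol_congrL hr (fun x hx => ?_) (hσ.1 r (List.mem_append.2 (Or.inr hr)))
            exact (h5 x (keep x (Or.inl hx)) σ).symm
        · rw [h5 z.1 (keep _ (Or.inr (List.mem_map.2 ⟨z, hz, rfl⟩)))]
          exact hσ.2 z (List.mem_append.2 (Or.inr hz))
      · intro σ hσ hσ' x hx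
        by_cases hL : x ∈ Loc S A
        · exact h7 σ (hsub σ hσ).1 (hsub σ hσ).2 hσ' x (Loc.mem_namesL hL hx) hL
        · rw [h5 x hL]
          exact hσ' x (names' x (keep' x hx hL))
    refine hmap.congrOn (R := S.names) (fun σ τ h hσ => Sys.Sol_congr h hσ) le_rfl fun x hx => ?_
    by_cases hL : x ∈ Loc S A
    · exact h8 x (Loc.mem_namesL hL hx) hL
    · rw [h5 x hL, h3 x hL]

end local_

end Crest.Agent.R003
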