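import Crest.Agent.R003.Iface
import Crest.Agent.R003.Step638
import Crest.Agent.R003.Driver537
import Crest.Agent.R003.Bas486
import Crest.Agent.R003.Calc961

-- ▼ part R003/WdApi
section

/-!
# Row 3: API for words and systems (helper278), part 1: pure combinatorics.

`Wd := List Lt`, so `++`, `::`, `List.mem_append` … are the list operations.
-/

set_option autoImplicit false

namespace Crest.Agent.R003

/-! ### letters -/

namespace Lt

@[simp] theorem eval_full {n : ℕ} (ρ : ℕ → G n) (x : ℕ) (ε : Bool) :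
    (full x ε).eval ρ = if ε then ρ x else (ρ x)⁻¹ := rfl

@[simp] theorem eval_par {n : ℕ} (ρ : ℕ → G n) (p : ℕ) (e : List Bool) (σ : Bool → Bool → ℂˣ)
    (c c' : List Bool) (g : Bool → ℕ) :
    (par p e σ c c' g).eval ρ = dsg n e c σ * ρ p := rfl

@[simp] theorem Sat_full {n : ℕ} (ρ : ℕ → G n) (k x : ℕ) (ε : Bool) :
    Lt.Sat ρ k (full x ε) ↔ ρ x ∈ GLk n k := Iff.rfl

@[simp] theorem Sat_par {n : ℕ} (ρ : ℕ → G n) (k p : ℕ) (e : List Bool) (σ : Bool → Bool → ℂˣ)
    (c c' : List Bool) (g : Bool → ℕ) :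
    Lt.Sat ρ k (par p e σ c c' g) ↔ IsPar c c' (fun b => ρ (g b)) (ρ p) := Iff.rfl

@[simp] theorem occ_full (k x : ℕ) (ε : Bool) : (full x ε).occ k = {(x, k, ε)} := rfl

@[simp] theorem occ_par (k p : ℕ) (e : List Bool) (σ : Bool → Bool → ℂˣ)
    (c c' : List Bool) (g : Bool → ℕ) : (par p e σ c c' g).occ k =
      {(g false, c.count false, true), (g true, c.count true, true)} := rfl

@[simp] theorem pn_full (x : ℕ) (ε : Bool) : (full x ε).pn = 0 := rfl

@[simp] theorem pn_par (p : ℕ) (e : List Bool) (σ : Bool → Bool → ℂˣ)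
    (c c' : List Bool) (g : Bool → ℕ) : (par p e σ c c' g).pn = {p} := rfl

@[simp] theorem wt_full (k x : ℕ) (ε : Bool) : (full x ε).wt k = {3 * k + 1} := rfl







@[simp] theorem Nd_full (x : ℕ) (ε : Bool) : ¬ (full x ε).Nd := id
@[simp] theorem Nd_par {p : ℕ} {e : List Bool} {σ : Bool → Bool → ℂˣ}
    {c c' : List Bool} {g : Bool → ℕ} : (par p e σ c c' g).Nd ↔ ∀ b, 0 < c.count b := Iff.rfl
@[simp] theorem IsFull_full (x : ℕ) (ε : Bool) : (full x ε).IsFull := trivial
@[simp] theorem not_IsFull_par {p : ℕ} {e : List Bool} {σ : Bool → Bool → ℂˣ}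
    {c c' : List Bool} {g : Bool → ℕ} : ¬ (par p e σ c c' g).IsFull := id

theorem IsFull.exists {l : Lt} (h : l.IsFull) : ∃ x ε, l = full x ε := by
  cases l with
  | full x ε => exact ⟨x, ε, rfl⟩
  | par p e σ c c' g => exact absurd h id

/-- the names occurring in a letter -/
def nm : Lt → Finset ℕ
  | full x _ => {x}
  | par p _ _ _ _ g => {p, g false, g true}

@[simp] theorem nm_full (x : ℕ) (ε : Bool) : (full x ε).nm = {x} := rfl
@[simp] theorem nm_par (p : ℕ) (e : List Bool) (σ : Bool → Bool → ℂˣ)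
    (c c' : List Bool) (g : Bool → ℕ) : (par p e σ c c' g).nm = {p, g false, g true} := rfl

theorem mem_nm {l : Lt} {x : ℕ} (k : ℕ) :
    x ∈ l.nm ↔ (∃ j ε, (x, j, ε) ∈ l.occ k) ∨ x ∈ l.pn := by
  cases l with
  | full y δ =>
    simp only [nm_full, Finset.mem_singleton, occ_full, Multiset.mem_singleton, pn_full,
      Multiset.notMem_zero, or_false, Prod.mk.injEq]
    constructor
    · rintro rfl; exact ⟨k, δ, rfl, rfl, rfl⟩
    · rintro ⟨j, ε, h, _⟩; exact h
  | par p e σ c c' g =>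
    simp only [nm_par, Finset.mem_insert, Finset.mem_singleton, occ_par, Multiset.insert_eq_cons,
      Multiset.mem_cons, Multiset.mem_singleton, pn_par, Prod.mk.injEq]
    constructor
    · rintro (rfl | rfl | rfl)
      · exact Or.inr rfl
      · exact Or.inl ⟨_, _, Or.inl ⟨rfl, rfl, rfl⟩⟩
      · exact Or.inl ⟨_, _, Or.inr ⟨rfl, rfl, rfl⟩⟩
    · rintro (⟨j, ε, ⟨h, _⟩ | ⟨h, _⟩⟩ | h)
      · exact Or.inr (Or.inl h)
      · exact Or.inr (Or.inr h)
      · exact Or.inl h



end Lt

/-! ### words -/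

namespace Wd

section
variable {n : ℕ} (ρ : ℕ → G n)

@[simp] theorem eval_nil : eval ρ [] = 1 := rfl
@[simp] theorem eval_cons (l : Lt) (w : Wd) : eval ρ (l :: w) = l.eval ρ * eval ρ w := rfl
theorem eval_app (u v : Wd) : eval ρ (u ++ v) = eval ρ u * eval ρ v := by
  rw [eval, eval, eval, List.map_append, List.prod_append]

@[simp] theorem Sat_nil (k : ℕ) : Wd.Sat ρ [] k := by simp [Sat]
@[simp] theorem Sat_cons (l : Lt) (w : Wd) (k : ℕ) :
    Wd.Sat ρ (l :: w) k ↔ Lt.Sat ρ k l ∧ Wd.Sat ρ w k := by simp [Sat]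
@[simp] theorem Sat_app (u v : Wd) (k : ℕ) :
    Wd.Sat ρ (u ++ v) k ↔ Wd.Sat ρ u k ∧ Wd.Sat ρ v k := by
  simp only [Sat, List.mem_append]
  exact ⟨fun h => ⟨fun l hl => h l (Or.inl hl), fun l hl => h l (Or.inr hl)⟩,
    fun h l hl => hl.elim (h.1 l) (h.2 l)⟩


end

@[simp] theorem last_nil (d : Option (List Bool)) : last [] d = d := rfl
@[simp] theorem last_full (x : ℕ) (ε : Bool) (w : Wd) (d : Option (List Bool)) :
    last (Lt.full x ε :: w) d = last w none := rfl
@[simp] theorem last_par (p : ℕ) (e : List Bool) (σ : Bool → Bool → ℂˣ)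
    (c c' : List Bool) (g : Bool → ℕ) (w : Wd) (d : Option (List Bool)) :
    last (Lt.par p e σ c c' g :: w) d = last w (some c') := rfl

theorem last_app (u v : Wd) (d : Option (List Bool)) : last (u ++ v) d = last v (last u d) := by
  induction u generalizing d with
  | nil => rfl
  | cons l u ih =>
    cases l with
    | full x ε => exact ih none
    | par p e σ c c' g => exact ih (some c')

theorem last_eq_of_ne_nil {w : Wd} (h : w ≠ []) (d d' : Option (List Bool)) :
    last w d = last w d' := by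
  cases w with
  | nil => exact absurd rfl h
  | cons l w => cases l <;> rfl


section
variable (O : Subring ℂ)

@[simp] theorem WF_nil (k : ℕ) (prev : Option (List Bool)) : Wd.WF O [] k prev := by
  simp [WF]
@[simp] theorem WF_full (x : ℕ) (ε : Bool) (w : Wd) (k : ℕ) (prev : Option (List Bool)) :
    Wd.WF O (Lt.full x ε :: w) k prev ↔ Wd.WF O w k none := Iff.rfl
theorem WF_par (p : ℕ) (e : List Bool) (σ : Bool → Bool → ℂˣ)
    (c c' : List Bool) (g : Bool → ℕ) (w : Wd) (k : ℕ) (prev : Option (List Bool)) :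
    Wd.WF O (Lt.par p e σ c c' g :: w) k prev ↔
      c.length = k ∧ (∀ b, c.count b = c'.count b) ∧
      ((∀ x y, σ x y = 1) ∨ prev = some e) ∧ (∀ x y, IsSc O (σ x y)) ∧
      Wd.WF O w k (some c') := Iff.rfl

theorem WF_app (u v : Wd) (k : ℕ) (prev : Option (List Bool)) :
    Wd.WF O (u ++ v) k prev ↔ Wd.WF O u k prev ∧ Wd.WF O v k (last u prev) := by
  induction u generalizing prev with
  | nil => simp
  | cons l u ih =>
    cases l with
    | full x ε => rw [List.cons_append, WF_full, WF_full, last_full, ih]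
    | par p e σ c c' g =>
      rw [List.cons_append, WF_par, WF_par, last_par, ih]
      tauto

end



/-- well-formedness is a property of the letters and the junctions: the letters -/
theorem WF.letter {O : Subring ℂ} {w : Wd} {k : ℕ} {prev : Option (List Bool)}
    (h : Wd.WF O w k prev) {p : ℕ} {e : List Bool} {σ : Bool → Bool → ℂˣ} {c c' : List Bool}
    {g : Bool → ℕ} (hl : Lt.par p e σ c c' g ∈ w) :
    c.length = k ∧ (∀ b, c.count b = c'.count b) ∧ ∀ x y, IsSc O (σ x y) := by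
  obtain ⟨u, v, rfl⟩ := List.append_of_mem hl
  rw [WF_app, WF_par] at h
  exact ⟨h.2.1, h.2.2.1, h.2.2.2.2.1⟩

section
variable (k : ℕ)

@[simp] theorem occ_nil : occ [] k = 0 := rfl
@[simp] theorem occ_cons (l : Lt) (w : Wd) : occ (l :: w) k = l.occ k + occ w k := by simp [occ]
@[simp] theorem occ_app (u v : Wd) : occ (u ++ v) k = occ u k + occ v k := by simp [occ]

@[simp] theorem pn_nil : pn [] = 0 := rfl
@[simp] theorem pn_cons (l : Lt) (w : Wd) : pn (l :: w) = l.pn + pn w := by simp [pn]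
@[simp] theorem pn_app (u v : Wd) : pn (u ++ v) = pn u + pn v := by simp [pn]

@[simp] theorem wt_nil : wt [] k = 0 := rfl
@[simp] theorem wt_cons (l : Lt) (w : Wd) : wt (l :: w) k = l.wt k + wt w k := by simp [wt]
@[simp] theorem wt_app (u v : Wd) : wt (u ++ v) k = wt u k + wt v k := by simp [wt]

variable {k}
theorem mem_occ {w : Wd} {z : ℕ × ℕ × Bool} : z ∈ occ w k ↔ ∃ l ∈ w, z ∈ l.occ k := by
  induction w with
  | nil => simp
  | cons l w ih => simp [ih]

theorem mem_pn {w : Wd} {p : ℕ} : p ∈ pn w ↔ ∃ l ∈ w, p ∈ l.pn := by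
  induction w with
  | nil => simp
  | cons l w ih => simp [ih]


theorem occ_perm {u v : Wd} (h : u.Perm v) (k : ℕ) : occ u k = occ v k := by
  rw [occ, occ]; exact (h.map _).sum_eq

theorem pn_perm {u v : Wd} (h : u.Perm v) : pn u = pn v := by
  rw [pn, pn]; exact (h.map _).sum_eq

theorem wt_perm {u v : Wd} (h : u.Perm v) (k : ℕ) : wt u k = wt v k := by
  rw [wt, wt]; exact (h.map _).sum_eq


end

@[simp] theorem hasNd_nil : ¬ hasNd [] := by simp [hasNd]
@[simp] theorem hasNd_cons (l : Lt) (w : Wd) : hasNd (l :: w) ↔ l.Nd ∨ hasNd w := by simp [hasNd]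
@[simp] theorem hasNd_app (u v : Wd) : hasNd (u ++ v) ↔ hasNd u ∨ hasNd v := by
  simp only [hasNd, List.mem_append]
  constructor
  · rintro ⟨l, hl | hl, h⟩
    · exact Or.inl ⟨l, hl, h⟩
    · exact Or.inr ⟨l, hl, h⟩
  · rintro (⟨l, hl, h⟩ | ⟨l, hl, h⟩)
    · exact ⟨l, Or.inl hl, h⟩
    · exact ⟨l, Or.inr hl, h⟩

theorem hasNd_perm {u v : Wd} (h : u.Perm v) : hasNd u ↔ hasNd v := by
  simp only [hasNd, h.mem_iff]

@[simp] theorem isFull_nil : isFull [] := by simp [isFull]
@[simp] theorem isFull_cons (l : Lt) (w : Wd) : isFull (l :: w) ↔ l.IsFull ∧ isFull w := by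
  simp [isFull]
@[simp] theorem isFull_app (u v : Wd) : isFull (u ++ v) ↔ isFull u ∧ isFull v := by
  simp only [isFull, List.mem_append]
  exact ⟨fun h => ⟨fun l hl => h l (Or.inl hl), fun l hl => h l (Or.inr hl)⟩,
    fun h l hl => hl.elim (h.1 l) (h.2 l)⟩

theorem isFull.pn {w : Wd} (h : isFull w) : pn w = 0 := by
  induction w with
  | nil => rfl
  | cons l w ih =>
    obtain ⟨h1, h2⟩ := (isFull_cons l w).1 h
    obtain ⟨x, ε, rfl⟩ := h1.exists
    rw [pn_cons, ih h2]
    rfl

theorem isFull.WF (O : Subring ℂ) {w : Wd} (h : isFull w) (k : ℕ) (prev : Option (List Bool)) :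
    Wd.WF O w k prev := by
  induction w generalizing prev with
  | nil => trivial
  | cons l w ih =>
    obtain ⟨h1, h2⟩ := (isFull_cons l w).1 h
    obtain ⟨x, ε, rfl⟩ := h1.exists
    exact ih h2 none


theorem isFull.last {w : Wd} (h : isFull w) : last w none = none := by
  induction w with
  | nil => rfl
  | cons l w ih =>
    obtain ⟨h1, h2⟩ := (isFull_cons l w).1 h
    obtain ⟨x, ε, rfl⟩ := h1.exists
    exact ih h2

/-- the weights of a full word -/
theorem isFull.wt {w : Wd} (h : isFull w) (k : ℕ) :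
    wt w k = Multiset.replicate w.length (3 * k + 1) := by
  induction w with
  | nil => rfl
  | cons l w ih =>
    obtain ⟨h1, h2⟩ := (isFull_cons l w).1 h
    obtain ⟨x, ε, rfl⟩ := h1.exists
    rw [wt_cons, ih h2, List.length_cons, Multiset.replicate_succ, Lt.wt_full,
      Multiset.singleton_add]

/-! ### names and congruence -/

/-- names occurring in a word -/
def nm (w : Wd) : Set ℕ := {x | ∃ l ∈ w, x ∈ l.nm}

@[simp] theorem nm_nil : nm [] = ∅ := by simp [nm]
@[simp] theorem nm_cons (l : Lt) (w : Wd) : nm (l :: w) = ↑l.nm ∪ nm w := by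
  ext x; simp [nm]
@[simp] theorem nm_app (u v : Wd) : nm (u ++ v) = nm u ∪ nm v := by
  induction u with
  | nil => simp
  | cons l u ih => rw [List.cons_append, nm_cons, nm_cons, ih, Set.union_assoc]

theorem mem_nm {w : Wd} {x : ℕ} (k : ℕ) :
    x ∈ nm w ↔ (∃ j ε, (x, j, ε) ∈ occ w k) ∨ x ∈ pn w := by
  simp only [nm, Set.mem_ofPred_eq, Lt.mem_nm k, mem_occ, mem_pn]
  constructor
  · rintro ⟨l, hl, ⟨j, ε, h⟩ | h⟩
    · exact Or.inl ⟨j, ε, l, hl, h⟩
    · exact Or.inr ⟨l, hl, h⟩
  · rintro (⟨j, ε, l, hl, h⟩ | ⟨l, hl, h⟩)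
    · exact ⟨l, hl, Or.inl ⟨j, ε, h⟩⟩
    · exact ⟨l, hl, Or.inr h⟩

theorem nm_perm {u v : Wd} (h : u.Perm v) : nm u = nm v := by
  ext x; simp only [nm, Set.mem_ofPred_eq, h.mem_iff]



/-! ### ranks of occurrences, splitting -/








end Wd

/-! ### roots and systems: constructor lemmas -/

namespace Root

theorem occ_mk (k : ℕ) (ξ : ℂˣ) (w : Wd) : (⟨k, ξ, w⟩ : Root).occ = Wd.occ w k := rfl
theorem pn_mk (k : ℕ) (ξ : ℂˣ) (w : Wd) : (⟨k, ξ, w⟩ : Root).pn = Wd.pn w := rfl
theorem wt_mk (k : ℕ) (ξ : ℂˣ) (w : Wd) : (⟨k, ξ, w⟩ : Root).wt = (3 * k) ::ₘ Wd.wt w k := rfl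

/-- names of a root -/
def nm (r : Root) : Set ℕ := Wd.nm r.w

theorem mem_nm {r : Root} {x : ℕ} : x ∈ r.nm ↔ (∃ j ε, (x, j, ε) ∈ r.occ) ∨ x ∈ r.pn :=
  Wd.mem_nm r.k



end Root

namespace Sys

section
variable (r : Root) (rs rs' : List Root) (fr fr' : List (ℕ × ℕ))

@[simp] theorem occ_nil : (⟨[], fr⟩ : Sys).occ = 0 := rfl
@[simp] theorem occ_cons : (⟨r :: rs, fr⟩ : Sys).occ = r.occ + (⟨rs, fr⟩ : Sys).occ := by
  simp [Sys.occ]
@[simp] theorem occ_app : (⟨rs ++ rs', fr⟩ : Sys).occ =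
    (⟨rs, fr⟩ : Sys).occ + (⟨rs', fr⟩ : Sys).occ := by
  simp [Sys.occ]

@[simp] theorem pn_nil : (⟨[], fr⟩ : Sys).pn = 0 := rfl
@[simp] theorem pn_cons : (⟨r :: rs, fr⟩ : Sys).pn = r.pn + (⟨rs, fr⟩ : Sys).pn := by
  simp [Sys.pn]
@[simp] theorem pn_app : (⟨rs ++ rs', fr⟩ : Sys).pn =
    (⟨rs, fr⟩ : Sys).pn + (⟨rs', fr⟩ : Sys).pn := by
  simp [Sys.pn]

@[simp] theorem wt_nil : (⟨[], fr⟩ : Sys).wt = 0 := rfl
@[simp] theorem wt_cons : (⟨r :: rs, fr⟩ : Sys).wt = r.wt + (⟨rs, fr⟩ : Sys).wt := by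
  simp [Sys.wt]
@[simp] theorem wt_app : (⟨rs ++ rs', fr⟩ : Sys).wt =
    (⟨rs, fr⟩ : Sys).wt + (⟨rs', fr⟩ : Sys).wt := by
  simp [Sys.wt]

end

theorem mem_Sol {n : ℕ} {S : Sys} {ρ : ℕ → G n} :
    ρ ∈ S.Sol n ↔ (∀ r ∈ S.roots, r.Sol ρ) ∧ ∀ z ∈ S.free, ρ z.1 ∈ GLk n z.2 := Iff.rfl

theorem mem_Sol_cons {n : ℕ} {r : Root} {rs : List Root} {fr : List (ℕ × ℕ)} {ρ : ℕ → G n} :
    ρ ∈ (⟨r :: rs, fr⟩ : Sys).Sol n ↔ r.Sol ρ ∧ ρ ∈ (⟨rs, fr⟩ : Sys).Sol n := by
  rw [mem_Sol, mem_Sol]
  simp only [List.mem_cons, forall_eq_or_imp, and_assoc]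




theorem mem_occ {S : Sys} {z : ℕ × ℕ × Bool} : z ∈ S.occ ↔ ∃ r ∈ S.roots, z ∈ r.occ := by
  obtain ⟨rs, fr⟩ := S
  induction rs with
  | nil => simp
  | cons r rs ih => rw [occ_cons, Multiset.mem_add, ih]; simp

theorem mem_pn {S : Sys} {p : ℕ} : p ∈ S.pn ↔ ∃ r ∈ S.roots, p ∈ r.pn := by
  obtain ⟨rs, fr⟩ := S
  induction rs with
  | nil => simp
  | cons r rs ih => rw [pn_cons, Multiset.mem_add, ih]; simp


/-- the names of a system -/
theorem mem_names {S : Sys} {x : ℕ} :
    x ∈ S.names ↔ (∃ r ∈ S.roots, x ∈ r.nm) ∨ ∃ z ∈ S.free, z.1 = x := by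
  simp only [names, Set.mem_ofPred_eq, mem_occ, mem_pn, Root.mem_nm, List.mem_map]
  constructor
  · rintro (⟨j, ε, r, hr, h⟩ | ⟨r, hr, h⟩ | h)
    · exact Or.inl ⟨r, hr, Or.inl ⟨j, ε, h⟩⟩
    · exact Or.inl ⟨r, hr, Or.inr h⟩
    · exact Or.inr h
  · rintro (⟨r, hr, ⟨j, ε, h⟩ | h⟩ | h)
    · exact Or.inl ⟨j, ε, r, hr, h⟩
    · exact Or.inr (Or.inl ⟨r, hr, h⟩)
    · exact Or.inr (Or.inr h)

theorem mem_names_cons {r : Root} {rs : List Root} {fr : List (ℕ × ℕ)} {x : ℕ} :
    x ∈ (⟨r :: rs, fr⟩ : Sys).names ↔ x ∈ r.nm ∨ x ∈ (⟨rs, fr⟩ : Sys).names := by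
  rw [mem_names, mem_names]
  simp only [List.mem_cons, exists_eq_or_imp, or_assoc]








end Sys

end Crest.Agent.R003
end

-- ▼ part R003/Rot278
section

/-!
# Row 3: rotation of a root, permutation of the roots (helper278)
-/

set_option autoImplicit false

namespace Crest.Agent.R003

/-- `Red` only depends on the weights, `Adm`, the solutions and the names -/
theorem Red.transfer {O : Subring ℂ} {n : ℕ} {S S' : Sys} {ρ : ℕ → G n} (hwt : S'.wt = S.wt)
    (hadm : ∀ k0, Adm k0 S → Adm k0 S') (hsol : S'.Sol n = S.Sol n) (hnames : S'.names = S.names)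
    (h : Red O n S' ρ) : Red O n S ρ := by
  obtain ⟨S'', ρ'', h1, h2, h3, h4, h5⟩ := h
  refine ⟨S'', ρ'', h1, ?_, fun k0 hk => h3 k0 (hadm k0 hk), h4, ?_⟩
  · rwa [hwt] at h2
  · rwa [hsol, hnames] at h5

/-! ### values in `GL_k` -/

theorem dsg_mem_GLk' {n k : ℕ} (e c : List Bool) (σ : Bool → Bool → ℂˣ) (h : c.length ≤ k) :
    dsg n e c σ ∈ GLk n k := by
  intro i j hij
  have h1 : (dsg n e c σ).1 i j = if i = j then
      (((match lab e i.1, lab c i.1 with
        | some x, some y => σ x y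
        | _, _ => 1) : ℂˣ) : ℂ) else 0 := by
    show Matrix.diagonal _ i j = _
    rw [Matrix.diagonal_apply]
    rfl
  rw [h1]
  by_cases hh : i = j
  · subst hh
    have hi : k ≤ i.1 := by rcases hij with h | h <;> exact h
    have h2 : lab c i.1 = none := by
      simp only [lab, List.getElem?_eq_none_iff]; omega
    rw [if_pos rfl, if_pos rfl, h2]
    cases lab e i.1 <;> simp
  · rw [if_neg hh, if_neg hh]

theorem Lt.eval_mem {n k : ℕ} {ρ : ℕ → G n} {l : Lt} (h : Lt.Sat ρ k l)
    (hc : ∀ (p : ℕ) e σ c c' g, l = Lt.par p e σ c c' g → c.length = k) : l.eval ρ ∈ GLk n k := by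
  cases l with
  | full x ε =>
    rw [Lt.eval_full]
    split_ifs
    · exact h
    · exact (GLk n k).inv_mem h
  | par p e σ c c' g =>
    have hc' := hc p e σ c c' g rfl
    rw [Lt.Sat_par] at h
    exact (GLk n k).mul_mem (dsg_mem_GLk' _ _ _ hc'.le) (hc' ▸ h.mem)

/-- the value of a word lies in `GL_k` -/
theorem Wd.eval_mem {O : Subring ℂ} {n k : ℕ} {ρ : ℕ → G n} {w : Wd} {d : Option (List Bool)}
    (hw : Wd.WF O w k d) (h : Wd.Sat ρ w k) : Wd.eval ρ w ∈ GLk n k := by
  refine Subgroup.list_prod_mem _ fun x hx => ?_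
  obtain ⟨l, hl, rfl⟩ := List.mem_map.1 hx
  refine Lt.eval_mem (h l hl) fun p e σ c c' g hg => ?_
  subst hg
  exact (hw.letter hl).1

/-! ### rotation -/

theorem Wd.WF_rotate {O : Subring ℂ} {u v : Wd} {k : ℕ}
    (h : Wd.WF O (u ++ v) k (Wd.last (u ++ v) none)) :
    Wd.WF O (v ++ u) k (Wd.last (v ++ u) none) := by
  by_cases hu : u = []
  · subst hu; simpa using h
  by_cases hv : v = []
  · subst hv; simpa using h
  rw [Wd.WF_app, Wd.last_app] at h ⊢
  have hU : ∀ d, Wd.last u d = Wd.last u none := fun d => Wd.last_eq_of_ne_nil hu d none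
  have hV : ∀ d, Wd.last v d = Wd.last v none := fun d => Wd.last_eq_of_ne_nil hv d none
  rw [hV, hU] at h
  rw [hU, hV]
  exact ⟨h.2, h.1⟩

theorem Root.WF_rotate {O : Subring ℂ} {n : ℕ} {u v : Wd} {k : ℕ} {ξ : ℂˣ}
    (h : (⟨k, ξ, u ++ v⟩ : Root).WF O n) : (⟨k, ξ, v ++ u⟩ : Root).WF O n :=
  ⟨h.1, h.2.1, Wd.WF_rotate h.2.2⟩

theorem Root.Sol_rotate {O : Subring ℂ} {n : ℕ} {u v : Wd} {k : ℕ} {ξ : ℂˣ} {ρ : ℕ → G n}
    (hw : (⟨k, ξ, u ++ v⟩ : Root).WF O n) (h : (⟨k, ξ, u ++ v⟩ : Root).Sol ρ) :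
    (⟨k, ξ, v ++ u⟩ : Root).Sol ρ := by
  obtain ⟨h1, h2⟩ := h
  have h3 : Wd.Sat ρ u k ∧ Wd.Sat ρ v k := (Wd.Sat_app ρ u v k).1 h1
  refine ⟨(Wd.Sat_app ρ v u k).2 ⟨h3.2, h3.1⟩, ?_⟩
  have h4 : Wd.eval ρ u ∈ GLk n k := Wd.eval_mem ((Wd.WF_app O u v k _).1 hw.2.2).1 h3.1
  have h5 := scal_mul_comm (n := n) (k := k) ξ h4
  simp only [] at h2 ⊢
  rw [Wd.eval_app] at h2 ⊢
  have h6 : Wd.eval ρ u * (scal n k ξ * Wd.eval ρ v) = 1 := by
    rw [← mul_assoc, ← h5, mul_assoc]; exact h2
  have h7 := mul_eq_one_iff_eq_inv'.1 h6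
  rw [← mul_assoc, h7, inv_mul_cancel]

theorem rotInv (O : Subring ℂ) (n : ℕ) : RotInv O n := by
  have key : ∀ (k : ℕ) (ξ : ℂˣ) (u v : Wd) (rest : List Root) (fr : List (ℕ × ℕ)),
      Sys.WF O n ⟨⟨k, ξ, u ++ v⟩ :: rest, fr⟩ →
      Sys.WF O n ⟨⟨k, ξ, v ++ u⟩ :: rest, fr⟩ ∧
      Sys.Sol n ⟨⟨k, ξ, u ++ v⟩ :: rest, fr⟩ ⊆ Sys.Sol n ⟨⟨k, ξ, v ++ u⟩ :: rest, fr⟩ := by
    intro k ξ u v rest fr h
    have hr : (⟨k, ξ, u ++ v⟩ : Root).WF O n := h.roots _ (by simp)
    have hocc : Sys.occ ⟨⟨k, ξ, v ++ u⟩ :: rest, fr⟩ = Sys.occ ⟨⟨k, ξ, u ++ v⟩ :: rest, fr⟩ := by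
      rw [Sys.occ_cons, Sys.occ_cons, Root.occ_mk, Root.occ_mk,
        Wd.occ_perm (List.perm_append_comm (l₁ := v) (l₂ := u))]
    have hpn : Sys.pn ⟨⟨k, ξ, v ++ u⟩ :: rest, fr⟩ = Sys.pn ⟨⟨k, ξ, u ++ v⟩ :: rest, fr⟩ := by
      rw [Sys.pn_cons, Sys.pn_cons, Root.pn_mk, Root.pn_mk,
        Wd.pn_perm (List.perm_append_comm (l₁ := v) (l₂ := u))]
    refine ⟨⟨?_, h.free, ?_⟩, ?_⟩
    · intro r hr'
      rcases List.mem_cons.1 hr' with rfl | hr'
      · exact Root.WF_rotate hr
      · exact h.roots _ (List.mem_cons_of_mem _ hr')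
    · rw [hocc, hpn]; exact h.lin
    · intro ρ hρ
      rw [Sys.mem_Sol_cons] at hρ ⊢
      exact ⟨Root.Sol_rotate hr hρ.1, hρ.2⟩
  intro k ξ u v rest fr ρ hWF hρ
  obtain ⟨h1, h2⟩ := key k ξ u v rest fr hWF
  obtain ⟨_, h3⟩ := key k ξ v u rest fr h1
  refine ⟨h1, h2 hρ, fun h => Red.transfer ?_ ?_ (Set.Subset.antisymm h3 h2) ?_ h⟩
  · rw [Sys.wt_cons, Sys.wt_cons, Root.wt_mk, Root.wt_mk,
      Wd.wt_perm (List.perm_append_comm (l₁ := v) (l₂ := u))]
  · intro k0 hk r hr
    rcases List.mem_cons.1 hr with rfl | hr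
    · rcases hk ⟨k, ξ, u ++ v⟩ (by simp) with h | ⟨h, h'⟩
      · exact Or.inl h
      · exact Or.inr ⟨h, (Wd.hasNd_perm (List.perm_append_comm (l₁ := u) (l₂ := v))).1 h'⟩
    · exact hk r (List.mem_cons_of_mem _ hr)
  · ext x
    rw [Sys.mem_names_cons, Sys.mem_names_cons]
    have : Root.nm ⟨k, ξ, v ++ u⟩ = Root.nm ⟨k, ξ, u ++ v⟩ :=
      Wd.nm_perm (List.perm_append_comm (l₁ := v) (l₂ := u))
    rw [this]

/-! ### permutation -/

theorem permInv (O : Subring ℂ) (n : ℕ) : PermInv O n := by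
  intro l l' fr ρ hp hWF hρ
  have hocc : Sys.occ ⟨l', fr⟩ = Sys.occ ⟨l, fr⟩ := (hp.symm.map _).sum_eq
  have hpn : Sys.pn ⟨l', fr⟩ = Sys.pn ⟨l, fr⟩ := (hp.symm.map _).sum_eq
  have hwt : Sys.wt ⟨l', fr⟩ = Sys.wt ⟨l, fr⟩ := (hp.symm.map _).sum_eq
  have hsol : Sys.Sol n ⟨l', fr⟩ = Sys.Sol n ⟨l, fr⟩ := by
    ext σ
    rw [Sys.mem_Sol, Sys.mem_Sol]
    simp only [hp.mem_iff]
  refine ⟨⟨?_, hWF.free, ?_⟩, ?_, fun h => Red.transfer hwt ?_ hsol ?_ h⟩
  · intro r hr
    exact hWF.roots r (hp.mem_iff.2 hr)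
  · rw [hocc, hpn]; exact hWF.lin
  · rw [hsol]; exact hρ
  · intro k0 hk r hr
    exact hk r (hp.mem_iff.2 hr)
  · ext x
    rw [Sys.mem_names, Sys.mem_names]
    simp only [hp.mem_iff]


end Crest.Agent.R003
end

-- ▼ part R003/S0_537
section

/-! R003 (S0003): step S0 (a degenerate P-letter becomes a full letter).  helper537 -/

set_option autoImplicit false

namespace Crest.Agent.R003

namespace H537

theorem eq_replicate_of_count {c : List Bool} {t : Bool} (ht : c.count (!t) = 0) :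
    c = List.replicate c.length t := by
  rw [List.eq_replicate_iff]
  refine ⟨rfl, fun b hb => ?_⟩
  rw [List.count_eq_zero] at ht
  by_contra hne
  have : b = !t := by cases b <;> cases t <;> simp_all
  exact ht (this ▸ hb)

theorem lab_replicate {k i : ℕ} {t a : Bool} :
    lab (List.replicate k t) i = some a ↔ i < k ∧ t = a := by
  simp only [lab, List.getElem?_replicate]
  split_ifs with h
  · simp [h]
  · simp [h]

/-- a degenerate P-letter is its nonempty child -/
theorem isPar_const {n : ℕ} {c c' : List Bool} {g : Bool → G n} {P : G n} {t : Bool}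
    (h : IsPar c c' g P) (ht : c.count (!t) = 0) : P = g t := by
  have ht' : c'.count (!t) = 0 := by rw [← h.cnt]; exact ht
  have hlen : c'.length = c.length := by
    rw [← List.count_add_count_not c' t, ← List.count_add_count_not c t, h.cnt, h.cnt]
  have hc := eq_replicate_of_count ht
  have hc' := eq_replicate_of_count ht'
  rw [hlen] at hc'
  have hkt : c.count t = c.length := by
    have := List.count_add_count_not c t
    omega
  have hg := h.blk t
  rw [hkt] at hg
  have hP := h.mem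
  apply Units.ext
  ext i j
  by_cases hi : i.1 < c.length
  · by_cases hj : j.1 < c.length
    · have hli : lab c i.1 = some t := by rw [hc]; exact lab_replicate.2 ⟨by simpa using hi, rfl⟩
      have hlj : lab c' j.1 = some t := by rw [hc']; exact lab_replicate.2 ⟨hj, rfl⟩
      refine h.diag i j i j t hli hlj ?_ ?_
      · rw [hc, List.take_replicate, List.count_replicate_self]
        omega
      · rw [hc', List.take_replicate, List.count_replicate_self]
        omega
    · rw [hP i j (Or.inr (by omega)), hg i j (Or.inr (by omega))]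
  · rw [hP i j (Or.inl (by omega)), hg i j (Or.inl (by omega))]

theorem isPar_const' {n : ℕ} {c c' : List Bool} {g : Bool → G n} {t : Bool}
    (ht : c.count (!t) = 0) (hcnt : ∀ b, c.count b = c'.count b) (hn : c.length ≤ n)
    (hg : g t ∈ GLk n c.length) (hg' : g (!t) ∈ GLk n 0) : IsPar c c' g (g t) := by
  have ht' : c'.count (!t) = 0 := by rw [← hcnt]; exact ht
  have hlen : c'.length = c.length := by
    rw [← List.count_add_count_not c' t, ← List.count_add_count_not c t, hcnt, hcnt]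
  have hc := eq_replicate_of_count ht
  have hc' := eq_replicate_of_count ht'
  rw [hlen] at hc'
  have hkt : c.count t = c.length := by
    have := List.count_add_count_not c t
    omega
  refine ⟨hn, hcnt, hg, ?_, ?_, ?_⟩
  · intro l
    by_cases hl : l = t
    · subst hl; rw [hkt]; exact hg
    · have : l = !t := by revert hl; cases l <;> cases t <;> simp
      subst this
      rw [ht]; exact hg'
  · intro i j a b ha hb hab
    rw [hc] at ha
    rw [hc'] at hb
    obtain ⟨_, rfl⟩ := lab_replicate.1 ha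
    obtain ⟨_, rfl⟩ := lab_replicate.1 hb
    exact absurd le_rfl hab
  · intro i j u v a ha hb hu hv
    rw [hc] at ha hu
    rw [hc'] at hb hv
    obtain ⟨hi, rfl⟩ := lab_replicate.1 ha
    obtain ⟨hj, _⟩ := lab_replicate.1 hb
    rw [List.take_replicate, List.count_replicate_self] at hu hv
    have e1 : u = i := by apply Fin.ext; omega
    have e2 : v = j := by apply Fin.ext; omega
    rw [e1, e2]

theorem mem_GLk_zero {n : ℕ} {g : G n} (h : g ∈ GLk n 0) : g = 1 := by
  apply Units.ext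
  ext i j
  rw [h i j (Or.inl (Nat.zero_le _)), Units.val_one, Matrix.one_apply]

end H537

open H537

/-- S0 -/
theorem s0 (O : Subring ℂ) (n : ℕ) : S0 O n := by
  intro k ξ p e c c' σ g t w rest fr ρ S hct hσ hw0 hww hWF hρ
  classical
  -- data of the root
  have hr0 := hWF.roots ⟨k, ξ, Lt.par p e σ c c' g :: w⟩ List.mem_cons_self
  obtain ⟨hkn, hξ, hrw⟩ := hr0
  simp only [Wd.WF] at hrw
  obtain ⟨hlen, hcnt, hsg, hsc, hw1⟩ := hrw
  have hkt : c.count t = k := by
    have := List.count_add_count_not c t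
    omega
  set A : List Root := [⟨k, ξ, Lt.par p e σ c c' g :: w⟩] with hA
  set B : List Root := [⟨k, ξ, Lt.full (g t) true :: w⟩, ⟨0, 1, [Lt.full (g (!t)) true]⟩] with hB
  have hSA : S = ⟨A ++ rest, fr⟩ := rfl
  -- occurrences and names
  have hoccA : occL A = {(g t, k, true)} + {(g (!t), 0, true)} + Wd.occ w k := by
    have h1 : occL A = Lt.occ k (Lt.par p e σ c c' g) + Wd.occ w k := by
      simp [hA, occL, Root.occ, Wd.occ]
    rw [h1]
    congr 1
    cases t
    · simp only [Lt.occ, Bool.not_false] at hct hkt ⊢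
      rw [hct, hkt]; rfl
    · simp only [Lt.occ, Bool.not_true] at hct hkt ⊢
      rw [hct, hkt, add_comm]; rfl
  have hoccB : occL B = {(g t, k, true)} + {(g (!t), 0, true)} + Wd.occ w k := by
    have h1 : occL B = ({(g t, k, true)} + Wd.occ w k) + {(g (!t), 0, true)} := by
      simp [hB, occL, Root.occ, Wd.occ, Lt.occ]
    rw [h1]; abel
  have hpnA : pnL A = {p} + Wd.pn w := by simp [hA, pnL, Root.pn, Wd.pn, Lt.pn]
  have hpnB : pnL B = Wd.pn w := by simp [hB, pnL, Root.pn, Wd.pn, Lt.pn]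
  have hSocc : S.occ = occL A + occL rest := by rw [Sys.occ_eq, hSA, occL_append]
  have hSpn : S.pn = pnL A + pnL rest := by rw [Sys.pn_eq, hSA, pnL_append]
  have hpS : p ∈ S.pn := by rw [hSpn, hpnA]; simp
  -- p is not a full name
  have hpocc : ∀ x k' ε, (x, k', ε) ∈ occL A → x ≠ p := by
    rintro x k' ε hx rfl
    exact hWF.occ_not_pn (by rw [hSocc]; exact Multiset.mem_add.2 (Or.inl hx)) hpS
  have hgt : g t ≠ p := hpocc (g t) k true (by rw [hoccA]; simp)
  have hgt' : g (!t) ≠ p := hpocc (g (!t)) 0 true (by rw [hoccA]; simp)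
  have hpw : ∀ x, ((∃ k' ε, (x, k', ε) ∈ Wd.occ w k) ∨ x ∈ Wd.pn w) → x ≠ p := by
    rintro x (⟨k', ε, hx⟩ | hx)
    · exact hpocc x k' ε (by rw [hoccA]; exact Multiset.mem_add.2 (Or.inr hx))
    · rintro rfl
      have h1 := hWF.pn_nodup
      rw [hSpn, hpnA, add_assoc, Multiset.singleton_add, Multiset.nodup_cons] at h1
      exact h1.1 (Multiset.mem_add.2 (Or.inl hx))
  have hgb : ∀ b, g b ≠ p := by
    intro b
    by_cases hb : b = t
    · rw [hb]; exact hgt
    · have : b = !t := by cases b <;> cases t <;> simp_all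
      rw [this]; exact hgt'
  -- the word under a change at p
  have hcongr : ∀ σ1 : ℕ → G n, ∀ P : G n, Wd.eval (Function.update σ1 p P) w = Wd.eval σ1 w := by
    intro σ1 P
    exact Wd.eval_congr k (fun x hx => Function.update_of_ne (hpw x hx) _ _)
  have hcongrS : ∀ σ1 : ℕ → G n, ∀ P : G n, Wd.Sat σ1 w k → Wd.Sat (Function.update σ1 p P) w k := by
    intro σ1 P h
    exact Wd.Sat_congr (fun x hx => (Function.update_of_ne (hpw x hx) _ _).symm) h
  -- the point
  have hroot := hρ.1 ⟨k, ξ, Lt.par p e σ c c' g :: w⟩ List.mem_cons_self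
  have hsat := (H486.Sat_cons _ _ _ _).1 hroot.1
  have hpar : IsPar c c' (fun b => ρ (g b)) (ρ p) := hsat.1
  have hρp : ρ p = ρ (g t) := isPar_const hpar hct
  have hdsg : dsg n e c σ = 1 := dsg_one e c hσ
  have hevA : ∀ σ1 : ℕ → G n, Wd.eval σ1 (Lt.par p e σ c c' g :: w) = σ1 p * Wd.eval σ1 w := by
    intro σ1
    rw [H486.eval_cons]
    simp only [Lt.eval, hdsg, one_mul]
  show Red O n ⟨A ++ rest, fr⟩ ρ
  refine local_step A B rest fr [] ρ ρ 0 0 (fun σ1 => Function.update σ1 p (σ1 (g t))) hWF hρ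
    ?_ (by simp) (by simp) (by simp) (by simp only [pm_zero, add_zero]; rw [hoccA, hoccB]) ?_ ?_ ?_ ?_
    ?_ (by simp) (fun _ _ => rfl) ?_ ?_ ?_ ?_ ?_
  · -- WF of the new roots
    intro r hr
    simp only [hB, List.mem_cons, List.not_mem_nil, or_false] at hr
    rcases hr with rfl | rfl
    · exact ⟨hkn, hξ, hww⟩
    · exact ⟨Nat.zero_le _, IsSc.one, trivial⟩
  · -- names nodup
    simp only [Multiset.map_zero, zero_add, List.map_nil, Multiset.coe_nil, add_zero]
    rw [hpnB]
    have h1 := hWF.pn_nodup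
    rw [hSpn, hpnA] at h1
    exact (Multiset.nodup_add.1 (Multiset.nodup_add.1 h1).1).2.1
  · intro y hy
    simp only [Multiset.map_zero, zero_add, List.map_nil, Multiset.coe_nil, add_zero] at hy
    rw [hpnB] at hy
    right; left
    rw [hpnA]
    exact Multiset.mem_add.2 (Or.inr hy)
  · -- weights
    have hdeg : ¬ ∀ b, 0 < c.count b := fun h => by have := h (!t); omega
    have e1 : wtL A = ({3 * k} + Wd.wt w k) + {3 * k + 2} := by
      have : wtL A = (3 * k) ::ₘ (Lt.wt k (Lt.par p e σ c c' g) + Wd.wt w k) := by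
        simp [hA, wtL, Root.wt, Wd.wt]
      rw [this]
      have h2 : Lt.wt k (Lt.par p e σ c c' g) = {3 * k + 2} := by
        rw [Lt.wt, if_neg hdeg, if_pos hσ]
      rw [h2, ← Multiset.singleton_add]; abel
    have e2 : wtL B = ({3 * k} + Wd.wt w k) + ({3 * k + 1} + {0} + {1}) := by
      have : wtL B = (3 * k) ::ₘ ({3 * k + 1} + Wd.wt w k) + (3 * 0) ::ₘ {3 * 0 + 1} := by
        simp [hB, wtL, Root.wt, Wd.wt, Lt.wt]
      rw [this, ← Multiset.singleton_add, ← Multiset.singleton_add]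
      simp only [mul_zero, zero_add]
      abel
    refine ⟨{3 * k} + Wd.wt w k, {3 * k + 1} + {0} + {1}, {3 * k + 2}, by simp, e2, e1, ?_⟩
    intro y hy
    refine ⟨3 * k + 2, by simp, ?_⟩
    simp only [Multiset.mem_add, Multiset.mem_singleton] at hy
    omega
  · -- Adm
    intro k0 h r hr
    have h1 := h ⟨k, ξ, Lt.par p e σ c c' g :: w⟩ (by simp [hA])
    have h2 : k < k0 ∨ (k = k0 ∧ Wd.hasNd w) := by
      rcases h1 with h1 | ⟨h1, l, hl, hlN⟩
      · exact Or.inl h1
      · right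
        refine ⟨h1, ?_⟩
        rcases List.mem_cons.1 hl with h' | h'
        · subst h'
          have := hlN (!t)
          omega
        · exact ⟨l, h', hlN⟩
    have hr' : r ∈ B := hr
    simp only [hB, List.mem_cons, List.not_mem_nil, or_false] at hr'
    rcases hr' with rfl | rfl
    · rcases h2 with h2 | ⟨h2, l, hl, hlN⟩
      · exact Or.inl h2
      · exact Or.inr ⟨h2, l, List.mem_cons_of_mem _ hl, hlN⟩
    · left
      rcases h2 with h2 | ⟨h2, l, hl, hlN⟩
      · exact lt_of_le_of_lt (Nat.zero_le _) h2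
      · show 0 < k0
        rw [← h2]
        cases l with
        | full x ε => exact absurd hlN (by simp [Lt.Nd])
        | par p1 e1 σ1 c1 c1' g1 =>
          have h3 := H486.WF_length hww _ hl p1 e1 σ1 c1 c1' g1 rfl
          have h4 : 0 < c1.count true := hlN true
          have h5 : c1.count true ≤ c1.length := List.count_le_length
          have h6 : c1.length = k := h3
          omega
  · -- the new point satisfies B
    intro r hr
    simp only [hB, List.mem_cons, List.not_mem_nil, or_false] at hr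
    rcases hr with rfl | rfl
    · refine ⟨(H486.Sat_cons _ _ _ _).2 ⟨?_, hsat.2⟩, ?_⟩
      · show ρ (g t) ∈ GLk n k
        have := hpar.blk t
        rw [hkt] at this
        exact this
      · have h3 := hroot.2
        simp only at h3
        rw [hevA, hρp] at h3
        show scal n k ξ * Wd.eval ρ (Lt.full (g t) true :: w) = 1
        rw [H486.eval_cons]
        simpa [Lt.eval] using h3
    · have h4 : ρ (g (!t)) ∈ GLk n 0 := by
        have := hpar.blk (!t)
        rw [hct] at this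
        exact this
      refine ⟨(H486.Sat_cons _ _ _ _).2 ⟨h4, H486.Sat_nil _ _⟩, ?_⟩
      show scal n 0 1 * Wd.eval ρ [Lt.full (g (!t)) true] = 1
      rw [scal_one, one_mul, H486.eval_cons, H486.eval_nil, mul_one]
      simpa [Lt.eval] using mem_GLk_zero h4
  · -- polynomial
    intro x
    by_cases hx : x = p
    · subst hx
      simp only [Function.update_self]
      exact H486.polG_apply (g t)
    · simp only [Function.update_of_ne hx]
      exact H486.polG_apply x
  · intro x hx σ1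
    refine Function.update_of_ne ?_ _ _
    rintro rfl
    exact hx (Or.inr (Or.inl (by rw [hpnA]; simp)))
  · -- forward
    intro σ1 h1 _ r hr
    simp only [hA, List.mem_cons, List.not_mem_nil, or_false] at hr
    subst hr
    have hb1 := h1 ⟨k, ξ, Lt.full (g t) true :: w⟩ (by simp [hB])
    have hb2 := h1 ⟨0, 1, [Lt.full (g (!t)) true]⟩ (by simp [hB])
    have hs1 := (H486.Sat_cons _ _ _ _).1 hb1.1
    have hs2 := (H486.Sat_cons _ _ _ _).1 hb2.1
    refine ⟨(H486.Sat_cons _ _ _ _).2 ⟨?_, hcongrS _ _ hs1.2⟩, ?_⟩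
    · show IsPar c c' (fun b => Function.update σ1 p (σ1 (g t)) (g b))
        (Function.update σ1 p (σ1 (g t)) p)
      have e1 : (fun b => Function.update σ1 p (σ1 (g t)) (g b)) = fun b => σ1 (g b) := by
        funext b; exact Function.update_of_ne (hgb b) _ _
      rw [e1, Function.update_self]
      refine isPar_const' (g := fun b => σ1 (g b)) hct hcnt (by rw [hlen]; exact hkn) ?_ hs2.1
      rw [hlen]
      exact hs1.1
    · show scal n k ξ * Wd.eval (Function.update σ1 p (σ1 (g t))) (Lt.par p e σ c c' g :: w) = 1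
      rw [hevA, Function.update_self, hcongr]
      have h3 := hb1.2
      simp only at h3
      rw [H486.eval_cons] at h3
      simpa [Lt.eval] using h3
  · -- integrality
    intro σ1 _ _ hint x hx _
    have hnames : ∀ y, (∃ k' ε, (y, k', ε) ∈ occL A) ∨ y ∈ Wd.pn w →
        y ∈ Sys.names ⟨B ++ rest, [] ++ fr⟩ := by
      intro y hy
      rw [Sys.names_eq]
      left
      rcases hy with ⟨k', ε, hy⟩ | hy
      · left
        refine ⟨k', ε, ?_⟩
        show _ ∈ occL (B ++ rest)
        rw [occL_append, hoccB, ← hoccA]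
        exact Multiset.mem_add.2 (Or.inl hy)
      · right
        show _ ∈ pnL (B ++ rest)
        rw [pnL_append, hpnB]
        exact Multiset.mem_add.2 (Or.inl hy)
    by_cases hxp : x = p
    · subst hxp
      simp only [Function.update_self]
      exact hint _ (hnames _ (Or.inl ⟨k, true, by rw [hoccA]; simp⟩))
    · simp only [Function.update_of_ne hxp]
      refine hint _ (hnames _ ?_)
      rcases hx with hx | hx
      · exact Or.inl hx
      · right
        rw [hpnA] at hx
        rcases Multiset.mem_add.1 hx with h | h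
        · exact absurd (by simpa using h) hxp
        · exact h
  · intro x hx _
    by_cases hxp : x = p
    · subst hxp
      simp only [Function.update_self]
      exact hρp.symm
    · simp only [Function.update_of_ne hxp]

end Crest.Agent.R003
end

-- ▼ part R003/S1_486
section

/-!
# Row 3 (S0003): step S1 (merge) (helper486)
-/

set_option autoImplicit false

namespace Crest.Agent.R003

open H486

/-- S1: two roots are merged along a full letter -/
theorem s1 (O : Subring ℂ) (n : ℕ) : S1 O n := by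
  intro k ξ ξ' u v u' v' x ε rest fr ρ S hWF hρ
  have hr0 := hWF.roots ⟨k, ξ, u ++ Lt.full x ε :: v⟩ List.mem_cons_self
  have hr1 := hWF.roots ⟨k, ξ', u' ++ Lt.full x (!ε) :: v'⟩
    (List.mem_cons_of_mem _ List.mem_cons_self)
  have hlin := hWF.lin
  set S' : Sys := ⟨⟨k, ξ * ξ', u' ++ (v ++ (u ++ v'))⟩ :: rest, fr⟩ with hS'
  obtain ⟨hk, hξ, h3⟩ := hr0
  obtain ⟨-, hξ', h3'⟩ := hr1
  replace h3 : Wd.WF O (u ++ Lt.full x ε :: v) k (Wd.last (u ++ Lt.full x ε :: v) none) := h3
  replace h3' : Wd.WF O (u' ++ Lt.full x (!ε) :: v') k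
    (Wd.last (u' ++ Lt.full x (!ε) :: v') none) := h3'
  rw [WF_app, last_app] at h3 h3'
  have hu : Wd.WF O u k (Wd.last v none) := h3.1
  have hv : Wd.WF O v k none := h3.2
  have hu' : Wd.WF O u' k (Wd.last v' none) := h3'.1
  have hv' : Wd.WF O v' k none := h3'.2
  have h1 : S.occ = (x, k, ε) ::ₘ (x, k, !ε) ::ₘ
      (Wd.occ (u' ++ (v ++ (u ++ v'))) k + (rest.map Root.occ).sum) := by
    show Wd.occ (u ++ Lt.full x ε :: v) k +
      (Wd.occ (u' ++ Lt.full x (!ε) :: v') k + (rest.map Root.occ).sum) = _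
    rw [occ_app, occ_cons, occ_app, occ_cons, occ_app, occ_app, occ_app]
    simp only [Lt.occ, ← Multiset.singleton_add]
    abel
  have h2 : S.pn = Wd.pn (u' ++ (v ++ (u ++ v'))) + (rest.map Root.pn).sum := by
    show Wd.pn (u ++ Lt.full x ε :: v) +
      (Wd.pn (u' ++ Lt.full x (!ε) :: v') + (rest.map Root.pn).sum) = _
    rw [pn_app, pn_cons, pn_app, pn_cons, pn_app, pn_app, pn_app]
    simp only [Lt.pn]
    abel
  rw [h1, h2] at hlin
  obtain ⟨V', h5, h6⟩ := lin_pair' hlin
  have hnd := (Multiset.nodup_cons.1 h6)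
  -- the names of the new system and the name `x`
  have hx' : x ∉ S'.names := by
    rintro (⟨k', ε', h⟩ | h | h)
    · apply hnd.1
      have h' : (x, k', ε') ∈ Wd.occ (u' ++ (v ++ (u ++ v'))) k + (rest.map Root.occ).sum := h
      rw [h5, Multiset.mem_add, Multiset.mem_map, Multiset.mem_map] at h'
      rw [Multiset.mem_add, Multiset.mem_add, Multiset.mem_map]
      left; left
      rcases h' with ⟨z, hz, hz'⟩ | ⟨z, hz, hz'⟩
      · exact ⟨z, hz, by simp only [Prod.mk.injEq] at hz'; exact hz'.1⟩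
      · exact ⟨z, hz, by simp only [Prod.mk.injEq] at hz'; exact hz'.1⟩
    · apply hnd.1
      rw [Multiset.mem_add, Multiset.mem_add]
      exact Or.inl (Or.inr h)
    · apply hnd.1
      rw [Multiset.mem_add, Multiset.mem_coe]
      exact Or.inr h
  have hmain : ∀ y, (y ∈ wnm u ∨ y ∈ wnm v ∨ y ∈ wnm u' ∨ y ∈ wnm v') → y ∈ S'.names := by
    intro y hy
    rw [mem_names]
    refine Or.inl ⟨_, List.mem_cons_self, ?_⟩
    show y ∈ wnm (u' ++ (v ++ (u ++ v')))
    rw [wnm_app, wnm_app, wnm_app]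
    tauto
  have hrest : ∀ r ∈ rest, ∀ y ∈ wnm r.w, y ∈ S'.names := by
    intro r hr y hy
    rw [mem_names]
    exact Or.inl ⟨r, List.mem_cons_of_mem _ hr, hy⟩
  -- the map
  set X : (ℕ → G n) → G n := fun σ =>
    (Wd.eval σ v * (scal n k ξ * Wd.eval σ u))⁻¹ with hX
  set Φ : (ℕ → G n) → (ℕ → G n) := fun σ =>
    Function.update σ x (if ε = true then X σ else (X σ)⁻¹) with hΦ
  have hΦx : ∀ σ, Φ σ x = if ε = true then X σ else (X σ)⁻¹ := by
    intro σ; simp [hΦ]
  have hΦy : ∀ σ y, y ∈ S'.names → Φ σ y = σ y := by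
    intro σ y hy
    have : y ≠ x := by rintro rfl; exact hx' hy
    simp [hΦ, Function.update_of_ne this]
  have hev : ∀ σ w, (∀ y ∈ wnm w, y ∈ S'.names) → Wd.eval (Φ σ) w = Wd.eval σ w := by
    intro σ w hw
    exact eval_congr fun y hy => hΦy σ y (hw y hy)
  have hsa : ∀ σ w, (∀ y ∈ wnm w, y ∈ S'.names) → (Wd.Sat (Φ σ) w k ↔ Wd.Sat σ w k) := by
    intro σ w hw
    exact Sat_congr fun y hy => hΦy σ y (hw y hy)
  have huN : ∀ y ∈ wnm u, y ∈ S'.names := fun y hy => hmain y (Or.inl hy)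
  have hvN : ∀ y ∈ wnm v, y ∈ S'.names := fun y hy => hmain y (Or.inr (Or.inl hy))
  have huN' : ∀ y ∈ wnm u', y ∈ S'.names := fun y hy => hmain y (Or.inr (Or.inr (Or.inl hy)))
  have hvN' : ∀ y ∈ wnm v', y ∈ S'.names := fun y hy => hmain y (Or.inr (Or.inr (Or.inr hy)))
  -- the old point
  have hρ0 := hρ.1 _ List.mem_cons_self
  have hρ1 := hρ.1 _ (List.mem_cons_of_mem _ List.mem_cons_self)
  have hs0 := (Sat_app _ _ _ _).1 hρ0.1
  have hs0' := (Sat_cons _ _ _ _).1 hs0.2
  have hs1 := (Sat_app _ _ _ _).1 hρ1.1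
  have hs1' := (Sat_cons _ _ _ _).1 hs1.2
  have he0 : scal n k ξ * Wd.eval ρ (u ++ Lt.full x ε :: v) = 1 := hρ0.2
  have he1 : scal n k ξ' * Wd.eval ρ (u' ++ Lt.full x (!ε) :: v') = 1 := hρ1.2
  rw [eval_app, eval_cons] at he0 he1
  have hxe : Lt.eval ρ (Lt.full x ε) = X ρ := by
    have h : scal n k ξ * Wd.eval ρ u * Lt.eval ρ (Lt.full x ε) * Wd.eval ρ v = 1 := by
      rw [← he0]; simp only [mul_assoc]
    have h' : Lt.eval ρ (Lt.full x ε) = (scal n k ξ * Wd.eval ρ u)⁻¹ * (Wd.eval ρ v)⁻¹ := by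
      rw [eq_mul_inv_iff_mul_eq]
      exact eq_inv_of_mul_eq_one_right (by rw [← mul_assoc]; exact h)
    rw [h', hX]
    simp only [_root_.mul_inv_rev]
  have hxe' : Lt.eval ρ (Lt.full x (!ε)) = (X ρ)⁻¹ := by
    rw [← hxe]
    cases ε <;> simp [Lt.eval]
  -- general solutions
  have hpt : ∀ σ ∈ S'.Sol n, Φ σ ∈ S.Sol n := by
    intro σ hσ
    have h0 := hσ.1 _ List.mem_cons_self
    have ht1 := (Sat_app _ _ _ _).1 h0.1
    have ht2 := (Sat_app _ _ _ _).1 ht1.2
    have ht3 := (Sat_app _ _ _ _).1 ht2.2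
    have hU := eval_mem_GLk hu ht3.1
    have hV := eval_mem_GLk hv ht2.1
    have hU' := eval_mem_GLk hu' ht1.1
    have hXm : X σ ∈ GLk n k := by
      rw [hX]
      exact (GLk n k).inv_mem ((GLk n k).mul_mem hV ((GLk n k).mul_mem
        (scal_mem_GLk le_rfl _) hU))
    have hΦm : Φ σ x ∈ GLk n k := by
      rw [hΦx]
      split_ifs
      · exact hXm
      · exact (GLk n k).inv_mem hXm
    have hxev : Lt.eval (Φ σ) (Lt.full x ε) = X σ := by
      cases ε <;> simp [Lt.eval, hΦx]
    have hxev' : Lt.eval (Φ σ) (Lt.full x (!ε)) = (X σ)⁻¹ := by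
      cases ε <;> simp [Lt.eval, hΦx]
    refine ⟨?_, fun z hz => ?_⟩
    · intro r hr
      rcases List.mem_cons.1 hr with h' | h'
      · subst h'
        refine ⟨(Sat_app _ _ _ _).2 ⟨(hsa σ u huN).2 ht3.1, (Sat_cons _ _ _ _).2 ⟨hΦm,
          (hsa σ v hvN).2 ht2.1⟩⟩, ?_⟩
        show scal n k ξ * Wd.eval (Φ σ) (u ++ Lt.full x ε :: v) = 1
        rw [eval_app, eval_cons, hxev, hev σ u huN, hev σ v hvN, hX]
        group
      · rcases List.mem_cons.1 h' with h'' | h''
        · subst h''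
          refine ⟨(Sat_app _ _ _ _).2 ⟨(hsa σ u' huN').2 ht1.1, (Sat_cons _ _ _ _).2 ⟨hΦm,
            (hsa σ v' hvN').2 ht3.2⟩⟩, ?_⟩
          show scal n k ξ' * Wd.eval (Φ σ) (u' ++ Lt.full x (!ε) :: v') = 1
          rw [eval_app, eval_cons, hxev', hev σ u' huN', hev σ v' hvN', hX, inv_inv]
          have h4 : scal n k (ξ * ξ') * Wd.eval σ (u' ++ (v ++ (u ++ v'))) = 1 := h0.2
          rw [eval_app, eval_app, eval_app, mul_comm ξ ξ', scal_mul] at h4
          have hc := scal_comm ξ ((GLk n k).mul_mem hU' hV)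
          rw [← h4]
          calc scal n k ξ' * (Wd.eval σ u' * (Wd.eval σ v * (scal n k ξ * Wd.eval σ u) *
                Wd.eval σ v'))
              = scal n k ξ' * ((Wd.eval σ u' * Wd.eval σ v) * scal n k ξ) *
                  (Wd.eval σ u * Wd.eval σ v') := by simp only [mul_assoc]
            _ = scal n k ξ' * (scal n k ξ * (Wd.eval σ u' * Wd.eval σ v)) *
                  (Wd.eval σ u * Wd.eval σ v') := by rw [hc]
            _ = scal n k ξ' * scal n k ξ *
                  (Wd.eval σ u' * (Wd.eval σ v * (Wd.eval σ u * Wd.eval σ v'))) := by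
                simp only [mul_assoc]
        · exact (Sol_congr fun y hy => hΦy σ y (hrest r h'' y hy)).2
            (hσ.1 r (List.mem_cons_of_mem _ h''))
    · have : z.1 ∈ S'.names := mem_names.2 (Or.inr (List.mem_map.2 ⟨z, hz, rfl⟩))
      rw [hΦy σ _ this]
      exact hσ.2 z hz
  have hρS' : ρ ∈ S'.Sol n := by
    refine ⟨?_, hρ.2⟩
    intro r hr
    rcases List.mem_cons.1 hr with h' | h'
    · subst h'
      refine ⟨(Sat_app _ _ _ _).2 ⟨hs1.1, (Sat_app _ _ _ _).2 ⟨hs0'.2, (Sat_app _ _ _ _).2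
        ⟨hs0.1, hs1'.2⟩⟩⟩, ?_⟩
      show scal n k (ξ * ξ') * Wd.eval ρ (u' ++ (v ++ (u ++ v'))) = 1
      rw [eval_app, eval_app, eval_app, mul_comm ξ ξ', scal_mul]
      have hc := scal_comm ξ ((GLk n k).mul_mem (eval_mem_GLk hu' hs1.1) (eval_mem_GLk hv hs0'.2))
      rw [hxe', hX, inv_inv] at he1
      rw [← he1]
      calc scal n k ξ' * scal n k ξ *
                  (Wd.eval ρ u' * (Wd.eval ρ v * (Wd.eval ρ u * Wd.eval ρ v')))
          = scal n k ξ' * (scal n k ξ * (Wd.eval ρ u' * Wd.eval ρ v)) *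
                  (Wd.eval ρ u * Wd.eval ρ v') := by simp only [mul_assoc]
        _ = scal n k ξ' * ((Wd.eval ρ u' * Wd.eval ρ v) * scal n k ξ) *
                  (Wd.eval ρ u * Wd.eval ρ v') := by rw [hc]
        _ = scal n k ξ' * (Wd.eval ρ u' * (Wd.eval ρ v * (scal n k ξ * Wd.eval ρ u) *
                Wd.eval ρ v')) := by simp only [mul_assoc]
    · exact hρ.1 r (List.mem_cons_of_mem _ (List.mem_cons_of_mem _ h'))
  refine ⟨S', ρ, ?_, ?_, ?_, hρS', ?_⟩
  · refine ⟨?_, hWF.free, ?_⟩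
    · intro r hr
      rcases List.mem_cons.1 hr with h' | h'
      · subst h'
        refine ⟨hk, hξ.mul hξ', ?_⟩
        show Wd.WF O (u' ++ (v ++ (u ++ v'))) k (Wd.last (u' ++ (v ++ (u ++ v'))) none)
        rw [WF_app, WF_app, WF_app, last_app u', last_app v, last_app u]
        exact ⟨WF_last O hu' _, WF_of_none O hv _, WF_last O hu _, WF_of_none O hv' _⟩
      · exact hWF.roots r (List.mem_cons_of_mem _ (List.mem_cons_of_mem _ h'))
    · exact ⟨V', h5.symm ▸ rfl, hnd.2⟩
  · apply dm_of_add (B := {3 * k, 3 * k + 1, 3 * k + 1})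
    · show (3 * k) ::ₘ Wd.wt (u ++ Lt.full x ε :: v) k +
          ((3 * k) ::ₘ Wd.wt (u' ++ Lt.full x (!ε) :: v') k + (rest.map Root.wt).sum) =
        ((3 * k) ::ₘ Wd.wt (u' ++ (v ++ (u ++ v'))) k + (rest.map Root.wt).sum) +
          {3 * k, 3 * k + 1, 3 * k + 1}
      rw [wt_app, wt_cons, wt_app, wt_cons, wt_app, wt_app, wt_app]
      simp only [Lt.wt, Multiset.insert_eq_cons, ← Multiset.singleton_add]
      abel
    · simp
  · intro k0 h r hr
    rcases List.mem_cons.1 hr with h' | h'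
    · subst h'
      rcases h _ (List.mem_cons_self) with h1 | ⟨h1, h2⟩
      · exact Or.inl h1
      · refine Or.inr ⟨h1, ?_⟩
        rw [hasNd_app, hasNd_full] at h2
        show Wd.hasNd (u' ++ (v ++ (u ++ v')))
        rw [hasNd_app, hasNd_app, hasNd_app]
        tauto
    · exact h r (List.mem_cons_of_mem _ (List.mem_cons_of_mem _ h'))
  · intro h
    refine appr_map Φ ?_ hpt ?_ hρS' ?_ h
    · intro y
      by_cases hy : y = x
      · subst hy
        have : (fun σ => Φ σ y) = fun σ => if ε = true then X σ else (X σ)⁻¹ := by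
          funext σ; exact hΦx σ
        rw [this]
        have hXp : PolG (S'.Sol n) X :=
          polG_inv (polG_mul (polG_eval v) (polG_mul (polG_const _) (polG_eval u)))
        cases ε with
        | true => simpa using hXp
        | false => simpa using polG_inv hXp
      · have : (fun σ : ℕ → G n => Φ σ y) = fun σ => σ y := by
          funext σ; simp [hΦ, Function.update_of_ne hy]
        rw [this]
        exact polG_apply y
    · intro σ hσ hint y hy
      by_cases hyx : y = x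
      · subst hyx
        rw [hΦx]
        have hXi : X σ ∈ GO O n := by
          rw [hX]
          exact (GO O n).inv_mem ((GO O n).mul_mem (eval_mem_GO hv fun y hy => hint y (hvN y hy))
            ((GO O n).mul_mem (scal_mem_GO hξ) (eval_mem_GO hu fun y hy => hint y (huN y hy))))
        split_ifs
        · exact hXi
        · exact (GO O n).inv_mem hXi
      · have hy' : y ∈ S'.names := by
          rw [mem_names] at hy
          rcases hy with ⟨r, hr, hy⟩ | hy
          · rcases List.mem_cons.1 hr with h' | h'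
            · subst h'
              rw [show wnm (Root.w ⟨k, ξ, u ++ Lt.full x ε :: v⟩) =
                wnm (u ++ ([Lt.full x ε] ++ v)) from rfl, wnm_app, wnm_app] at hy
              rcases hy with hy | hy | hy
              · exact huN y hy
              · obtain ⟨l, hl, hy⟩ := hy
                rw [List.mem_singleton] at hl
                subst hl
                exact absurd hy hyx
              · exact hvN y hy
            · rcases List.mem_cons.1 h' with h'' | h''
              · subst h''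
                rw [show wnm (Root.w ⟨k, ξ', u' ++ Lt.full x (!ε) :: v'⟩) =
                  wnm (u' ++ ([Lt.full x (!ε)] ++ v')) from rfl, wnm_app, wnm_app] at hy
                rcases hy with hy | hy | hy
                · exact huN' y hy
                · obtain ⟨l, hl, hy⟩ := hy
                  rw [List.mem_singleton] at hl
                  subst hl
                  exact absurd hy hyx
                · exact hvN' y hy
              · exact hrest r h'' y hy
          · exact mem_names.2 (Or.inr hy)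
        rw [hΦy σ y hy']
        exact hint y hy'
    · funext y
      by_cases hy : y = x
      · subst hy
        rw [hΦx, ← hxe]
        cases ε <;> simp [Lt.eval]
      · simp [hΦ, Function.update_of_ne hy]

end Crest.Agent.R003
end

-- ▼ part R003/Step486
section

/-!
# Row 3 (S0003): steps S8 (empty root), S3 (cancel), S1 (merge) (helper486)
-/

set_option autoImplicit false

namespace Crest.Agent.R003

open H486

/-- S8: an empty root is dropped -/
theorem s8 (O : Subring ℂ) (n : ℕ) : S8 O n := by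
  intro k ξ rest fr ρ S hWF hρ
  refine ⟨⟨rest, fr⟩, ρ, ?_, ?_, ?_, ?_, ?_⟩
  · refine ⟨fun r hr => hWF.roots r (List.mem_cons_of_mem _ hr), hWF.free, ?_⟩
    obtain ⟨V, h1, h2⟩ := hWF.lin
    refine ⟨V, ?_, ?_⟩
    · rw [← h1]
      simp [S, Sys.occ, Root.occ, Wd.occ]
    · simpa [S, Sys.pn, Root.pn, Wd.pn] using h2
  · apply dm_of_add (B := {3 * k})
    · show (List.map Root.wt (⟨k, ξ, []⟩ :: rest)).sum = (List.map Root.wt rest).sum + {3 * k}
      rw [List.map_cons, List.sum_cons, add_comm]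
      congr 1
    · simp
  · intro k0 h r hr
    exact h r (List.mem_cons_of_mem _ hr)
  · exact ⟨fun r hr => hρ.1 r (List.mem_cons_of_mem _ hr), hρ.2⟩
  · intro h
    have hrho := hρ.1 ⟨k, ξ, []⟩ (List.mem_cons_self)
    refine appr_map (fun σ => σ) (fun x => polG_apply x) ?_ ?_ (ρ' := ρ) ?_ rfl h
    · intro σ hσ
      refine ⟨?_, hσ.2⟩
      intro r hr
      rcases List.mem_cons.1 hr with h' | h'
      · subst h'
        exact ⟨Sat_nil _ _, hrho.2⟩
      · exact hσ.1 r h'
    · intro σ _ h' x hx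
      apply h'
      rw [mem_names] at hx ⊢
      rcases hx with ⟨r, hr, hx⟩ | hx
      · left
        rcases List.mem_cons.1 hr with h'' | h''
        · subst h''; simp [wnm] at hx
        · exact ⟨r, h'', hx⟩
      · exact Or.inr hx
    · exact ⟨fun r hr => hρ.1 r (List.mem_cons_of_mem _ hr), hρ.2⟩

/-- S3: `x x⁻¹` is cancelled, `x` becomes free -/
theorem s3 (O : Subring ℂ) (n : ℕ) : S3 O n := by
  intro k ξ u v x ε rest fr ρ S hWF hρ
  have hr0 := hWF.roots ⟨k, ξ, u ++ Lt.full x ε :: Lt.full x (!ε) :: v⟩ List.mem_cons_self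
  have hlin := hWF.lin
  -- solutions
  have key : ∀ σ : ℕ → G n, σ ∈ S.Sol n ↔ σ ∈ Sys.Sol n ⟨⟨k, ξ, u ++ v⟩ :: rest, (x, k) :: fr⟩ := by
    intro σ
    have hev : Wd.eval σ (u ++ Lt.full x ε :: Lt.full x (!ε) :: v) = Wd.eval σ (u ++ v) := by
      rw [eval_app, eval_cons, eval_cons, eval_app]
      cases ε <;> simp [Lt.eval]
    constructor
    · intro h
      have h0 := h.1 _ List.mem_cons_self
      have h1 := (Sat_app _ _ _ _).1 h0.1
      have h2 := (Sat_cons _ _ _ _).1 h1.2
      have h3 := (Sat_cons _ _ _ _).1 h2.2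
      refine ⟨?_, ?_⟩
      · intro r hr
        rcases List.mem_cons.1 hr with h' | h'
        · subst h'
          refine ⟨(Sat_app _ _ _ _).2 ⟨h1.1, h3.2⟩, ?_⟩
          have h4 := h0.2
          simp only at h4
          rw [hev] at h4
          exact h4
        · exact h.1 r (List.mem_cons_of_mem _ h')
      · intro z hz
        rcases List.mem_cons.1 hz with h' | h'
        · subst h'; exact h2.1
        · exact h.2 z h'
    · intro h
      have h0 := h.1 _ List.mem_cons_self
      have h1 := (Sat_app _ _ _ _).1 h0.1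
      have h2 := h.2 (x, k) List.mem_cons_self
      refine ⟨?_, ?_⟩
      · intro r hr
        rcases List.mem_cons.1 hr with h' | h'
        · subst h'
          refine ⟨(Sat_app _ _ _ _).2 ⟨h1.1, (Sat_cons _ _ _ _).2 ⟨h2, (Sat_cons _ _ _ _).2
            ⟨h2, h1.2⟩⟩⟩, ?_⟩
          show _ * Wd.eval σ (u ++ Lt.full x ε :: Lt.full x (!ε) :: v) = 1
          rw [hev]
          exact h0.2
        · exact h.1 r (List.mem_cons_of_mem _ h')
      · intro z hz
        exact h.2 z (List.mem_cons_of_mem _ hz)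
  refine ⟨⟨⟨k, ξ, u ++ v⟩ :: rest, (x, k) :: fr⟩, ρ, ?_, ?_, ?_, (key ρ).1 hρ, ?_⟩
  · refine ⟨?_, ?_, ?_⟩
    · intro r hr
      rcases List.mem_cons.1 hr with h' | h'
      · subst h'
        obtain ⟨h1, h2, h3⟩ := hr0
        refine ⟨h1, h2, ?_⟩
        have h4 : Wd.WF O (u ++ Lt.full x ε :: Lt.full x (!ε) :: v) k
          (Wd.last (u ++ Lt.full x ε :: Lt.full x (!ε) :: v) none) := h3
        rw [WF_app, last_app] at h4
        have h5 : Wd.WF O u k (Wd.last v none) := h4.1
        have h6 : Wd.WF O v k none := h4.2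
        show Wd.WF O (u ++ v) k (Wd.last (u ++ v) none)
        rw [WF_app, last_app]
        exact ⟨WF_last O h5 _, WF_of_none O h6 _⟩
      · exact hWF.roots r (List.mem_cons_of_mem _ h')
    · intro z hz
      rcases List.mem_cons.1 hz with h' | h'
      · subst h'; exact hr0.1
      · exact hWF.free z h'
    · have h1 : S.occ = (x, k, ε) ::ₘ (x, k, !ε) ::ₘ
          (Wd.occ (u ++ v) k + (rest.map Root.occ).sum) := by
        show Wd.occ (u ++ Lt.full x ε :: Lt.full x (!ε) :: v) k + (rest.map Root.occ).sum = _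
        rw [occ_app, occ_cons, occ_cons, occ_app]
        simp only [Lt.occ, ← Multiset.singleton_add]
        abel
      have h2 : S.pn = Wd.pn (u ++ v) + (rest.map Root.pn).sum := by
        show Wd.pn (u ++ Lt.full x ε :: Lt.full x (!ε) :: v) + (rest.map Root.pn).sum = _
        rw [pn_app, pn_cons, pn_cons, pn_app]
        simp [Lt.pn]
      rw [h1, h2] at hlin
      obtain ⟨V', h3, h4⟩ := lin_pair' hlin
      refine ⟨V', ?_, ?_⟩
      · rw [← h3]; rfl
      · have h5 : V'.map Prod.fst + Sys.pn ⟨⟨k, ξ, u ++ v⟩ :: rest, (x, k) :: fr⟩ +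
            (((((x, k) :: fr).map Prod.fst : List ℕ)) : Multiset ℕ) =
            x ::ₘ (V'.map Prod.fst + (Wd.pn (u ++ v) + (rest.map Root.pn).sum) +
              ((fr.map Prod.fst : List ℕ) : Multiset ℕ)) := by
          have h6 : ((((x, k) :: fr).map Prod.fst : List ℕ) : Multiset ℕ) =
            x ::ₘ ((fr.map Prod.fst : List ℕ) : Multiset ℕ) := rfl
          rw [h6, Multiset.add_cons]
          rfl
        show (V'.map Prod.fst + Sys.pn ⟨⟨k, ξ, u ++ v⟩ :: rest, (x, k) :: fr⟩ +
            (((((x, k) :: fr).map Prod.fst : List ℕ)) : Multiset ℕ)).Nodup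
        rw [h5]
        exact h4
  · apply dm_of_add (B := {3 * k + 1, 3 * k + 1})
    · show (3 * k) ::ₘ Wd.wt (u ++ Lt.full x ε :: Lt.full x (!ε) :: v) k + (rest.map Root.wt).sum =
        ((3 * k) ::ₘ Wd.wt (u ++ v) k + (rest.map Root.wt).sum) + {3 * k + 1, 3 * k + 1}
      rw [wt_app, wt_cons, wt_cons, wt_app]
      simp only [Lt.wt, Multiset.insert_eq_cons, ← Multiset.singleton_add]
      abel
    · simp
  · intro k0 h r hr
    rcases List.mem_cons.1 hr with h' | h'
    · subst h'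
      rcases h _ (List.mem_cons_self) with h1 | ⟨h1, h2⟩
      · exact Or.inl h1
      · refine Or.inr ⟨h1, ?_⟩
        rw [hasNd_app, hasNd_full, hasNd_full] at h2
        exact (hasNd_app _ _).2 h2
    · exact h r (List.mem_cons_of_mem _ h')
  · intro h
    refine appr_map (fun σ => σ) (fun x => polG_apply x) (fun σ hσ => (key σ).2 hσ) ?_
      ((key ρ).1 hρ) rfl h
    intro σ _ h' y hy
    apply h'
    rw [mem_names] at hy ⊢
    rcases hy with ⟨r, hr, hy⟩ | hy
    · rcases List.mem_cons.1 hr with h'' | h''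
      · subst h''
        rw [show wnm (Root.w ⟨k, ξ, u ++ Lt.full x ε :: Lt.full x (!ε) :: v⟩) =
          wnm (u ++ ([Lt.full x ε, Lt.full x (!ε)] ++ v)) from rfl, wnm_app, wnm_app] at hy
        rcases hy with hy | hy | hy
        · exact Or.inl ⟨_, List.mem_cons_self, (wnm_app _ _ _).2 (Or.inl hy)⟩
        · right
          obtain ⟨l, hl, hy⟩ := hy
          have : y = x := by
            simp only [List.mem_cons, List.not_mem_nil, or_false] at hl
            rcases hl with rfl | rfl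
            · exact hy
            · exact hy
          subst this
          exact List.mem_cons_self
        · exact Or.inl ⟨_, List.mem_cons_self, (wnm_app _ _ _).2 (Or.inr hy)⟩
      · exact Or.inl ⟨r, List.mem_cons_of_mem _ h'', hy⟩
    · exact Or.inr (List.mem_cons_of_mem _ hy)

end Crest.Agent.R003
end

-- ▼ part R003/Glue961

/-!
# Row 3 (S0003): `Extract n` and `Glue n` (helper961)
-/

set_option autoImplicit false
set_option linter.unusedSectionVars false

namespace Crest.Agent.R003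

open P961

section general

variable {n : ℕ} {Λ : Type} [PartialOrder Λ] [DecidableEq Λ]

/-- diagonal block as a unit -/
noncomputable def blkG {L : Type*} [PartialOrder L] [DecidableEq L] {c c' : Fin n → L}
    (hs : ∀ b, cs c b = cs c' b) (P : G n) (h : Tri c c' P.1) (b : L) : G n where
  val := blk c c' b P.1
  inv := blk c' c b (P⁻¹).1
  val_inv := by
    have hPQ : P.1 * (P⁻¹).1 = 1 := by rw [← Units.val_mul, mul_inv_cancel, Units.val_one]
    have htri : Tri c' c (P⁻¹).1 := h.inv hs hPQ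
    rw [← blk_mul hs (fun b => (hs b).symm) h htri b, hPQ, blk_one]
  inv_val := by
    have hPQ : P.1 * (P⁻¹).1 = 1 := by rw [← Units.val_mul, mul_inv_cancel, Units.val_one]
    have hQP : (P⁻¹).1 * P.1 = 1 := by rw [← Units.val_mul, inv_mul_cancel, Units.val_one]
    have htri : Tri c' c (P⁻¹).1 := h.inv hs hPQ
    rw [← blk_mul (fun b => (hs b).symm) hs htri h b, hQP, blk_one]

/-- existence of the diagonal blocks -/
lemma exists_isPar {c c' : List Λ} (hlen : c.length ≤ n) (hcnt : ∀ l, c.count l = c'.count l)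
    {P : G n} (hP : P ∈ GLk n c.length) (htri : Tri (lb n c) (lb n c') P.1) :
    ∃ g : Λ → G n, IsPar c c' g P := by
  refine ⟨fun a => blkG (cs_eq hlen hcnt) P htri (Sum.inl a), ?_⟩
  apply IsPar.mk' hlen hcnt hP _ htri (fun _ => rfl)
  intro a i j hij
  rw [← cs_lb c a hlen] at hij
  exact blk_out _ _ _ _ _ _ hij

end general

lemma exists_index {n : ℕ} {l : List Bool} (hl : l.length ≤ n) {a : Bool} {s : ℕ}
    (h : s < l.count a) : ∃ i : Fin n, lab l i.1 = some a ∧ (l.take i.1).count a = s := by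
  obtain ⟨i, h1, h2⟩ := exists_pos (lb n l) (Sum.inl a) (t := s) (by rw [cs_lb l a hl]; exact h)
  refine ⟨i, lb_eq_inl.1 h1, ?_⟩
  rw [← cb_lb l a i.1 i.2.le]
  exact h2

lemma lab_lt {Λ : Type} {l : List Λ} {i : ℕ} {a : Λ} (h : lab l i = some a) : i < l.length :=
  (List.getElem?_eq_some_iff.1 h).1

/-- the two `BEq` instances on `Bool × Bool` -/
lemma count_prod (l : List (Bool × Bool)) (p : Bool × Bool) :
    @List.count (Bool × Bool) instBEqOfDecidableEq p l = List.count p l := by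
  congr 1
  exact lawful_beq_subsingleton _ _

namespace IsPar

variable {n : ℕ} {C C' : List (Bool × Bool)} {nn : Bool × Bool → G n} {L : G n}

lemma cnt2 (h : IsPar C C' nn L) (l : Bool × Bool) : C.count l = C'.count l := by
  have := h.cnt l
  rwa [count_prod, count_prod] at this

lemma blk2 (h : IsPar C C' nn L) (l : Bool × Bool) : nn l ∈ GLk n (C.count l) := by
  have := h.blk l
  rwa [count_prod] at this

lemma diag2 (h : IsPar C C' nn L) (i j u v : Fin n) (a : Bool × Bool) (hi : lab C i.1 = some a)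
    (hj : lab C' j.1 = some a) (hu : u.1 = (C.take i.1).count a) (hv : v.1 = (C'.take j.1).count a) :
    L.1 i j = (nn a).1 u v := by
  apply h.diag i j u v a hi hj
  · rw [count_prod]; exact hu
  · rw [count_prod]; exact hv

lemma mk2 (h1 : C.length ≤ n) (h2 : ∀ l, C.count l = C'.count l) (h3 : L ∈ GLk n C.length)
    (h4 : ∀ l, nn l ∈ GLk n (C.count l))
    (h5 : ∀ (i j : Fin n) (a b : Bool × Bool), lab C i.1 = some a → lab C' j.1 = some b → ¬ a ≤ b →
      L.1 i j = 0)
    (h6 : ∀ (i j u v : Fin n) (a : Bool × Bool), lab C i.1 = some a → lab C' j.1 = some a →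
      u.1 = (C.take i.1).count a → v.1 = (C'.take j.1).count a → L.1 i j = (nn a).1 u v) :
    IsPar C C' nn L := by
  refine ⟨h1, ?_, h3, ?_, h5, ?_⟩
  · intro l; rw [count_prod, count_prod]; exact h2 l
  · intro l; rw [count_prod]; exact h4 l
  · intro i j u v a hi hj hu hv
    rw [count_prod] at hu hv
    exact h6 i j u v a hi hj hu hv

end IsPar

/-- joint labels: triangularity for the joint labels gives triangularity for the first ones -/
lemma tri_fst {n : ℕ} {c d c' d' : List Bool} (h1 : c.length = d.length) (h2 : c'.length = d'.length)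
    {P : Matrix (Fin n) (Fin n) ℂ} (h : Tri (lb n (jl c d)) (lb n (jl c' d')) P) :
    Tri (lb n c) (lb n c') P := by
  intro i j hij
  apply h
  intro hle
  apply hij
  rcases hi : lb n (jl c d) i with ⟨a, x⟩ | ⟨⟩
  · rcases hj : lb n (jl c' d') j with ⟨a', x'⟩ | ⟨⟩
    · rw [hi, hj, Sum.inl_le_inl_iff] at hle
      rw [lb_eq_inl.2 (jl_lab.1 (lb_eq_inl.1 hi)).1, lb_eq_inl.2 (jl_lab.1 (lb_eq_inl.1 hj)).1,
        Sum.inl_le_inl_iff]
      exact hle.1
    · rw [hi, hj] at hle
      exact absurd hle (by simp)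
  · rcases hj : lb n (jl c' d') j with ⟨a', x'⟩ | ⟨⟩
    · rw [hi, hj] at hle
      exact absurd hle (by simp)
    · rw [lb_eq_inr, jl_length h1] at hi
      rw [lb_eq_inr, jl_length h2] at hj
      rw [lb_eq_inr.2 hi, lb_eq_inr.2 hj]

lemma extract_one {n : ℕ} {c d c' d' : List Bool} (h1 : c.length = d.length)
    (h2 : c'.length = d'.length) {nn : Bool × Bool → G n} {L : G n}
    (hL : IsPar (jl c d) (jl c' d') nn L) :
    ∃ g : Bool → G n, IsPar c c' g L ∧
      ∀ e, IsPar (restr c d e) (restr c' d' e) (fun x => nn (e, x)) (g e) := by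
  have hlen : c.length ≤ n := jl_length h1 ▸ hL.len
  have hlen' : c'.length ≤ n := jl_length h2 ▸ hL.len'
  have hcnt : ∀ e, c.count e = c'.count e := by
    intro e
    rw [jl_count_fst h1, jl_count_fst h2, hL.cnt2, hL.cnt2]
  obtain ⟨g, hg⟩ := exists_isPar hlen hcnt (jl_length h1 ▸ hL.mem) (tri_fst h1 h2 hL.tri)
  refine ⟨g, hg, fun e => ?_⟩
  constructor
  · rw [restr_length h1]; exact (List.count_le_length).trans hlen
  · intro x
    rw [restr_count, restr_count, hL.cnt2]
  · rw [restr_length h1]; exact hg.blk e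
  · intro x
    rw [restr_count]; exact hL.blk2 (e, x)
  · intro s t x x' hs ht hxx
    have hs' : s.1 < c.count e := by rw [← restr_length h1]; exact lab_lt hs
    have ht' : t.1 < c'.count e := by rw [← restr_length h2]; exact lab_lt ht
    obtain ⟨i, hi, hsi⟩ := exists_index hlen hs'
    obtain ⟨j, hj, htj⟩ := exists_index hlen' ht'
    have e1 := hg.diag i j s t e hi hj hsi.symm htj.symm
    have e2 := restr_lab h1 hi
    have e3 := restr_lab h2 hj
    rw [hsi, hs] at e2
    rw [htj, ht] at e3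
    rw [← e1]
    apply hL.zero i j (e, x) (e, x') (jl_lab.2 ⟨hi, e2.symm⟩) (jl_lab.2 ⟨hj, e3.symm⟩)
    rintro ⟨_, h4⟩
    exact hxx h4
  · intro s t u v x hs ht hu hv
    have hs' : s.1 < c.count e := by rw [← restr_length h1]; exact lab_lt hs
    have ht' : t.1 < c'.count e := by rw [← restr_length h2]; exact lab_lt ht
    obtain ⟨i, hi, hsi⟩ := exists_index hlen hs'
    obtain ⟨j, hj, htj⟩ := exists_index hlen' ht'
    have e1 := hg.diag i j s t e hi hj hsi.symm htj.symm
    have e2 := restr_lab h1 hi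
    have e3 := restr_lab h2 hj
    rw [hsi, hs] at e2
    rw [htj, ht] at e3
    rw [← e1]
    apply hL.diag2 i j u v (e, x) (jl_lab.2 ⟨hi, e2.symm⟩) (jl_lab.2 ⟨hj, e3.symm⟩)
    · rw [hu, ← hsi, restr_take h1, restr_count, jl_take]
    · rw [hv, ← htj, restr_take h2, restr_count, jl_take]

lemma jl_count_swap (c d : List Bool) (a b : Bool) : (jl d c).count (b, a) = (jl c d).count (a, b) := by
  have h : (jl c d).map Prod.swap = jl d c := List.zip_swap _ _
  rw [← h, show ((b, a) : Bool × Bool) = Prod.swap (a, b) from rfl,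
    List.count_map_of_injective _ _ Prod.swap_injective]

lemma IsPar.swap {n : ℕ} {c d c' d' : List Bool} {nn : Bool × Bool → G n} {L : G n}
    (h1 : c.length = d.length) (h2 : c'.length = d'.length)
    (hL : IsPar (jl c d) (jl c' d') nn L) :
    IsPar (jl d c) (jl d' c') (fun p => nn p.swap) L := by
  apply IsPar.mk2
  · rw [jl_length h1.symm, ← h1, ← jl_length h1]; exact hL.len
  · rintro ⟨x, a⟩
    rw [jl_count_swap c d a x, jl_count_swap c' d' a x]; exact hL.cnt2 _
  · rw [jl_length h1.symm, ← h1, ← jl_length h1]; exact hL.mem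
  · rintro ⟨x, a⟩
    rw [jl_count_swap c d a x]; exact hL.blk2 _
  · rintro i j ⟨x, a⟩ ⟨x', a'⟩ hi hj hne
    rw [jl_lab] at hi hj
    apply hL.zero i j (a, x) (a', x') (jl_lab.2 ⟨hi.2, hi.1⟩) (jl_lab.2 ⟨hj.2, hj.1⟩)
    rintro ⟨h3, h4⟩
    exact hne ⟨h4, h3⟩
  · rintro i j u v ⟨x, a⟩ hi hj hu hv
    rw [jl_lab] at hi hj
    apply hL.diag2 i j u v (a, x) (jl_lab.2 ⟨hi.2, hi.1⟩) (jl_lab.2 ⟨hj.2, hj.1⟩)
    · rw [hu, jl_take, jl_take, jl_count_swap (c.take i.1)]
    · rw [hv, jl_take, jl_take, jl_count_swap (c'.take j.1)]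

theorem extract_holds (n : ℕ) : Extract n := by
  intro c d c' d' h1 h2 nn L hL
  obtain ⟨g, hg, hg'⟩ := extract_one h1 h2 hL
  obtain ⟨h, hh, hh'⟩ := extract_one h1.symm h2.symm (hL.swap h1 h2)
  exact ⟨g, h, hg, hh, hg', hh'⟩

/-! ### entries in a subring of functions -/

section ent

variable {X : Type*} {n : ℕ}

def EntIn (A : Subring (X → ℂ)) (M : X → Matrix (Fin n) (Fin n) ℂ) : Prop :=
  ∀ i j, (fun x => M x i j) ∈ A

variable {A : Subring (X → ℂ)} {M N : X → Matrix (Fin n) (Fin n) ℂ}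

lemma EntIn.one : EntIn A (fun _ => (1 : Matrix (Fin n) (Fin n) ℂ)) := by
  intro i j
  by_cases h : i = j
  · subst h
    simp only [Matrix.one_apply_eq]
    exact A.one_mem
  · simp only [Matrix.one_apply_ne h]
    exact A.zero_mem

lemma EntIn.mul (hM : EntIn A M) (hN : EntIn A N) : EntIn A (fun x => M x * N x) := by
  intro i j
  have : (fun x => (M x * N x) i j) = ∑ k, (fun x => M x i k) * (fun x => N x k j) := by
    funext x
    rw [Matrix.mul_apply, Finset.sum_apply]
    rfl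
  rw [this]
  exact A.sum_mem fun k _ => A.mul_mem (hM i k) (hN k j)

lemma EntIn.sub (hM : EntIn A M) (hN : EntIn A N) : EntIn A (fun x => M x - N x) := by
  intro i j
  exact A.sub_mem (hM i j) (hN i j)

lemma EntIn.pow (hM : EntIn A M) (m : ℕ) : EntIn A (fun x => M x ^ m) := by
  induction m with
  | zero => simpa using EntIn.one
  | succ m ih =>
    have := ih.mul hM
    simpa only [pow_succ] using this

lemma EntIn.sum {K : ℕ → X → Matrix (Fin n) (Fin n) ℂ} (hK : ∀ m, EntIn A (K m)) (r : ℕ) :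
    EntIn A (fun x => ∑ m ∈ Finset.range r, K m x) := by
  intro i j
  have : (fun x => (∑ m ∈ Finset.range r, K m x) i j) =
      ∑ m ∈ Finset.range r, (fun x => K m x i j) := by
    funext x
    rw [Matrix.sum_apply, Finset.sum_apply]
  rw [this]
  exact A.sum_mem fun m _ => hK m i j

/-- the inverse formula stays in the subring -/
lemma EntIn.invf {P D : X → Matrix (Fin n) (Fin n) ℂ} (hP : EntIn A P) (hD : EntIn A D) :
    EntIn A (fun x => D x * ∑ m ∈ Finset.range n, (1 - P x * D x) ^ m) :=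
  hD.mul (EntIn.sum (K := fun m x => (1 - P x * D x) ^ m)
    (fun m => (EntIn.one.sub (hP.mul hD)).pow m) n)

end ent

/-! ### the glued matrix -/

section glue

variable {n : ℕ}

/-- entries by label -/
def gx (g : Bool → G n) : Bool ⊕ Unit → Matrix (Fin n) (Fin n) ℂ
  | Sum.inl a => (g a).1
  | Sum.inr _ => 1

def cidx (k0 : ℕ) (t : Fin n) : Fin n := if h : k0 + t.1 < n then ⟨k0 + t.1, h⟩ else t

/-- the glued matrix -/
noncomputable def glM (c d c' d' : List Bool) (g h : Bool → G n) (ζ : G n) :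
    Matrix (Fin n) (Fin n) ℂ :=
  fun i j =>
    if lb n c i = lb n c' j then gx g (lb n c i) (ci (lb n c) i) (ci (lb n c') j)
    else if lb n d i = lb n d' j then gx h (lb n d i) (ci (lb n d) i) (ci (lb n d') j)
    else if (lb n c i = Sum.inl false ∧ lb n c' j = Sum.inl true) ∧
        (lb n d i = Sum.inl false ∧ lb n d' j = Sum.inl true) then
      ζ.1 (ci (lb n (jl c d)) i)
        (cidx ((jl c d).count (false, false)) (ci (lb n (jl c' d')) j))
    else 0

variable {c d c' d' : List Bool} {g h : Bool → G n} {ζ : G n} {nn : Bool × Bool → G n}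

lemma ci_jl {c d : List Bool} {i : Fin n} {a x : Bool} (ha : lab c i.1 = some a)
    (hx : lab d i.1 = some x) :
    (ci (lb n (jl c d)) i).1 = (jl (c.take i.1) (d.take i.1)).count (a, x) := by
  rw [ci_lb (jl_lab.2 ⟨ha, hx⟩), count_prod, jl_take]

lemma glue_F1 (h1 : c.length = d.length) (h2 : c'.length = d'.length)
    (hG : GlueData c d c' d' nn g h ζ) {i j : Fin n} {a x : Bool} (hi : lab c i.1 = some a)
    (hi' : lab d i.1 = some x) (hj : lab c' j.1 = some a) (hj' : lab d' j.1 = some x) :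
    (g a).1 (ci (lb n c) i) (ci (lb n c') j) =
      (nn (a, x)).1 (ci (lb n (jl c d)) i) (ci (lb n (jl c' d')) j) := by
  apply (hG.1 a).diag _ _ _ _ x
  · rw [ci_lb hi, restr_lab h1 hi, hi']
  · rw [ci_lb hj, restr_lab h2 hj, hj']
  · rw [ci_jl hi hi', ci_lb hi, restr_take h1, restr_count]
  · rw [ci_jl hj hj', ci_lb hj, restr_take h2, restr_count]

lemma glue_F1' (h1 : c.length = d.length) (h2 : c'.length = d'.length)
    (hG : GlueData c d c' d' nn g h ζ) {i j : Fin n} {a x : Bool} (hi : lab c i.1 = some a)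
    (hi' : lab d i.1 = some x) (hj : lab c' j.1 = some a) (hj' : lab d' j.1 = some x) :
    (h x).1 (ci (lb n d) i) (ci (lb n d') j) =
      (nn (a, x)).1 (ci (lb n (jl c d)) i) (ci (lb n (jl c' d')) j) := by
  apply (hG.2.1 x).diag _ _ _ _ a
  · rw [ci_lb hi', restr_lab h1.symm hi', hi]
  · rw [ci_lb hj', restr_lab h2.symm hj', hj]
  · rw [ci_jl hi hi', ci_lb hi', restr_take h1.symm, restr_count, jl_count_swap (c.take i.1)]
  · rw [ci_jl hj hj', ci_lb hj', restr_take h2.symm, restr_count, jl_count_swap (c'.take j.1)]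

lemma lb_cases {c d : List Bool} (h : c.length = d.length) (i : Fin n) :
    (∃ a x, lab c i.1 = some a ∧ lab d i.1 = some x) ∨ (c.length ≤ i.1 ∧ d.length ≤ i.1) := by
  by_cases hi : i.1 < c.length
  · left
    exact ⟨_, _, List.getElem?_eq_getElem hi, List.getElem?_eq_getElem (h ▸ hi)⟩
  · right
    omega

lemma len_eq_of_cnt (h1 : c.length = d.length) (h2 : c'.length = d'.length)
    (hcnt : ∀ l, (jl c d).count l = (jl c' d').count l) : c.length = c'.length := by
  rw [← jl_length h1, ← jl_length h2]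
  apply (List.perm_iff_count.2 (fun l => ?_)).length_eq
  exact hcnt l

/-- the glued matrix is block triangular for the joint labels -/
lemma glM_tri (h1 : c.length = d.length) (h2 : c'.length = d'.length)
    (hcnt : ∀ l, (jl c d).count l = (jl c' d').count l)
    (hG : GlueData c d c' d' nn g h ζ) :
    Tri (lb n (jl c d)) (lb n (jl c' d')) (glM c d c' d' g h ζ) := by
  intro i j hij
  have hlen := len_eq_of_cnt h1 h2 hcnt
  rcases lb_cases h1 i with ⟨a, x, hi, hi'⟩ | ⟨hi, hi'⟩
  · rcases lb_cases h2 j with ⟨a', x', hj, hj'⟩ | ⟨hj, hj'⟩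
    · rw [lb_eq_inl.2 (jl_lab.2 ⟨hi, hi'⟩), lb_eq_inl.2 (jl_lab.2 ⟨hj, hj'⟩),
        Sum.inl_le_inl_iff, Prod.mk_le_mk] at hij
      unfold glM
      rw [lb_eq_inl.2 hi, lb_eq_inl.2 hi', lb_eq_inl.2 hj, lb_eq_inl.2 hj']
      split_ifs with e1 e2 e3
      · have e4 : a = a' := Sum.inl_injective e1
        subst e4
        have hxx : ¬ x ≤ x' := fun hle => hij ⟨le_rfl, hle⟩
        change (g a).1 _ _ = 0
        apply (hG.1 a).zero _ _ x x' _ _ hxx
        · rw [ci_lb hi, restr_lab h1 hi, hi']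
        · rw [ci_lb hj, restr_lab h2 hj, hj']
      · have e4 : x = x' := Sum.inl_injective e2
        subst e4
        have hxx : ¬ a ≤ a' := fun hle => hij ⟨hle, le_rfl⟩
        change (h x).1 _ _ = 0
        apply (hG.2.1 x).zero _ _ a a' _ _ hxx
        · rw [ci_lb hi', restr_lab h1.symm hi', hi]
        · rw [ci_lb hj', restr_lab h2.symm hj', hj]
      · exfalso
        obtain ⟨⟨e4, e5⟩, e6, e7⟩ := e3
        have f4 := Sum.inl_injective e4
        have f5 := Sum.inl_injective e5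
        have f6 := Sum.inl_injective e6
        have f7 := Sum.inl_injective e7
        subst f4 f5 f6 f7
        exact hij ⟨by decide, by decide⟩
      · rfl
    · unfold glM
      rw [lb_eq_inl.2 hi, lb_eq_inl.2 hi', lb_eq_inr.2 hj, lb_eq_inr.2 hj']
      simp
  · rcases lb_cases h2 j with ⟨a', x', hj, hj'⟩ | ⟨hj, hj'⟩
    · unfold glM
      rw [lb_eq_inr.2 hi, lb_eq_inr.2 hi', lb_eq_inl.2 hj, lb_eq_inl.2 hj']
      simp
    · exfalso
      apply hij
      rw [lb_eq_inr.2 (by rw [jl_length h1]; exact hi), lb_eq_inr.2 (by rw [jl_length h2]; exact hj)]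

/-- outside -/
lemma glM_out (h1 : c.length = d.length) (h2 : c'.length = d'.length)
    (hcnt : ∀ l, (jl c d).count l = (jl c' d').count l) (i j : Fin n)
    (hij : c.length ≤ i.1 ∨ c.length ≤ j.1) :
    glM c d c' d' g h ζ i j = if i = j then 1 else 0 := by
  have hlen := len_eq_of_cnt h1 h2 hcnt
  rcases lb_cases h1 i with ⟨a, x, hi, hi'⟩ | ⟨hi, hi'⟩
  · have hii := lab_lt hi
    rcases lb_cases h2 j with ⟨a', x', hj, hj'⟩ | ⟨hj, hj'⟩
    · have hjj := lab_lt hj
      omega
    · unfold glM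
      rw [lb_eq_inl.2 hi, lb_eq_inl.2 hi', lb_eq_inr.2 hj, lb_eq_inr.2 hj', if_neg (by simp),
        if_neg (by simp), if_neg (by simp), if_neg]
      rintro rfl
      omega
  · rcases lb_cases h2 j with ⟨a', x', hj, hj'⟩ | ⟨hj, hj'⟩
    · have hjj := lab_lt hj
      unfold glM
      rw [lb_eq_inr.2 hi, lb_eq_inr.2 hi', lb_eq_inl.2 hj, lb_eq_inl.2 hj', if_neg (by simp),
        if_neg (by simp), if_neg (by simp), if_neg]
      rintro rfl
      omega
    · have e1 : (ci (lb n c) i).1 = i.1 - c.length := by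
        rw [ci_val, lb_eq_inr.2 hi, cb_lb_inr _ _ i.2.le]
      have e2 : (ci (lb n c') j).1 = j.1 - c'.length := by
        rw [ci_val, lb_eq_inr.2 hj, cb_lb_inr _ _ j.2.le]
      unfold glM
      rw [if_pos (by rw [lb_eq_inr.2 hi, lb_eq_inr.2 hj])]
      conv_lhs => rw [lb_eq_inr.2 hi]
      change (1 : Matrix (Fin n) (Fin n) ℂ) _ _ = _
      rw [Matrix.one_apply]
      congr 1
      apply propext
      constructor
      · intro h3
        have h4 := congrArg Fin.val h3
        rw [e1, e2] at h4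
        apply Fin.ext
        omega
      · rintro rfl
        apply Fin.ext
        rw [e1, e2, hlen]


lemma cs_jl (h1 : c.length = d.length) (hlen : c.length ≤ n)
    (hcnt : ∀ l, (jl c d).count l = (jl c' d').count l) :
    ∀ b, cs (lb n (jl c d)) b = cs (lb n (jl c' d')) b := by
  apply cs_eq
  · rw [jl_length h1]; exact hlen
  · intro l
    rw [count_prod, count_prod]
    exact hcnt l

lemma cs_jl_inl (h1 : c.length = d.length) (hlen : c.length ≤ n) (l : Bool × Bool) :
    cs (lb n (jl c d)) (Sum.inl l) = (jl c d).count l := by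
  rw [cs_lb _ _ (by rw [jl_length h1]; exact hlen), count_prod]

/-- the joint diagonal blocks of the glued matrix -/
lemma glM_blk (h1 : c.length = d.length) (h2 : c'.length = d'.length) (hlen : c.length ≤ n)
    (hcnt : ∀ l, (jl c d).count l = (jl c' d').count l)
    (hG : GlueData c d c' d' nn g h ζ) (l : Bool × Bool) :
    blk (lb n (jl c d)) (lb n (jl c' d')) (Sum.inl l) (glM c d c' d' g h ζ) = (nn l).1 := by
  obtain ⟨a, x⟩ := l
  have hcs := cs_jl h1 hlen hcnt
  ext s t
  by_cases hst : s.1 < cs (lb n (jl c d)) (Sum.inl (a, x)) ∧ t.1 < cs (lb n (jl c d)) (Sum.inl (a, x))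
  · have ht : t.1 < cs (lb n (jl c' d')) (Sum.inl (a, x)) := by rw [← hcs]; exact hst.2
    have e1 := pos_label (lb n (jl c d)) (Sum.inl (a, x)) s hst.1
    have e2 := pos_label (lb n (jl c' d')) (Sum.inl (a, x)) t ht
    have e3 := ci_pos (lb n (jl c d)) (Sum.inl (a, x)) s hst.1
    have e4 := ci_pos (lb n (jl c' d')) (Sum.inl (a, x)) t ht
    unfold blk
    rw [if_pos hst]
    generalize pos (lb n (jl c d)) (Sum.inl (a, x)) s = i at e1 e3 ⊢
    generalize pos (lb n (jl c' d')) (Sum.inl (a, x)) t = j at e2 e4 ⊢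
    have f1 := jl_lab.1 (lb_eq_inl.1 e1)
    have f2 := jl_lab.1 (lb_eq_inl.1 e2)
    unfold glM
    rw [if_pos (by rw [lb_eq_inl.2 f1.1, lb_eq_inl.2 f2.1])]
    rw [← e3, ← e4, ← glue_F1 h1 h2 hG f1.1 f1.2 f2.1 f2.2]
    conv_lhs => rw [lb_eq_inl.2 f1.1]
    rfl
  · have hst' : cs (lb n (jl c d)) (Sum.inl (a, x)) ≤ s.1 ∨
        cs (lb n (jl c d)) (Sum.inl (a, x)) ≤ t.1 := by
      by_contra hcon
      push Not at hcon
      exact hst hcon
    rw [blk_out _ _ _ _ _ _ hst']
    rw [cs_jl_inl h1 hlen] at hst'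
    have h3 := (hG.1 a).blk x
    rw [restr_count] at h3
    exact (h3 s t hst').symm

/-- the block outside -/
lemma glM_blk_inr (h1 : c.length = d.length) (h2 : c'.length = d'.length) (hlen : c.length ≤ n)
    (hcnt : ∀ l, (jl c d).count l = (jl c' d').count l) :
    blk (lb n (jl c d)) (lb n (jl c' d')) (Sum.inr ()) (glM c d c' d' g h ζ) = 1 := by
  have hcs := cs_jl h1 hlen hcnt
  have hl := len_eq_of_cnt h1 h2 hcnt
  ext s t
  rw [Matrix.one_apply]
  by_cases hst : s.1 < cs (lb n (jl c d)) (Sum.inr ()) ∧ t.1 < cs (lb n (jl c d)) (Sum.inr ())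
  · have ht : t.1 < cs (lb n (jl c' d')) (Sum.inr ()) := by rw [← hcs]; exact hst.2
    have e1 := pos_label (lb n (jl c d)) (Sum.inr ()) s hst.1
    have e2 := pos_label (lb n (jl c' d')) (Sum.inr ()) t ht
    have e3 := cb_pos (lb n (jl c d)) (Sum.inr ()) s hst.1
    have e4 := cb_pos (lb n (jl c' d')) (Sum.inr ()) t ht
    unfold blk
    rw [if_pos hst]
    generalize pos (lb n (jl c d)) (Sum.inr ()) s = i at e1 e3 ⊢
    generalize pos (lb n (jl c' d')) (Sum.inr ()) t = j at e2 e4 ⊢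
    rw [lb_eq_inr, jl_length h1] at e1
    rw [lb_eq_inr, jl_length h2] at e2
    rw [cb_lb_inr _ _ i.2.le, jl_length h1] at e3
    rw [cb_lb_inr _ _ j.2.le, jl_length h2] at e4
    rw [glM_out h1 h2 hcnt i j (Or.inl e1)]
    congr 1
    apply propext
    constructor
    · rintro rfl
      apply Fin.ext
      rw [← e3, ← e4, hl]
    · intro h3
      have h4 := congrArg Fin.val h3
      apply Fin.ext
      omega
  · rw [blk_out]
    by_contra hcon
    push Not at hcon
    exact hst hcon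

lemma GlueData.inv (hG : GlueData c d c' d' nn g h ζ) :
    GlueData c' d' c d (fun p => (nn p)⁻¹) (fun b => (g b)⁻¹) (fun b => (h b)⁻¹) 1 :=
  ⟨fun e => (hG.1 e).inv, fun x => (hG.2.1 x).inv, (GLk n _).one_mem⟩

/-- the inverse of the glued matrix -/
lemma glM_inv (h1 : c.length = d.length) (h2 : c'.length = d'.length) (hlen : c.length ≤ n)
    (hcnt : ∀ l, (jl c d).count l = (jl c' d').count l)
    (hG : GlueData c d c' d' nn g h ζ) :
    glM c d c' d' g h ζ * (glM c' d' c d (fun b => (g b)⁻¹) (fun b => (h b)⁻¹) 1 *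
      ∑ m ∈ Finset.range n, (1 - glM c d c' d' g h ζ *
        glM c' d' c d (fun b => (g b)⁻¹) (fun b => (h b)⁻¹) 1) ^ m) = 1 := by
  classical
  have hl := len_eq_of_cnt h1 h2 hcnt
  have hG' := hG.inv
  have hcnt' : ∀ l, (jl c' d').count l = (jl c d).count l := fun l => (hcnt l).symm
  apply inv_formula (cs_jl h1 hlen hcnt) (glM_tri h1 h2 hcnt hG) (glM_tri h2 h1 hcnt' hG')
  rintro (l | ⟨⟩)
  · rw [glM_blk h1 h2 hlen hcnt hG, glM_blk h2 h1 (hl ▸ hlen) hcnt' hG', ← Units.val_mul,
      mul_inv_cancel, Units.val_one]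
  · rw [glM_blk_inr h1 h2 hlen hcnt, glM_blk_inr h2 h1 (hl ▸ hlen) hcnt', one_mul]

open Classical in
/-- the glued matrix as a unit -/
noncomputable def glU (c d c' d' : List Bool) (g h : Bool → G n) (ζ : G n) : G n :=
  if hu : IsUnit (glM c d c' d' g h ζ) then hu.unit else 1

lemma glU_val (h1 : c.length = d.length) (h2 : c'.length = d'.length) (hlen : c.length ≤ n)
    (hcnt : ∀ l, (jl c d).count l = (jl c' d').count l)
    (hG : GlueData c d c' d' nn g h ζ) : (glU c d c' d' g h ζ).1 = glM c d c' d' g h ζ := by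
  have hu : IsUnit (glM c d c' d' g h ζ) := by
    have h3 := glM_inv h1 h2 hlen hcnt hG
    exact IsUnit.of_mul_eq_one _ h3
  unfold glU
  rw [dif_pos hu]
  rfl

lemma glU_inv_val (h1 : c.length = d.length) (h2 : c'.length = d'.length) (hlen : c.length ≤ n)
    (hcnt : ∀ l, (jl c d).count l = (jl c' d').count l)
    (hG : GlueData c d c' d' nn g h ζ) : ((glU c d c' d' g h ζ)⁻¹).1 =
      glM c' d' c d (fun b => (g b)⁻¹) (fun b => (h b)⁻¹) 1 *
      ∑ m ∈ Finset.range n, (1 - glM c d c' d' g h ζ *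
        glM c' d' c d (fun b => (g b)⁻¹) (fun b => (h b)⁻¹) 1) ^ m := by
  have h3 := glM_inv h1 h2 hlen hcnt hG
  have h4 : ((glU c d c' d' g h ζ)⁻¹).1 * (glU c d c' d' g h ζ).1 = 1 := by
    rw [← Units.val_mul, inv_mul_cancel, Units.val_one]
  rw [glU_val h1 h2 hlen hcnt hG] at h4
  generalize glM c' d' c d (fun b => (g b)⁻¹) (fun b => (h b)⁻¹) 1 *
      ∑ m ∈ Finset.range n, (1 - glM c d c' d' g h ζ *
        glM c' d' c d (fun b => (g b)⁻¹) (fun b => (h b)⁻¹) 1) ^ m = K at h3 ⊢
  calc ((glU c d c' d' g h ζ)⁻¹).1 = ((glU c d c' d' g h ζ)⁻¹).1 * 1 := (mul_one _).symm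
    _ = _ := by rw [← h3, ← mul_assoc, h4, one_mul]

lemma glM_ent {X : Type*} {A : Subring (X → ℂ)} {g h : Bool → X → G n} {ζ : X → G n}
    (hg : ∀ b, EntIn A (fun x => (g b x).1)) (hh : ∀ b, EntIn A (fun x => (h b x).1))
    (hζ : EntIn A (fun x => (ζ x).1)) :
    EntIn A (fun x => glM c d c' d' (fun b => g b x) (fun b => h b x) (ζ x)) := by
  have hgx : ∀ l, EntIn A (fun x => gx (fun b => g b x) l) := by
    rintro (a | ⟨⟩)
    · exact hg a
    · exact EntIn.one
  have hhx : ∀ l, EntIn A (fun x => gx (fun b => h b x) l) := by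
    rintro (a | ⟨⟩)
    · exact hh a
    · exact EntIn.one
  intro i j
  unfold glM
  by_cases e1 : lb n c i = lb n c' j
  · simp only [if_pos e1]
    exact hgx _ _ _
  · by_cases e2 : lb n d i = lb n d' j
    · simp only [if_neg e1, if_pos e2]
      exact hhx _ _ _
    · by_cases e3 : (lb n c i = Sum.inl false ∧ lb n c' j = Sum.inl true) ∧
        (lb n d i = Sum.inl false ∧ lb n d' j = Sum.inl true)
      · simp only [if_neg e1, if_neg e2, if_pos e3]
        exact hζ _ _
      · simp only [if_neg e1, if_neg e2, if_neg e3]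
        exact A.zero_mem

lemma glM_inv_ent {X : Type*} {A : Subring (X → ℂ)} {g h : Bool → X → G n} {ζ : X → G n}
    (hg : ∀ b, EntIn A (fun x => (g b x).1)) (hh : ∀ b, EntIn A (fun x => (h b x).1))
    (hζ : EntIn A (fun x => (ζ x).1))
    (hg' : ∀ b, EntIn A (fun x => ((g b x)⁻¹).1)) (hh' : ∀ b, EntIn A (fun x => ((h b x)⁻¹).1)) :
    EntIn A (fun x => glM c' d' c d (fun b => (g b x)⁻¹) (fun b => (h b x)⁻¹) 1 *
      ∑ m ∈ Finset.range n, (1 - glM c d c' d' (fun b => g b x) (fun b => h b x) (ζ x) *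
        glM c' d' c d (fun b => (g b x)⁻¹) (fun b => (h b x)⁻¹) 1) ^ m) := by
  apply EntIn.invf (glM_ent hg hh hζ)
  exact glM_ent (g := fun b x => (g b x)⁻¹) (h := fun b x => (h b x)⁻¹) (ζ := fun _ => 1) hg' hh'
    EntIn.one


/-! ### polynomiality and integrality -/

/-- restrictions of polynomial functions to `S` -/
def PolS {ι : Type} {n : ℕ} (S : Set (ι → G n)) : Subring (S → ℂ) :=
  (Pol ι n).toSubring.map (RingHom.pi fun x : S => Pi.evalRingHom _ x.1)

lemma mem_PolS {ι : Type} {n : ℕ} {S : Set (ι → G n)} {f : S → ℂ} :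
    f ∈ PolS S ↔ ∃ F ∈ Pol ι n, ∀ ρ, ∀ hρ : ρ ∈ S, f ⟨ρ, hρ⟩ = F ρ := by
  unfold PolS
  rw [Subring.mem_map]
  constructor
  · rintro ⟨F, hF, rfl⟩
    exact ⟨F, hF, fun ρ hρ => rfl⟩
  · rintro ⟨F, hF, h⟩
    refine ⟨F, hF, ?_⟩
    funext x
    exact (h x.1 x.2).symm

lemma PolG.ent {ι : Type} {n m : ℕ} {S : Set (ι → G n)} {Φ : (ι → G n) → G m} (h : PolG S Φ) :
    EntIn (PolS S) (fun x : S => (Φ x.1).1) := by
  intro i j
  obtain ⟨F, hF, h'⟩ := (h i j).1
  exact mem_PolS.2 ⟨F, hF, h'⟩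

lemma PolG.ent' {ι : Type} {n m : ℕ} {S : Set (ι → G n)} {Φ : (ι → G n) → G m} (h : PolG S Φ) :
    EntIn (PolS S) (fun x : S => ((Φ x.1)⁻¹).1) := by
  intro i j
  obtain ⟨F, hF, h'⟩ := (h i j).2
  exact mem_PolS.2 ⟨F, hF, h'⟩

lemma PolG.of_ent {ι : Type} {n m : ℕ} {S : Set (ι → G n)} {Φ : (ι → G n) → G m}
    (h : EntIn (PolS S) (fun x : S => (Φ x.1).1)) (h' : EntIn (PolS S) (fun x : S => ((Φ x.1)⁻¹).1)) :
    PolG S Φ := by
  intro i j
  obtain ⟨F, hF, h1⟩ := mem_PolS.1 (h i j)
  obtain ⟨F', hF', h1'⟩ := mem_PolS.1 (h' i j)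
  exact ⟨⟨F, hF, h1⟩, ⟨F', hF', h1'⟩⟩

/-- the subring of functions on a point -/
def ptS (O : Subring ℂ) : Subring (Unit → ℂ) := O.comap (Pi.evalRingHom _ ())

lemma ent_pt {n : ℕ} {O : Subring ℂ} {M : Matrix (Fin n) (Fin n) ℂ} :
    EntIn (ptS O) (fun _ => M) ↔ ∀ i j, M i j ∈ O := Iff.rfl

/-! ### the block structures of the glued matrix -/

variable {c d c' d' : List Bool} {g h : Bool → G n} {ζ : G n} {nn : Bool × Bool → G n}

lemma tri_snd {c d c' d' : List Bool} (h1 : c.length = d.length) (h2 : c'.length = d'.length)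
    {P : Matrix (Fin n) (Fin n) ℂ} (h : Tri (lb n (jl c d)) (lb n (jl c' d')) P) :
    Tri (lb n d) (lb n d') P := by
  intro i j hij
  apply h
  intro hle
  apply hij
  rcases hi : lb n (jl c d) i with ⟨a, x⟩ | ⟨⟩
  · rcases hj : lb n (jl c' d') j with ⟨a', x'⟩ | ⟨⟩
    · rw [hi, hj, Sum.inl_le_inl_iff] at hle
      rw [lb_eq_inl.2 (jl_lab.1 (lb_eq_inl.1 hi)).2, lb_eq_inl.2 (jl_lab.1 (lb_eq_inl.1 hj)).2,
        Sum.inl_le_inl_iff]
      exact hle.2
    · rw [hi, hj] at hle
      exact absurd hle (by simp)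
  · rcases hj : lb n (jl c' d') j with ⟨a', x'⟩ | ⟨⟩
    · rw [hi, hj] at hle
      exact absurd hle (by simp)
    · rw [lb_eq_inr, jl_length h1, h1] at hi
      rw [lb_eq_inr, jl_length h2, h2] at hj
      rw [lb_eq_inr.2 hi, lb_eq_inr.2 hj]

lemma cnt_fst (h1 : c.length = d.length) (h2 : c'.length = d'.length)
    (hcnt : ∀ l, (jl c d).count l = (jl c' d').count l) (e : Bool) : c.count e = c'.count e := by
  rw [jl_count_fst h1, jl_count_fst h2, hcnt, hcnt]

lemma glM_blk_fst (h1 : c.length = d.length) (h2 : c'.length = d'.length) (hlen : c.length ≤ n)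
    (hcnt : ∀ l, (jl c d).count l = (jl c' d').count l)
    (hG : GlueData c d c' d' nn g h ζ) (a : Bool) :
    blk (lb n c) (lb n c') (Sum.inl a) (glM c d c' d' g h ζ) = (g a).1 := by
  have hcs := cs_eq hlen (cnt_fst h1 h2 hcnt)
  ext s t
  by_cases hst : s.1 < cs (lb n c) (Sum.inl a) ∧ t.1 < cs (lb n c) (Sum.inl a)
  · have ht : t.1 < cs (lb n c') (Sum.inl a) := by rw [← hcs]; exact hst.2
    have e1 := pos_label (lb n c) (Sum.inl a) s hst.1
    have e2 := pos_label (lb n c') (Sum.inl a) t ht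
    have e3 := ci_pos (lb n c) (Sum.inl a) s hst.1
    have e4 := ci_pos (lb n c') (Sum.inl a) t ht
    unfold blk
    rw [if_pos hst]
    generalize pos (lb n c) (Sum.inl a) s = i at e1 e3 ⊢
    generalize pos (lb n c') (Sum.inl a) t = j at e2 e4 ⊢
    unfold glM
    rw [if_pos (by rw [e1, e2])]
    rw [← e3, ← e4]
    conv_lhs => rw [e1]
    rfl
  · have hst' : cs (lb n c) (Sum.inl a) ≤ s.1 ∨ cs (lb n c) (Sum.inl a) ≤ t.1 := by
      by_contra hcon
      push Not at hcon
      exact hst hcon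
    rw [blk_out _ _ _ _ _ _ hst']
    rw [cs_lb _ _ hlen] at hst'
    have h3 := (hG.1 a).mem
    rw [restr_length h1] at h3
    exact (h3 s t hst').symm

lemma glM_blk_snd (h1 : c.length = d.length) (h2 : c'.length = d'.length) (hlen : c.length ≤ n)
    (hcnt : ∀ l, (jl c d).count l = (jl c' d').count l)
    (hG : GlueData c d c' d' nn g h ζ) (x : Bool) :
    blk (lb n d) (lb n d') (Sum.inl x) (glM c d c' d' g h ζ) = (h x).1 := by
  have hcnt' : ∀ e, d.count e = d'.count e := by
    apply cnt_fst h1.symm h2.symm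
    rintro ⟨p, q⟩
    rw [jl_count_swap c d, jl_count_swap c' d']; exact hcnt _
  have hlen' : d.length ≤ n := h1 ▸ hlen
  have hcs := cs_eq hlen' hcnt'
  ext s t
  by_cases hst : s.1 < cs (lb n d) (Sum.inl x) ∧ t.1 < cs (lb n d) (Sum.inl x)
  · have ht : t.1 < cs (lb n d') (Sum.inl x) := by rw [← hcs]; exact hst.2
    have e1 := pos_label (lb n d) (Sum.inl x) s hst.1
    have e2 := pos_label (lb n d') (Sum.inl x) t ht
    have e3 := ci_pos (lb n d) (Sum.inl x) s hst.1
    have e4 := ci_pos (lb n d') (Sum.inl x) t ht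
    unfold blk
    rw [if_pos hst]
    generalize pos (lb n d) (Sum.inl x) s = i at e1 e3 ⊢
    generalize pos (lb n d') (Sum.inl x) t = j at e2 e4 ⊢
    rw [← e3, ← e4]
    unfold glM
    by_cases e5 : lb n c i = lb n c' j
    · rw [if_pos e5]
      rcases lb_cases h1 i with ⟨a, x', hi, hi'⟩ | ⟨hi, hi'⟩
      · have e6 : x' = x := by
          have := lb_eq_inl.1 e1
          rw [hi'] at this
          exact Option.some_injective _ this
        subst e6
        have hj : lab c' j.1 = some a := by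
          rw [← lb_eq_inl, ← e5, lb_eq_inl]; exact hi
        rw [glue_F1' h1 h2 hG hi hi' hj (lb_eq_inl.1 e2), ← glue_F1 h1 h2 hG hi hi' hj (lb_eq_inl.1 e2)]
        conv_lhs => rw [lb_eq_inl.2 hi]
        rfl
      · rw [lb_eq_inr.2 hi'] at e1
        exact absurd e1 (by simp)
    · rw [if_neg e5, if_pos (by rw [e1, e2])]
      conv_lhs => rw [e1]
      rfl
  · have hst' : cs (lb n d) (Sum.inl x) ≤ s.1 ∨ cs (lb n d) (Sum.inl x) ≤ t.1 := by
      by_contra hcon
      push Not at hcon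
      exact hst hcon
    rw [blk_out _ _ _ _ _ _ hst']
    rw [cs_lb _ _ hlen'] at hst'
    have h3 := (hG.2.1 x).mem
    rw [restr_length h1.symm] at h3
    exact (h3 s t hst').symm

lemma glU_mem (h1 : c.length = d.length) (h2 : c'.length = d'.length) (hlen : c.length ≤ n)
    (hcnt : ∀ l, (jl c d).count l = (jl c' d').count l)
    (hG : GlueData c d c' d' nn g h ζ) : glU c d c' d' g h ζ ∈ GLk n c.length := by
  intro i j hij
  rw [glU_val h1 h2 hlen hcnt hG]
  exact glM_out h1 h2 hcnt i j hij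

lemma glU_isPar (h1 : c.length = d.length) (h2 : c'.length = d'.length) (hlen : c.length ≤ n)
    (hcnt : ∀ l, (jl c d).count l = (jl c' d').count l)
    (hG : GlueData c d c' d' nn g h ζ) :
    IsPar (jl c d) (jl c' d') nn (glU c d c' d' g h ζ) := by
  apply IsPar.mk'
  · rw [jl_length h1]; exact hlen
  · intro l; rw [count_prod, count_prod]; exact hcnt l
  · rw [jl_length h1]; exact glU_mem h1 h2 hlen hcnt hG
  · rintro ⟨a, x⟩
    rw [count_prod]
    have h3 := (hG.1 a).blk x
    rwa [restr_count] at h3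
  · rw [glU_val h1 h2 hlen hcnt hG]; exact glM_tri h1 h2 hcnt hG
  · intro l
    rw [glU_val h1 h2 hlen hcnt hG]; exact glM_blk h1 h2 hlen hcnt hG l

lemma glU_isPar_fst (h1 : c.length = d.length) (h2 : c'.length = d'.length) (hlen : c.length ≤ n)
    (hcnt : ∀ l, (jl c d).count l = (jl c' d').count l)
    (hG : GlueData c d c' d' nn g h ζ) : IsPar c c' g (glU c d c' d' g h ζ) := by
  apply IsPar.mk' hlen (cnt_fst h1 h2 hcnt) (glU_mem h1 h2 hlen hcnt hG)
  · intro a
    have h3 := (hG.1 a).mem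
    rwa [restr_length h1] at h3
  · rw [glU_val h1 h2 hlen hcnt hG]; exact tri_fst h1 h2 (glM_tri h1 h2 hcnt hG)
  · intro a
    rw [glU_val h1 h2 hlen hcnt hG]; exact glM_blk_fst h1 h2 hlen hcnt hG a

lemma glU_isPar_snd (h1 : c.length = d.length) (h2 : c'.length = d'.length) (hlen : c.length ≤ n)
    (hcnt : ∀ l, (jl c d).count l = (jl c' d').count l)
    (hG : GlueData c d c' d' nn g h ζ) : IsPar d d' h (glU c d c' d' g h ζ) := by
  have hcnt' : ∀ e, d.count e = d'.count e := by
    apply cnt_fst h1.symm h2.symm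
    rintro ⟨p, q⟩
    rw [jl_count_swap c d, jl_count_swap c' d']; exact hcnt _
  apply IsPar.mk' (h1 ▸ hlen) hcnt' (h1 ▸ glU_mem h1 h2 hlen hcnt hG)
  · intro x
    have h3 := (hG.2.1 x).mem
    rwa [restr_length h1.symm] at h3
  · rw [glU_val h1 h2 hlen hcnt hG]; exact tri_snd h1 h2 (glM_tri h1 h2 hcnt hG)
  · intro x
    rw [glU_val h1 h2 hlen hcnt hG]; exact glM_blk_snd h1 h2 hlen hcnt hG x


/-! ### every block triangular matrix is glued -/

lemma count_add_count_le (l : List (Bool × Bool)) {p q : Bool × Bool} (hpq : p ≠ q) :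
    l.count p + l.count q ≤ l.length := by
  induction l with
  | nil => simp
  | cons r l ih =>
    rw [List.count_cons, List.count_cons, List.length_cons]
    by_cases h1 : r = p
    · have h2 : r ≠ q := h1 ▸ hpq
      simp [h1, hpq]
      omega
    · by_cases h2 : r = q
      · simp [h2, Ne.symm hpq]
        omega
      · simp [h1, h2]
        omega

/-- the corner of `L` -/
noncomputable def crn (c d c' d' : List Bool) (L : Matrix (Fin n) (Fin n) ℂ) :
    Matrix (Fin n) (Fin n) ℂ :=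
  fun s t => if s.1 < (jl c d).count (false, false) ∧ (jl c d).count (false, false) ≤ t.1 ∧
      t.1 < (jl c d).count (false, false) + (jl c d).count (true, true) then
    L (pos (lb n (jl c d)) (Sum.inl (false, false)) s)
      (pos (lb n (jl c' d')) (Sum.inl (true, true)) ⟨t.1 - (jl c d).count (false, false), by omega⟩)
  else 0

lemma crn_sq (c d c' d' : List Bool) (L : Matrix (Fin n) (Fin n) ℂ) :
    crn c d c' d' L * crn c d c' d' L = 0 := by
  ext s t
  rw [Matrix.mul_apply, Matrix.zero_apply]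
  apply Finset.sum_eq_zero
  intro k _
  by_cases hk : k.1 < (jl c d).count (false, false)
  · have : crn c d c' d' L s k = 0 := by
      unfold crn
      rw [if_neg]
      rintro ⟨_, h1, _⟩
      omega
    rw [this, zero_mul]
  · have : crn c d c' d' L k t = 0 := by
      unfold crn
      rw [if_neg]
      rintro ⟨h1, _, _⟩
      omega
    rw [this, mul_zero]

/-- the corner unit -/
noncomputable def crnU (c d c' d' : List Bool) (L : Matrix (Fin n) (Fin n) ℂ) : G n where
  val := 1 + crn c d c' d' L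
  inv := 1 - crn c d c' d' L
  val_inv := by
    rw [mul_sub, add_mul, add_mul, crn_sq]
    simp
  inv_val := by
    rw [mul_add, sub_mul, sub_mul, crn_sq]
    simp

lemma crnU_mem (h1 : c.length = d.length) (L : Matrix (Fin n) (Fin n) ℂ) :
    crnU c d c' d' L ∈ GLk n c.length := by
  intro s t hst
  change (1 + crn c d c' d' L) s t = _
  have h2 := count_add_count_le (jl c d) (show ((false, false) : Bool × Bool) ≠ (true, true) by decide)
  rw [jl_length h1] at h2
  have : crn c d c' d' L s t = 0 := by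
    unfold crn
    rw [if_neg]
    rintro ⟨h3, h4, h5⟩
    omega
  rw [Matrix.add_apply, this, add_zero, Matrix.one_apply]

lemma crnU_apply (h1 : c.length = d.length) (hlen : c.length ≤ n)
    (hcnt : ∀ l, (jl c d).count l = (jl c' d').count l) (L : Matrix (Fin n) (Fin n) ℂ) {i j : Fin n}
    (hi : lb n (jl c d) i = Sum.inl (false, false)) (hj : lb n (jl c' d') j = Sum.inl (true, true)) :
    (crnU c d c' d' L).1 (ci (lb n (jl c d)) i)
        (cidx ((jl c d).count (false, false)) (ci (lb n (jl c' d')) j)) = L i j := by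
  have e1 : (ci (lb n (jl c d)) i).1 < (jl c d).count (false, false) := by
    rw [← cs_jl_inl h1 hlen]; exact ci_lt _ hi
  have e2 : (ci (lb n (jl c' d')) j).1 < (jl c d).count (true, true) := by
    rw [← cs_jl_inl h1 hlen, cs_jl h1 hlen hcnt]; exact ci_lt _ hj
  have h2 := count_add_count_le (jl c d) (show ((false, false) : Bool × Bool) ≠ (true, true) by decide)
  rw [jl_length h1] at h2
  have e3 : (cidx ((jl c d).count (false, false)) (ci (lb n (jl c' d')) j)).1 =
      (jl c d).count (false, false) + (ci (lb n (jl c' d')) j).1 := by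
    unfold cidx
    rw [dif_pos (by omega)]
  change (1 + crn c d c' d' L) _ _ = _
  rw [Matrix.add_apply, Matrix.one_apply_ne, zero_add]
  · unfold crn
    rw [if_pos ⟨e1, by omega, by omega⟩]
    congr 1
    · rw [pos_ci' _ hi]
    · have e4 : (⟨(cidx ((jl c d).count (false, false)) (ci (lb n (jl c' d')) j)).1 -
          (jl c d).count (false, false), by omega⟩ : Fin n) = ci (lb n (jl c' d')) j := by
        apply Fin.ext
        simp only
        omega
      rw [e4, pos_ci' _ hj]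
  · intro h3
    have h4 := congrArg Fin.val h3
    omega

lemma bool_aux : ∀ (a a' x x' : Bool), a ≠ a' → x ≠ x' → a ≤ a' → x ≤ x' →
    a = false ∧ a' = true ∧ x = false ∧ x' = true := by
  decide

lemma glM_crn (h1 : c.length = d.length) (h2 : c'.length = d'.length) {L : G n}
    (hL : IsPar (jl c d) (jl c' d') nn L) (hg : IsPar c c' g L) (hh : IsPar d d' h L) :
    glM c d c' d' g h (crnU c d c' d' L.1) = L.1 := by
  have hcnt : ∀ l, (jl c d).count l = (jl c' d').count l := hL.cnt2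
  have hlen : c.length ≤ n := hg.len
  have hl := len_eq_of_cnt h1 h2 hcnt
  ext i j
  by_cases hij : c.length ≤ i.1 ∨ c.length ≤ j.1
  · rw [glM_out h1 h2 hcnt i j hij]
    exact (hg.mem i j hij).symm
  · rcases lb_cases h1 i with ⟨a, x, hi, hi'⟩ | ⟨hi, hi'⟩
    · rcases lb_cases h2 j with ⟨a', x', hj, hj'⟩ | ⟨hj, hj'⟩
      · unfold glM
        rw [lb_eq_inl.2 hi, lb_eq_inl.2 hi', lb_eq_inl.2 hj, lb_eq_inl.2 hj']
        split_ifs with e1 e2 e3
        · have e4 : a = a' := Sum.inl_injective e1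
          subst e4
          exact (hg.diag i j _ _ a hi hj (ci_lb hi) (ci_lb hj)).symm
        · have e4 : x = x' := Sum.inl_injective e2
          subst e4
          exact (hh.diag i j _ _ x hi' hj' (ci_lb hi') (ci_lb hj')).symm
        · obtain ⟨⟨e4, e5⟩, e6, e7⟩ := e3
          have f4 := Sum.inl_injective e4
          have f5 := Sum.inl_injective e5
          have f6 := Sum.inl_injective e6
          have f7 := Sum.inl_injective e7
          subst f4 f5 f6 f7
          exact crnU_apply h1 hlen hcnt L.1 (lb_eq_inl.2 (jl_lab.2 ⟨hi, hi'⟩))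
            (lb_eq_inl.2 (jl_lab.2 ⟨hj, hj'⟩))
        · symm
          apply hL.zero i j (a, x) (a', x') (jl_lab.2 ⟨hi, hi'⟩) (jl_lab.2 ⟨hj, hj'⟩)
          rintro ⟨h3, h4⟩
          simp only at h3 h4
          obtain ⟨f1, f2, f3, f4⟩ := bool_aux a a' x x' (fun h => e1 (h ▸ rfl)) (fun h => e2 (h ▸ rfl))
            h3 h4
          subst f1 f2 f3 f4
          exact e3 ⟨⟨rfl, rfl⟩, rfl, rfl⟩
      · exfalso; omega
    · exfalso; omega

theorem glue_holds (n : ℕ) : Glue n := by
  intro c d c' d' h1 h2 hlen hcnt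
  refine ⟨glU c d c' d', ?_, ?_, ?_, ?_⟩
  · intro ι S g h ζ hg hh hζ hS
    apply PolG.of_ent
    · have key := glM_ent (c := c) (d := d) (c' := c') (d' := d')
        (fun b => (hg b).ent) (fun b => (hh b).ent) hζ.ent
      have e : (fun x : S => (glU c d c' d' (fun b => g b x.1) (fun b => h b x.1) (ζ x.1)).1) =
          (fun x : S => glM c d c' d' (fun b => g b x.1) (fun b => h b x.1) (ζ x.1)) := by
        funext x
        obtain ⟨nn, hG⟩ := hS x.1 x.2
        exact glU_val h1 h2 hlen hcnt hG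
      rw [e]
      exact key
    · have key := glM_inv_ent (c := c) (d := d) (c' := c') (d' := d')
        (fun b => (hg b).ent) (fun b => (hh b).ent) hζ.ent
        (fun b => (hg b).ent') (fun b => (hh b).ent')
      convert key using 2 with x
      obtain ⟨nn, hG⟩ := hS x.1 x.2
      exact glU_inv_val h1 h2 hlen hcnt hG
  · rintro O g h ζ hg hh hζ ⟨nn, hG⟩ i j
    rw [glU_val h1 h2 hlen hcnt hG, glU_inv_val h1 h2 hlen hcnt hG]
    have kg : ∀ b, EntIn (ptS O) (fun _ => (g b).1) := fun b => ent_pt.2 fun i j => (hg b i j).1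
    have kg' : ∀ b, EntIn (ptS O) (fun _ => ((g b)⁻¹).1) := fun b => ent_pt.2 fun i j => (hg b i j).2
    have kh : ∀ b, EntIn (ptS O) (fun _ => (h b).1) := fun b => ent_pt.2 fun i j => (hh b i j).1
    have kh' : ∀ b, EntIn (ptS O) (fun _ => ((h b)⁻¹).1) := fun b => ent_pt.2 fun i j => (hh b i j).2
    have kz : EntIn (ptS O) (fun _ => ζ.1) := ent_pt.2 fun i j => (hζ i j).1
    constructor
    · exact ent_pt.1 (glM_ent (g := fun b _ => g b) (h := fun b _ => h b) (ζ := fun _ => ζ) kg kh kz) i j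
    · exact ent_pt.1 (glM_inv_ent (g := fun b _ => g b) (h := fun b _ => h b) (ζ := fun _ => ζ)
        kg kh kz kg' kh') i j
  · intro nn g h ζ hG
    exact ⟨glU_isPar h1 h2 hlen hcnt hG, glU_isPar_fst h1 h2 hlen hcnt hG,
      glU_isPar_snd h1 h2 hlen hcnt hG⟩
  · intro nn g h L hL hg hh
    have hζ : crnU c d c' d' L.1 ∈ GLk n c.length := crnU_mem h1 L.1
    refine ⟨crnU c d c' d' L.1, hζ, ?_⟩
    obtain ⟨g', h', hg', hh', k1, k2⟩ := extract_holds n c d c' d' h1 h2 nn L hL
    have eg : g = g' := hg.unique hg'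
    have eh : h = h' := hh.unique hh'
    subst eg eh
    have hG : GlueData c d c' d' nn g h (crnU c d c' d' L.1) := ⟨k1, k2, hζ⟩
    apply Units.ext
    rw [glU_val h1 h2 hlen hcnt hG]
    exact glM_crn h1 h2 hL hg hh

end glue

end Crest.Agent.R003
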