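import Crest.Agent.R003.Grp486
import Crest.Agent.R003.Iface

-- ▼ part R003/Base412
section

/-!
# Row 3: basics used by the steps S2, S4 (helper412)
-/

set_option autoImplicit false

namespace Crest.Agent.R003.W412

open Crest.Agent.R003

/-! ### words: nil, cons, append -/

section words
variable {n : ℕ} (ρ : ℕ → G n) (l : Lt) (u v : Wd) (k : ℕ) (d : Option (List Bool)) (O : Subring ℂ)

theorem ev_nil : Wd.eval ρ [] = 1 := rfl
theorem ev_cons : Wd.eval ρ (l :: u) = Lt.eval ρ l * Wd.eval ρ u := by simp [Wd.eval]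
theorem ev_app : Wd.eval ρ (u ++ v) = Wd.eval ρ u * Wd.eval ρ v := by simp [Wd.eval]

theorem sat_cons : Wd.Sat ρ (l :: u) k ↔ Lt.Sat ρ k l ∧ Wd.Sat ρ u k := by simp [Wd.Sat]
theorem sat_app : Wd.Sat ρ (u ++ v) k ↔ Wd.Sat ρ u k ∧ Wd.Sat ρ v k := by
  simp only [Wd.Sat, List.mem_append]
  exact ⟨fun h => ⟨fun l hl => h l (Or.inl hl), fun l hl => h l (Or.inr hl)⟩,
    fun h l hl => hl.elim (h.1 l) (h.2 l)⟩

theorem last_app : Wd.last (u ++ v) d = Wd.last v (Wd.last u d) := by
  induction u generalizing d with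
  | nil => rfl
  | cons l w ih => cases l <;> simp only [List.cons_append, Wd.last, ih]

theorem wf_app : Wd.WF O (u ++ v) k d ↔ Wd.WF O u k d ∧ Wd.WF O v k (Wd.last u d) := by
  induction u generalizing d with
  | nil => simp [Wd.WF, Wd.last]
  | cons l w ih => cases l <;> simp only [List.cons_append, Wd.WF, Wd.last, ih, and_assoc]

theorem occ_nil : Wd.occ [] k = 0 := rfl
theorem occ_cons : Wd.occ (l :: u) k = Lt.occ k l + Wd.occ u k := by simp [Wd.occ]
theorem occ_app : Wd.occ (u ++ v) k = Wd.occ u k + Wd.occ v k := by simp [Wd.occ]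
theorem pn_nil : Wd.pn [] = 0 := rfl
theorem pn_cons : Wd.pn (l :: u) = Lt.pn l + Wd.pn u := by simp [Wd.pn]
theorem pn_app : Wd.pn (u ++ v) = Wd.pn u + Wd.pn v := by simp [Wd.pn]
theorem wt_nil : Wd.wt [] k = 0 := rfl
theorem wt_cons : Wd.wt (l :: u) k = Lt.wt k l + Wd.wt u k := by simp [Wd.wt]
theorem wt_app : Wd.wt (u ++ v) k = Wd.wt u k + Wd.wt v k := by simp [Wd.wt]

variable {u v k d O}

theorem wf_none (h : Wd.WF O u k none) : Wd.WF O u k d := by
  cases u with
  | nil => trivial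
  | cons l w =>
    cases l with
    | full x ε => exact h
    | par p e σ c c' g =>
      obtain ⟨h1, h2, h3, h4⟩ := h
      refine ⟨h1, h2, Or.inl ?_, h4⟩
      rcases h3 with h3 | h3
      · exact h3
      · cases h3

theorem full_cons : Wd.isFull (l :: u) ↔ l.IsFull ∧ Wd.isFull u := by simp [Wd.isFull]

theorem last_full (h : Wd.isFull u) : Wd.last u none = none := by
  induction u with
  | nil => rfl
  | cons l w ih =>
    rw [full_cons] at h
    cases l with
    | full x ε => exact ih h.2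
    | par p e σ c c' g => exact h.1.elim

theorem wf_full (h : Wd.isFull u) : Wd.WF O u k d := by
  induction u generalizing d with
  | nil => trivial
  | cons l w ih =>
    rw [full_cons] at h
    cases l with
    | full x ε => exact ih h.2
    | par p e σ c c' g => exact h.1.elim

/-- the last labels of a nonempty word do not depend on the start -/
theorem last_ne_nil (h : u ≠ []) (d d' : Option (List Bool)) : Wd.last u d = Wd.last u d' := by
  cases u with
  | nil => exact absurd rfl h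
  | cons l w => cases l <;> rfl

theorem eval_mem_full {ρ : ℕ → G n} (h : Wd.isFull u) (hs : Wd.Sat ρ u k) :
    Wd.eval ρ u ∈ GLk n k := by
  induction u with
  | nil => exact (GLk n k).one_mem
  | cons l w ih =>
    rw [full_cons] at h
    rw [sat_cons] at hs
    rw [ev_cons]
    refine (GLk n k).mul_mem ?_ (ih h.2 hs.2)
    cases l with
    | full x ε =>
      have := hs.1
      simp only [Lt.eval, Lt.Sat] at this ⊢
      split_ifs
      · exact this
      · exact (GLk n k).inv_mem this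
    | par p e σ c c' g => exact h.1.elim

theorem pn_full (h : Wd.isFull u) : Wd.pn u = 0 := by
  induction u with
  | nil => rfl
  | cons l w ih =>
    rw [full_cons] at h
    rw [pn_cons, ih h.2]
    cases l with
    | full x ε => rfl
    | par p e σ c c' g => exact h.1.elim

end words

/-! ### congruence -/

/-- the names of a word (of rank `k`) -/
def nm (w : Wd) (k : ℕ) : Set ℕ := {x | (∃ j ε, (x, j, ε) ∈ Wd.occ w k) ∨ x ∈ Wd.pn w}

theorem nm_cons_left {l : Lt} {w : Wd} {k x : ℕ}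
    (h : (∃ j ε, (x, j, ε) ∈ Lt.occ k l) ∨ x ∈ Lt.pn l) : x ∈ nm (l :: w) k := by
  rcases h with ⟨j, ε, h⟩ | h
  · exact Or.inl ⟨j, ε, by rw [occ_cons]; exact Multiset.mem_add.2 (Or.inl h)⟩
  · exact Or.inr (by rw [pn_cons]; exact Multiset.mem_add.2 (Or.inl h))

theorem nm_cons_right {l : Lt} {w : Wd} {k x : ℕ} (h : x ∈ nm w k) : x ∈ nm (l :: w) k := by
  rcases h with ⟨j, ε, h⟩ | h
  · exact Or.inl ⟨j, ε, by rw [occ_cons]; exact Multiset.mem_add.2 (Or.inr h)⟩
  · exact Or.inr (by rw [pn_cons]; exact Multiset.mem_add.2 (Or.inr h))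

theorem lt_congr {n k : ℕ} {ρ ρ' : ℕ → G n} (l : Lt)
    (h : ∀ x, ((∃ j ε, (x, j, ε) ∈ Lt.occ k l) ∨ x ∈ Lt.pn l) → ρ x = ρ' x) :
    Lt.eval ρ l = Lt.eval ρ' l ∧ (Lt.Sat ρ k l ↔ Lt.Sat ρ' k l) := by
  cases l with
  | full x ε =>
    have h1 : ρ x = ρ' x := h x (Or.inl ⟨k, ε, by simp [Lt.occ]⟩)
    simp only [Lt.eval, Lt.Sat, h1, and_self]
  | par p e σ c c' g =>
    have h1 : ρ p = ρ' p := h p (Or.inr (by simp [Lt.pn]))
    have h2 : ∀ b, ρ (g b) = ρ' (g b) := by
      intro b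
      refine h (g b) (Or.inl ⟨c.count b, true, ?_⟩)
      cases b <;> simp [Lt.occ]
    simp only [Lt.eval, Lt.Sat, h1, h2, and_self]

theorem eval_congr {n : ℕ} {ρ ρ' : ℕ → G n} (w : Wd) (k : ℕ) (h : ∀ x ∈ nm w k, ρ x = ρ' x) :
    Wd.eval ρ w = Wd.eval ρ' w := by
  induction w with
  | nil => rfl
  | cons l w ih =>
    rw [ev_cons, ev_cons, ih fun x hx => h x (nm_cons_right hx),
      (lt_congr (k := k) l fun x hx => h x (nm_cons_left hx)).1]

theorem sat_congr {n : ℕ} {ρ ρ' : ℕ → G n} (w : Wd) (k : ℕ) (h : ∀ x ∈ nm w k, ρ x = ρ' x) :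
    Wd.Sat ρ w k ↔ Wd.Sat ρ' w k := by
  induction w with
  | nil => simp [Wd.Sat]
  | cons l w ih =>
    rw [sat_cons, sat_cons, ih fun x hx => h x (nm_cons_right hx),
      (lt_congr (k := k) l fun x hx => h x (nm_cons_left hx)).2]

/-! ### polynomial maps -/

theorem polG_name {ι : Type} {n : ℕ} (S : Set (ι → G n)) (x : ι) : PolG S (fun ρ => ρ x) :=
  fun i j => ⟨⟨_, Algebra.subset_adjoin (Or.inl ⟨x, i, j, rfl⟩), fun _ _ => rfl⟩,
    ⟨_, Algebra.subset_adjoin (Or.inr ⟨x, i, j, rfl⟩), fun _ _ => rfl⟩⟩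

theorem polG_const {ι : Type} {n m : ℕ} (S : Set (ι → G n)) (g : G m) :
    PolG S (fun _ => g) :=
  fun i j => ⟨⟨fun _ => g.1 i j, (Pol ι n).algebraMap_mem (g.1 i j), fun _ _ => rfl⟩,
    ⟨fun _ => (g⁻¹).1 i j, (Pol ι n).algebraMap_mem ((g⁻¹).1 i j), fun _ _ => rfl⟩⟩

theorem polG_inv {ι : Type} {n m : ℕ} {S : Set (ι → G n)} {Φ : (ι → G n) → G m}
    (h : PolG S Φ) : PolG S (fun ρ => (Φ ρ)⁻¹) := by
  intro i j
  obtain ⟨⟨F, hF, h1⟩, ⟨F', hF', h2⟩⟩ := h i j
  exact ⟨⟨F', hF', h2⟩, ⟨F, hF, fun ρ hρ => by rw [inv_inv, h1 ρ hρ]⟩⟩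

theorem pol_mulaux {ι : Type} {n m : ℕ} {S : Set (ι → G n)}
    {A B : (ι → G n) → Matrix (Fin m) (Fin m) ℂ}
    (hA : ∀ i j, ∃ F ∈ Pol ι n, ∀ ρ ∈ S, A ρ i j = F ρ)
    (hB : ∀ i j, ∃ F ∈ Pol ι n, ∀ ρ ∈ S, B ρ i j = F ρ) (i j : Fin m) :
    ∃ F ∈ Pol ι n, ∀ ρ ∈ S, (A ρ * B ρ) i j = F ρ := by
  choose f hf hf' using hA
  choose g hg hg' using hB
  refine ⟨∑ l, f i l * g l j, Subalgebra.sum_mem _ fun l _ => Subalgebra.mul_mem _ (hf _ _) (hg _ _), ?_⟩
  intro ρ hρ
  rw [Matrix.mul_apply, Finset.sum_apply]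
  exact Finset.sum_congr rfl fun l _ => by rw [hf' _ _ ρ hρ, hg' _ _ ρ hρ]; rfl

theorem polG_mul {ι : Type} {n m : ℕ} {S : Set (ι → G n)} {Φ Ψ : (ι → G n) → G m}
    (h : PolG S Φ) (h' : PolG S Ψ) : PolG S (fun ρ => Φ ρ * Ψ ρ) := by
  intro i j
  constructor
  · exact pol_mulaux (fun i j => (h i j).1) (fun i j => (h' i j).1) i j
  · obtain ⟨F, hF, hF'⟩ := pol_mulaux (fun i j => (h' i j).2) (fun i j => (h i j).2) i j
    exact ⟨F, hF, fun ρ hρ => by rw [← hF' ρ hρ, _root_.mul_inv_rev, Units.val_mul]⟩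

theorem polG_lt {n : ℕ} (S : Set (ℕ → G n)) (l : Lt) : PolG S (fun ρ => Lt.eval ρ l) := by
  cases l with
  | full x ε =>
    cases ε
    · exact polG_inv (polG_name S x)
    · exact polG_name S x
  | par p e σ c c' g => exact polG_mul (polG_const S _) (polG_name S p)

theorem polG_eval {n : ℕ} (S : Set (ℕ → G n)) (w : Wd) : PolG S (fun ρ => Wd.eval ρ w) := by
  induction w with
  | nil => exact polG_const S 1
  | cons l w ih =>
    simp only [ev_cons]
    exact polG_mul (polG_lt S l) ih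

theorem pol_comp {ι ι' : Type} {n : ℕ} {S : Set (ι → G n)} {Φ : (ι → G n) → (ι' → G n)}
    (h : ∀ z, PolG S (fun ρ => Φ ρ z)) {F : (ι' → G n) → ℂ} (hF : F ∈ Pol ι' n) :
    ∃ F' ∈ Pol ι n, ∀ ρ ∈ S, F' ρ = F (Φ ρ) := by
  refine Algebra.adjoin_induction (p := fun F _ => ∃ F' ∈ Pol ι n, ∀ ρ ∈ S, F' ρ = F (Φ ρ))
    ?_ ?_ ?_ ?_ hF
  · rintro F (⟨x, i, j, rfl⟩ | ⟨x, i, j, rfl⟩)
    · obtain ⟨F', hF', h'⟩ := (h x i j).1
      exact ⟨F', hF', fun ρ hρ => (h' ρ hρ).symm⟩
    · obtain ⟨F', hF', h'⟩ := (h x i j).2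
      exact ⟨F', hF', fun ρ hρ => (h' ρ hρ).symm⟩
  · intro r
    exact ⟨_, (Pol ι n).algebraMap_mem r, fun _ _ => rfl⟩
  · rintro F1 F2 _ _ ⟨F1', h1, h1'⟩ ⟨F2', h2, h2'⟩
    exact ⟨F1' + F2', Subalgebra.add_mem _ h1 h2, fun ρ hρ => by
      simp only [Pi.add_apply, h1' ρ hρ, h2' ρ hρ]⟩
  · rintro F1 F2 _ _ ⟨F1', h1, h1'⟩ ⟨F2', h2, h2'⟩
    exact ⟨F1' * F2', Subalgebra.mul_mem _ h1 h2, fun ρ hρ => by
      simp only [Pi.mul_apply, h1' ρ hρ, h2' ρ hρ]⟩

/-- the (Map) lemma -/
theorem appr_map {ι ι' : Type} {n : ℕ} {O : Subring ℂ} {S' : Set (ι → G n)} {S : Set (ι' → G n)}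
    {Q' : Set ι} {Q : Set ι'} {ρ' : ι → G n} {ρ : ι' → G n}
    (Φ : (ι → G n) → (ι' → G n)) (hpol : ∀ z, PolG S' (fun ρ => Φ ρ z))
    (hsol : ∀ τ ∈ S', Φ τ ∈ S) (hint : ∀ τ ∈ S', (∀ x ∈ Q', τ x ∈ GO O n) → ∀ x ∈ Q, Φ τ x ∈ GO O n)
    (hρ' : ρ' ∈ S') (hρ : Φ ρ' = ρ) (h : Appr O S' Q' ρ') : Appr O S Q ρ := by
  intro F hF hv
  obtain ⟨F', hF', hc⟩ := pol_comp hpol hF
  rw [← hρ, ← hc ρ' hρ']
  refine h F' hF' fun τ hτ hτi => ?_
  rw [hc τ hτ]
  exact hv _ (hsol τ hτ) (hint τ hτ hτi)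

theorem GO_eval_full {n k : ℕ} {O : Subring ℂ} {ρ : ℕ → G n} {w : Wd} (hw : Wd.isFull w)
    (h : ∀ x ∈ nm w k, ρ x ∈ GO O n) : Wd.eval ρ w ∈ GO O n := by
  induction w with
  | nil => exact (GO O n).one_mem
  | cons l w ih =>
    rw [full_cons] at hw
    rw [ev_cons]
    refine (GO O n).mul_mem ?_ (ih hw.2 fun y hy => h y (nm_cons_right hy))
    cases l with
    | full x ε =>
      have := h x (nm_cons_left (Or.inl ⟨k, ε, by simp [Lt.occ]⟩))
      simp only [Lt.eval]
      split_ifs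
      · exact this
      · exact (GO O n).inv_mem this
    | par p e σ c c' g => exact hw.1.elim

end Crest.Agent.R003.W412
end

-- ▼ part R003/Red412
section

/-!
# Row 3: the general reduction lemma for steps that replace one root (helper412)
-/

set_option autoImplicit false

namespace Crest.Agent.R003.W412

open Crest.Agent.R003

/-- both occurrences of the full names in `V` -/
def pm (V : Multiset (ℕ × ℕ)) : Multiset (ℕ × ℕ × Bool) :=
  V.map (fun v => (v.1, v.2, true)) + V.map (fun v => (v.1, v.2, false))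

theorem pm_add (V W : Multiset (ℕ × ℕ)) : pm (V + W) = pm V + pm W := by
  simp only [pm, Multiset.map_add]
  abel

theorem pos_pm (V : Multiset (ℕ × ℕ)) :
    ((pm V).filter (fun v => v.2.2 = true)).map (fun v => (v.1, v.2.1)) = V := by
  simp only [pm, Multiset.filter_add, Multiset.map_add, Multiset.filter_map]
  simp

theorem lin_split {D V : Multiset (ℕ × ℕ)} {U : Multiset (ℕ × ℕ × Bool)}
    (h : pm D + U = pm V) : ∃ V0, V = D + V0 ∧ U = pm V0 := by
  refine ⟨(U.filter (fun v => v.2.2 = true)).map (fun v => (v.1, v.2.1)), ?_, ?_⟩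
  · rw [← pos_pm V, ← h, Multiset.filter_add, Multiset.map_add, pos_pm]
  · have hV : V = D + (U.filter (fun v => v.2.2 = true)).map (fun v => (v.1, v.2.1)) := by
      rw [← pos_pm V, ← h, Multiset.filter_add, Multiset.map_add, pos_pm]
    have h2 : pm D + U = pm D + pm ((U.filter (fun v => v.2.2 = true)).map (fun v => (v.1, v.2.1))) := by
      rw [← pm_add, ← hV, h]
    exact add_left_cancel h2

theorem mem_pm {V : Multiset (ℕ × ℕ)} {x j : ℕ} {ε : Bool} (h : (x, j, ε) ∈ pm V) :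
    x ∈ V.map Prod.fst := by
  simp only [pm, Multiset.mem_add, Multiset.mem_map] at h ⊢
  rcases h with ⟨a, ha, h⟩ | ⟨a, ha, h⟩
  · exact ⟨a, ha, (Prod.mk.inj h).1⟩
  · exact ⟨a, ha, (Prod.mk.inj h).1⟩

theorem pm_mem {V : Multiset (ℕ × ℕ)} {x : ℕ} (h : x ∈ V.map Prod.fst) :
    ∃ j, (x, j, true) ∈ pm V := by
  simp only [Multiset.mem_map] at h
  obtain ⟨a, ha, rfl⟩ := h
  exact ⟨a.2, by simp only [pm, Multiset.mem_add, Multiset.mem_map]; exact Or.inl ⟨a, ha, rfl⟩⟩

/-- all occurrences in a list of roots -/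
def occs (L : List Root) : Multiset (ℕ × ℕ × Bool) := (L.map Root.occ).sum
/-- all P-names in a list of roots -/
def pns (L : List Root) : Multiset ℕ := (L.map Root.pn).sum


/-- the set of names of a pair (occurrences, P-names) -/
def nmU (U : Multiset (ℕ × ℕ × Bool)) (P : Multiset ℕ) : Set ℕ :=
  {x | (∃ j ε, (x, j, ε) ∈ U) ∨ x ∈ P}

theorem nmU_mono {U U' : Multiset (ℕ × ℕ × Bool)} {P P' : Multiset ℕ} (h : U ≤ U') (h' : P ≤ P') :
    nmU U P ⊆ nmU U' P' := by
  rintro x (⟨j, ε, hx⟩ | hx)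
  · exact Or.inl ⟨j, ε, Multiset.mem_of_le h hx⟩
  · exact Or.inr (Multiset.mem_of_le h' hx)

theorem sol_congr {n : ℕ} {ρ ρ' : ℕ → G n} (r : Root) (h : ∀ x ∈ nmU r.occ r.pn, ρ x = ρ' x)
    (hs : r.Sol ρ) : r.Sol ρ' := by
  refine ⟨(sat_congr r.w r.k h).1 hs.1, ?_⟩
  rw [← eval_congr r.w r.k h]
  exact hs.2

theorem occ_le_occs {r : Root} {L : List Root} (h : r ∈ L) : r.occ ≤ occs L :=
  List.single_le_sum (fun _ _ => Multiset.zero_le _) _ (List.mem_map_of_mem h)

theorem pn_le_pns {r : Root} {L : List Root} (h : r ∈ L) : r.pn ≤ pns L :=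
  List.single_le_sum (fun _ _ => Multiset.zero_le _) _ (List.mem_map_of_mem h)

/-- a bound for all names -/
theorem exists_bound (S : Sys) : ∃ N : ℕ, ∀ x ∈ S.names, x < N := by
  classical
  let T : Multiset ℕ := S.occ.map Prod.fst + S.pn + ((S.free.map Prod.fst : List ℕ) : Multiset ℕ)
  refine ⟨T.sum + 1, fun x hx => ?_⟩
  have hT : x ∈ T := by
    rcases hx with ⟨j, ε, hx⟩ | hx | hx
    · exact Multiset.mem_add.2 (Or.inl (Multiset.mem_add.2 (Or.inl
        (Multiset.mem_map.2 ⟨_, hx, rfl⟩))))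
    · exact Multiset.mem_add.2 (Or.inl (Multiset.mem_add.2 (Or.inr hx)))
    · exact Multiset.mem_add.2 (Or.inr (by simpa using hx))
  exact Nat.lt_succ_of_le (Multiset.single_le_sum (fun _ _ => Nat.zero_le _) _ hT)

/-- solutions of the new roots and free names -/
def newSol (n : ℕ) (news : List Root) (fnew : List (ℕ × ℕ)) : Set (ℕ → G n) :=
  {τ | (∀ r ∈ news, r.Sol τ) ∧ ∀ z ∈ fnew, τ z.1 ∈ GLk n z.2}

/-- names of a system in terms of a decomposition of its occurrences -/
theorem names_iff {S : Sys} {A B : Multiset (ℕ × ℕ)} {P P0 F0 F : Multiset ℕ}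
    (h1 : S.occ = pm (A + B)) (h2 : S.pn = P + P0)
    (h3 : ((S.free.map Prod.fst : List ℕ) : Multiset ℕ) = F0 + F) (x : ℕ) :
    x ∈ S.names ↔ (x ∈ A.map Prod.fst + P + F0 ∨ x ∈ B.map Prod.fst + P0 + F) := by
  have hfree : x ∈ S.free.map Prod.fst ↔ x ∈ F0 + F := by rw [← h3, Multiset.mem_coe]
  constructor
  · rintro (⟨j, ε, hx⟩ | hx | hx)
    · rw [h1] at hx
      have := mem_pm hx
      simp only [Multiset.map_add, Multiset.mem_add] at this ⊢
      tauto
    · rw [h2] at hx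
      simp only [Multiset.mem_add] at hx ⊢
      tauto
    · rw [hfree] at hx
      simp only [Multiset.mem_add] at hx ⊢
      tauto
  · intro hx
    have e1 : x ∈ (A + B).map Prod.fst → ∃ k ε, (x, k, ε) ∈ S.occ := by
      intro h
      obtain ⟨j, hj⟩ := pm_mem h
      exact ⟨j, true, by rw [h1]; exact hj⟩
    simp only [Multiset.map_add, Multiset.mem_add] at hx e1
    have e2 : x ∈ S.pn ↔ x ∈ P ∨ x ∈ P0 := by rw [h2, Multiset.mem_add]
    have e3 : x ∈ S.free.map Prod.fst ↔ x ∈ F0 ∨ x ∈ F := by rw [hfree, Multiset.mem_add]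
    change (∃ k ε, (x, k, ε) ∈ S.occ) ∨ x ∈ S.pn ∨ x ∈ S.free.map Prod.fst
    rw [e2, e3]
    rcases hx with ((h | h) | h) | ((h | h) | h)
    · exact Or.inl (e1 (Or.inl h))
    · exact Or.inr (Or.inl (Or.inl h))
    · exact Or.inr (Or.inr (Or.inl h))
    · exact Or.inl (e1 (Or.inr h))
    · exact Or.inr (Or.inl (Or.inr h))
    · exact Or.inr (Or.inr (Or.inr h))

/-- the removed names are distinct and disjoint from the kept ones -/
theorem old_nodup {O : Subring ℂ} {n : ℕ} {olds rest : List Root}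
    {fr : List (ℕ × ℕ)} {D : Multiset (ℕ × ℕ)}
    {U : Multiset (ℕ × ℕ × Bool)} {P P0 : Multiset ℕ}
    (hS : (⟨olds ++ rest, fr⟩ : Sys).WF O n)
    (hoccR : occs olds = pm D + U) (hpnR : pns olds = P + P0) :
    (D.map Prod.fst + P).Nodup ∧ ∀ z ∈ D.map Prod.fst + P, z ∉ nmU U P0 := by
  classical
  obtain ⟨V, hV, hVnd⟩ := hS.lin
  have hSocc : (⟨olds ++ rest, fr⟩ : Sys).occ = occs olds + occs rest := by simp [Sys.occ, occs]
  have hSpn : (⟨olds ++ rest, fr⟩ : Sys).pn = pns olds + pns rest := by simp [Sys.pn, pns]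
  obtain ⟨V0, rfl, hV0⟩ : ∃ V0, V = D + V0 ∧ U + occs rest = pm V0 := by
    refine lin_split ?_
    rw [hSocc, hoccR] at hV
    rw [← add_assoc, hV]; rfl
  have hnodup : ((D.map Prod.fst + P) + (V0.map Prod.fst + (P0 + pns rest) +
      ((fr.map Prod.fst : List ℕ) : Multiset ℕ))).Nodup := by
    have : (D + V0).map Prod.fst + (⟨olds ++ rest, fr⟩ : Sys).pn +
        ((fr.map Prod.fst : List ℕ) : Multiset ℕ) =
        (D.map Prod.fst + P) + (V0.map Prod.fst + (P0 + pns rest) +
      ((fr.map Prod.fst : List ℕ) : Multiset ℕ)) := by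
      rw [hSpn, hpnR, Multiset.map_add]
      abel
    rw [← this]; exact hVnd
  rw [Multiset.nodup_add] at hnodup
  refine ⟨hnodup.1, fun z hz hz' => (Multiset.disjoint_left.1 hnodup.2.2) hz ?_⟩
  rcases hz' with ⟨j, ε, hx⟩ | hx
  · have : (z, j, ε) ∈ pm V0 := by rw [← hV0]; exact Multiset.mem_add.2 (Or.inl hx)
    exact Multiset.mem_add.2 (Or.inl (Multiset.mem_add.2 (Or.inl (mem_pm this))))
  · exact Multiset.mem_add.2 (Or.inl (Multiset.mem_add.2 (Or.inr (Multiset.mem_add.2 (Or.inl hx)))))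

/-- names of the removed roots are names of the system -/
theorem nmU_names {olds rest : List Root} {fr : List (ℕ × ℕ)} :
    nmU (occs olds) (pns olds) ⊆ (⟨olds ++ rest, fr⟩ : Sys).names := by
  have hSocc : (⟨olds ++ rest, fr⟩ : Sys).occ = occs olds + occs rest := by simp [Sys.occ, occs]
  have hSpn : (⟨olds ++ rest, fr⟩ : Sys).pn = pns olds + pns rest := by simp [Sys.pn, pns]
  rintro x (⟨j, ε, hx⟩ | hx)
  · exact Or.inl ⟨j, ε, by rw [hSocc]; exact Multiset.mem_add.2 (Or.inl hx)⟩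
  · exact Or.inr (Or.inl (by rw [hSpn]; exact Multiset.mem_add.2 (Or.inl hx)))

/-- assign the values in the list `l` to the names `N, N+1, ...` -/
def upd {n : ℕ} (ρ : ℕ → G n) (N : ℕ) (l : List (G n)) (z : ℕ) : G n :=
  if z < N then ρ z else (l[z - N]?).getD (ρ z)

theorem upd_lt {n : ℕ} {ρ : ℕ → G n} {N : ℕ} {l : List (G n)} {z : ℕ} (h : z < N) :
    upd ρ N l z = ρ z := by simp [upd, h]

theorem upd_ge {n : ℕ} {ρ : ℕ → G n} {N : ℕ} {l : List (G n)} {z : ℕ} (h : N + l.length ≤ z) :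
    upd ρ N l z = ρ z := by
  unfold upd
  split_ifs
  · rfl
  · rw [List.getElem?_eq_none (by omega)]; rfl


/-- THE GENERAL REDUCTION LEMMA: the roots `olds` are replaced by the roots `news`, and the free names
`fnew` are added. `D` / `N`: full names removed / added; `P` / `Q`: P-names removed / added; `U`, `P0`:
remaining occurrences / P-names of `olds`. `φ z`: the value of the removed name `z` in terms of a
solution of the new system; `ρ'`: the new point. -/
theorem red_gen {O : Subring ℂ} {n : ℕ} {olds : List Root} (news : List Root) {rest : List Root}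
    {fr : List (ℕ × ℕ)} (fnew : List (ℕ × ℕ)) {ρ : ℕ → G n} (D N : Multiset (ℕ × ℕ))
    (U : Multiset (ℕ × ℕ × Bool)) (P Q P0 : Multiset ℕ)
    (hS : (⟨olds ++ rest, fr⟩ : Sys).WF O n) (hsol : ρ ∈ (⟨olds ++ rest, fr⟩ : Sys).Sol n)
    (hoccR : occs olds = pm D + U) (hpnR : pns olds = P + P0)
    (hoccN : occs news = pm N + U) (hpnN : pns news = Q + P0)
    (hnd : (N.map Prod.fst + Q + ((fnew.map Prod.fst : List ℕ) : Multiset ℕ)).Nodup)
    (hfresh : ∀ z ∈ N.map Prod.fst + Q + ((fnew.map Prod.fst : List ℕ) : Multiset ℕ),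
      z ∉ (⟨olds ++ rest, fr⟩ : Sys).names)
    (hfn : ∀ z ∈ fnew, z.2 ≤ n)
    (hWF : ∀ r ∈ news, r.WF O n)
    (hwt : Multiset.IsDershowitzMannaLT ((news.map Root.wt).sum) ((olds.map Root.wt).sum))
    (hAdm : ∀ k0, (∀ r ∈ olds, (r.k < k0 ∨ (r.k = k0 ∧ Wd.hasNd r.w))) →
      ∀ r ∈ news, (r.k < k0 ∨ (r.k = k0 ∧ Wd.hasNd r.w)))
    (φ : ℕ → (ℕ → G n) → G n) (ρ' : ℕ → G n) (hρN : ρ' ∈ newSol n news fnew)
    (hρK : ∀ z, z ∉ N.map Prod.fst + Q + ((fnew.map Prod.fst : List ℕ) : Multiset ℕ) → ρ' z = ρ z)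
    (hφ : ∀ z ∈ D.map Prod.fst + P, φ z ρ' = ρ z)
    (hpol : ∀ z ∈ D.map Prod.fst + P, PolG (newSol n news fnew) (φ z))
    (hint : ∀ τ ∈ newSol n news fnew, (∀ x ∈ nmU (occs news) (pns news), τ x ∈ GO O n) →
      (∀ z ∈ fnew, τ z.1 ∈ GO O n) → ∀ z ∈ D.map Prod.fst + P, φ z τ ∈ GO O n)
    (hback : ∀ τ ∈ newSol n news fnew, ∀ τ' : ℕ → G n,
      (∀ z ∈ D.map Prod.fst + P, τ' z = φ z τ) → (∀ z ∈ nmU U P0, τ' z = τ z) →
      ∀ r ∈ olds, r.Sol τ') :
    Red O n (⟨olds ++ rest, fr⟩ : Sys) ρ := by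
  classical
  obtain ⟨V, hV, hVnd⟩ := hS.lin
  have hSocc : (⟨olds ++ rest, fr⟩ : Sys).occ = occs olds + occs rest := by simp [Sys.occ, occs]
  have hSpn : (⟨olds ++ rest, fr⟩ : Sys).pn = pns olds + pns rest := by simp [Sys.pn, pns]
  obtain ⟨V0, rfl, hV0⟩ : ∃ V0, V = D + V0 ∧ U + occs rest = pm V0 := by
    refine lin_split ?_
    rw [hSocc, hoccR] at hV
    rw [← add_assoc, hV]; rfl
  set S' : Sys := ⟨news ++ rest, fnew ++ fr⟩ with hS'
  have hSocc' : S'.occ = pm (N + V0) := by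
    have : S'.occ = occs news + occs rest := by simp [S', Sys.occ, occs]
    rw [this, hoccN, add_assoc, hV0, pm_add]
  have hSpn' : S'.pn = Q + (P0 + pns rest) := by
    have : S'.pn = pns news + pns rest := by simp [S', Sys.pn, pns]
    rw [this, hpnN, add_assoc]
  set F : Multiset ℕ := ((fr.map Prod.fst : List ℕ) : Multiset ℕ) with hF
  set F0 : Multiset ℕ := ((fnew.map Prod.fst : List ℕ) : Multiset ℕ) with hF0
  have hfree' : ((S'.free.map Prod.fst : List ℕ) : Multiset ℕ) = F0 + F := by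
    simp [S', hF, hF0]
  -- kept names
  set K : Multiset ℕ := V0.map Prod.fst + (P0 + pns rest) + F with hK
  have hnodup : ((D.map Prod.fst + P) + K).Nodup := by
    have : (D + V0).map Prod.fst + (⟨olds ++ rest, fr⟩ : Sys).pn + F =
        (D.map Prod.fst + P) + K := by
      rw [hSpn, hpnR, Multiset.map_add, hK]
      abel
    rw [← this]; exact hVnd
  rw [Multiset.nodup_add] at hnodup
  obtain ⟨hn1, hn2, hn3⟩ := hnodup
  have hnot : ∀ z ∈ D.map Prod.fst + P, z ∉ K := fun z hz hz' =>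
    (Multiset.disjoint_left.1 hn3) hz hz'
  have hnamesS : ∀ x, x ∈ (⟨olds ++ rest, fr⟩ : Sys).names ↔ (x ∈ D.map Prod.fst + P ∨ x ∈ K) := by
    intro x
    have := names_iff (S := ⟨olds ++ rest, fr⟩) (A := D) (B := V0) (P := P) (P0 := P0 + pns rest)
      (F0 := 0) (F := F) (by rw [hV]; rfl) (by rw [hSpn, hpnR, add_assoc]) (by simp [hF]) x
    rw [add_zero] at this
    exact this
  have hnamesS' : ∀ x, x ∈ S'.names ↔ (x ∈ N.map Prod.fst + Q + F0 ∨ x ∈ K) := fun x =>
    names_iff (S := S') hSocc' hSpn' hfree' x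
  have hkept : ∀ x ∈ nmU (U + occs rest) (P0 + pns rest), x ∈ K := by
    rintro x (⟨j, ε, hx⟩ | hx)
    · rw [hV0] at hx
      exact Multiset.mem_add.2 (Or.inl (Multiset.mem_add.2 (Or.inl (mem_pm hx))))
    · exact Multiset.mem_add.2 (Or.inl (Multiset.mem_add.2 (Or.inr hx)))
  have hkeptU : ∀ x ∈ nmU U P0, x ∈ K := fun x hx =>
    hkept x (nmU_mono (Multiset.le_add_right _ _) (Multiset.le_add_right _ _) hx)
  have hkeptR : ∀ r ∈ rest, ∀ x ∈ nmU r.occ r.pn, x ∈ K := fun r hr x hx =>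
    hkept x (nmU_mono ((occ_le_occs hr).trans (Multiset.le_add_left _ _))
      ((pn_le_pns hr).trans (Multiset.le_add_left _ _)) hx)
  have hkeptF : ∀ z ∈ fr, z.1 ∈ K := by
    intro z hz
    refine Multiset.mem_add.2 (Or.inr ?_)
    rw [hF, Multiset.mem_coe]
    exact List.mem_map_of_mem hz
  have hKfresh : ∀ x ∈ K, x ∉ N.map Prod.fst + Q + F0 := fun x hx hx' =>
    hfresh x hx' ((hnamesS x).2 (Or.inr hx))
  have hsol' : ρ' ∈ S'.Sol n := by
    refine ⟨?_, ?_⟩
    · intro r hr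
      rcases List.mem_append.1 hr with hr | hr
      · exact hρN.1 r hr
      · exact sol_congr r (fun x hx => (hρK x (hKfresh x (hkeptR r hr x hx))).symm)
          (hsol.1 r (List.mem_append_right _ hr))
    · intro z hz
      rcases List.mem_append.1 hz with hz | hz
      · exact hρN.2 z hz
      · rw [hρK z.1 (hKfresh _ (hkeptF z hz))]
        exact hsol.2 z hz
  have hnew : ∀ τ ∈ S'.Sol n, τ ∈ newSol n news fnew := fun τ hτ =>
    ⟨fun r hr => hτ.1 r (List.mem_append_left _ hr), fun z hz => hτ.2 z (List.mem_append_left _ hz)⟩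
  refine ⟨S', ρ', ?_, ?_, ?_, hsol', ?_⟩
  · -- well-formed
    refine ⟨?_, ?_, N + V0, hSocc', ?_⟩
    · intro r hr
      rcases List.mem_append.1 hr with hr | hr
      · exact hWF r hr
      · exact hS.roots r (List.mem_append_right _ hr)
    · intro z hz
      rcases List.mem_append.1 hz with hz | hz
      · exact hfn z hz
      · exact hS.free z hz
    · have : (N + V0).map Prod.fst + S'.pn + ((S'.free.map Prod.fst : List ℕ) : Multiset ℕ) =
          (N.map Prod.fst + Q + F0) + K := by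
        rw [hSpn', hfree', Multiset.map_add, hK]
        abel
      rw [this, Multiset.nodup_add]
      exact ⟨hnd, hn2, Multiset.disjoint_left.2 fun hx hx' => hKfresh _ hx' hx⟩
  · -- weight
    obtain ⟨X, Y, Z, hZ, h1, h2, h3⟩ := hwt
    refine ⟨X + (rest.map Root.wt).sum, Y, Z, hZ, ?_, ?_, h3⟩
    · have : S'.wt = (news.map Root.wt).sum + (rest.map Root.wt).sum := by simp [S', Sys.wt]
      rw [this, h1]; abel
    · have : (⟨olds ++ rest, fr⟩ : Sys).wt = (olds.map Root.wt).sum + (rest.map Root.wt).sum := by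
        simp [Sys.wt]
      rw [this, h2]; abel
  · intro k0 hk r hr
    rcases List.mem_append.1 hr with hr | hr
    · exact hAdm k0 (fun r hr => hk r (List.mem_append_left _ hr)) r hr
    · exact hk r (List.mem_append_right _ hr)
  · -- transfer
    intro hA
    refine appr_map (fun τ z => if z ∈ D.map Prod.fst + P then φ z τ else
      if z ∈ K then τ z else ρ z) ?_ ?_ ?_ hsol' ?_ hA
    · intro z
      by_cases hz : z ∈ D.map Prod.fst + P
      · simp only [hz, if_true]
        intro i j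
        obtain ⟨⟨G1, hG1, e1⟩, ⟨G2, hG2, e2⟩⟩ := hpol z hz i j
        exact ⟨⟨G1, hG1, fun τ hτ => e1 τ (hnew τ hτ)⟩, ⟨G2, hG2, fun τ hτ => e2 τ (hnew τ hτ)⟩⟩
      · simp only [hz, if_false]
        by_cases hz' : z ∈ K
        · simp only [hz', if_true]
          exact polG_name _ z
        · simp only [hz', if_false]
          exact polG_const _ _
    · intro τ hτ
      have hKK : ∀ x ∈ K, (if x ∈ D.map Prod.fst + P then φ x τ else if x ∈ K then τ x else ρ x) =
          τ x := by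
        intro x hx
        rw [if_neg (fun h => hnot x h hx), if_pos hx]
      refine ⟨?_, ?_⟩
      · intro r hr
        rcases List.mem_append.1 hr with hr | hr
        · exact hback τ (hnew τ hτ) _ (fun z hz => by simp only [hz, if_true])
            (fun z hz => hKK z (hkeptU z hz)) r hr
        · exact sol_congr r (fun x hx => (hKK x (hkeptR r hr x hx)).symm)
            (hτ.1 r (List.mem_append_right _ hr))
      · intro z hz
        have h1 := hKK z.1 (hkeptF z hz)
        have h2 := hτ.2 z (List.mem_append_right _ hz)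
        change (if z.1 ∈ D.map Prod.fst + P then φ z.1 τ else if z.1 ∈ K then τ z.1 else ρ z.1) ∈
          GLk n z.2
        rw [h1]
        exact h2
    · intro τ hτ hτi x hx
      by_cases hz : x ∈ D.map Prod.fst + P
      · simp only [hz, if_true]
        refine hint τ (hnew τ hτ) (fun y hy => hτi y ?_) (fun y hy => hτi y.1 ?_) x hz
        · rw [hoccN, hpnN] at hy
          rw [hnamesS']
          rcases hy with ⟨j, ε, hy⟩ | hy
          · rcases Multiset.mem_add.1 hy with hy | hy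
            · exact Or.inl (Multiset.mem_add.2 (Or.inl (Multiset.mem_add.2 (Or.inl (mem_pm hy)))))
            · exact Or.inr (hkeptU y (Or.inl ⟨j, ε, hy⟩))
          · rcases Multiset.mem_add.1 hy with hy | hy
            · exact Or.inl (Multiset.mem_add.2 (Or.inl (Multiset.mem_add.2 (Or.inr hy))))
            · exact Or.inr (hkeptU y (Or.inr hy))
        · rw [hnamesS']
          refine Or.inl (Multiset.mem_add.2 (Or.inr ?_))
          rw [hF0, Multiset.mem_coe]
          exact List.mem_map_of_mem hy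
      · have hx' : x ∈ K := ((hnamesS x).1 hx).resolve_left hz
        simp only [hz, if_false, hx', if_true]
        exact hτi x ((hnamesS' x).2 (Or.inr hx'))
    · funext z
      by_cases hz : z ∈ D.map Prod.fst + P
      · simp only [hz, if_true]
        exact hφ z hz
      · simp only [hz, if_false]
        by_cases hz' : z ∈ K
        · simp only [hz', if_true]
          exact hρK z (hKfresh z hz')
        · simp only [hz', if_false]

end Crest.Agent.R003.W412
end

-- ▼ part R003/S2_412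

/-!
# Row 3: the step S2 (one Bruhat decomposition) (helper412)
-/

set_option autoImplicit false

namespace Crest.Agent.R003.W412

open Crest.Agent.R003

theorem occs_cons (r : Root) (L : List Root) : occs (r :: L) = Wd.occ r.w r.k + occs L := by
  simp [occs, Root.occ]
theorem occs_nil : occs [] = 0 := rfl
theorem pns_cons (r : Root) (L : List Root) : pns (r :: L) = Wd.pn r.w + pns L := by
  simp [pns, Root.pn]
theorem pns_nil : pns [] = 0 := rfl

theorem pair_eq {α : Type} (a b : α) : ({a, b} : Multiset α) = {a} + {b} := rfl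

theorem eval_neg {n : ℕ} (τ : ℕ → G n) (x : ℕ) (ε : Bool) :
    Lt.eval τ (Lt.full x (!ε)) = (Lt.eval τ (Lt.full x ε))⁻¹ := by
  cases ε <;> simp [Lt.eval]

/-- value of `x` from the value of `x^ε` -/
def sgn {n : ℕ} (ε : Bool) (W : G n) : G n := if ε then W else W⁻¹

theorem eval_sgn {n : ℕ} {τ : ℕ → G n} {x : ℕ} {ε : Bool} {W : G n} (h : τ x = sgn ε W) :
    Lt.eval τ (Lt.full x ε) = W := by
  cases ε <;> simp [Lt.eval, h, sgn]

theorem sgn_eval {n : ℕ} (τ : ℕ → G n) (x : ℕ) (ε : Bool) :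
    sgn ε (Lt.eval τ (Lt.full x ε)) = τ x := by
  cases ε <;> simp [Lt.eval, sgn]

theorem sgn_mem {n : ℕ} {H : Subgroup (G n)} {ε : Bool} {W : G n} (h : W ∈ H) : sgn ε W ∈ H := by
  cases ε
  · exact H.inv_mem h
  · exact h

theorem polG_sgn {ι : Type} {n m : ℕ} {S : Set (ι → G n)} {Φ : (ι → G n) → G m} (ε : Bool)
    (h : PolG S Φ) : PolG S (fun ρ => sgn ε (Φ ρ)) := by
  cases ε
  · exact polG_inv h
  · exact h

/-- a root with three full letters -/
theorem sol_three {n : ℕ} (τ : ℕ → G n) (k : ℕ) (x y z : ℕ) (ε δ η : Bool) :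
    (⟨k, 1, [Lt.full x ε, Lt.full y δ, Lt.full z η]⟩ : Root).Sol τ ↔
      (τ x ∈ GLk n k ∧ τ y ∈ GLk n k ∧ τ z ∈ GLk n k) ∧
        Lt.eval τ (Lt.full x ε) * (Lt.eval τ (Lt.full y δ) * Lt.eval τ (Lt.full z η)) = 1 := by
  simp only [Root.Sol, sat_cons, Lt.Sat, ev_cons, ev_nil, mul_one, scal_one, one_mul]
  simp [Wd.Sat]

theorem wt_fl (k x : ℕ) (ε : Bool) : Lt.wt k (Lt.full x ε) = {3 * k + 1} := rfl

set_option maxHeartbeats 2000000 in
theorem s2 (O : Subring ℂ) (n : ℕ) (hB : Bruhat n) (hC : Calc n) : S2 O n := by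
  intro k ξ b a c d x ε p p' e e' c1 E F c2 σ σ' g g' rest fr ρ S hb ha hE hF hS hsol
  obtain ⟨cmul, cinv, -, -, -, -⟩ := hC
  -- unpack well-formedness
  obtain ⟨hkn, hξ, hwf⟩ := hS.roots _ List.mem_cons_self
  change k ≤ n at hkn
  simp only [Wd.WF, wf_app, Wd.last, last_app, last_full ha] at hwf
  obtain ⟨hc1k, hc1E, hσe, hσs, hwb, hwa, hFk, hFc, hσ'e, hσ's, hwc, hwd⟩ := hwf
  have hσ' : ∀ x y, σ' x y = 1 := by
    rcases hσ'e with h | h
    · exact h
    · cases h
  have hEk : E.length = k := by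
    have := List.count_true_add_count_false c1
    have h2 := List.count_true_add_count_false E
    rw [hc1E, hc1E] at this
    omega
  -- unpack the solution
  obtain ⟨hsat, heq⟩ := hsol.1 _ List.mem_cons_self
  simp only [sat_cons, sat_app, Lt.Sat] at hsat
  obtain ⟨hp, hsb, hx, hsa, hp', hsc, -, hsd⟩ := hsat
  simp only [ev_cons, ev_app, eval_neg] at heq
  -- Bruhat
  obtain ⟨E', F', q, q', γ, γ', hE'k, hF'k, hq, hq', hX⟩ := hB k hkn
    (Wd.eval ρ b * Lt.eval ρ (Lt.full x ε) * Wd.eval ρ a)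
    ((GLk n k).mul_mem ((GLk n k).mul_mem (eval_mem_full hb hsb)
      (by cases ε <;> simp [Lt.eval, hx])) (eval_mem_full ha hsa)) E F hEk hFk
  have hEE' : ∀ t, E'.count t = c1.count t := fun t => by rw [hc1E, hq.cnt]
  have hFF' : ∀ t, F'.count t = F.count t := fun t => hq'.cnt t
  obtain ⟨N, hN⟩ := exists_bound S
  set y1 := N with hy1
  -- names: y1 = N, y2 = N+1, y3 = N+2, y4 = N+3
  let hh : Bool → ℕ := fun t => N + (4 + t.toNat)
  let hh' : Bool → ℕ := fun t => N + (6 + t.toNat)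
  let rr : Bool → ℕ := fun t => N + (8 + t.toNat)
  let rr' : Bool → ℕ := fun t => N + (10 + t.toNat)
  let R' : Root := ⟨k, ξ, Lt.par N e σ c1 E' hh :: Lt.par (N + 1) [] (fun _ _ => 1) F' c2 hh' ::
    (c ++ (a ++ Lt.par (N + 2) [] (fun _ _ => 1) F F' rr' ::
      Lt.par (N + 3) [] (fun _ _ => 1) E' E rr :: (b ++ d)))⟩
  let C : Bool → Root := fun t =>
    ⟨c1.count t, 1, [Lt.full (g t) true, Lt.full (rr t) false, Lt.full (hh t) false]⟩
  let C' : Bool → Root := fun t =>
    ⟨F.count t, 1, [Lt.full (rr' t) false, Lt.full (g' t) true, Lt.full (hh' t) false]⟩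
  let vals : List (G n) := [ρ p * q, q' * ρ p', q'⁻¹, q⁻¹, ρ (g false) * γ false,
    ρ (g true) * γ true, γ' false * ρ (g' false), γ' true * ρ (g' true), (γ false)⁻¹, (γ true)⁻¹,
    (γ' false)⁻¹, (γ' true)⁻¹]
  let ρ' : ℕ → G n := upd ρ N vals
  let W : (ℕ → G n) → G n := fun τ =>
    (Wd.eval τ b)⁻¹ * (τ (N + 3))⁻¹ * (τ (N + 2))⁻¹ * (Wd.eval τ a)⁻¹
  let φ : ℕ → (ℕ → G n) → G n := fun z τ =>
    if z = p then τ N * τ (N + 3) else if z = p' then τ (N + 2) * τ (N + 1) else sgn ε (W τ)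
  let U : Multiset (ℕ × ℕ × Bool) := {(g false, c1.count false, true)} +
    {(g true, c1.count true, true)} + Wd.occ b k + Wd.occ a k + {(g' false, F.count false, true)} +
    {(g' true, F.count true, true)} + Wd.occ c k + Wd.occ d k
  have hoccR : occs [⟨k, ξ, Lt.par p e σ c1 E g :: (b ++ Lt.full x ε ::
      (a ++ Lt.par p' e' σ' F c2 g' :: (c ++ Lt.full x (!ε) :: d)))⟩] = pm {(x, k)} + U := by
    simp only [occs_cons, occs_nil, occ_cons, occ_app, Lt.occ, pair_eq, pm, Multiset.map_singleton, U]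
    cases ε
    · simp only [Bool.not_false]; abel
    · simp only [Bool.not_true]; abel
  have hpnR : pns [⟨k, ξ, Lt.par p e σ c1 E g :: (b ++ Lt.full x ε ::
      (a ++ Lt.par p' e' σ' F c2 g' :: (c ++ Lt.full x (!ε) :: d)))⟩] =
      ({p} + {p'}) + (Wd.pn c + Wd.pn d) := by
    simp only [pns_cons, pns_nil, pn_cons, pn_app, Lt.pn, pn_full ha, pn_full hb]
    abel
  have hoccN : occs [R', C false, C true, C' false, C' true] =
      pm ({(hh false, c1.count false)} + {(hh true, c1.count true)} +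
        {(hh' false, F.count false)} + {(hh' true, F.count true)} +
        {(rr false, c1.count false)} + {(rr true, c1.count true)} +
        {(rr' false, F.count false)} + {(rr' true, F.count true)}) + U := by
    simp only [occs_cons, occs_nil, occ_cons, occ_nil, occ_app, Lt.occ, pair_eq, pm, Multiset.map_add,
      Multiset.map_singleton, U, R', C, C', hEE', hFF']
    abel
  have hpnN : pns [R', C false, C true, C' false, C' true] =
      ({N} + {N + 1} + {N + 2} + {N + 3}) + (Wd.pn c + Wd.pn d) := by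
    simp only [pns_cons, pns_nil, pn_cons, pn_nil, pn_app, Lt.pn, pn_full ha, pn_full hb, R', C, C']
    abel
  obtain ⟨hold1, hold2⟩ := old_nodup (D := {(x, k)}) (olds := [_]) hS hoccR hpnR
  have hpp' : p' ≠ p ∧ x ≠ p ∧ x ≠ p' := by
    simp only [Multiset.map_singleton, Multiset.nodup_add, Multiset.nodup_singleton,
      Multiset.disjoint_right, Multiset.mem_add, Multiset.mem_singleton,
      true_and, forall_eq] at hold1
    refine ⟨hold1.1, fun h => ?_, fun h => ?_⟩
    · exact hold1.2 (Or.inl rfl) h.symm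
    · exact hold1.2 (Or.inr rfl) h.symm
  have hfr : ∀ z, z ∈ (({(hh false, c1.count false)} + {(hh true, c1.count true)} +
        {(hh' false, F.count false)} + {(hh' true, F.count true)} +
        {(rr false, c1.count false)} + {(rr true, c1.count true)} +
        {(rr' false, F.count false)} + {(rr' true, F.count true)} : Multiset (ℕ × ℕ)).map Prod.fst +
        ({N} + {N + 1} + {N + 2} + {N + 3}) + (([] : List (ℕ × ℕ)).map Prod.fst : List ℕ)) ↔
        (N ≤ z ∧ z < N + 12) := by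
    intro z
    simp only [Multiset.map_add, Multiset.map_singleton, Multiset.mem_add, Multiset.mem_singleton,
      List.map_nil, Multiset.coe_nil, Multiset.notMem_zero, or_false, hh, hh', rr, rr',
      Bool.toNat_false, Bool.toNat_true]
    omega
  have hk0 : ∀ t, c1.count t < k := by
    intro t
    have h1 := List.count_true_add_count_false c1
    have h2 := hE true
    have h3 := hE false
    rw [← hc1E] at h2 h3
    cases t <;> omega
  have hk1 : ∀ t, F.count t < k := by
    intro t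
    have h1 := List.count_true_add_count_false F
    have h2 := hF true
    have h3 := hF false
    cases t <;> omega
  -- names of the pieces
  have hmb : ∀ z ∈ nm b k, z ∈ nmU U (Wd.pn c + Wd.pn d) := by
    rintro z (⟨j, δ, hz⟩ | hz)
    · exact Or.inl ⟨j, δ, by simp [U, hz]⟩
    · rw [pn_full hb] at hz; simp at hz
  have hma : ∀ z ∈ nm a k, z ∈ nmU U (Wd.pn c + Wd.pn d) := by
    rintro z (⟨j, δ, hz⟩ | hz)
    · exact Or.inl ⟨j, δ, by simp [U, hz]⟩
    · rw [pn_full ha] at hz; simp at hz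
  have hmc : ∀ z ∈ nm c k, z ∈ nmU U (Wd.pn c + Wd.pn d) := by
    rintro z (⟨j, δ, hz⟩ | hz)
    · exact Or.inl ⟨j, δ, by simp [U, hz]⟩
    · exact Or.inr (Multiset.mem_add.2 (Or.inl hz))
  have hmd : ∀ z ∈ nm d k, z ∈ nmU U (Wd.pn c + Wd.pn d) := by
    rintro z (⟨j, δ, hz⟩ | hz)
    · exact Or.inl ⟨j, δ, by simp [U, hz]⟩
    · exact Or.inr (Multiset.mem_add.2 (Or.inr hz))
  have hmg : ∀ t, g t ∈ nmU U (Wd.pn c + Wd.pn d) := by
    intro t
    refine Or.inl ⟨c1.count t, true, ?_⟩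
    cases t <;> simp [U]
  have hmg' : ∀ t, g' t ∈ nmU U (Wd.pn c + Wd.pn d) := by
    intro t
    refine Or.inl ⟨F.count t, true, ?_⟩
    cases t <;> simp [U]
  have hUN : ∀ z ∈ nmU U (Wd.pn c + Wd.pn d), z < N := by
    intro z hz
    refine hN z (nmU_names (olds := [_]) ?_)
    rw [hoccR, hpnR]
    exact nmU_mono (Multiset.le_add_left _ _) (Multiset.le_add_left _ _) hz
  have hUρ : ∀ z ∈ nmU U (Wd.pn c + Wd.pn d), ρ' z = ρ z := fun z hz => upd_lt (hUN z hz)
  have v0 : ρ' N = ρ p * q := by simp [ρ', upd, vals]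
  have v1 : ρ' (N + 1) = q' * ρ p' := by simp [ρ', upd, vals]
  have v2 : ρ' (N + 2) = q'⁻¹ := by simp [ρ', upd, vals]
  have v3 : ρ' (N + 3) = q⁻¹ := by simp [ρ', upd, vals]
  have v4 : ∀ t, ρ' (hh t) = ρ (g t) * γ t := by intro t; cases t <;> simp [ρ', upd, vals, hh]
  have v5 : ∀ t, ρ' (hh' t) = γ' t * ρ (g' t) := by intro t; cases t <;> simp [ρ', upd, vals, hh']
  have v6 : ∀ t, ρ' (rr t) = (γ t)⁻¹ := by intro t; cases t <;> simp [ρ', upd, vals, rr]
  have v7 : ∀ t, ρ' (rr' t) = (γ' t)⁻¹ := by intro t; cases t <;> simp [ρ', upd, vals, rr']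
  have eb : Wd.eval ρ' b = Wd.eval ρ b := eval_congr b k fun z hz => hUρ z (hmb z hz)
  have ea : Wd.eval ρ' a = Wd.eval ρ a := eval_congr a k fun z hz => hUρ z (hma z hz)
  have ec : Wd.eval ρ' c = Wd.eval ρ c := eval_congr c k fun z hz => hUρ z (hmc z hz)
  have ed : Wd.eval ρ' d = Wd.eval ρ d := eval_congr d k fun z hz => hUρ z (hmd z hz)
  refine red_gen (olds := [_]) [R', C false, C true, C' false, C' true] [] {(x, k)} _ U _ _ _ hS hsol
    hoccR hpnR hoccN hpnN ?_ ?_ ?_ ?_ ?_ ?_ φ ρ' ?_ ?_ ?_ ?_ ?_ ?_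
  · -- nodup
    simp [hh, hh', rr, rr']
  · -- fresh
    intro z hz hz'
    have h1 := (hfr z).1 hz
    have h2 := hN z hz'
    omega
  · simp
  · -- WF
    intro r hr
    simp only [List.mem_cons, List.not_mem_nil, or_false] at hr
    have hck : ∀ t, c1.count t ≤ n := fun t => le_trans List.count_le_length (by omega)
    have hFn : ∀ t, F.count t ≤ n := fun t => le_trans List.count_le_length (by omega)
    rcases hr with rfl | rfl | rfl | rfl | rfl
    · refine ⟨hkn, hξ, ?_⟩
      simp only [R', Wd.WF, wf_app, Wd.last, last_app]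
      refine ⟨hc1k, fun t => (hEE' t).symm, ?_, hσs, hF'k, fun t => by rw [hFF', hFc], Or.inl (by simp),
        fun _ _ => IsSc.one, hwc, wf_full ha, hFk, fun t => (hFF' t).symm, Or.inl (by simp),
        fun _ _ => IsSc.one, hE'k, fun t => by rw [hEE', hc1E], Or.inl (by simp),
        fun _ _ => IsSc.one, wf_full hb, wf_none hwd⟩
      rcases hσe with h | h
      · exact Or.inl h
      · right
        by_cases hd : d = []
        · subst hd; cases h
        · rw [← h]; exact last_ne_nil hd _ _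
    all_goals
      refine ⟨?_, IsSc.one, ?_⟩
      · simp only [C, C']
        first | exact hck _ | exact hFn _
      · simp [C, C', Wd.WF]
  · -- weight
    have w1 : Lt.wt k (Lt.par N e σ c1 E' hh) = Lt.wt k (Lt.par p e σ c1 E g) := rfl
    have w0 : Lt.wt k (Lt.par p' e' σ' F c2 g') = {3 * k} := by
      simp only [Lt.wt]; rw [if_pos hF, if_pos hσ']
    have w2 : Lt.wt k (Lt.par (N + 1) [] (fun _ _ => 1) F' c2 hh') = {3 * k} := by
      simp only [Lt.wt]; rw [if_pos (fun t => by rw [hFF']; exact hF t), if_pos (by simp)]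
    have w3 : Lt.wt k (Lt.par (N + 2) [] (fun _ _ => 1) F F' rr') = {3 * k} := by
      simp only [Lt.wt]; rw [if_pos hF, if_pos (by simp)]
    have w4 : Lt.wt k (Lt.par (N + 3) [] (fun _ _ => 1) E' E rr) = {3 * k} := by
      simp only [Lt.wt]
      rw [if_pos (fun t => by rw [hEE', hc1E]; exact hE t), if_pos (by simp)]
    refine ⟨{3 * k} + Lt.wt k (Lt.par p e σ c1 E g) + Wd.wt b k + Wd.wt a k + {3 * k} + Wd.wt c k +
      Wd.wt d k, {3 * k} + {3 * k} + ((C false).wt + (C true).wt + (C' false).wt + (C' true).wt),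
      {3 * k + 1} + {3 * k + 1}, ?_, ?_, ?_, ?_⟩
    · simp
    · simp only [List.map_cons, List.map_nil, List.sum_cons, List.sum_nil]
      simp only [Root.wt, R', wt_cons, wt_app, w1, w2, w3, w4, ← Multiset.singleton_add]
      abel
    · simp only [List.map_cons, List.map_nil, List.sum_cons, List.sum_nil, Root.wt, wt_cons, wt_app,
        w0, wt_fl, ← Multiset.singleton_add]
      abel
    · intro y hy
      refine ⟨3 * k + 1, by simp, ?_⟩
      simp only [C, C', Root.wt, wt_cons, wt_nil, wt_fl, Multiset.mem_add, Multiset.mem_cons,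
        Multiset.mem_singleton, Multiset.notMem_zero, or_false] at hy
      have h1 := hk0 false
      have h2 := hk0 true
      have h3 := hk1 false
      have h4 := hk1 true
      omega
  · -- Adm
    intro k0 hk r hr
    have hk := hk _ List.mem_cons_self
    change k < k0 ∨ k = k0 ∧ _ at hk
    simp only [List.mem_cons, List.not_mem_nil, or_false] at hr
    rcases hr with rfl | rfl | rfl | rfl | rfl
    · rcases hk with hk | hk
      · exact Or.inl hk
      · refine Or.inr ⟨hk.1, ?_⟩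
        exact ⟨_, List.mem_cons_self, fun t => by rw [hc1E]; exact hE t⟩
    · exact Or.inl (lt_of_lt_of_le (hk0 false) (by omega))
    · exact Or.inl (lt_of_lt_of_le (hk0 true) (by omega))
    · exact Or.inl (lt_of_lt_of_le (hk1 false) (by omega))
    · exact Or.inl (lt_of_lt_of_le (hk1 true) (by omega))
  · -- ρ' solves the new roots
    refine ⟨?_, by simp⟩
    intro r hr
    simp only [List.mem_cons, List.not_mem_nil, or_false] at hr
    have hC : ∀ t, (C t).Sol ρ' := by
      intro t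
      rw [sol_three]
      simp only [Lt.eval, v4, v6, hUρ _ (hmg t)]
      refine ⟨⟨hp.blk t, ?_, ?_⟩, ?_⟩
      · have := hq.blk t
        rw [← hc1E] at this
        exact (GLk n _).inv_mem this
      · have := hq.blk t
        rw [← hc1E] at this
        exact (GLk n _).mul_mem (hp.blk t) this
      · simp
    have hC' : ∀ t, (C' t).Sol ρ' := by
      intro t
      rw [sol_three]
      simp only [Lt.eval, v5, v7, hUρ _ (hmg' t)]
      have h1 := hq'.blk t
      rw [hFF'] at h1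
      refine ⟨⟨(GLk n _).inv_mem h1, hp'.blk t, (GLk n _).mul_mem h1 (hp'.blk t)⟩, ?_⟩
      simp
    rcases hr with rfl | rfl | rfl | rfl | rfl
    · refine ⟨?_, ?_⟩
      · simp only [R', sat_cons, sat_app, Lt.Sat, v0, v1, v2, v3, v4, v5, v6, v7]
        refine ⟨cmul _ _ _ _ _ _ _ hp hq, cmul _ _ _ _ _ _ _ hq' hp', ?_, ?_, cinv _ _ _ _ hq',
          cinv _ _ _ _ hq, ?_, ?_⟩
        · exact (sat_congr c k fun z hz => hUρ z (hmc z hz)).2 hsc
        · exact (sat_congr a k fun z hz => hUρ z (hma z hz)).2 hsa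
        · exact (sat_congr b k fun z hz => hUρ z (hmb z hz)).2 hsb
        · exact (sat_congr d k fun z hz => hUρ z (hmd z hz)).2 hsd
      · rw [← heq]
        simp only [R', ev_cons, ev_app, ea, eb, ec, ed]
        simp only [Lt.eval.eq_2, v0, v1, v2, v3, dsg_one _ _ hσ', dsg_one _ _ (fun _ _ => rfl), one_mul]
        have hXe : Lt.eval ρ (Lt.full x ε) = (Wd.eval ρ b)⁻¹ * (q * q') * (Wd.eval ρ a)⁻¹ := by
          rw [← hX]; group
        rw [hXe]
        simp [mul_assoc]
    · exact hC false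
    · exact hC true
    · exact hC' false
    · exact hC' true
  · -- outside of the fresh names
    intro z hz
    rw [hfr] at hz
    by_cases h : z < N
    · exact upd_lt h
    · exact upd_ge (by simp [vals]; omega)
  · -- φ at ρ'
    intro z hz
    simp only [Multiset.map_singleton, Multiset.mem_add, Multiset.mem_singleton] at hz
    rcases hz with rfl | rfl | rfl
    · simp only [φ, if_neg hpp'.2.1, if_neg hpp'.2.2, W, ea, eb, v3, v2]
      have hXe : Lt.eval ρ (Lt.full z ε) = (Wd.eval ρ b)⁻¹ * (q * q') * (Wd.eval ρ a)⁻¹ := by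
        rw [← hX]; group
      rw [← sgn_eval ρ z ε, hXe]
      congr 1
      group
    · simp only [φ, if_true, v0, v3]; group
    · simp only [φ, if_neg hpp'.1, if_true, v1, v2]; group
  · -- polynomial
    intro z _
    simp only [φ]
    by_cases h : z = p
    · simp only [h, if_true]
      exact polG_mul (polG_name _ _) (polG_name _ _)
    · simp only [h, if_false]
      by_cases h' : z = p'
      · simp only [h', if_true]
        exact polG_mul (polG_name _ _) (polG_name _ _)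
      · simp only [h', if_false, W]
        exact polG_sgn ε (polG_mul (polG_mul (polG_mul (polG_inv (polG_eval _ _))
          (polG_inv (polG_name _ _))) (polG_inv (polG_name _ _))) (polG_inv (polG_eval _ _)))
  · -- integral
    intro τ hτ hint _ z _
    have i1 : ∀ j < 4, τ (N + j) ∈ GO O n := by
      intro j hj
      refine hint _ (Or.inr ?_)
      rw [hpnN]
      simp only [Multiset.mem_add, Multiset.mem_singleton]
      omega
    have iU : ∀ z ∈ nmU U (Wd.pn c + Wd.pn d), τ z ∈ GO O n := by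
      intro z hz
      refine hint z ?_
      rw [hoccN, hpnN]
      exact nmU_mono (Multiset.le_add_left _ _) (Multiset.le_add_left _ _) hz
    have ib : Wd.eval τ b ∈ GO O n := GO_eval_full hb fun z hz => iU z (hmb z hz)
    have ia : Wd.eval τ a ∈ GO O n := GO_eval_full ha fun z hz => iU z (hma z hz)
    have i0 := i1 0 (by norm_num)
    have i2 := i1 2 (by norm_num)
    have i3 := i1 3 (by norm_num)
    have i1 := i1 1 (by norm_num)
    simp only [φ]
    split_ifs
    · exact (GO O n).mul_mem i0 i3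
    · exact (GO O n).mul_mem i2 i1
    · exact sgn_mem ((GO O n).mul_mem ((GO O n).mul_mem ((GO O n).mul_mem ((GO O n).inv_mem ib)
        ((GO O n).inv_mem i3)) ((GO O n).inv_mem i2)) ((GO O n).inv_mem ia))
  · -- back
    intro τ hτ τ' hφ hK r hr
    rw [List.mem_singleton] at hr
    subst hr
    have tb : Wd.eval τ' b = Wd.eval τ b := eval_congr b k fun z hz => hK z (hmb z hz)
    have ta : Wd.eval τ' a = Wd.eval τ a := eval_congr a k fun z hz => hK z (hma z hz)
    have tc : Wd.eval τ' c = Wd.eval τ c := eval_congr c k fun z hz => hK z (hmc z hz)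
    have td : Wd.eval τ' d = Wd.eval τ d := eval_congr d k fun z hz => hK z (hmd z hz)
    have fp : τ' p = τ N * τ (N + 3) := by
      rw [hφ p (by simp)]; simp [φ]
    have fp' : τ' p' = τ (N + 2) * τ (N + 1) := by
      rw [hφ p' (by simp)]; simp [φ, hpp'.1]
    have fx : τ' x = sgn ε (W τ) := by
      rw [hφ x (by simp)]; simp [φ, hpp'.2.1, hpp'.2.2]
    have fX : Lt.eval τ' (Lt.full x ε) = W τ := eval_sgn fx
    obtain ⟨hsR, heR⟩ := hτ.1 R' (by simp)
    simp only [R', sat_cons, sat_app, Lt.Sat] at hsR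
    obtain ⟨s1, s2, s3, s4, s5, s6, s7, s8⟩ := hsR
    simp only [R', ev_cons, ev_app] at heR
    simp only [Lt.eval.eq_2, dsg_one _ _ (fun _ _ => rfl), one_mul] at heR
    have hCs : ∀ t, (C t).Sol τ := by
      intro t; cases t
      · exact hτ.1 _ (by simp)
      · exact hτ.1 _ (by simp)
    have hC's : ∀ t, (C' t).Sol τ := by
      intro t; cases t
      · exact hτ.1 _ (by simp)
      · exact hτ.1 _ (by simp)
    have hCe : ∀ t, τ (hh t) * τ (rr t) = τ' (g t) := by
      intro t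
      have := ((sol_three τ _ _ _ _ _ _ _).1 (hCs t)).2
      simp only [Lt.eval] at this
      rw [hK _ (hmg t)]
      have h2 : τ (g t) = ((τ (rr t))⁻¹ * (τ (hh t))⁻¹)⁻¹ := eq_inv_of_mul_eq_one_left (by simpa using this)
      rw [h2]; group
    have hC'e : ∀ t, τ (rr' t) * τ (hh' t) = τ' (g' t) := by
      intro t
      have := ((sol_three τ _ _ _ _ _ _ _).1 (hC's t)).2
      simp only [Lt.eval] at this
      rw [hK _ (hmg' t)]
      have h2 : τ (rr' t) * ((τ (rr' t))⁻¹ * (τ (g' t) * (τ (hh' t))⁻¹)) * τ (hh' t) =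
        τ (rr' t) * 1 * τ (hh' t) := by
        rw [show (τ (rr' t))⁻¹ * (τ (g' t) * (τ (hh' t))⁻¹) = 1 from by simpa using this]
      rw [mul_one] at h2
      rw [← h2]; group
    refine ⟨?_, ?_⟩
    · simp only [sat_cons, sat_app, Lt.Sat, fp, fp', ← hCe, ← hC'e]
      have hxm : τ' x ∈ GLk n k := by
        rw [fx]
        have e4 : τ (N + 3) ∈ GLk n k := hE'k ▸ s6.mem
        have e3 : τ (N + 2) ∈ GLk n k := hFk ▸ s5.mem
        exact sgn_mem ((GLk n k).mul_mem ((GLk n k).mul_mem ((GLk n k).mul_mem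
          ((GLk n k).inv_mem (eval_mem_full hb s7)) ((GLk n k).inv_mem e4))
          ((GLk n k).inv_mem e3)) ((GLk n k).inv_mem (eval_mem_full ha s4)))
      refine ⟨cmul _ _ _ _ _ _ _ s1 s6, ?_, hxm, ?_, cmul _ _ _ _ _ _ _ s5 s2, ?_, hxm, ?_⟩
      · exact (sat_congr b k fun z hz => hK z (hmb z hz)).2 s7
      · exact (sat_congr a k fun z hz => hK z (hma z hz)).2 s4
      · exact (sat_congr c k fun z hz => hK z (hmc z hz)).2 s3
      · exact (sat_congr d k fun z hz => hK z (hmd z hz)).2 s8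
    · rw [← heR]
      simp only [ev_cons, ev_app, eval_neg, fX, ta, tb, tc, td]
      simp only [Lt.eval.eq_2, fp, fp', dsg_one _ _ hσ', one_mul, W]
      simp [mul_assoc]

end Crest.Agent.R003.W412
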