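import Crest.Agent.R003.Defs
import Crest.Agent.R003.Iface
import Crest.Agent.R003.Closed402
import Crest.Agent.R003.BruhatG686
import Crest.Agent.R003.Bas486
import Crest.Agent.R003.Step638
import Crest.Agent.R003.Calc961
import Crest.Agent.R003.Core5_227
import Crest.Agent.R003.App638

-- ▼ part R003/Emb402
section

/-!
# R3: the embedding `GL_k → GL_n`, closure properties of polynomial maps (helper402)
-/

set_option autoImplicit false

namespace Crest.Agent.R003.CR

open Crest.Agent.R003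

/-- the block decomposition of `Fin n` -/
def eqv (n k : ℕ) (hk : k ≤ n) : Fin k ⊕ Fin (n - k) ≃ Fin n :=
  finSumFinEquiv.trans (finCongr (by omega))

theorem eqv_inl (n k : ℕ) (hk : k ≤ n) (i : Fin k) : eqv n k hk (Sum.inl i) = Fin.castLE hk i := by
  ext; simp [eqv]

theorem eqv_inr (n k : ℕ) (hk : k ≤ n) (i : Fin (n - k)) :
    (eqv n k hk (Sum.inr i)).1 = k + i.1 := by
  simp [eqv]

/-- matrices of size `k` as matrices of size `n` (identity outside) -/
def embM (n k : ℕ) (hk : k ≤ n) : Matrix (Fin k) (Fin k) ℂ →* Matrix (Fin n) (Fin n) ℂ where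
  toFun A := (Matrix.fromBlocks A 0 0 1).submatrix (eqv n k hk).symm (eqv n k hk).symm
  map_one' := by
    rw [Matrix.fromBlocks_one, Matrix.submatrix_one_equiv]
  map_mul' A B := by
    rw [Matrix.submatrix_mul_equiv, Matrix.fromBlocks_multiply]
    simp

theorem embM_apply (n k : ℕ) (hk : k ≤ n) (A : Matrix (Fin k) (Fin k) ℂ) (i j : Fin n) :
    embM n k hk A i j = if h : i.1 < k ∧ j.1 < k then A ⟨i.1, h.1⟩ ⟨j.1, h.2⟩ else
      if i = j then 1 else 0 := by
  obtain ⟨i', rfl⟩ := (eqv n k hk).surjective i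
  obtain ⟨j', rfl⟩ := (eqv n k hk).surjective j
  simp only [embM, MonoidHom.coe_mk, OneHom.coe_mk, Matrix.submatrix_apply,
    Equiv.symm_apply_apply, EmbeddingLike.apply_eq_iff_eq]
  rcases i' with i' | i' <;> rcases j' with j' | j'
  · simp only [Matrix.fromBlocks_apply₁₁, eqv_inl]
    rw [dif_pos ⟨by simp, by simp⟩]
    rfl
  · have := eqv_inr n k hk j'
    rw [dif_neg (by omega)]
    simp
  · have := eqv_inr n k hk i'
    rw [dif_neg (by omega)]
    simp
  · have := eqv_inr n k hk i'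
    rw [dif_neg (by omega)]
    simp only [Matrix.fromBlocks_apply₂₂, Matrix.one_apply, Sum.inr.injEq]

/-- `GL_k → GL_n` -/
def emb (n k : ℕ) (hk : k ≤ n) : G k →* G n := Units.map (embM n k hk)

theorem emb_val (n k : ℕ) (hk : k ≤ n) (g : G k) : (emb n k hk g).1 = embM n k hk g.1 := rfl

theorem emb_inv_val (n k : ℕ) (hk : k ≤ n) (g : G k) :
    ((emb n k hk g)⁻¹).1 = embM n k hk (g⁻¹).1 := by
  rw [← map_inv, emb_val]

theorem emb_mem (n k : ℕ) (hk : k ≤ n) (g : G k) : emb n k hk g ∈ GLk n k := by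
  intro i j hij
  rw [emb_val, embM_apply, dif_neg (by omega)]

theorem embM_inj (n k : ℕ) (hk : k ≤ n) : Function.Injective (embM n k hk) := by
  intro A B h
  ext i j
  have := congrFun (congrFun h (Fin.castLE hk i)) (Fin.castLE hk j)
  rw [embM_apply, embM_apply, dif_pos ⟨by simp, by simp⟩, dif_pos ⟨by simp, by simp⟩] at this
  exact this

theorem emb_inj (n k : ℕ) (hk : k ≤ n) : Function.Injective (emb n k hk) := by
  intro a b h
  apply Units.ext
  exact embM_inj n k hk (congrArg Units.val h)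

theorem exists_emb {n k : ℕ} (hk : k ≤ n) {g : G n} (hg : g ∈ GLk n k) : ∃ a, emb n k hk a = g := by
  have key : ∀ x : G n, x ∈ GLk n k →
      embM n k hk (x.1.submatrix (Fin.castLE hk) (Fin.castLE hk)) = x.1 := by
    intro x hx
    ext i j
    rw [embM_apply]
    split_ifs with h1 h2
    · rfl
    · rw [hx i j (by omega), if_pos h2]
    · rw [hx i j (by omega), if_neg h2]
  have h1 := key g hg
  have h2 := key g⁻¹ ((GLk n k).inv_mem hg)
  refine ⟨⟨g.1.submatrix (Fin.castLE hk) (Fin.castLE hk),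
    (g⁻¹).1.submatrix (Fin.castLE hk) (Fin.castLE hk), ?_, ?_⟩, ?_⟩
  · apply embM_inj n k hk
    rw [map_mul, h1, h2, map_one, ← Units.val_mul, mul_inv_cancel, Units.val_one]
  · apply embM_inj n k hk
    rw [map_mul, h1, h2, map_one, ← Units.val_mul, inv_mul_cancel, Units.val_one]
  · exact Units.ext h1

theorem emb_GO {n k : ℕ} (hk : k ≤ n) {O : Subring ℂ} {g : G k} (hg : g ∈ GO O k) :
    emb n k hk g ∈ GO O n := by
  intro i j
  rw [emb_val, emb_inv_val, embM_apply, embM_apply]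
  split_ifs with h1 h2
  · exact hg _ _
  · exact ⟨O.one_mem, O.one_mem⟩
  · exact ⟨O.zero_mem, O.zero_mem⟩

theorem emb_scal {n k : ℕ} (hk : k ≤ n) (a : ℂˣ) : emb n k hk (scal k k a) = scal n k a := by
  apply Units.ext
  ext i j
  rw [emb_val, embM_apply]
  simp only [scal, dg, Matrix.diagonal_apply, Fin.mk.injEq]
  by_cases hij : i = j
  · subst hij
    by_cases hi : i.1 < k
    · simp [hi]
    · simp [hi]
  · have : ¬ (i.1 = j.1) := fun h => hij (Fin.ext h)
    simp [hij, this]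

/-! ### polynomial maps -/

section pol

variable {ι κ : Type} {n m l : ℕ}

theorem Pol_const (a : ℂ) : (fun _ : ι → G n => a) ∈ Pol ι n :=
  (Pol ι n).algebraMap_mem a

theorem Pol_add {F F' : (ι → G n) → ℂ} (h : F ∈ Pol ι n) (h' : F' ∈ Pol ι n) :
    (fun ρ => F ρ + F' ρ) ∈ Pol ι n := (Pol ι n).add_mem h h'

theorem Pol_mul {F F' : (ι → G n) → ℂ} (h : F ∈ Pol ι n) (h' : F' ∈ Pol ι n) :
    (fun ρ => F ρ * F' ρ) ∈ Pol ι n := (Pol ι n).mul_mem h h'

theorem Pol_sum {α : Type*} (s : Finset α) {F : α → (ι → G n) → ℂ} (h : ∀ a ∈ s, F a ∈ Pol ι n) :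
    (fun ρ => ∑ a ∈ s, F a ρ) ∈ Pol ι n := by
  have : (fun ρ => ∑ a ∈ s, F a ρ) = ∑ a ∈ s, F a := by
    funext ρ
    simp
  rw [this]
  exact (Pol ι n).sum_mem h

theorem PolG_mul {S : Set (ι → G n)} {Φ Ψ : (ι → G n) → G m} (h : PolG S Φ) (h' : PolG S Ψ) :
    PolG S (fun ρ => Φ ρ * Ψ ρ) := by
  intro i j
  constructor
  · choose F hF hF' using fun k => (h i k).1
    choose F₂ hF₂ hF₂' using fun k => (h' k j).1
    refine ⟨fun ρ => ∑ k, F k ρ * F₂ k ρ, Pol_sum _ fun k _ => Pol_mul (hF k) (hF₂ k), ?_⟩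
    intro ρ hρ
    rw [Units.val_mul, Matrix.mul_apply]
    exact Finset.sum_congr rfl fun k _ => by rw [hF' k ρ hρ, hF₂' k ρ hρ]
  · choose F hF hF' using fun k => (h' i k).2
    choose F₂ hF₂ hF₂' using fun k => (h k j).2
    refine ⟨fun ρ => ∑ k, F k ρ * F₂ k ρ, Pol_sum _ fun k _ => Pol_mul (hF k) (hF₂ k), ?_⟩
    intro ρ hρ
    rw [mul_inv_rev, Units.val_mul, Matrix.mul_apply]
    exact Finset.sum_congr rfl fun k _ => by rw [hF' k ρ hρ, hF₂' k ρ hρ]

theorem PolG_inv {S : Set (ι → G n)} {Φ : (ι → G n) → G m} (h : PolG S Φ) :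
    PolG S (fun ρ => (Φ ρ)⁻¹) := by
  intro i j
  obtain ⟨h1, h2⟩ := h i j
  refine ⟨h2, ?_⟩
  simpa using h1

theorem PolG_const (S : Set (ι → G n)) (g : G m) : PolG S (fun _ => g) := fun i j =>
  ⟨⟨_, Pol_const (g.1 i j), fun _ _ => rfl⟩, ⟨_, Pol_const ((g⁻¹).1 i j), fun _ _ => rfl⟩⟩

theorem PolG_coord (S : Set (ι → G n)) (x : ι) : PolG S (fun ρ => ρ x) := fun i j =>
  ⟨⟨_, Algebra.subset_adjoin (Or.inl ⟨x, i, j, rfl⟩), fun _ _ => rfl⟩,
    ⟨_, Algebra.subset_adjoin (Or.inr ⟨x, i, j, rfl⟩), fun _ _ => rfl⟩⟩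

theorem PolG_lift {S : Set (ι → G n)} {α : Type*} (Φ : α → (ι → G n) → G m)
    (h : ∀ a, PolG S (Φ a)) (g : FreeGroup α) :
    PolG S (fun ρ => FreeGroup.lift (fun a => Φ a ρ) g) := by
  induction g using FreeGroup.induction_on with
  | C1 => simpa using PolG_const S (1 : G m)
  | of a => simpa using h a
  | inv_of a _ => simpa using PolG_inv (h a)
  | mul x y hx hy => simpa using PolG_mul hx hy

theorem PolG_emb {S : Set (ι → G n)} {l m : ℕ} (hl : m ≤ l) {Φ : (ι → G n) → G m} (h : PolG S Φ) :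
    PolG S (fun ρ => CR.emb l m hl (Φ ρ)) := by
  intro i j
  simp only [emb_val, emb_inv_val, embM_apply]
  by_cases h1 : i.1 < m ∧ j.1 < m
  · obtain ⟨⟨F, hF, hF'⟩, ⟨F2, hF2, hF2'⟩⟩ := h ⟨i.1, h1.1⟩ ⟨j.1, h1.2⟩
    exact ⟨⟨F, hF, fun ρ hρ => by rw [dif_pos h1]; exact hF' ρ hρ⟩,
      ⟨F2, hF2, fun ρ hρ => by rw [dif_pos h1]; exact hF2' ρ hρ⟩⟩
  · exact ⟨⟨_, Pol_const (if i = j then 1 else 0), fun ρ _ => by rw [dif_neg h1]⟩,
      ⟨_, Pol_const (if i = j then 1 else 0), fun ρ _ => by rw [dif_neg h1]⟩⟩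

/-- substitution of polynomial maps into a polynomial function -/
theorem Pol_comp {F : (ι → G n) → ℂ} (hF : F ∈ Pol ι n) (Φ : ι → (κ → G m) → G n)
    (h : ∀ x, PolG Set.univ (Φ x)) : (fun τ => F (fun x => Φ x τ)) ∈ Pol κ m := by
  unfold Pol at hF
  induction hF using Algebra.adjoin_induction with
  | mem F hF =>
    rcases hF with ⟨x, i, j, rfl⟩ | ⟨x, i, j, rfl⟩
    · obtain ⟨F', hF', he⟩ := (h x i j).1
      convert hF' using 1
      funext τ
      exact he τ trivial
    · obtain ⟨F', hF', he⟩ := (h x i j).2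
      convert hF' using 1
      funext τ
      exact he τ trivial
  | algebraMap r => exact Pol_const r
  | add x y _ _ hx hy => exact Pol_add hx hy
  | mul x y _ _ hx hy => exact Pol_mul hx hy

end pol

/-- integrality of word values -/
theorem lift_GO {O : Subring ℂ} {n : ℕ} {α : Type*} {ρ : α → G n} (h : ∀ a, ρ a ∈ GO O n)
    (g : FreeGroup α) : FreeGroup.lift ρ g ∈ GO O n := by
  induction g using FreeGroup.induction_on with
  | C1 => simp [(GO O n).one_mem]
  | of a => simpa using h a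
  | inv_of a _ => simpa using (GO O n).inv_mem (h a)
  | mul x y hx hy => simpa using (GO O n).mul_mem hx hy

theorem IsSc_inv {O : Subring ℂ} {a : ℂˣ} (h : IsSc O a) : IsSc O a⁻¹ := by
  obtain ⟨h1, m, hm, h2⟩ := h
  refine ⟨?_, m, hm, by rw [inv_pow, h2, inv_one]⟩
  have : a⁻¹ = a ^ (m - 1) := by
    rw [inv_eq_iff_mul_eq_one, ← pow_succ', Nat.sub_add_cancel hm, h2]
  rw [this]
  push_cast
  exact O.pow_mem h1 _

end Crest.Agent.R003.CR
end

-- ▼ part R003/S9_402
section

/-!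
# R3: step S9, a closed root is split off (helper402)
-/

set_option autoImplicit false

namespace Crest.Agent.R003.CR

open Crest.Agent.R003

/-! ### full words as lists of letters -/

theorem exists_letters {w : Wd} (hw : Wd.isFull w) :
    ∃ L : List (ℕ × Bool), w = L.map (fun l => Lt.full l.1 l.2) := by
  induction w with
  | nil => exact ⟨[], rfl⟩
  | cons l w ih =>
    obtain ⟨L, rfl⟩ := ih (fun l hl => hw l (List.mem_cons_of_mem _ hl))
    have h := hw l (by simp)
    cases l with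
    | full x ε => exact ⟨(x, ε) :: L, rfl⟩
    | par => exact absurd h (by simp [Lt.IsFull])

theorem eval_letters {n : ℕ} (ρ : ℕ → G n) (L : List (ℕ × Bool)) :
    Wd.eval ρ (L.map (fun l => Lt.full l.1 l.2)) = FreeGroup.lift ρ (FreeGroup.mk L) := by
  rw [FreeGroup.lift_mk, Wd.eval, List.map_map]
  congr 1
  apply List.map_congr_left
  rintro ⟨x, ε⟩ _
  cases ε <;> simp [Lt.eval]

theorem sat_letters {n : ℕ} (ρ : ℕ → G n) (k : ℕ) (L : List (ℕ × Bool)) :
    Wd.Sat ρ (L.map (fun l => Lt.full l.1 l.2)) k ↔ ∀ l ∈ L, ρ l.1 ∈ GLk n k := by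
  simp only [Wd.Sat, List.mem_map, forall_exists_index, and_imp]
  constructor
  · intro h l hl
    exact h _ l hl rfl
  · rintro h _ l hl rfl
    exact h l hl

theorem occ_letters (k : ℕ) (L : List (ℕ × Bool)) :
    Wd.occ (L.map (fun l => Lt.full l.1 l.2)) k =
      ((L.map (fun l => ((l.1, k, l.2) : ℕ × ℕ × Bool)) : List (ℕ × ℕ × Bool)) :
        Multiset (ℕ × ℕ × Bool)) := by
  induction L with
  | nil => rfl
  | cons l L ih =>
    simp only [Wd.occ, List.map_cons, List.sum_cons] at ih ⊢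
    rw [ih]
    simp only [Lt.occ]
    rfl

theorem pn_letters (L : List (ℕ × Bool)) :
    Wd.pn (L.map (fun l => Lt.full l.1 l.2)) = 0 := by
  induction L with
  | nil => rfl
  | cons l L ih =>
    simp only [Wd.pn, List.map_cons, List.sum_cons] at ih ⊢
    rw [ih]
    simp [Lt.pn]

/-! ### the solution property depends on the names only -/

theorem mem_sum_list {α β : Type*} {l : List β} {f : β → Multiset α} {b : β} (hb : b ∈ l) {a : α}
    (ha : a ∈ f b) : a ∈ (l.map f).sum := by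
  induction l with
  | nil => simp at hb
  | cons c l ih =>
    rw [List.map_cons, List.sum_cons, Multiset.mem_add]
    rcases List.mem_cons.1 hb with rfl | hb
    · exact Or.inl ha
    · exact Or.inr (ih hb)

theorem letter_congr {n k : ℕ} {ρ ρ' : ℕ → G n} {l : Lt}
    (h : ∀ x, ((∃ k' ε, (x, k', ε) ∈ Lt.occ k l) ∨ x ∈ Lt.pn l) → ρ x = ρ' x) :
    Lt.eval ρ l = Lt.eval ρ' l ∧ (Lt.Sat ρ k l ↔ Lt.Sat ρ' k l) := by
  cases l with
  | full x ε =>
    have := h x (Or.inl ⟨k, ε, by simp [Lt.occ]⟩)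
    simp [Lt.eval, Lt.Sat, this]
  | par p e σ c c' g =>
    have h0 := h p (Or.inr (by simp [Lt.pn]))
    have h1 : (fun b => ρ (g b)) = fun b => ρ' (g b) := by
      funext b
      apply h
      left
      cases b
      · exact ⟨_, _, by simp only [Lt.occ, Multiset.insert_eq_cons]; exact Multiset.mem_cons_self _ _⟩
      · exact ⟨_, _, by
          simp only [Lt.occ, Multiset.insert_eq_cons]
          exact Multiset.mem_cons_of_mem (Multiset.mem_singleton_self _)⟩
    simp only [Lt.eval, Lt.Sat, h0, h1, and_self]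

theorem root_congr {n : ℕ} {ρ ρ' : ℕ → G n} {r : Root}
    (h : ∀ x, ((∃ k' ε, (x, k', ε) ∈ r.occ) ∨ x ∈ r.pn) → ρ x = ρ' x) :
    r.Sol ρ → r.Sol ρ' := by
  have key : ∀ l ∈ r.w, Lt.eval ρ l = Lt.eval ρ' l ∧ (Lt.Sat ρ r.k l ↔ Lt.Sat ρ' r.k l) := by
    intro l hl
    apply letter_congr
    rintro x (⟨k', ε, hx⟩ | hx)
    · exact h x (Or.inl ⟨k', ε, mem_sum_list hl hx⟩)
    · exact h x (Or.inr (mem_sum_list hl hx))
  rintro ⟨h1, h2⟩
  refine ⟨fun l hl => (key l hl).2.1 (h1 l hl), ?_⟩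
  rw [← h2]
  congr 1
  unfold Wd.eval
  congr 1
  exact (List.map_congr_left fun l hl => (key l hl).1).symm

/-! ### splitting the list of names -/

theorem lin_split {k : ℕ} {L : List (ℕ × Bool)} {R : Multiset (ℕ × ℕ × Bool)}
    {V : Multiset (ℕ × ℕ)}
    (hV : ((L.map (fun l => ((l.1, k, l.2) : ℕ × ℕ × Bool)) : List (ℕ × ℕ × Bool)) :
        Multiset (ℕ × ℕ × Bool)) + R =
      V.map (fun v => (v.1, v.2, true)) + V.map (fun v => (v.1, v.2, false)))
    (hnd : (V.map Prod.fst).Nodup) (hpair : ∀ l ∈ L, (l.1, !l.2) ∈ L) :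
    L.Nodup ∧ (∀ x k' ε', (x, k', ε') ∈ R → ∀ ε, (x, ε) ∉ L) ∧
    ∃ V' Vw : Multiset (ℕ × ℕ), V = Vw + V' ∧
      R = V'.map (fun v => (v.1, v.2, true)) + V'.map (fun v => (v.1, v.2, false)) ∧
      ∀ x ε, (x, ε) ∈ L → x ∈ Vw.map Prod.fst := by
  classical
  have h1 : ∀ b : Bool, (V.map (fun v => ((v.1, v.2, b) : ℕ × ℕ × Bool))).Nodup := by
    intro b
    apply Multiset.Nodup.of_map Prod.fst
    rw [Multiset.map_map]
    exact hnd
  have htot : (V.map (fun v => ((v.1, v.2, true) : ℕ × ℕ × Bool)) +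
      V.map (fun v => ((v.1, v.2, false) : ℕ × ℕ × Bool))).Nodup := by
    rw [Multiset.nodup_add]
    refine ⟨h1 true, h1 false, ?_⟩
    rw [Multiset.disjoint_left]
    intro t ht ht'
    rw [Multiset.mem_map] at ht ht'
    obtain ⟨v, _, rfl⟩ := ht
    obtain ⟨v', _, hv'⟩ := ht'
    simp at hv'
  rw [← hV, Multiset.nodup_add] at htot
  obtain ⟨h2, _, h3⟩ := htot
  have hmemV : ∀ x k' ε, (x, k', ε) ∈ V.map (fun v => ((v.1, v.2, true) : ℕ × ℕ × Bool)) +
      V.map (fun v => ((v.1, v.2, false) : ℕ × ℕ × Bool)) → (x, k') ∈ V := by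
    intro x k' ε h
    rw [Multiset.mem_add, Multiset.mem_map, Multiset.mem_map] at h
    rcases h with ⟨v, hv, he⟩ | ⟨v, hv, he⟩
    · obtain ⟨a, b⟩ := v
      simp only [Prod.mk.injEq] at he
      obtain ⟨rfl, rfl, _⟩ := he
      exact hv
    · obtain ⟨a, b⟩ := v
      simp only [Prod.mk.injEq] at he
      obtain ⟨rfl, rfl, _⟩ := he
      exact hv
  have hmemL : ∀ x ε, (x, ε) ∈ L → (x, k, ε) ∈
      ((L.map (fun l => ((l.1, k, l.2) : ℕ × ℕ × Bool)) : List (ℕ × ℕ × Bool)) :
        Multiset (ℕ × ℕ × Bool)) := by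
    intro x ε h
    rw [Multiset.mem_coe, List.mem_map]
    exact ⟨(x, ε), h, rfl⟩
  have hR : ∀ x k' ε', (x, k', ε') ∈ R → ∀ ε, (x, ε) ∉ L := by
    intro x k' ε' hR ε hL
    have hL' : (x, ε') ∈ L := by
      by_cases he : ε' = ε
      · rw [he]; exact hL
      · have := hpair _ hL
        have he2 : ε' = !ε := by cases ε <;> cases ε' <;> simp_all
        rw [he2]; exact this
    have e1 := hmemV x k' ε' (by rw [← hV]; exact Multiset.mem_add.2 (Or.inr hR))
    have e2 := hmemV x k ε' (by rw [← hV]; exact Multiset.mem_add.2 (Or.inl (hmemL _ _ hL')))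
    have e3 := Multiset.inj_on_of_nodup_map hnd _ e1 _ e2 rfl
    have e4 : k' = k := congrArg Prod.snd e3
    subst e4
    exact (Multiset.disjoint_left.1 h3) (hmemL _ _ hL') hR
  refine ⟨(List.Nodup.of_map _ (Multiset.coe_nodup.1 h2)), hR, ?_⟩
  refine ⟨V.filter (fun v => ¬ ∃ ε, (v.1, ε) ∈ L), V.filter (fun v => ∃ ε, (v.1, ε) ∈ L), ?_, ?_, ?_⟩
  · exact (Multiset.filter_add_not _ _).symm
  · have h4 := congrArg (Multiset.filter (fun t : ℕ × ℕ × Bool => ¬ ∃ ε, (t.1, ε) ∈ L)) hV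
    rw [Multiset.filter_add, Multiset.filter_add, Multiset.filter_map, Multiset.filter_map] at h4
    have h5 : Multiset.filter (fun t : ℕ × ℕ × Bool => ¬ ∃ ε, (t.1, ε) ∈ L)
        ((L.map (fun l => ((l.1, k, l.2) : ℕ × ℕ × Bool)) : List (ℕ × ℕ × Bool)) :
        Multiset (ℕ × ℕ × Bool)) = 0 := by
      rw [Multiset.filter_eq_nil]
      intro t ht
      rw [Multiset.mem_coe, List.mem_map] at ht
      obtain ⟨l, hl, rfl⟩ := ht
      simp only [not_not]
      exact ⟨l.2, hl⟩
    have h6 : Multiset.filter (fun t : ℕ × ℕ × Bool => ¬ ∃ ε, (t.1, ε) ∈ L) R = R := by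
      rw [Multiset.filter_eq_self]
      rintro ⟨x, k', ε'⟩ ht ⟨ε, h⟩
      exact hR _ _ _ ht _ h
    rw [h5, h6, zero_add] at h4
    exact h4
  · intro x ε h
    have := hmemV x k ε (by rw [← hV]; exact Multiset.mem_add.2 (Or.inl (hmemL _ _ h)))
    rw [Multiset.mem_map]
    exact ⟨(x, k), Multiset.mem_filter.2 ⟨this, ε, h⟩, rfl⟩

/-! ### the step -/

theorem lift_mem_of_closure {G : Type*} [Group G] {N : Type*} (H : Subgroup G) (ρ : N → G)
    {S : Set N} (h : ∀ x ∈ S, ρ x ∈ H) {g : FreeGroup N}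
    (hg : g ∈ Subgroup.closure (FreeGroup.of '' S)) : FreeGroup.lift ρ g ∈ H := by
  have : Subgroup.closure (FreeGroup.of '' S) ≤ H.comap (FreeGroup.lift ρ) := by
    rw [Subgroup.closure_le]
    rintro _ ⟨x, hx, rfl⟩
    simpa using h x hx
  exact this hg

theorem dm_of_cons {a : ℕ} {s t : Multiset ℕ} : Multiset.IsDershowitzMannaLT s (a ::ₘ t + s) := by
  refine ⟨s, 0, a ::ₘ t, by simp, by simp, by rw [add_comm], by simp⟩


theorem s9 (O : Subring ℂ) (n : ℕ) : S9 O n := by
  classical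
  intro k ξ w rest fr ρ S hC hfull hpair hWF hρ
  obtain ⟨L, rfl⟩ := exists_letters hfull
  obtain ⟨hk, hξ, -⟩ := hWF.roots _ (List.mem_cons_self (l := rest))
  change k ≤ n at hk
  change IsSc O ξ at hξ
  obtain ⟨V, hV, hnd⟩ := hWF.lin
  have hpL : ∀ l ∈ L, (l.1, !l.2) ∈ L := by
    intro l hl
    have h1 := hpair l.1 l.2 (by
      rw [occ_letters, Multiset.mem_coe, List.mem_map]
      exact ⟨l, hl, rfl⟩)
    rw [occ_letters, Multiset.mem_coe, List.mem_map] at h1
    obtain ⟨l', hl', he⟩ := h1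
    simp only [Prod.mk.injEq, true_and] at he
    rw [← he.1, ← he.2]
    exact hl'
  have hoccS : S.occ = ((L.map (fun l => ((l.1, k, l.2) : ℕ × ℕ × Bool)) :
      List (ℕ × ℕ × Bool)) : Multiset (ℕ × ℕ × Bool)) + (rest.map Root.occ).sum := by
    change ((_ :: rest).map Root.occ).sum = _
    rw [List.map_cons, List.sum_cons, ← occ_letters]
    rfl
  have hpnS : S.pn = (rest.map Root.pn).sum := by
    change ((_ :: rest).map Root.pn).sum = _
    rw [List.map_cons, List.sum_cons]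
    have : Root.pn ⟨k, ξ, L.map (fun l => Lt.full l.1 l.2)⟩ = 0 := pn_letters L
    rw [this, zero_add]
  have hndV : (V.map Prod.fst).Nodup := by
    refine Multiset.nodup_of_le ?_ hnd
    exact (Multiset.le_add_right _ _).trans (Multiset.le_add_right _ _)
  obtain ⟨hLnd, hLR, V', Vw, hVV, hR, hVw⟩ := lin_split (hoccS ▸ hV) hndV hpL
  have hcl : IsClosed L := ⟨hLnd, hpL⟩
  obtain ⟨R⟩ := exists_red L.length L le_rfl hcl
  -- names of the closed root
  set NW : Set ℕ := {x | (x, true) ∈ L} with hNW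
  have hNWmem : ∀ l ∈ L, l.1 ∈ NW := fun l hl => hcl.mem_nms hl
  -- disjointness
  have hnd2 : (Vw.map Prod.fst + (V'.map Prod.fst + (rest.map Root.pn).sum +
      ((fr.map Prod.fst : List ℕ) : Multiset ℕ))).Nodup := by
    have h1 : V.map Prod.fst + S.pn + ((S.free.map Prod.fst : List ℕ) : Multiset ℕ) =
        (Vw.map Prod.fst + (V'.map Prod.fst + (rest.map Root.pn).sum +
        ((fr.map Prod.fst : List ℕ) : Multiset ℕ))) := by
      rw [hpnS, hVV, Multiset.map_add]
      simp only [add_assoc]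
      rfl
    rw [← h1]
    exact hnd
  have hdisj := (Multiset.nodup_add.1 hnd2).2.2
  have hNWpn : ∀ x ∈ NW, x ∉ (rest.map Root.pn).sum := by
    intro x hx h
    refine Multiset.disjoint_left.1 hdisj (hVw x true hx) ?_
    rw [Multiset.mem_add, Multiset.mem_add]
    exact Or.inl (Or.inr h)
  have hNWfr : ∀ x ∈ NW, x ∉ fr.map Prod.fst := by
    intro x hx h
    refine Multiset.disjoint_left.1 hdisj (hVw x true hx) ?_
    rw [Multiset.mem_add]
    exact Or.inr h
  have hNWocc : ∀ x ∈ NW, ∀ k' ε, (x, k', ε) ∉ (rest.map Root.occ).sum :=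
    fun x hx k' ε h => hLR x k' ε h true hx
  have hrestNW : ∀ r ∈ rest, ∀ x, ((∃ k' ε, (x, k', ε) ∈ r.occ) ∨ x ∈ r.pn) → x ∉ NW := by
    rintro r hr x (⟨k', ε, h⟩ | h) hx
    · exact hNWocc x hx k' ε (mem_sum_list hr h)
    · exact hNWpn x hx (mem_sum_list hr h)
  -- the solution
  obtain ⟨hroots, hfree⟩ := hρ
  obtain ⟨hsat, hev⟩ := hroots _ (List.mem_cons_self (l := rest))
  change Wd.Sat ρ _ k at hsat
  change scal n k ξ * Wd.eval ρ _ = 1 at hev
  rw [sat_letters] at hsat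
  rw [eval_letters] at hev
  have hsatNW : ∀ x ∈ NW, ρ x ∈ GLk n k := fun x hx => hsat (x, true) hx
  have hTh : ∀ y, FreeGroup.lift ρ (R.Theta y) ∈ GLk n k := fun y =>
    lift_mem_of_closure _ ρ hsatNW (R.mem y)
  choose T hT using fun p : Fin R.h × Bool => exists_emb hk (hTh (Sum.inl p))
  have hback : FreeGroup.lift ρ (FreeGroup.lift R.Theta (FreeGroup.lift R.Psi (FreeGroup.mk L))) =
      FreeGroup.lift ρ (FreeGroup.mk L) := by
    rw [lift_lift (FreeGroup.lift R.Theta) R.Psi, R.back hcl (fun l hl => hl)]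
  have hsc : scal n k ξ⁻¹ = (scal n k ξ)⁻¹ := by
    rw [← emb_scal hk, ← emb_scal hk, ← map_inv]
    congr 1
    apply Units.ext
    simp [scal, dg]
  have hTsol : cprod R.h T = scal k k ξ⁻¹ := by
    apply emb_inj n k hk
    rw [map_cprod, emb_scal]
    have h1 : (fun p => emb n k hk (T p)) = fun p => FreeGroup.lift ρ (R.Theta (Sum.inl p)) := by
      funext p; exact hT p
    rw [h1]
    have h2 : cprod R.h (fun p => FreeGroup.lift ρ (R.Theta (Sum.inl p))) =
        FreeGroup.lift ρ (FreeGroup.lift R.Theta (cprod R.h fun p => FreeGroup.of (Sum.inl p))) := by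
      rw [map_cprod, map_cprod]
      simp
    rw [h2, ← R.word, hback, hsc]
    exact eq_inv_of_mul_eq_one_right hev
  -- the substitution
  set U : (Fin R.h × Bool → G k) → (ℕ → G n) → ℕ → G n := fun T' τ x =>
    if x ∈ NW then FreeGroup.lift (Sum.elim (fun p => emb n k hk (T' p)) (fun j => τ (R.y j)))
      (R.Psi x) else τ x with hU
  set ρ' : ℕ → G n := fun x => if h : ∃ j, R.y j = x then
    FreeGroup.lift ρ (R.Theta (Sum.inr h.choose)) else ρ x with hρ'
  have hρ'y : ∀ j, ρ' (R.y j) = FreeGroup.lift ρ (R.Theta (Sum.inr j)) := by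
    intro j
    have h : ∃ j', R.y j' = R.y j := ⟨j, rfl⟩
    simp only [hρ']
    rw [dif_pos h]
    have := R.y_inj h.choose_spec
    rw [this]
  have hρ'n : ∀ x, x ∉ NW → ρ' x = ρ x := by
    intro x hx
    simp only [hρ']
    rw [dif_neg]
    rintro ⟨j, rfl⟩
    exact hx (R.y_mem j)
  have hUρ : U T ρ' = ρ := by
    funext x
    simp only [hU]
    split_ifs with hx
    · have h1 : (Sum.elim (fun p => emb n k hk (T p)) (fun j => ρ' (R.y j)) : Gen R.h R.m → G n) =
          fun y => FreeGroup.lift ρ (R.Theta y) := by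
        funext y
        rcases y with y | y
        · exact hT y
        · exact hρ'y y
      rw [h1, ← lift_lift (FreeGroup.lift ρ) R.Theta, R.inv x hx]
      simp
    · exact hρ'n x hx
  -- the new system
  set S' : Sys := ⟨rest, (List.ofFn fun j => (R.y j, k)) ++ fr⟩ with hS'
  have hys : (List.ofFn fun j => (R.y j, k)).map Prod.fst = List.ofFn R.y := by
    rw [List.map_ofFn]; rfl
  have hS'free : S'.free.map Prod.fst = List.ofFn R.y ++ fr.map Prod.fst := by
    simp only [hS', List.map_append, hys]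
  have hnames : ∀ x, x ∉ NW → (x ∈ S.names → x ∈ S'.names) := by
    rintro x hx (⟨k', ε, h⟩ | h | h)
    · rw [hoccS, Multiset.mem_add] at h
      rcases h with h | h
      · rw [Multiset.mem_coe, List.mem_map] at h
        obtain ⟨l, hl, he⟩ := h
        simp only [Prod.mk.injEq] at he
        exact absurd (he.1 ▸ hNWmem l hl) hx
      · exact Or.inl ⟨k', ε, h⟩
    · rw [hpnS] at h
      exact Or.inr (Or.inl h)
    · refine Or.inr (Or.inr ?_)
      rw [hS'free]
      exact List.mem_append_right _ h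
  have hyn : ∀ j, R.y j ∈ S'.names := by
    intro j
    refine Or.inr (Or.inr ?_)
    rw [hS'free]
    exact List.mem_append_left _ (by rw [List.mem_ofFn]; exact ⟨j, rfl⟩)
  refine ⟨S', ρ', ⟨fun r hr => hWF.roots r (List.mem_cons_of_mem _ hr), ?_, ?_⟩, ?_, ?_, ?_, ?_⟩
  · intro z hz
    rw [hS'] at hz
    rcases List.mem_append.1 hz with hz | hz
    · rw [List.mem_ofFn] at hz
      obtain ⟨j, rfl⟩ := hz
      exact hk
    · exact hWF.free z hz
  · refine ⟨V', hR, ?_⟩
    refine Multiset.nodup_of_le ?_ hnd2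
    have h1 : ((List.ofFn R.y : List ℕ) : Multiset ℕ) ≤ Vw.map Prod.fst := by
      rw [Multiset.le_iff_subset (Multiset.coe_nodup.2 (List.nodup_ofFn.2 R.y_inj))]
      intro x hx
      rw [Multiset.mem_coe, List.mem_ofFn] at hx
      obtain ⟨j, rfl⟩ := hx
      exact hVw _ _ (R.y_mem j)
    have h2 : V'.map Prod.fst + S'.pn + ((S'.free.map Prod.fst : List ℕ) : Multiset ℕ) =
        ((List.ofFn R.y : List ℕ) : Multiset ℕ) + (V'.map Prod.fst + (rest.map Root.pn).sum +
        ((fr.map Prod.fst : List ℕ) : Multiset ℕ)) := by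
      rw [hS'free, ← Multiset.coe_add]
      have : S'.pn = (rest.map Root.pn).sum := rfl
      rw [this]
      simp only [add_assoc, add_left_comm]
    rw [h2]
    exact add_le_add h1 le_rfl
  · have h1 : S.wt = (3 * k) ::ₘ Wd.wt (L.map (fun l => Lt.full l.1 l.2)) k + S'.wt := by
      change ((_ :: rest).map Root.wt).sum = _
      rw [List.map_cons, List.sum_cons]
      rfl
    rw [h1]
    exact dm_of_cons
  · intro k0 hA r hr
    exact hA r (List.mem_cons_of_mem _ hr)
  · refine ⟨fun r hr => ?_, fun z hz => ?_⟩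
    · refine root_congr (fun x hx => (hρ'n x (hrestNW r hr x hx)).symm)
        (hroots r (List.mem_cons_of_mem _ hr))
    · rcases List.mem_append.1 hz with hz | hz
      · rw [List.mem_ofFn] at hz
        obtain ⟨j, rfl⟩ := hz
        change ρ' (R.y j) ∈ GLk n k
        rw [hρ'y]
        exact hTh _
      · have hz' : z.1 ∉ NW := fun h => hNWfr _ h (List.mem_map_of_mem hz)
        rw [hρ'n _ hz']
        exact hfree z hz
  · intro hA F hF hvan
    -- solutions are mapped to solutions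
    have hUsol : ∀ T' : Fin R.h × Bool → G k, cprod R.h T' = scal k k ξ⁻¹ →
        ∀ τ ∈ S'.Sol n, U T' τ ∈ S.Sol n := by
      intro T' hT' τ hτ
      have hyk : ∀ j, τ (R.y j) ∈ GLk n k := by
        intro j
        exact hτ.2 (R.y j, k) (List.mem_append_left _ (by rw [List.mem_ofFn]; exact ⟨j, rfl⟩))
      have hval : ∀ x, FreeGroup.lift (Sum.elim (fun p => emb n k hk (T' p))
          (fun j => τ (R.y j))) (R.Psi x) ∈ GLk n k := by
        intro x
        refine lift_mem_of_closure (S := Set.univ) _ _ (fun y _ => ?_) ?_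
        · rcases y with y | y
          · exact emb_mem n k hk _
          · exact hyk y
        · rw [Set.image_univ, FreeGroup.closure_range_of]
          trivial
      refine ⟨fun r hr => ?_, fun z hz => ?_⟩
      · rcases List.mem_cons.1 hr with rfl | hr
        · refine ⟨?_, ?_⟩
          · change Wd.Sat _ _ k
            rw [sat_letters]
            intro l hl
            have hx := hNWmem l hl
            simp only [hU]
            rw [if_pos hx]
            exact hval _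
          · change scal n k ξ * Wd.eval _ _ = 1
            rw [eval_letters]
            have h1 : FreeGroup.lift (U T' τ) (FreeGroup.mk L) = FreeGroup.lift
                (fun x => FreeGroup.lift (Sum.elim (fun p => emb n k hk (T' p))
                  (fun j => τ (R.y j))) (R.Psi x)) (FreeGroup.mk L) := by
              apply lift_mk_congr
              intro l hl
              have hx := hNWmem l hl
              simp only [hU]
              rw [if_pos hx]
            rw [h1, ← lift_lift (FreeGroup.lift (Sum.elim (fun p => emb n k hk (T' p))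
                  (fun j => τ (R.y j)))) R.Psi, R.word, map_cprod]
            simp only [FreeGroup.lift_apply_of, Sum.elim_inl]
            rw [← map_cprod, hT', emb_scal, hsc, mul_inv_cancel]
        · refine root_congr (fun x hx => ?_) (hτ.1 r hr)
          have := hrestNW r hr x hx
          simp only [hU]
          rw [if_neg this]
      · have hz' : z.1 ∉ NW := fun h => hNWfr _ h (List.mem_map_of_mem hz)
        simp only [hU]
        rw [if_neg hz']
        exact hτ.2 z (List.mem_append_right _ hz)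
    -- step 1
    have hstep1 : ∀ T' : Fin R.h × Bool → G k, cprod R.h T' = scal k k ξ⁻¹ →
        (∀ p, T' p ∈ GO O k) → F (U T' ρ') = 0 := by
      intro T' hT' hT'O
      refine hA (fun τ => F (U T' τ)) ?_ ?_
      · refine Pol_comp hF (fun x τ => U T' τ x) ?_
        intro x
        simp only [hU]
        split_ifs with hx
        · refine PolG_lift (fun y τ => (Sum.elim (fun p => emb n k hk (T' p))
            (fun j => τ (R.y j)) : Gen R.h R.m → G n) y) ?_ (R.Psi x)
          intro y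
          rcases y with y | y
          · exact PolG_const _ _
          · exact PolG_coord _ _
        · exact PolG_coord _ x
      · intro τ hτ hτO
        refine hvan _ (hUsol T' hT' τ hτ) ?_
        intro x hx
        simp only [hU]
        split_ifs with hxN
        · apply lift_GO
          intro y
          rcases y with y | y
          · exact emb_GO hk (hT'O y)
          · exact hτO _ (hyn y)
        · exact hτO _ (hnames x hxN hx)
    -- step 2
    have hstep2 : F (U T ρ') = 0 := by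
      have hCl := hC R.h ξ⁻¹ (IsSc_inv hξ) T hTsol
      refine hCl (fun T' => F (U T' ρ')) ?_ ?_
      · refine Pol_comp hF (fun x T' => U T' ρ' x) ?_
        intro x
        simp only [hU]
        split_ifs with hx
        · refine PolG_lift (fun y T' => (Sum.elim (fun p => emb n k hk (T' p))
            (fun j => ρ' (R.y j)) : Gen R.h R.m → G n) y) ?_ (R.Psi x)
          intro y
          rcases y with y | y
          · exact PolG_emb hk (PolG_coord _ _)
          · exact PolG_const _ _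
        · exact PolG_const _ _
      · intro T' hT' hT'O
        exact hstep1 T' hT' (fun p => hT'O p trivial)
    rw [hUρ] at hstep2
    exact hstep2

end Crest.Agent.R003.CR
end

-- ▼ part R003/BruhatPar686
section

/-!
# Row 3 (S0003): block extraction for `Bool` labels and `Bruhat n` (helper686)
-/

set_option autoImplicit false

namespace Crest.Agent.R003

section pos

variable {Λ : Type} [DecidableEq Λ]

theorem count_take_succ (l : List Λ) (i : ℕ) (a : Λ) (h : lab l i = some a) :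
    (l.take (i + 1)).count a = (l.take i).count a + 1 := by
  have h' : l[i]? = some a := h
  rw [List.take_add_one, h']
  simp

theorem count_take_lt686 (l : List Λ) (i : ℕ) (a : Λ) (h : lab l i = some a) :
    (l.take i).count a < l.count a := by
  have h1 := count_take_succ l i a h
  have h2 : (l.take (i + 1)).count a ≤ l.count a := (List.take_sublist _ _).count_le _
  omega

theorem count_take_inj (l : List Λ) (i j : ℕ) (a : Λ) (hi : lab l i = some a)
    (hj : lab l j = some a) (h : (l.take i).count a = (l.take j).count a) : i = j := by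
  have key : ∀ i j : ℕ, lab l i = some a → i < j →
      (l.take i).count a < (l.take j).count a := by
    intro i j hi hij
    have h1 := count_take_succ l i a hi
    have h2 : (l.take (i + 1)).count a ≤ (l.take j).count a := by
      apply List.Sublist.count_le
      exact List.take_sublist_take_left (by omega)
    omega
  rcases lt_trichotomy i j with h1 | h1 | h1
  · exact absurd h (key i j hi h1).ne
  · exact h1
  · exact absurd h.symm (key j i hj h1).ne

variable [Fintype Λ]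

/-- class and position -/
def cp (l : List Λ) {k : ℕ} (hl : l.length = k) (i : Fin k) : Σ a : Λ, Fin (l.count a) :=
  ⟨gl l hl i, ⟨(l.take i.1).count (gl l hl i),
    count_take_lt686 l i.1 _ ((lab_eq_some_iff l hl _ _).2 ⟨i.2, rfl⟩)⟩⟩

omit [Fintype Λ] in
theorem cp_injective (l : List Λ) {k : ℕ} (hl : l.length = k) : Function.Injective (cp l hl) := by
  intro i j h
  have h1 : gl l hl i = gl l hl j := congrArg Sigma.fst h
  have h2 : (l.take i.1).count (gl l hl i) = (l.take j.1).count (gl l hl j) :=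
    congrArg (fun x : (Σ a : Λ, Fin (l.count a)) => x.2.1) h
  apply Fin.ext
  refine count_take_inj l i.1 j.1 (gl l hl i) ((lab_eq_some_iff l hl _ _).2 ⟨i.2, rfl⟩)
    ((lab_eq_some_iff l hl _ _).2 ⟨j.2, h1.symm⟩) ?_
  rw [h2, h1]

theorem cp_bijective (l : List Λ) {k : ℕ} (hl : l.length = k) : Function.Bijective (cp l hl) := by
  rw [Fintype.bijective_iff_injective_and_card]
  refine ⟨cp_injective l hl, ?_⟩
  rw [Fintype.card_fin, Fintype.card_sigma]
  simp only [Fintype.card_fin]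
  rw [← hl, ← Multiset.coe_card, ← Multiset.toFinset_sum_count_eq]
  symm
  simp only [Multiset.coe_count]
  refine (Finset.sum_subset (Finset.subset_univ _) ?_).symm
  intro a _ ha
  rw [Multiset.mem_toFinset, Multiset.mem_coe] at ha
  exact List.count_eq_zero.2 ha

/-- class and position, as an equivalence -/
noncomputable def cpE (l : List Λ) {k : ℕ} (hl : l.length = k) :
    Fin k ≃ Σ a : Λ, Fin (l.count a) := Equiv.ofBijective _ (cp_bijective l hl)

end pos

/-- BLOCK EXTRACTION for linearly ordered finite label types. -/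
theorem extract_of_zero {Λ : Type} [LinearOrder Λ] [Fintype Λ] {n : ℕ} (c c' : List Λ) (P : G n)
    (hlen : c.length ≤ n) (hcnt : ∀ l, c.count l = c'.count l) (hmem : P ∈ GLk n c.length)
    (hzero : ∀ (i j : Fin n) (a b : Λ), lab c i.1 = some a → lab c' j.1 = some b → ¬ a ≤ b →
      P.1 i j = 0) : ∃ g : Λ → G n, IsPar c c' g P := by
  classical
  have hcl : c'.length = c.length := by
    rw [← Multiset.coe_card, ← Multiset.coe_card, ← Multiset.toFinset_sum_count_eq,
      ← Multiset.toFinset_sum_count_eq]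
    have : (c : Multiset Λ) = (c' : Multiset Λ) := by
      ext a
      simp [hcnt a]
    rw [this]
  obtain ⟨A, rfl⟩ := exists_embG hlen P hmem
  -- reorder
  let e : Fin c.length ≃ Σ a : Λ, Fin (c.count a) := cpE c rfl
  let e' : Fin c.length ≃ Σ a : Λ, Fin (c.count a) := (cpE c' hcl).trans
    (Equiv.sigmaCongrRight fun a => finCongr (hcnt a).symm)
  let A' : Matrix (Σ a : Λ, Fin (c.count a)) (Σ a : Λ, Fin (c.count a)) ℂ :=
    A.1.submatrix e.symm e'.symm
  have hA' : IsUnit A' := (Matrix.isUnit_submatrix_equiv e.symm e'.symm).2 A.isUnit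
  have he : ∀ i, (e i).1 = gl c rfl i := fun i => rfl
  have he' : ∀ i, (e' i).1 = gl c' hcl i := fun i => rfl
  have htri : A'.BlockTriangular Sigma.fst := by
    intro x y hxy
    obtain ⟨i, rfl⟩ := e.surjective x
    obtain ⟨j, rfl⟩ := e'.surjective y
    have h1 : A' (e i) (e' j) = A.1 i j := by
      simp [A']
    rw [he, he'] at hxy
    rw [h1]
    have h2 := hzero ⟨i.1, lt_of_lt_of_le i.2 hlen⟩ ⟨j.1, lt_of_lt_of_le j.2 hlen⟩ (gl c rfl i)
      (gl c' hcl j) ((lab_eq_some_iff c rfl _ _).2 ⟨i.2, rfl⟩)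
      ((lab_eq_some_iff c' hcl _ _).2 ⟨j.2, rfl⟩) (not_le_of_gt hxy)
    rw [← h2]
    exact (emb_lt hlen A.1 ⟨i.1, lt_of_lt_of_le i.2 hlen⟩ ⟨j.1, lt_of_lt_of_le j.2 hlen⟩
      i.2 j.2).symm
  have hdet : ∀ a, (A'.toSquareBlock Sigma.fst a).det ≠ 0 := by
    have h1 : A'.det ≠ 0 := by
      have := (Matrix.isUnit_iff_isUnit_det _).1 hA'
      exact this.ne_zero
    rw [htri.det_fintype] at h1
    intro a
    exact Finset.prod_ne_zero_iff.1 h1 a (Finset.mem_univ a)
  let M : ∀ a, Matrix (Fin (c.count a)) (Fin (c.count a)) ℂ := fun a => fun s t => A' ⟨a, s⟩ ⟨a, t⟩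
  have hM : ∀ a, IsUnit (M a) := by
    intro a
    rw [Matrix.isUnit_iff_isUnit_det, isUnit_iff_ne_zero]
    let f : Fin (c.count a) ≃ {x : Σ a : Λ, Fin (c.count a) // x.1 = a} :=
      { toFun := fun s => ⟨⟨a, s⟩, rfl⟩
        invFun := fun x => Fin.cast (by rw [x.2]) x.1.2
        left_inv := fun s => rfl
        right_inv := by
          rintro ⟨⟨b, s⟩, rfl⟩
          rfl }
    have h2 : M a = (A'.toSquareBlock Sigma.fst a).submatrix f f := rfl
    rw [h2, Matrix.det_submatrix_equiv_self]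
    exact hdet a
  refine ⟨fun a => embG ((List.count_le_length).trans hlen) (hM a).unit, ⟨hlen, hcnt, hmem,
    fun a => embG_mem _ _, hzero, ?_⟩⟩
  intro i j u v a hi hj hu hv
  obtain ⟨hi', hia⟩ := (lab_eq_some_iff c rfl _ _).1 hi
  obtain ⟨hj', hja⟩ := (lab_eq_some_iff c' hcl _ _).1 hj
  have hu' : u.1 < c.count a := by rw [hu]; exact count_take_lt686 c i.1 a hi
  have hv' : v.1 < c.count a := by rw [hv, hcnt a]; exact count_take_lt686 c' j.1 a hj
  have h1 : (embG ((List.count_le_length).trans hlen : c.count a ≤ n) (hM a).unit).1 u v =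
      A' ⟨a, ⟨u.1, hu'⟩⟩ ⟨a, ⟨v.1, hv'⟩⟩ := emb_lt _ _ u v hu' hv'
  rw [h1]
  have h2 : e ⟨i.1, hi'⟩ = ⟨a, ⟨u.1, hu'⟩⟩ := by
    subst hia
    refine Sigma.ext rfl (heq_of_eq ?_)
    ext
    exact hu.symm
  have h3 : e' ⟨j.1, hj'⟩ = ⟨a, ⟨v.1, hv'⟩⟩ := by
    subst hja
    refine Sigma.ext rfl (heq_of_eq ?_)
    ext
    exact hv.symm
  rw [← h2, ← h3]
  have h4 : A' (e ⟨i.1, hi'⟩) (e' ⟨j.1, hj'⟩) = A.1 ⟨i.1, hi'⟩ ⟨j.1, hj'⟩ := by
    simp [A']
  rw [h4]
  exact emb_lt hlen A.1 i j hi' hj'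

/-- a list with prescribed counts -/
def lst (s : Bool × Bool → ℕ) : List (Bool × Bool) :=
  List.replicate (s (false, false)) (false, false) ++ List.replicate (s (false, true)) (false, true)
    ++ List.replicate (s (true, false)) (true, false) ++ List.replicate (s (true, true)) (true, true)

theorem count_lst (s : Bool × Bool → ℕ) (a : Bool × Bool) : (lst s).count a = s a := by
  rcases a with ⟨x, y⟩
  cases x <;> cases y <;> simp [lst, List.count_replicate]

/-- BRUHAT with joint labels in any order, `IsPar` form. -/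
theorem bruhat_joint_par {n k : ℕ} (hk : k ≤ n) (X : G n) (hX : X ∈ GLk n k) (E F : List Bool)
    (hE : E.length = k) (hF : F.length = k) :
    ∃ s : Bool × Bool → ℕ,
      (∀ b, s (b, false) + s (b, true) = E.count b) ∧
      (∀ b, s (false, b) + s (true, b) = F.count b) ∧
      ∀ L : List (Bool × Bool), (∀ a, L.count a = s a) → L.length = k ∧
        ∃ (q q' : G n) (g g' : Bool → G n), X = q * q' ∧ IsPar E (L.map Prod.fst) g q ∧
          IsPar (L.map Prod.snd) F g' q' := by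
  obtain ⟨s, h1, h2, hL⟩ := bruhat_joint hk X hX E F hE hF
  refine ⟨s, h1, h2, ?_⟩
  intro L hs
  obtain ⟨hlen, hc1, hc2, q, q', hq, hq', hX', hz, hz'⟩ := hL L hs
  refine ⟨hlen, ?_⟩
  obtain ⟨g, hg⟩ := extract_of_zero E (L.map Prod.fst) q (by omega) (fun b => (hc1 b).symm)
    (by rw [hE]; exact hq) hz
  obtain ⟨g', hg'⟩ := extract_of_zero (L.map Prod.snd) F q' (by rw [List.length_map]; omega)
    hc2 (by rw [List.length_map, hlen]; exact hq') hz'
  exact ⟨q, q', g, g', hX', hg, hg'⟩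

/-- Lemma BRUHAT. -/
theorem bruhat (n : ℕ) : Bruhat n := by
  intro k hk X hX E F hE hF
  obtain ⟨s, -, -, hL⟩ := bruhat_joint_par hk X hX E F hE hF
  obtain ⟨hlen, q, q', g, g', hX', hg, hg'⟩ := hL (lst s) (count_lst s)
  exact ⟨(lst s).map Prod.fst, (lst s).map Prod.snd, q, q', g, g', by rw [List.length_map, hlen],
    by rw [List.length_map, hlen], hg, hg', hX'⟩

end Crest.Agent.R003
end

-- ▼ part R003/U_402
section

/-!
# Row 3 (S0003): steps U1, U2 (helper402): the sign of a letter next to constant labels is absorbed.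
-/

set_option autoImplicit false

namespace Crest.Agent.R003.CRU

open Crest.Agent.R003
open H486

theorem count_add (c : List Bool) : c.count false + c.count true = c.length := by
  induction c with
  | nil => rfl
  | cons a l ih =>
    cases a
    · rw [List.count_cons_self, List.count_cons_of_ne (by decide), List.length_cons]; omega
    · rw [List.count_cons_self, List.count_cons_of_ne (by decide), List.length_cons]; omega

/-- a child relation `s g = g'` -/
def chRoot (k : ℕ) (s : ℂˣ) (x y : ℕ) : Root := ⟨k, s, [Lt.full x true, Lt.full y false]⟩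

theorem chRoot_sol {n k : ℕ} {s : ℂˣ} {x y : ℕ} {ρ : ℕ → G n} :
    (chRoot k s x y).Sol ρ ↔ ρ x ∈ GLk n k ∧ ρ y ∈ GLk n k ∧ ρ y = scal n k s * ρ x := by
  have h1 : (chRoot k s x y).Sol ρ ↔ (Wd.Sat ρ [Lt.full x true, Lt.full y false] k ∧
    scal n k s * Wd.eval ρ [Lt.full x true, Lt.full y false] = 1) := Iff.rfl
  rw [h1, Sat_cons, Sat_cons, eval_cons, eval_cons, eval_nil]
  simp only [Lt.Sat, Lt.eval, if_true, mul_one, Bool.false_eq_true, if_false]
  constructor
  · rintro ⟨⟨h2, h3, _⟩, h4⟩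
    refine ⟨h2, h3, ?_⟩
    rw [← mul_assoc] at h4
    exact (mul_inv_eq_one.1 h4).symm
  · rintro ⟨h2, h3, h4⟩
    refine ⟨⟨h2, h3, Sat_nil _ _⟩, ?_⟩
    rw [← mul_assoc, h4, mul_inv_cancel]

/-- **Absorption of a sign** into the letter `q`: the general form. -/
theorem absorb {O : Subring ℂ} {n : ℕ} (k : ℕ) (ξ : ℂˣ) (u v vn : Wd) (q : ℕ) (e : List Bool)
    (σ σn : Bool → Bool → ℂˣ) (c c' : List Bool) (g : Bool → ℕ) (rest : List Root)
    (fr : List (ℕ × ℕ)) (ρ : ℕ → G n)
    (hWF : Sys.WF O n ⟨⟨k, ξ, u ++ Lt.par q e σ c c' g :: v⟩ :: rest, fr⟩)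
    (hρ : ρ ∈ Sys.Sol n ⟨⟨k, ξ, u ++ Lt.par q e σ c c' g :: v⟩ :: rest, fr⟩)
    (s : Bool → ℂˣ) (hs : ∀ b, IsSc O (s b)) (A B : G n) (al be : Bool → G n)
    (hA : IsPar c c al A) (hB : IsPar c' c' be B) (hAO : A ∈ GO O n) (hBO : B ∈ GO O n)
    (hab : ∀ b, ∀ X ∈ GLk n (c.count b), al b * X * be b = scal n (c.count b) (s b) * X)
    (hcl : c.length = k) (hnd : ∀ b, 0 < c.count b)
    (hWn : ∀ gn, Wd.WF O (u ++ Lt.par q e σn c c' gn :: vn) k
      (Wd.last (u ++ Lt.par q e σn c c' gn :: vn) none))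
    (hocc : Wd.occ vn k = Wd.occ v k) (hpn : Wd.pn vn = Wd.pn v)
    (hsat : ∀ ρ : ℕ → G n, Wd.Sat ρ vn k ↔ Wd.Sat ρ v k)
    (hev : ∀ (ρ : ℕ → G n) (X : G n), dsg n e c σn * (A * X * B) * Wd.eval ρ vn =
      dsg n e c σ * X * Wd.eval ρ v)
    (m : ℕ) (hm : ∀ b, 3 * c.count b + 1 < m)
    (hwt : ∀ gn, Lt.wt k (Lt.par q e σ c c' g) + Wd.wt v k =
      Lt.wt k (Lt.par q e σn c c' gn) + Wd.wt vn k + {m}) :
    Red O n ⟨⟨k, ξ, u ++ Lt.par q e σ c c' g :: v⟩ :: rest, fr⟩ ρ := by
  classical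
  set S : Sys := ⟨⟨k, ξ, u ++ Lt.par q e σ c c' g :: v⟩ :: rest, fr⟩ with hS
  obtain ⟨N, hN⟩ := Sys.exists_fresh S
  set gn : Bool → ℕ := fun b => if b then N + 1 else N with hgn
  have hgnf : gn false = N := by simp [hgn]
  have hgnt : gn true = N + 1 := by simp [hgn]
  have hgn_ge : ∀ b, N ≤ gn b := by intro b; cases b <;> simp [hgn]
  have hgn_fresh : ∀ b, gn b ∉ S.names := fun b hb => absurd (hN _ hb) (by have := hgn_ge b; omega)
  set r0 : Root := ⟨k, ξ, u ++ Lt.par q e σ c c' g :: v⟩ with hr0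
  set r1 : Root := ⟨k, ξ, u ++ Lt.par q e σn c c' gn :: vn⟩ with hr1
  set Rf : Root := chRoot (c.count false) (s false) (g false) (gn false) with hRf
  set Rt : Root := chRoot (c.count true) (s true) (g true) (gn true) with hRt
  have hr0WF : r0.WF O n := hWF.roots r0 List.mem_cons_self
  have hkn : k ≤ n := hr0WF.1
  have hcnt_lt : ∀ b, c.count b < k := by
    intro b
    have h1 : c.count false + c.count true = c.length := count_add c
    have h2 := hnd false
    have h3 := hnd true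
    cases b <;> omega
  -- names
  have hqpn : q ∈ r0.pn := by
    show q ∈ Wd.pn (u ++ Lt.par q e σ c c' g :: v)
    rw [pn_app, pn_cons]
    simp [Lt.pn]
  have hqS : q ∈ S.pn := by
    show q ∈ (List.map Root.pn (r0 :: rest)).sum
    rw [List.map_cons, List.sum_cons]
    exact Multiset.mem_add.2 (Or.inl hqpn)
  have hSpn : S.pn = q ::ₘ (Wd.pn u + Wd.pn v + pnL rest) := by
    show (List.map Root.pn (r0 :: rest)).sum = _
    rw [List.map_cons, List.sum_cons]
    show Wd.pn (u ++ Lt.par q e σ c c' g :: v) + pnL rest = _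
    rw [pn_app, pn_cons, ← Multiset.singleton_add]
    simp only [Lt.pn]
    abel
  have hSocc : S.occ = Wd.occ u k + ((Lt.par q e σ c c' g).occ k + Wd.occ v k) + occL rest := by
    show (List.map Root.occ (r0 :: rest)).sum = _
    rw [List.map_cons, List.sum_cons]
    show Wd.occ (u ++ Lt.par q e σ c c' g :: v) k + occL rest = _
    rw [occ_app, occ_cons]
  have hqnot : q ∉ Wd.pn u ∧ q ∉ Wd.pn v := by
    have h1 := hWF.pn_nodup
    rw [hSpn, Multiset.nodup_cons] at h1
    constructor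
    · intro h; exact h1.1 (by simp [h])
    · intro h; exact h1.1 (by simp [h])
  have hqocc : ∀ j ε, (q, j, ε) ∉ S.occ := fun j ε h => hWF.occ_not_pn h hqS
  have hgmem : ∀ b, (g b, c.count b, true) ∈ S.occ := by
    intro b
    rw [hSocc]
    refine Multiset.mem_add.2 (Or.inl (Multiset.mem_add.2 (Or.inr (Multiset.mem_add.2 (Or.inl ?_)))))
    show _ ∈ ({(g false, c.count false, true), (g true, c.count true, true)} :
      Multiset (ℕ × ℕ × Bool))
    cases b
    · exact Multiset.mem_cons_self _ _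
    · exact Multiset.mem_cons_of_mem (Multiset.mem_singleton_self _)
  have hgq : ∀ b, g b ≠ q := fun b h => hqocc _ _ (h ▸ hgmem b)
  have hgnames : ∀ b, g b ∈ S.names := fun b => Or.inl ⟨_, _, hgmem b⟩
  have hqnames : q ∈ S.names := Or.inr (Or.inl hqS)
  have hgngn : ∀ b b', g b ≠ gn b' := fun b b' h => hgn_fresh b' (h ▸ hgnames b)
  have hqgn : ∀ b, q ≠ gn b := fun b h => hgn_fresh b (h ▸ hqnames)
  -- names of u, v
  have hu_names : ∀ x, ((∃ k' ε, (x, k', ε) ∈ Wd.occ u k) ∨ x ∈ Wd.pn u) → x ≠ q ∧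
      ∀ b, x ≠ gn b := by
    intro x hx
    have hxS : x ∈ S.names := by
      rcases hx with ⟨k', ε, hx⟩ | hx
      · exact Or.inl ⟨k', ε, by rw [hSocc]; simp [hx]⟩
      · exact Or.inr (Or.inl (by rw [hSpn]; simp [hx]))
    refine ⟨?_, fun b h => hgn_fresh b (h ▸ hxS)⟩
    rintro rfl
    rcases hx with ⟨k', ε, hx⟩ | hx
    · exact hqocc k' ε (by rw [hSocc]; simp [hx])
    · exact hqnot.1 hx
  have hv_names : ∀ x, ((∃ k' ε, (x, k', ε) ∈ Wd.occ v k) ∨ x ∈ Wd.pn v) → x ≠ q ∧
      ∀ b, x ≠ gn b := by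
    intro x hx
    have hxS : x ∈ S.names := by
      rcases hx with ⟨k', ε, hx⟩ | hx
      · exact Or.inl ⟨k', ε, by rw [hSocc]; simp [hx]⟩
      · exact Or.inr (Or.inl (by rw [hSpn]; simp [hx]))
    refine ⟨?_, fun b h => hgn_fresh b (h ▸ hxS)⟩
    rintro rfl
    rcases hx with ⟨k', ε, hx⟩ | hx
    · exact hqocc k' ε (by rw [hSocc]; simp [hx])
    · exact hqnot.2 hx
  -- the maps
  set Φ : (ℕ → G n) → (ℕ → G n) := fun τ x =>
    if x = q then A⁻¹ * τ q * B⁻¹ else if x = gn false ∨ x = gn true then 1 else τ x with hΦ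
  have hΦq : ∀ τ, Φ τ q = A⁻¹ * τ q * B⁻¹ := fun τ => by simp [hΦ]
  have hΦo : ∀ τ x, x ≠ q → (∀ b, x ≠ gn b) → Φ τ x = τ x := by
    intro τ x h1 h2
    simp only [hΦ]
    rw [if_neg h1, if_neg (by rintro (h | h); exacts [h2 _ h, h2 _ h])]
  set ρ' : ℕ → G n := fun x => if x = q then A * ρ q * B
    else if x = gn false then scal n (c.count false) (s false) * ρ (g false)
    else if x = gn true then scal n (c.count true) (s true) * ρ (g true) else ρ x with hρ'
  have hρ'q : ρ' q = A * ρ q * B := by simp [hρ']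
  have hρ'g : ∀ b, ρ' (gn b) = scal n (c.count b) (s b) * ρ (g b) := by
    intro b
    simp only [hρ']
    rw [if_neg (hqgn b).symm]
    cases b
    · rw [if_pos rfl]
    · rw [if_neg (by rw [hgnf, hgnt]; omega), if_pos rfl]
  have hρ'o : ∀ x, x ≠ q → (∀ b, x ≠ gn b) → ρ' x = ρ x := by
    intro x h1 h2
    simp only [hρ']
    rw [if_neg h1, if_neg (h2 _), if_neg (h2 _)]
  -- the given solution
  have hsol0 := hρ.1 r0 List.mem_cons_self
  have hsat0 := (Sat_app _ _ _ _).1 hsol0.1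
  have hsat1 := (Sat_cons _ _ _ _).1 hsat0.2
  have hpar0 : IsPar c c' (fun b => ρ (g b)) (ρ q) := hsat1.1
  have key : ∀ b, ∀ X ∈ GLk n (c.count b),
      (al b)⁻¹ * (scal n (c.count b) (s b) * X) * (be b)⁻¹ = X := by
    intro b X hX
    rw [← hab b X hX]
    group
  have hred : Red O n ⟨[r0] ++ rest, fr⟩ ρ := by
    refine local_step [r0] [r1, Rf, Rt] rest fr [] ρ ρ' 0
      {(gn false, c.count false), (gn true, c.count true)} Φ hWF hρ ?_ ?_ ?_ ?_ ?_ ?_ ?_ ?_ ?_
      ?_ ?_ ?_ ?_ ?_ ?_ ?_ ?_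
    · -- WF of the new roots
      intro r hr
      simp only [List.mem_cons, List.not_mem_nil, or_false] at hr
      rcases hr with rfl | rfl | rfl
      · exact ⟨hkn, hr0WF.2.1, hWn gn⟩
      · exact ⟨(hcnt_lt false).le.trans hkn, hs false, trivial⟩
      · exact ⟨(hcnt_lt true).le.trans hkn, hs true, trivial⟩
    · intro z hz; simp at hz
    · intro w hw; simp at hw
    · exact Multiset.nodup_zero
    · -- occurrences
      have h0 : occL [r0] = Wd.occ u k + ((Lt.par q e σ c c' g).occ k + Wd.occ v k) := by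
        rw [occL_cons, occL_nil, add_zero]
        show Wd.occ (u ++ Lt.par q e σ c c' g :: v) k = _
        rw [occ_app, occ_cons]
      have h1 : occL [r1, Rf, Rt] = Wd.occ u k + ((Lt.par q e σn c c' gn).occ k + Wd.occ v k) +
          (({(g false, c.count false, true)} + {(gn false, c.count false, false)}) +
          ({(g true, c.count true, true)} + {(gn true, c.count true, false)})) := by
        rw [occL_cons, occL_cons, occL_cons, occL_nil, add_zero]
        have h2 : r1.occ = Wd.occ u k + ((Lt.par q e σn c c' gn).occ k + Wd.occ v k) := by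
          show Wd.occ (u ++ Lt.par q e σn c c' gn :: vn) k = _
          rw [occ_app, occ_cons, hocc]
        have h3 : ∀ (j : ℕ) (a : ℂˣ) (x y : ℕ), (chRoot j a x y).occ =
            ({(x, j, true)} + {(y, j, false)} : Multiset (ℕ × ℕ × Bool)) := by
          intro j a x y
          show Wd.occ [Lt.full x true, Lt.full y false] j = _
          rw [occ_cons, occ_cons]
          simp [Lt.occ, Wd.occ]
        rw [h2, hRf, hRt, h3, h3]
      rw [h0, h1, pm_zero, add_zero]
      simp only [Lt.occ, pm, Multiset.insert_eq_cons, Multiset.map_cons, Multiset.map_singleton,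
        ← Multiset.singleton_add]
      abel
    · -- nodup
      have h1 : pnL [r1, Rf, Rt] = pnL [r0] := by
        rw [pnL_cons, pnL_cons, pnL_cons, pnL_cons, pnL_nil]
        have h2 : r1.pn = r0.pn := by
          show Wd.pn (u ++ Lt.par q e σn c c' gn :: vn) = Wd.pn (u ++ Lt.par q e σ c c' g :: v)
          rw [pn_app, pn_cons, pn_app, pn_cons, hpn]; rfl
        have h3 : ∀ (j : ℕ) (a : ℂˣ) (x y : ℕ), (chRoot j a x y).pn = 0 := by
          intro j a x y
          show Wd.pn [Lt.full x true, Lt.full y false] = _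
          rw [pn_cons, pn_cons]
          simp [Lt.pn, Wd.pn]
        rw [h2, hRf, hRt, h3, h3]
        simp
      rw [h1]
      have h2 : S.pn = pnL [r0] + pnL rest := by
        rw [Sys.pn_eq, ← pnL_append]; rfl
      have h3 := hWF.pn_nodup
      rw [h2] at h3
      have h4 := (Multiset.nodup_add.1 h3).1
      have h5 : ∀ b, gn b ∉ pnL [r0] := by
        intro b hb
        exact hgn_fresh b (Or.inr (Or.inl (by rw [h2]; exact Multiset.mem_add.2 (Or.inl hb))))
      have h6 : (((([] : List (ℕ × ℕ)).map Prod.fst : List ℕ)) : Multiset ℕ) = 0 := rfl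
      rw [h6, add_zero]
      simp only [Multiset.insert_eq_cons, Multiset.map_cons, Multiset.map_singleton,
        Multiset.cons_add, Multiset.singleton_add]
      rw [Multiset.nodup_cons, Multiset.nodup_cons]
      refine ⟨?_, h5 _, h4⟩
      rw [Multiset.mem_cons]
      rintro (h | h)
      · rw [hgnf, hgnt] at h; omega
      · exact h5 _ h
    · -- fresh
      intro y hy
      have h6 : (((([] : List (ℕ × ℕ)).map Prod.fst : List ℕ)) : Multiset ℕ) = 0 := rfl
      rw [h6, add_zero] at hy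
      have h1 : pnL [r1, Rf, Rt] = pnL [r0] := by
        rw [pnL_cons, pnL_cons, pnL_cons, pnL_cons, pnL_nil]
        have h2 : r1.pn = r0.pn := by
          show Wd.pn (u ++ Lt.par q e σn c c' gn :: vn) = Wd.pn (u ++ Lt.par q e σ c c' g :: v)
          rw [pn_app, pn_cons, pn_app, pn_cons, hpn]; rfl
        have h3 : ∀ (j : ℕ) (a : ℂˣ) (x y : ℕ), (chRoot j a x y).pn = 0 := by
          intro j a x y
          show Wd.pn [Lt.full x true, Lt.full y false] = _
          rw [pn_cons, pn_cons]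
          simp [Lt.pn, Wd.pn]
        rw [h2, hRf, hRt, h3, h3]
        simp
      rw [h1] at hy
      rcases Multiset.mem_add.1 hy with hy | hy
      · right; right
        simp only [Multiset.insert_eq_cons, Multiset.map_cons, Multiset.map_singleton,
          Multiset.mem_cons, Multiset.mem_singleton] at hy
        rcases hy with rfl | rfl
        · exact hgn_fresh false
        · exact hgn_fresh true
      · exact Or.inr (Or.inl hy)
    · -- weights
      have h0 : wtL [r0] = (3 * k) ::ₘ (Wd.wt u k + (Lt.wt k (Lt.par q e σ c c' g) + Wd.wt v k)) := by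
        rw [wtL_cons, wtL_nil, add_zero]
        show (3 * k) ::ₘ Wd.wt (u ++ Lt.par q e σ c c' g :: v) k = _
        rw [wt_app, wt_cons]
      have h1 : wtL [r1, Rf, Rt] =
          ((3 * k) ::ₘ (Wd.wt u k + (Lt.wt k (Lt.par q e σn c c' gn) + Wd.wt vn k))) +
          (Rf.wt + Rt.wt) := by
        rw [wtL_cons, wtL_cons, wtL_cons, wtL_nil, add_zero]
        show (3 * k) ::ₘ Wd.wt (u ++ Lt.par q e σn c c' gn :: vn) k + _ = _
        rw [wt_app, wt_cons]
      rw [h0, h1, hwt gn]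
      refine ⟨(3 * k) ::ₘ (Wd.wt u k + (Lt.wt k (Lt.par q e σn c c' gn) + Wd.wt vn k)),
        Rf.wt + Rt.wt, {m}, by simp, rfl, ?_, ?_⟩
      · simp only [← Multiset.singleton_add]
        abel
      · have h3 : ∀ (j : ℕ) (a : ℂˣ) (x y : ℕ), ∀ z ∈ (chRoot j a x y).wt, z ≤ 3 * j + 1 := by
          intro j a x y z hz
          have h4 : (chRoot j a x y).wt = (3 * j) ::ₘ Wd.wt [Lt.full x true, Lt.full y false] j := rfl
          rw [h4, wt_cons, wt_cons] at hz
          simp only [Lt.wt, Wd.wt, List.map_nil, List.sum_nil, add_zero, Multiset.mem_cons,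
            Multiset.mem_add, Multiset.mem_singleton] at hz
          rcases hz with rfl | rfl | rfl <;> omega
        intro y hy
        refine ⟨m, Multiset.mem_singleton_self _, ?_⟩
        rcases Multiset.mem_add.1 hy with hy | hy
        · exact lt_of_le_of_lt (h3 _ _ _ _ y hy) (hm false)
        · exact lt_of_le_of_lt (h3 _ _ _ _ y hy) (hm true)
    · -- admissibility
      intro k0 h r hr
      have h0 := h r0 (by simp)
      have hk0 : k ≤ k0 := by
        rcases h0 with h | ⟨h, _⟩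
        · exact h.le
        · exact h.le
      simp only [List.mem_cons, List.not_mem_nil, or_false] at hr
      rcases hr with rfl | rfl | rfl
      · rcases h0 with h | ⟨h, _⟩
        · exact Or.inl h
        · refine Or.inr ⟨h, Lt.par q e σn c c' gn, ?_, hnd⟩
          simp [hr1]
      · exact Or.inl (lt_of_lt_of_le (hcnt_lt false) hk0)
      · exact Or.inl (lt_of_lt_of_le (hcnt_lt true) hk0)
    · -- the new point is a solution
      intro r hr
      simp only [List.mem_cons, List.not_mem_nil, or_false] at hr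
      have hch : ∀ b, (chRoot (c.count b) (s b) (g b) (gn b)).Sol ρ' := by
        intro b
        rw [chRoot_sol, hρ'o (g b) (hgq b) (hgngn b), hρ'g b]
        exact ⟨hpar0.blk b, (GLk n _).mul_mem (scal_mem_GLk le_rfl _) (hpar0.blk b), rfl⟩
      rcases hr with rfl | rfl | rfl
      · refine ⟨(Sat_app _ _ _ _).2 ⟨?_, (Sat_cons _ _ _ _).2 ⟨?_, ?_⟩⟩, ?_⟩
        · refine Wd.Sat_congr (fun x hx => ?_) hsat0.1
          exact (hρ'o x (hu_names x hx).1 (hu_names x hx).2).symm
        · show IsPar c c' (fun b => ρ' (gn b)) (ρ' q)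
          rw [hρ'q]
          have h2 := (hA.mul hpar0).mul hB
          have h3 : (fun b => al b * ρ (g b) * be b) = fun b => ρ' (gn b) := by
            funext b
            rw [hρ'g b]
            exact hab b _ (hpar0.blk b)
          rw [← h3]
          exact h2
        · rw [hsat]
          refine Wd.Sat_congr (fun x hx => ?_) hsat1.2
          exact (hρ'o x (hv_names x hx).1 (hv_names x hx).2).symm
        · show scal n k ξ * Wd.eval ρ' (u ++ Lt.par q e σn c c' gn :: vn) = 1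
          rw [eval_app, eval_cons]
          show scal n k ξ * (Wd.eval ρ' u * (dsg n e c σn * ρ' q * Wd.eval ρ' vn)) = 1
          rw [hρ'q, hev, ← Wd.eval_congr (w := u) k (fun x hx =>
            (hρ'o x (hu_names x hx).1 (hu_names x hx).2).symm), ← Wd.eval_congr (w := v) k (fun x hx =>
            (hρ'o x (hv_names x hx).1 (hv_names x hx).2).symm)]
          have h2 := hsol0.2
          have h3 : Wd.eval ρ (u ++ Lt.par q e σ c c' g :: v) =
            Wd.eval ρ u * (dsg n e c σ * ρ q * Wd.eval ρ v) := by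
            rw [eval_app, eval_cons]; rfl
          rw [← h3]
          exact h2
      · exact hch false
      · exact hch true
    · intro z hz; simp at hz
    · -- agreement off Loc
      intro x hx
      refine hρ'o x ?_ ?_
      · rintro rfl
        exact hx (Or.inr (Or.inl (by rw [pnL_cons]; exact Multiset.mem_add.2 (Or.inl hqpn))))
      · rintro b rfl
        exact hx (Or.inl (hgn_fresh b))
    · -- polynomiality
      intro x
      simp only [hΦ]
      refine PolG.ite _ ?_ (PolG.ite _ ?_ ?_)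
      · exact PolG.mul (PolG.mul (PolG.const _) (PolG.coord q)) (PolG.const _)
      · exact PolG.one
      · exact PolG.coord x
    · intro x hx τ
      refine hΦo τ x ?_ ?_
      · rintro rfl
        exact hx (Or.inr (Or.inl (by rw [pnL_cons]; exact Multiset.mem_add.2 (Or.inl hqpn))))
      · rintro b rfl
        exact hx (Or.inl (hgn_fresh b))
    · -- Φ maps solutions to solutions
      intro τ hτ _ r hr
      have hr' : r = r0 := by simpa using hr
      subst hr'
      have h1 := hτ r1 (by simp)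
      have hcf : ∀ b, τ (g b) ∈ GLk n (c.count b) ∧ τ (gn b) ∈ GLk n (c.count b) ∧
          τ (gn b) = scal n (c.count b) (s b) * τ (g b) := by
        intro b
        cases b
        · exact chRoot_sol.1 (hτ Rf (by simp))
        · exact chRoot_sol.1 (hτ Rt (by simp))
      have h2 := (Sat_app _ _ _ _).1 h1.1
      have h3 := (Sat_cons _ _ _ _).1 h2.2
      have h4 : IsPar c c' (fun b => τ (gn b)) (τ q) := h3.1
      refine ⟨(Sat_app _ _ _ _).2 ⟨?_, (Sat_cons _ _ _ _).2 ⟨?_, ?_⟩⟩, ?_⟩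
      · refine Wd.Sat_congr (fun x hx => ?_) h2.1
        exact (hΦo τ x (hu_names x hx).1 (hu_names x hx).2).symm
      · show IsPar c c' (fun b => Φ τ (g b)) (Φ τ q)
        rw [hΦq]
        have h5 := (hA.inv.mul h4).mul hB.inv
        have h6 : (fun b => (al b)⁻¹ * τ (gn b) * (be b)⁻¹) = fun b => Φ τ (g b) := by
          funext b
          rw [hΦo τ (g b) (hgq b) (hgngn b), (hcf b).2.2]
          exact key b _ (hcf b).1
        rw [← h6]
        exact h5
      · refine Wd.Sat_congr (fun x hx => ?_) ((hsat τ).1 h3.2)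
        exact (hΦo τ x (hv_names x hx).1 (hv_names x hx).2).symm
      · show scal n k ξ * Wd.eval (Φ τ) (u ++ Lt.par q e σ c c' g :: v) = 1
        rw [eval_app, eval_cons]
        show scal n k ξ * (Wd.eval (Φ τ) u * (dsg n e c σ * Φ τ q * Wd.eval (Φ τ) v)) = 1
        rw [hΦq, ← Wd.eval_congr (w := u) k (fun x hx =>
            (hΦo τ x (hu_names x hx).1 (hu_names x hx).2).symm), ← Wd.eval_congr (w := v) k (fun x hx =>
            (hΦo τ x (hv_names x hx).1 (hv_names x hx).2).symm), ← hev]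
        have h5 : A * (A⁻¹ * τ q * B⁻¹) * B = τ q := by group
        rw [h5]
        have h6 := h1.2
        have h7 : Wd.eval τ (u ++ Lt.par q e σn c c' gn :: vn) =
            Wd.eval τ u * (dsg n e c σn * τ q * Wd.eval τ vn) := by
          rw [eval_app, eval_cons]; rfl
        rw [← h7]
        exact h6
    · -- integrality
      intro τ _ _ hint x hx _
      by_cases hxq : x = q
      · subst hxq
        rw [hΦq]
        refine (GO O n).mul_mem ((GO O n).mul_mem ((GO O n).inv_mem hAO) (hint _ ?_))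
          ((GO O n).inv_mem hBO)
        refine Or.inr (Or.inl ?_)
        rw [Sys.pn_eq]
        show x ∈ pnL ([r1, Rf, Rt] ++ rest)
        rw [pnL_append, pnL_cons]
        refine Multiset.mem_add.2 (Or.inl (Multiset.mem_add.2 (Or.inl ?_)))
        show x ∈ Wd.pn (u ++ Lt.par x e σn c c' gn :: vn)
        rw [pn_app, pn_cons]
        simp [Lt.pn]
      · have hxS : x ∈ S.names := by
          rw [Sys.names_eq]
          left
          rcases hx with ⟨k', ε, hx⟩ | hx
          · exact Or.inl ⟨k', ε, by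
              show _ ∈ occL ([r0] ++ rest)
              rw [occL_append]; exact Multiset.mem_add.2 (Or.inl hx)⟩
          · exact Or.inr (by
              show _ ∈ pnL ([r0] ++ rest)
              rw [pnL_append]; exact Multiset.mem_add.2 (Or.inl hx))
        rw [hΦo τ x hxq (fun b h => hgn_fresh b (h ▸ hxS))]
        apply hint
        rcases hx with ⟨k', ε, hx⟩ | hx
        · -- a full name
          have h1 : (x, k', ε) ∈ Wd.occ (u ++ Lt.par q e σ c c' g :: v) k := by
            rw [occL_cons, occL_nil, add_zero] at hx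
            exact hx
          rw [occ_app, occ_cons] at h1
          left
          rcases Multiset.mem_add.1 h1 with h1 | h1
          · refine ⟨k', ε, ?_⟩
            show _ ∈ occL ([r1, Rf, Rt] ++ rest)
            rw [occL_append, occL_cons]
            refine Multiset.mem_add.2 (Or.inl (Multiset.mem_add.2 (Or.inl ?_)))
            show _ ∈ Wd.occ (u ++ Lt.par q e σn c c' gn :: vn) k
            rw [occ_app]
            exact Multiset.mem_add.2 (Or.inl h1)
          · rcases Multiset.mem_add.1 h1 with h1 | h1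
            · have h2 : (x, k', ε) ∈ ({(g false, c.count false, true), (g true, c.count true, true)} :
                Multiset (ℕ × ℕ × Bool)) := h1
              have h3 : ∃ b, x = g b := by
                simp only [Multiset.insert_eq_cons, Multiset.mem_cons, Multiset.mem_singleton,
                  Prod.mk.injEq] at h2
                rcases h2 with h2 | h2
                · exact ⟨_, h2.1⟩
                · exact ⟨_, h2.1⟩
              obtain ⟨b, rfl⟩ := h3
              refine ⟨c.count b, true, ?_⟩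
              show _ ∈ occL ([r1, Rf, Rt] ++ rest)
              rw [occL_append, occL_cons, occL_cons, occL_cons]
              have h4 : ∀ (j : ℕ) (a : ℂˣ) (x y : ℕ), (x, j, true) ∈ (chRoot j a x y).occ := by
                intro j a x y
                show _ ∈ Wd.occ [Lt.full x true, Lt.full y false] j
                rw [occ_cons]
                simp [Lt.occ]
              cases b
              · have := h4 (c.count false) (s false) (g false) (gn false)
                simp only [Multiset.mem_add]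
                exact Or.inl (Or.inr (Or.inl this))
              · have := h4 (c.count true) (s true) (g true) (gn true)
                simp only [Multiset.mem_add]
                exact Or.inl (Or.inr (Or.inr (Or.inl this)))
            · refine ⟨k', ε, ?_⟩
              show _ ∈ occL ([r1, Rf, Rt] ++ rest)
              rw [occL_append, occL_cons]
              refine Multiset.mem_add.2 (Or.inl (Multiset.mem_add.2 (Or.inl ?_)))
              show _ ∈ Wd.occ (u ++ Lt.par q e σn c c' gn :: vn) k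
              rw [occ_app, occ_cons, hocc]
              exact Multiset.mem_add.2 (Or.inr (Multiset.mem_add.2 (Or.inr h1)))
        · right; left
          show _ ∈ pnL ([r1, Rf, Rt] ++ rest)
          rw [pnL_append, pnL_cons]
          refine Multiset.mem_add.2 (Or.inl (Multiset.mem_add.2 (Or.inl ?_)))
          have h1 : x ∈ Wd.pn (u ++ Lt.par q e σ c c' g :: v) := by
            rw [pnL_cons, pnL_nil, add_zero] at hx
            exact hx
          show x ∈ Wd.pn (u ++ Lt.par q e σn c c' gn :: vn)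
          rw [pn_app, pn_cons] at h1 ⊢
          rw [hpn]
          exact h1
    · -- Φ ρ' = ρ
      intro x hx _
      by_cases hxq : x = q
      · subst hxq
        rw [hΦq, hρ'q]
        group
      · have hxS : x ∈ S.names := by
          rw [Sys.names_eq]
          left
          rcases hx with ⟨k', ε, hx⟩ | hx
          · exact Or.inl ⟨k', ε, by
              show _ ∈ occL ([r0] ++ rest)
              rw [occL_append]; exact Multiset.mem_add.2 (Or.inl hx)⟩
          · exact Or.inr (by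
              show _ ∈ pnL ([r0] ++ rest)
              rw [pnL_append]; exact Multiset.mem_add.2 (Or.inl hx))
        have h1 : ∀ b, x ≠ gn b := fun b h => hgn_fresh b (h ▸ hxS)
        rw [hΦo _ x hxq h1, hρ'o x hxq h1]
  exact hred


/-- absorption of a scalar sign into the scalar of the root -/
theorem absorb_scal {O : Subring ℂ} {n : ℕ} (k : ℕ) (ξ s : ℂˣ) (w wn : Wd) (rest : List Root)
    (fr : List (ℕ × ℕ)) (ρ : ℕ → G n)
    (hWF : Sys.WF O n ⟨⟨k, ξ, w⟩ :: rest, fr⟩)
    (hρ : ρ ∈ Sys.Sol n ⟨⟨k, ξ, w⟩ :: rest, fr⟩) (hs : IsSc O s)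
    (hWn : Wd.WF O wn k (Wd.last wn none))
    (hocc : Wd.occ wn k = Wd.occ w k) (hpn : Wd.pn wn = Wd.pn w)
    (hsat : ∀ ρ : ℕ → G n, Wd.Sat ρ wn k ↔ Wd.Sat ρ w k)
    (hev : ∀ ρ : ℕ → G n, Wd.Sat ρ w k → Wd.eval ρ w = scal n k s * Wd.eval ρ wn)
    (hnd : Wd.hasNd w → Wd.hasNd wn)
    (B : Multiset ℕ) (hB : B ≠ 0) (hwt : Wd.wt w k = Wd.wt wn k + B) :
    Red O n ⟨⟨k, ξ, w⟩ :: rest, fr⟩ ρ := by
  have hr0 := hWF.roots _ List.mem_cons_self
  refine ⟨⟨⟨k, ξ * s, wn⟩ :: rest, fr⟩, ρ, ?_, ?_, ?_, ?_, ?_⟩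
  · refine ⟨?_, hWF.free, ?_⟩
    · intro r hr
      rcases List.mem_cons.1 hr with rfl | h
      · exact ⟨hr0.1, hr0.2.1.mul hs, hWn⟩
      · exact hWF.roots r (List.mem_cons_of_mem _ h)
    · obtain ⟨V, h1, h2⟩ := hWF.lin
      refine ⟨V, ?_, ?_⟩
      · rw [← h1]
        show (List.map Root.occ (⟨k, ξ * s, wn⟩ :: rest)).sum =
          (List.map Root.occ (⟨k, ξ, w⟩ :: rest)).sum
        rw [List.map_cons, List.map_cons, List.sum_cons, List.sum_cons]
        show Wd.occ wn k + _ = Wd.occ w k + _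
        rw [hocc]
      · have h3 : Sys.pn ⟨⟨k, ξ * s, wn⟩ :: rest, fr⟩ = Sys.pn ⟨⟨k, ξ, w⟩ :: rest, fr⟩ := by
          show (List.map Root.pn (⟨k, ξ * s, wn⟩ :: rest)).sum =
            (List.map Root.pn (⟨k, ξ, w⟩ :: rest)).sum
          rw [List.map_cons, List.map_cons, List.sum_cons, List.sum_cons]
          show Wd.pn wn + _ = Wd.pn w + _
          rw [hpn]
        rw [h3]
        exact h2
  · apply dm_of_add (B := B)
    · show (List.map Root.wt (⟨k, ξ, w⟩ :: rest)).sum =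
        (List.map Root.wt (⟨k, ξ * s, wn⟩ :: rest)).sum + B
      rw [List.map_cons, List.map_cons, List.sum_cons, List.sum_cons]
      show (3 * k) ::ₘ Wd.wt w k + _ = (3 * k) ::ₘ Wd.wt wn k + _ + B
      rw [hwt]
      simp only [← Multiset.singleton_add]
      abel
    · exact hB
  · intro k0 h r hr
    rcases List.mem_cons.1 hr with rfl | h'
    · rcases h _ List.mem_cons_self with h1 | ⟨h1, h2⟩
      · exact Or.inl h1
      · exact Or.inr ⟨h1, hnd h2⟩
    · exact h r (List.mem_cons_of_mem _ h')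
  · refine ⟨?_, hρ.2⟩
    intro r hr
    rcases List.mem_cons.1 hr with rfl | h'
    · have h1 := hρ.1 _ List.mem_cons_self
      refine ⟨(hsat ρ).2 h1.1, ?_⟩
      have h2 := h1.2
      simp only at h2 ⊢
      rw [hev ρ h1.1, ← mul_assoc, ← scal_mul] at h2
      exact h2
    · exact hρ.1 r (List.mem_cons_of_mem _ h')
  · intro h
    have e1 : Sys.occ ⟨⟨k, ξ * s, wn⟩ :: rest, fr⟩ = Sys.occ ⟨⟨k, ξ, w⟩ :: rest, fr⟩ := by
      show (List.map Root.occ (⟨k, ξ * s, wn⟩ :: rest)).sum =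
        (List.map Root.occ (⟨k, ξ, w⟩ :: rest)).sum
      rw [List.map_cons, List.map_cons, List.sum_cons, List.sum_cons]
      show Wd.occ wn k + _ = Wd.occ w k + _
      rw [hocc]
    have e2 : Sys.pn ⟨⟨k, ξ * s, wn⟩ :: rest, fr⟩ = Sys.pn ⟨⟨k, ξ, w⟩ :: rest, fr⟩ := by
      show (List.map Root.pn (⟨k, ξ * s, wn⟩ :: rest)).sum =
        (List.map Root.pn (⟨k, ξ, w⟩ :: rest)).sum
      rw [List.map_cons, List.map_cons, List.sum_cons, List.sum_cons]
      show Wd.pn wn + _ = Wd.pn w + _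
      rw [hpn]
    refine Appr.mono' h ?_
    intro τ hτ hi
    refine ⟨⟨?_, hτ.2⟩, ?_⟩
    · intro r hr
      rcases List.mem_cons.1 hr with rfl | h'
      · have h1 := hτ.1 _ List.mem_cons_self
        have h3 := (hsat τ).1 h1.1
        refine ⟨h3, ?_⟩
        have h2 := h1.2
        simp only at h2 ⊢
        rw [hev τ h3, ← mul_assoc, ← scal_mul]
        exact h2
      · exact hτ.1 r (List.mem_cons_of_mem _ h')
    · intro x hx
      apply hi
      rcases hx with hx | hx | hx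
      · exact Or.inl (by rw [e1]; exact hx)
      · exact Or.inr (Or.inl (by rw [e2]; exact hx))
      · exact Or.inr (Or.inr hx)

theorem mem_restr {e c : List Bool} {b x : Bool} (h : x ∈ restr c e b) : x ∈ e := by
  unfold restr at h
  obtain ⟨z, hz, rfl⟩ := List.mem_map.1 h
  exact (List.of_mem_zip (List.mem_filter.1 hz).1).2

theorem eq_of_count {e : List Bool} {t x : Bool} (ht : e.count (!t) = 0) (h : x ∈ e) : x = t := by
  rw [List.count_eq_zero] at ht
  by_contra hne
  apply ht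
  have : (!t) = x := by cases t <;> cases x <;> simp_all
  rw [this]; exact h

theorem lab_const {e : List Bool} {t : Bool} (ht : e.count (!t) = 0) {i : ℕ} (hi : i < e.length) :
    lab e i = some t := by
  show e[i]? = some t
  rw [List.getElem?_eq_getElem hi]
  congr 1
  exact eq_of_count ht (List.getElem_mem hi)

theorem restr_const {e c : List Bool} {t : Bool} (ht : e.count (!t) = 0) (b : Bool) :
    (restr c e b).count (!t) = 0 := by
  rw [List.count_eq_zero] at ht ⊢
  exact fun h => ht (mem_restr h)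

/-- a block of a sign matrix when the row labels are constant -/
theorem dsg_const_left {n : ℕ} {e c : List Bool} (σ : Bool → Bool → ℂˣ) {t : Bool}
    (hec : e.length = c.length) (ht : e.count (!t) = 0) (b : Bool) :
    dsg n (restr c e b) (List.replicate (c.count b) b) σ = scal n (c.count b) (σ t b) := by
  unfold dsg scal
  congr 1
  funext i
  have h1 : (restr c e b).length = c.count b := restr_length hec.symm b
  by_cases hi : i.1 < c.count b
  · rw [lab_const (restr_const ht b) (h1 ▸ hi), lab_replicate hi, if_pos hi]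
  · rw [lab_none (by rw [h1]; omega), if_neg hi]

/-- a block of a sign matrix when the column labels are constant -/
theorem dsg_const_right {n : ℕ} {e c : List Bool} (σ : Bool → Bool → ℂˣ) {t : Bool}
    (hec : e.length = c.length) (ht : c.count (!t) = 0) (b : Bool) :
    dsg n (List.replicate (e.count b) b) (restr e c b) σ = scal n (e.count b) (σ b t) := by
  unfold dsg scal
  congr 1
  funext i
  have h1 : (restr e c b).length = e.count b := restr_length hec b
  by_cases hi : i.1 < e.count b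
  · rw [lab_const (restr_const ht b) (h1 ▸ hi), lab_replicate hi, if_pos hi]
  · rw [lab_none (l := restr e c b) (by rw [h1]; omega), lab_replicate_none (by omega), if_neg hi]

/-- a sign matrix with constant labels is a scalar -/
theorem dsg_const {n : ℕ} {e c : List Bool} (σ : Bool → Bool → ℂˣ) {s t : Bool}
    (hec : e.length = c.length) (hs : e.count (!s) = 0) (ht : c.count (!t) = 0) :
    dsg n e c σ = scal n c.length (σ s t) := by
  unfold dsg scal
  congr 1
  funext i
  by_cases hi : i.1 < c.length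
  · rw [lab_const hs (hec ▸ hi), lab_const ht hi, if_pos hi]
  · rw [lab_none (l := e) (by omega), if_neg hi]

/-- degenerate label lists are constant -/
theorem exists_const {c : List Bool} (h : ¬ ∀ b, 0 < c.count b) : ∃ t, c.count (!t) = 0 := by
  push Not at h
  obtain ⟨b, hb⟩ := h
  exact ⟨!b, by rw [Bool.not_not]; omega⟩

/-- **U1** -/
theorem u1 (O : Subring ℂ) (n : ℕ) : U1 O n := by
  intro k ξ p0 p e0 c0 c0' e c c' σ0 σ g0 g t w rest fr ρ S ht hσ hWF hρ
  have hr := hWF.roots _ List.mem_cons_self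
  obtain ⟨hkn, hξ, hc0, hcnt0, hs0, hsc0, hc, hcnt, hs, hsc, hw⟩ := hr
  change k ≤ n at hkn
  change c0.length = k at hc0
  change c.length = k at hc
  change Wd.WF O w k (some c') at hw
  have he : e = c0' := by
    rcases hs with h | h
    · exact absurd h hσ
    · exact (Option.some_injective _ h).symm
  subst he
  have hlen0 : e.length = k := by
    rw [← hc0, ← count_add e, ← count_add c0, hcnt0, hcnt0]
  have hdeg : ¬ ∀ b, 0 < c.count b := fun h => absurd (h (!t)) (by omega)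
  by_cases hnd : ∀ b, 0 < c0.count b
  · refine absorb k ξ [] (Lt.par p e σ c c' g :: w) (Lt.par p e (fun _ _ => 1) c c' g :: w) p0 e0
      σ0 σ0 c0 e g0 rest fr ρ hWF hρ (fun b => σ b t) (fun b => hsc b t) 1 (dsg n e c σ)
      (fun _ => 1) (fun b => scal n (c0.count b) (σ b t)) ?_ ?_ ?_ ?_ ?_ hc0 hnd ?_ ?_ ?_ ?_ ?_
      (3 * k + 2) ?_ ?_
    · exact IsPar.one (hc0.le.trans hkn)
    · have h1 := dsg_isPar_left n e c σ (hlen0.trans hc.symm) (hc.le.trans hkn)
      have h2 : (fun b => dsg n (List.replicate (e.count b) b) (restr e c b) σ) =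
          fun b => scal n (c0.count b) (σ b t) := by
        funext b
        rw [dsg_const_right σ (hlen0.trans hc.symm) ht b, hcnt0 b]
      rw [h2] at h1
      exact h1
    · exact (GO O n).one_mem
    · exact dsg_mem_GO _ _ hsc
    · intro b X hX
      rw [one_mul, scal_mul_comm _ hX]
    · intro gn
      exact ⟨hc0, hcnt0, hs0, hsc0, hc, hcnt, Or.inl fun _ _ => rfl, fun _ _ => IsSc.one, hw⟩
    · rw [occ_cons, occ_cons]; rfl
    · rw [pn_cons, pn_cons]; rfl
    · intro ρ; rw [Sat_cons, Sat_cons]; exact Iff.rfl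
    · intro ρ X
      rw [eval_cons, eval_cons]
      show dsg n e0 c0 σ0 * (1 * X * dsg n e c σ) * (dsg n e c (fun _ _ => 1) * ρ p * Wd.eval ρ w) =
        dsg n e0 c0 σ0 * X * (dsg n e c σ * ρ p * Wd.eval ρ w)
      rw [dsg_one _ _ (fun _ _ => rfl)]
      group
    · intro b
      have : c0.count b ≤ c0.length := List.count_le_length
      omega
    · intro gn
      rw [wt_cons, wt_cons]
      have h1 : Lt.wt k (Lt.par p e σ c c' g) = {3 * k + 2, 3 * k + 2} := by
        rw [Lt.wt, if_neg hdeg, if_neg hσ]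
      have h2 : Lt.wt k (Lt.par p e (fun _ _ => 1) c c' g) = {3 * k + 2} := by
        rw [Lt.wt, if_neg hdeg, if_pos fun _ _ => rfl]
      have h3 : Lt.wt k (Lt.par p0 e0 σ0 c0 e g0) = Lt.wt k (Lt.par p0 e0 σ0 c0 e gn) := rfl
      rw [h1, h2, h3]
      simp only [Multiset.insert_eq_cons, ← Multiset.singleton_add]
      abel
  · obtain ⟨s0, hs0'⟩ := exists_const hnd
    have hs1 : e.count (!s0) = 0 := by rw [← hcnt0]; exact hs0'
    have hD : dsg n e c σ = scal n k (σ s0 t) := by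
      rw [dsg_const σ (hlen0.trans hc.symm) hs1 ht, hc]
    refine absorb_scal k ξ (σ s0 t) _
      (Lt.par p0 e0 σ0 c0 e g0 :: Lt.par p e (fun _ _ => 1) c c' g :: w) rest fr ρ hWF hρ
      (hsc s0 t) ?_ ?_ ?_ ?_ ?_ ?_ {3 * k + 2} (by simp) ?_
    · exact ⟨hc0, hcnt0, hs0, hsc0, hc, hcnt, Or.inl fun _ _ => rfl, fun _ _ => IsSc.one, hw⟩
    · rw [occ_cons, occ_cons, occ_cons, occ_cons]; rfl
    · rw [pn_cons, pn_cons, pn_cons, pn_cons]; rfl
    · intro ρ; rw [Sat_cons, Sat_cons, Sat_cons, Sat_cons]; exact Iff.rfl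
    · intro ρ hsat
      have h1 := ((Sat_cons _ _ _ _).1 hsat).1
      have h2 : IsPar c0 e (fun b => ρ (g0 b)) (ρ p0) := h1
      rw [eval_cons, eval_cons, eval_cons, eval_cons]
      show dsg n e0 c0 σ0 * ρ p0 * (dsg n e c σ * ρ p * Wd.eval ρ w) = scal n k (σ s0 t) *
        (dsg n e0 c0 σ0 * ρ p0 * (dsg n e c (fun _ _ => 1) * ρ p * Wd.eval ρ w))
      rw [dsg_one _ _ (fun _ _ => rfl), hD]
      have h3 : dsg n e0 c0 σ0 * ρ p0 ∈ GLk n k :=
        (GLk n k).mul_mem (dsg_mem_GLk_of_le _ _ _ hc0.le) (hc0 ▸ h2.mem)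
      have h4 := scal_mul_comm (n := n) (k := k) (σ s0 t) h3
      calc dsg n e0 c0 σ0 * ρ p0 * (scal n k (σ s0 t) * ρ p * Wd.eval ρ w)
          = dsg n e0 c0 σ0 * ρ p0 * scal n k (σ s0 t) * (ρ p * Wd.eval ρ w) := by group
        _ = scal n k (σ s0 t) * (dsg n e0 c0 σ0 * ρ p0) * (ρ p * Wd.eval ρ w) := by rw [h4]
        _ = _ := by group
    · rintro ⟨l, hl, hn⟩
      simp only [List.mem_cons] at hl
      rcases hl with rfl | rfl | hl
      · exact ⟨_, List.mem_cons_self, hn⟩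
      · exact absurd hn hdeg
      · exact ⟨l, by simp [hl], hn⟩
    · rw [wt_cons, wt_cons, wt_cons, wt_cons]
      have h1 : Lt.wt k (Lt.par p e σ c c' g) = {3 * k + 2, 3 * k + 2} := by
        rw [Lt.wt, if_neg hdeg, if_neg hσ]
      have h2 : Lt.wt k (Lt.par p e (fun _ _ => 1) c c' g) = {3 * k + 2} := by
        rw [Lt.wt, if_neg hdeg, if_pos fun _ _ => rfl]
      rw [h1, h2]
      simp only [Multiset.insert_eq_cons, ← Multiset.singleton_add]
      abel

/-- **U2** -/
theorem u2 (O : Subring ℂ) (n : ℕ) : U2 O n := by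
  intro k ξ p0 p e0 c0 c0' e c c' σ0 σ g0 g t w rest fr ρ S ht hσ hWF hρ
  have hr := hWF.roots _ List.mem_cons_self
  obtain ⟨hkn, hξ, hc0, hcnt0, hs0, hsc0, hc, hcnt, hs, hsc, hw⟩ := hr
  change k ≤ n at hkn
  change c0.length = k at hc0
  change c.length = k at hc
  change Wd.WF O w k (some c') at hw
  have he : e = c0' := by
    rcases hs with h | h
    · exact absurd h hσ
    · exact (Option.some_injective _ h).symm
  subst he
  have hlen0 : e.length = k := by
    rw [← hc0, ← count_add e, ← count_add c0, hcnt0, hcnt0]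
  by_cases hnd : ∀ b, 0 < c.count b
  · refine absorb k ξ [Lt.par p0 e0 σ0 c0 e g0] w w p e
      σ (fun _ _ => 1) c c' g rest fr ρ hWF hρ (fun b => σ t b) (fun b => hsc t b) (dsg n e c σ) 1
      (fun b => scal n (c.count b) (σ t b)) (fun _ => 1) ?_ ?_ ?_ ?_ ?_ hc hnd ?_ rfl rfl
      (fun _ => Iff.rfl) ?_ (3 * k - 1) ?_ ?_
    · have h1 := dsg_isPar_right n e c σ (hlen0.trans hc.symm) (hc.le.trans hkn)
      have h2 : (fun b => dsg n (restr c e b) (List.replicate (c.count b) b) σ) =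
          fun b => scal n (c.count b) (σ t b) := by
        funext b
        rw [dsg_const_left σ (hlen0.trans hc.symm) ht b]
      rw [h2] at h1
      exact h1
    · refine IsPar.one ?_
      rw [← count_add c', ← hcnt, ← hcnt, count_add c]
      exact hc.le.trans hkn
    · exact dsg_mem_GO _ _ hsc
    · exact (GO O n).one_mem
    · intro b X hX
      rw [mul_one]
    · intro gn
      exact ⟨hc0, hcnt0, hs0, hsc0, hc, hcnt, Or.inl fun _ _ => rfl, fun _ _ => IsSc.one, hw⟩
    · intro ρ X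
      rw [dsg_one e c (σ := fun _ _ => 1) (fun _ _ => rfl)]
      group
    · intro b
      have h1 := count_add c
      have h2 := hnd false
      have h3 := hnd true
      cases b <;> omega
    · intro gn
      have h1 : Lt.wt k (Lt.par p e σ c c' g) = {3 * k, 3 * k - 1} := by
        rw [Lt.wt, if_pos hnd, if_neg hσ]
      have h2 : Lt.wt k (Lt.par p e (fun _ _ => 1) c c' gn) = {3 * k} := by
        rw [Lt.wt, if_pos hnd, if_pos fun _ _ => rfl]
      rw [h1, h2]
      simp only [Multiset.insert_eq_cons, ← Multiset.singleton_add]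
      abel
  · obtain ⟨s0, hs1⟩ := exists_const hnd
    have hD : dsg n e c σ = scal n k (σ t s0) := by
      rw [dsg_const σ (hlen0.trans hc.symm) ht hs1, hc]
    refine absorb_scal k ξ (σ t s0) _
      (Lt.par p0 e0 σ0 c0 e g0 :: Lt.par p e (fun _ _ => 1) c c' g :: w) rest fr ρ hWF hρ
      (hsc t s0) ?_ ?_ ?_ ?_ ?_ ?_ {3 * k + 2} (by simp) ?_
    · exact ⟨hc0, hcnt0, hs0, hsc0, hc, hcnt, Or.inl fun _ _ => rfl, fun _ _ => IsSc.one, hw⟩
    · rw [occ_cons, occ_cons, occ_cons, occ_cons]; rfl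
    · rw [pn_cons, pn_cons, pn_cons, pn_cons]; rfl
    · intro ρ; rw [Sat_cons, Sat_cons, Sat_cons, Sat_cons]; exact Iff.rfl
    · intro ρ hsat
      have h1 := ((Sat_cons _ _ _ _).1 hsat).1
      have h2 : IsPar c0 e (fun b => ρ (g0 b)) (ρ p0) := h1
      rw [eval_cons, eval_cons, eval_cons, eval_cons]
      show dsg n e0 c0 σ0 * ρ p0 * (dsg n e c σ * ρ p * Wd.eval ρ w) = scal n k (σ t s0) *
        (dsg n e0 c0 σ0 * ρ p0 * (dsg n e c (fun _ _ => 1) * ρ p * Wd.eval ρ w))
      rw [dsg_one _ _ (fun _ _ => rfl), hD]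
      have h3 : dsg n e0 c0 σ0 * ρ p0 ∈ GLk n k :=
        (GLk n k).mul_mem (dsg_mem_GLk_of_le _ _ _ hc0.le) (hc0 ▸ h2.mem)
      have h4 := scal_mul_comm (n := n) (k := k) (σ t s0) h3
      calc dsg n e0 c0 σ0 * ρ p0 * (scal n k (σ t s0) * ρ p * Wd.eval ρ w)
          = dsg n e0 c0 σ0 * ρ p0 * scal n k (σ t s0) * (ρ p * Wd.eval ρ w) := by group
        _ = scal n k (σ t s0) * (dsg n e0 c0 σ0 * ρ p0) * (ρ p * Wd.eval ρ w) := by rw [h4]
        _ = _ := by group
    · rintro ⟨l, hl, hn⟩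
      simp only [List.mem_cons] at hl
      rcases hl with rfl | rfl | hl
      · exact ⟨_, List.mem_cons_self, hn⟩
      · exact absurd hn hnd
      · exact ⟨l, by simp [hl], hn⟩
    · rw [wt_cons, wt_cons, wt_cons, wt_cons]
      have h1 : Lt.wt k (Lt.par p e σ c c' g) = {3 * k + 2, 3 * k + 2} := by
        rw [Lt.wt, if_neg hnd, if_neg hσ]
      have h2 : Lt.wt k (Lt.par p e (fun _ _ => 1) c c' g) = {3 * k + 2} := by
        rw [Lt.wt, if_neg hnd, if_pos fun _ _ => rfl]
      rw [h1, h2]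
      simp only [Multiset.insert_eq_cons, ← Multiset.singleton_add]
      abel

end Crest.Agent.R003.CRU

namespace Crest.Agent.R003

/-- U1 -/
theorem u1_402 (O : Subring ℂ) (n : ℕ) : U1 O n := CRU.u1 O n
/-- U2 -/
theorem u2_402 (O : Subring ℂ) (n : ℕ) : U2 O n := CRU.u2 O n

end Crest.Agent.R003
end

-- ▼ part R003/Core5b_227
section

/-!
# Row 3: step S5, polynomiality and integrality of the map (helper227)
-/

set_option autoImplicit false

namespace Crest.Agent.R003.S227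

variable {n : ℕ}

theorem dsgGO {O : Subring ℂ} (e c : List Bool) {σ : Bool → Bool → ℂˣ}
    (h : ∀ x y, IsSc O (σ x y)) : dsg n e c σ ∈ GO O n := by
  have key : ∀ u v : Option Bool, IsSc O (match u, v with
    | some x, some y => σ x y
    | _, _ => (1 : ℂˣ)) := by
    intro u v
    rcases u with _ | u <;> rcases v with _ | v
    · exact IsSc.one
    · exact IsSc.one
    · exact IsSc.one
    · exact h u v
  exact dg_mem_GO (fun i => (key _ _).1) (fun i => (key _ _).inv_mem)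

section

variable {k : ℕ} {c1 E X X' Y c3 Et Yt XE XY : List Bool} {σ2 σ3 : Bool → Bool → ℂˣ}
  {N1 N3 : G n} {ΦL ΦR : (Bool → G n) → (Bool → G n) → G n → G n}

theorem intL5 {O : Subring ℂ} (hL : GlueFun n E X Et XE ΦL) (hs : ∀ x y, IsSc O (σ2 x y))
    {lE lX : Bool → G n} {zL : G n} (h1 : ∀ e, lE e ∈ GO O n) (h2 : ∀ x, lX x ∈ GO O n)
    (h3 : zL ∈ GO O n) (nn : Bool × Bool → G n)
    (hd : GlueData E X Et XE nn (fun e => (DE n E X σ2 e)⁻¹ * lE e) (fun x => (lX x)⁻¹) zL) :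
    L5 n E X σ2 ΦL lE lX zL ∈ GO O n :=
  hL.int O _ _ _ (fun e => (GO O n).mul_mem ((GO O n).inv_mem (dsgGO _ _ hs)) (h1 e))
    (fun x => (GO O n).inv_mem (h2 x)) h3 ⟨nn, hd⟩

theorem intR5 {O : Subring ℂ} (hR : GlueFun n XY Yt X' Y ΦR) (hs : ∀ x y, IsSc O (σ3 x y))
    {rX rY : Bool → G n} {zR : G n} (h1 : ∀ e, rX e ∈ GO O n) (h2 : ∀ x, rY x ∈ GO O n)
    (h3 : zR ∈ GO O n) (nn : Bool × Bool → G n)
    (hd : GlueData XY Yt X' Y nn (fun x => (rX x)⁻¹) (fun y => rY y * (DY n X' Y σ3 y)⁻¹) zR) :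
    R5 n X' Y σ3 ΦR rX rY zR ∈ GO O n :=
  hR.int O _ _ _ (fun x => (GO O n).inv_mem (h1 x))
    (fun e => (GO O n).mul_mem (h2 e) ((GO O n).inv_mem (dsgGO _ _ hs))) h3 ⟨nn, hd⟩

theorem intTh {O : Subring ℂ} (hc : Cor5 n k E X X' Y Et Yt XE XY N1 N3) :
    Th n Et Yt N1 N3 ∈ GO O n := by
  refine (GO O n).mul_mem ((GO O n).mul_mem (hc.intN O).1 (dsgGO _ _ fun x y => ?_)) (hc.intN O).2
  unfold sg
  split_ifs
  · exact IsSc.neg_one
  · exact IsSc.one

theorem intP1 {O : Subring ℂ} (hc : Cor5 n k E X X' Y Et Yt XE XY N1 N3)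
    (hs : ∀ x y, IsSc O (σ2 x y)) {L q1 : G n} (hL : L ∈ GO O n) (hq : q1 ∈ GO O n) :
    P1of n E X σ2 N1 L q1 ∈ GO O n :=
  (GO O n).mul_mem ((GO O n).mul_mem ((GO O n).mul_mem hq ((GO O n).inv_mem (hc.intN O).1))
    ((GO O n).inv_mem hL)) ((GO O n).inv_mem (dsgGO _ _ hs))

theorem intP3 {O : Subring ℂ} (hc : Cor5 n k E X X' Y Et Yt XE XY N1 N3)
    (hs : ∀ x y, IsSc O (σ3 x y)) {R q3 : G n} (hR : R ∈ GO O n) (hq : q3 ∈ GO O n) :
    P3of n X' Y σ3 N3 R q3 ∈ GO O n :=
  (GO O n).mul_mem ((GO O n).mul_mem ((GO O n).mul_mem ((GO O n).inv_mem (dsgGO _ _ hs))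
    ((GO O n).inv_mem hR)) ((GO O n).inv_mem (hc.intN O).2)) hq

variable {ι : Type} {m : ℕ} {S : Set (ι → G n)}

theorem polL5 (hL : GlueFun n E X Et XE ΦL) {lE lX : Bool → (ι → G n) → G n}
    {zL : (ι → G n) → G n} (h1 : ∀ e, PolG S (lE e)) (h2 : ∀ x, PolG S (lX x)) (h3 : PolG S zL)
    (hd : ∀ ρ ∈ S, ∃ nn, GlueData E X Et XE nn (fun e => (DE n E X σ2 e)⁻¹ * lE e ρ)
      (fun x => (lX x ρ)⁻¹) (zL ρ)) :
    PolG S (fun ρ => L5 n E X σ2 ΦL (fun e => lE e ρ) (fun x => lX x ρ) (zL ρ)) :=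
  hL.pol ι S (fun e ρ => (DE n E X σ2 e)⁻¹ * lE e ρ) (fun x ρ => (lX x ρ)⁻¹) zL
    (fun e => (PolG.const _).mul (h1 e)) (fun x => (h2 x).inv) h3 hd

theorem polR5 (hR : GlueFun n XY Yt X' Y ΦR) {rX rY : Bool → (ι → G n) → G n}
    {zR : (ι → G n) → G n} (h1 : ∀ e, PolG S (rX e)) (h2 : ∀ x, PolG S (rY x)) (h3 : PolG S zR)
    (hd : ∀ ρ ∈ S, ∃ nn, GlueData XY Yt X' Y nn (fun x => (rX x ρ)⁻¹)
      (fun y => rY y ρ * (DY n X' Y σ3 y)⁻¹) (zR ρ)) :
    PolG S (fun ρ => R5 n X' Y σ3 ΦR (fun x => rX x ρ) (fun y => rY y ρ) (zR ρ)) :=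
  hR.pol ι S (fun x ρ => (rX x ρ)⁻¹) (fun y ρ => rY y ρ * (DY n X' Y σ3 y)⁻¹) zR
    (fun x => (h1 x).inv) (fun e => (h2 e).mul (PolG.const _)) h3 hd

theorem polP1 {L q1 : (ι → G n) → G n} (hL : PolG S L) (hq : PolG S q1) :
    PolG S (fun ρ => P1of n E X σ2 N1 (L ρ) (q1 ρ)) :=
  ((hq.mul (PolG.const _)).mul hL.inv).mul (PolG.const _)

theorem polP3 {R q3 : (ι → G n) → G n} (hR : PolG S R) (hq : PolG S q3) :
    PolG S (fun ρ => P3of n X' Y σ3 N3 (R ρ) (q3 ρ)) :=
  (((PolG.const _).mul hR.inv).mul (PolG.const _)).mul hq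

theorem polP2 {L R : (ι → G n) → G n} (hL : PolG S L) (hR : PolG S R) :
    PolG S (fun ρ => L ρ * Th n Et Yt N1 N3 * R ρ) :=
  (hL.mul (PolG.const _)).mul hR

end

end Crest.Agent.R003.S227
end

-- ▼ part R003/Sys5_227
section

/-!
# Row 3: step S5, the new system (helper227)
-/

set_option autoImplicit false

namespace Crest.Agent.R003.S227

/-! ### names -/

def nh1 (N : ℕ) (e : Bool) : ℕ := N + e.toNat
def nh3 (N : ℕ) (y : Bool) : ℕ := N + 2 + y.toNat
def nE (N : ℕ) (e : Bool) : ℕ := N + 4 + e.toNat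
def nY (N : ℕ) (y : Bool) : ℕ := N + 6 + y.toNat
def nrX (N : ℕ) (x : Bool) : ℕ := N + 8 + x.toNat
def nlX (N : ℕ) (x : Bool) : ℕ := N + 10 + x.toNat
def na (N : ℕ) (e x : Bool) : ℕ := N + 12 + 2 * e.toNat + x.toNat
def nn' (N : ℕ) (x e : Bool) : ℕ := N + 16 + 2 * x.toNat + e.toNat
def nb (N : ℕ) (y x : Bool) : ℕ := N + 20 + 2 * y.toNat + x.toNat
def nm' (N : ℕ) (x y : Bool) : ℕ := N + 24 + 2 * x.toNat + y.toNat
def nzL (N : ℕ) : ℕ := N + 28
def nzR (N : ℕ) : ℕ := N + 29

/-- data of step S5 -/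
structure Dt where
  N : ℕ
  k : ℕ
  ξ : ℂˣ
  p1 : ℕ
  p2 : ℕ
  p3 : ℕ
  e1 : List Bool
  e2 : List Bool
  e3 : List Bool
  c1 : List Bool
  E : List Bool
  X : List Bool
  X' : List Bool
  Y : List Bool
  c3 : List Bool
  σ1 : Bool → Bool → ℂˣ
  σ2 : Bool → Bool → ℂˣ
  σ3 : Bool → Bool → ℂˣ
  g1 : Bool → ℕ
  g2 : Bool → ℕ
  g3 : Bool → ℕ
  w : Wd
  Et : List Bool
  Yt : List Bool
  XE : List Bool
  XY : List Bool

namespace Dt

variable (D : Dt)

/-- the old root -/
def old : Root := ⟨D.k, D.ξ, Lt.par D.p1 D.e1 D.σ1 D.c1 D.E D.g1 :: Lt.par D.p2 D.e2 D.σ2 D.X D.X' D.g2 ::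
  Lt.par D.p3 D.e3 D.σ3 D.Y D.c3 D.g3 :: D.w⟩

def rV : Root := ⟨D.k, D.ξ, Lt.par D.p1 D.e1 D.σ1 D.c1 D.Et (nh1 D.N) ::
  Lt.par D.p3 D.Et sg D.Yt D.c3 (nh3 D.N) :: D.w⟩

def rE (e : Bool) : Root := ⟨D.E.count e, 1, [Lt.full (D.g1 e) true,
  Lt.par (nE D.N e) [] (fun _ _ => 1) (restr D.E D.X e) (restr D.Et D.XE e) (na D.N e),
  Lt.full (nh1 D.N e) false]⟩

def rY (y : Bool) : Root := ⟨D.Y.count y, 1, [
  Lt.par (nY D.N y) [] (fun _ _ => 1) (restr D.Yt D.XY y) (restr D.Y D.X' y) (nb D.N y),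
  Lt.full (D.g3 y) true, Lt.full (nh3 D.N y) false]⟩

def rX (x : Bool) : Root := ⟨D.X.count x, 1, [Lt.full (D.g2 x) true,
  Lt.par (nrX D.N x) [] (fun _ _ => 1) (restr D.X' D.Y x) (restr D.XY D.Yt x) (nm' D.N x),
  Lt.par (nlX D.N x) (restr D.XY D.Yt x) (fun y e => sg e y) (restr D.XE D.Et x) (restr D.X D.E x)
    (nn' D.N x)]⟩

def kE (e x : Bool) : Root := ⟨(jl D.E D.X).count (e, x), D.σ2 e x,
  [Lt.full (nn' D.N x e) false, Lt.full (na D.N e x) false]⟩

def kY (x y : Bool) : Root := ⟨(jl D.X' D.Y).count (x, y), D.σ3 x y,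
  [Lt.full (nb D.N y x) false, Lt.full (nm' D.N x y) false]⟩

/-- the new roots -/
def B : List Root := [D.rV, D.rE false, D.rE true, D.rY false, D.rY true, D.rX false, D.rX true,
  D.kE false false, D.kE false true, D.kE true false, D.kE true true,
  D.kY false false, D.kY false true, D.kY true false, D.kY true true]

def fr' : List (ℕ × ℕ) := [(nzL D.N, D.k), (nzR D.N, D.k)]

theorem forall_B {P : Root → Prop} : (∀ r ∈ D.B, P r) ↔ P D.rV ∧ (∀ e, P (D.rE e)) ∧
    (∀ y, P (D.rY y)) ∧ (∀ x, P (D.rX x)) ∧ (∀ e x, P (D.kE e x)) ∧ (∀ x y, P (D.kY x y)) := by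
  simp only [B, List.mem_cons, List.not_mem_nil, or_false, forall_eq_or_imp, forall_eq,
    Bool.forall_bool]
  tauto

/-- the equation of the `V`-root -/
def VEq {n : ℕ} (D : Dt) (τ : ℕ → G n) : Prop :=
  scal n D.k D.ξ * (dsg n D.e1 D.c1 D.σ1 * τ D.p1 *
    (dsg n D.Et D.Yt sg * τ D.p3 * Wd.eval τ D.w)) = 1

/-- the point-level equations -/
def PEq {n : ℕ} (D : Dt) (τ : ℕ → G n) : Prop :=
  New5 n D.k D.c1 D.E D.X D.X' D.Y D.c3 D.Et D.Yt D.XE D.XY D.σ2 D.σ3
    (fun e => τ (D.g1 e)) (fun x => τ (D.g2 x)) (fun y => τ (D.g3 y))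
    (fun e => τ (nh1 D.N e)) (fun y => τ (nh3 D.N y)) (fun e x => τ (na D.N e x))
    (fun x e => τ (nn' D.N x e)) (fun y x => τ (nb D.N y x)) (fun x y => τ (nm' D.N x y))
    (fun e => τ (nE D.N e)) (fun x => τ (nlX D.N x)) (fun y => τ (nY D.N y))
    (fun x => τ (nrX D.N x)) (τ D.p1) (τ D.p3) (τ (nzL D.N)) (τ (nzR D.N))

theorem scal_one' {n k : ℕ} : scal n k 1 = 1 := by
  unfold scal
  apply Units.ext
  show Matrix.diagonal _ = (1 : Matrix (Fin n) (Fin n) ℂ)
  rw [← Matrix.diagonal_one]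
  congr 1
  funext i
  simp

theorem dsg_one' {n : ℕ} (e c : List Bool) {σ : Bool → Bool → ℂˣ} (h : ∀ x y, σ x y = 1) :
    dsg n e c σ = 1 := by
  unfold dsg
  apply Units.ext
  show Matrix.diagonal _ = (1 : Matrix (Fin n) (Fin n) ℂ)
  rw [← Matrix.diagonal_one]
  congr 1
  funext i
  show (((match lab e i.1, lab c i.1 with
    | some x, some y => σ x y
    | _, _ => (1 : ℂˣ)) : ℂˣ) : ℂ) = 1
  generalize lab e i.1 = u
  generalize lab c i.1 = v
  rcases u with _ | u <;> rcases v with _ | v <;> simp [h]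

variable {n : ℕ} {D}

/-- from a solution of the new roots to the point-level equations -/
theorem sol_fwd {τ : ℕ → G n} (h : ∀ r ∈ D.B, r.Sol τ) (h' : ∀ z ∈ D.fr', τ z.1 ∈ GLk n z.2) :
    (∀ e, τ (D.g1 e) ∈ GLk n (D.E.count e)) ∧ (∀ x, τ (D.g2 x) ∈ GLk n (D.X.count x)) ∧
    (∀ y, τ (D.g3 y) ∈ GLk n (D.Y.count y)) ∧ Wd.Sat τ D.w D.k ∧ D.VEq τ ∧ D.PEq τ := by
  rw [forall_B] at h
  obtain ⟨hV, hE, hY, hX, kE, kY⟩ := h
  simp only [Root.Sol, rV, rE, rY, rX, Dt.kE, Dt.kY, Wd.Sat, Wd.eval, Lt.eval, Lt.Sat,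
    List.mem_cons, List.not_mem_nil, or_false, forall_eq_or_imp, forall_eq, List.map_cons,
    List.map_nil, List.prod_cons, List.prod_nil, mul_one, scal_one', one_mul,
    dsg_one' _ _ (fun _ _ => rfl), ↓reduceIte, Bool.false_eq_true] at hV hE hY hX kE kY
  obtain ⟨⟨hV1, hV2, hV3⟩, hV4⟩ := hV
  refine ⟨fun e => (hE e).1.1, fun x => (hX x).1.1, fun y => (hY y).1.2.1, hV3, hV4, ?_⟩
  constructor
  · exact hV1
  · exact hV2
  · intro e; rw [mul_assoc]; exact (hE e).2
  · intro y; rw [mul_assoc]; exact (hY y).2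
  · intro e; exact (hE e).1.2.1
  · intro x; exact (hX x).1.2.2
  · intro y; exact (hY y).1.1
  · intro x; exact (hX x).1.2.1
  · intro x; exact (hX x).2
  · intro e x; exact (kE e x).2
  · intro x y; exact (kY x y).2
  · exact h' (nzL D.N, D.k) (by simp [fr'])
  · exact h' (nzR D.N, D.k) (by simp [fr'])

/-- counting facts -/
structure Cn (D : Dt) : Prop where
  c1E : ∀ b, D.c1.count b = D.E.count b
  YtY : ∀ b, D.Yt.count b = D.Y.count b
  cL : ∀ l, (jl D.E D.X).count l = (jl D.Et D.XE).count l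
  cR : ∀ l, (jl D.XY D.Yt).count l = (jl D.X' D.Y).count l

theorem sol_bwd {τ : ℕ → G n} (hc : Cn D)
    (h1 : ∀ e, τ (D.g1 e) ∈ GLk n (D.E.count e)) (h2 : ∀ x, τ (D.g2 x) ∈ GLk n (D.X.count x))
    (h3 : ∀ y, τ (D.g3 y) ∈ GLk n (D.Y.count y)) (h4 : Wd.Sat τ D.w D.k) (h5 : D.VEq τ)
    (h6 : D.PEq τ) :
    (∀ r ∈ D.B, r.Sol τ) ∧ (∀ z ∈ D.fr', τ z.1 ∈ GLk n z.2) := by
  constructor
  · rw [forall_B]
    simp only [Root.Sol, rV, rE, rY, rX, Dt.kE, Dt.kY, Wd.Sat, Wd.eval, Lt.eval, Lt.Sat,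
      List.mem_cons, List.not_mem_nil, or_false, forall_eq_or_imp, forall_eq, List.map_cons,
      List.map_nil, List.prod_cons, List.prod_nil, mul_one, scal_one', one_mul,
      dsg_one' _ _ (fun _ _ => rfl), ↓reduceIte, Bool.false_eq_true]
    refine ⟨⟨⟨h6.pq1, h6.pq3, h4⟩, h5⟩, fun e => ⟨⟨h1 e, h6.plE e, ?_⟩, ?_⟩,
      fun y => ⟨⟨h6.prY y, h3 y, ?_⟩, ?_⟩, fun x => ⟨⟨h2 x, h6.prX x, h6.plX x⟩, h6.rt x⟩,
      fun e x => ⟨⟨?_, ?_⟩, h6.lk1 e x⟩, fun x y => ⟨⟨?_, ?_⟩, h6.lk2 x y⟩⟩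
    · rw [← hc.c1E]; exact h6.pq1.blk e
    · rw [← mul_assoc]; exact h6.rh1 e
    · rw [← hc.YtY]; exact h6.pq3.blk y
    · rw [← mul_assoc]; exact h6.rh3 y
    · have := (h6.plX x).blk e
      rwa [count_restr, count_jl_swap, ← hc.cL] at this
    · have := (h6.plE e).blk x
      rwa [count_restr] at this
    · have := (h6.prY y).blk x
      rwa [count_restr, count_jl_swap, hc.cR] at this
    · have := (h6.prX x).blk y
      rwa [count_restr] at this
  · intro z hz
    simp only [fr', List.mem_cons, List.not_mem_nil, or_false] at hz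
    rcases hz with rfl | rfl
    · exact h6.pzL
    · exact h6.pzR

end Dt

end Crest.Agent.R003.S227
end

-- ▼ part R003/Book5_227
section

/-!
# Row 3: step S5, bookkeeping of names, weights, well-formedness (helper227)
-/

set_option autoImplicit false

namespace Crest.Agent.R003.S227

namespace Dt

variable {n : ℕ} {D : Dt}

theorem Cn.cl1 (hc : Cn D) (x e : Bool) :
    (restr D.XE D.Et x).count e = (jl D.E D.X).count (e, x) := by
  rw [count_restr, count_jl_swap, hc.cL]

theorem cl2 (D : Dt) (e x : Bool) :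
    (restr D.E D.X e).count x = (jl D.E D.X).count (e, x) := count_restr _ _ _ _

theorem Cn.cl3 (hc : Cn D) (y x : Bool) :
    (restr D.Yt D.XY y).count x = (jl D.X' D.Y).count (x, y) := by
  rw [count_restr, count_jl_swap, hc.cR]

theorem cl4 (D : Dt) (x y : Bool) :
    (restr D.X' D.Y x).count y = (jl D.X' D.Y).count (x, y) := count_restr _ _ _ _

/-- sum over pairs -/
def q4 {α : Type} (f : Bool → Bool → α) : Multiset α :=
  {f false false} + {f false true} + {f true false} + {f true true}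

def q2 {α : Type} (f : Bool → α) : Multiset α := {f false} + {f true}

/-- the new full names -/
def Vn (D : Dt) : Multiset (ℕ × ℕ) :=
  q2 (fun e => (nh1 D.N e, D.E.count e)) + q2 (fun y => (nh3 D.N y, D.Y.count y)) +
  q4 (fun e x => (na D.N e x, (jl D.E D.X).count (e, x))) +
  q4 (fun x e => (nn' D.N x e, (jl D.E D.X).count (e, x))) +
  q4 (fun y x => (nb D.N y x, (jl D.X' D.Y).count (x, y))) +
  q4 (fun x y => (nm' D.N x y, (jl D.X' D.Y).count (x, y)))

theorem occ_bal (hc : Cn D) : occL [D.old] + pm D.Vn = occL D.B + pm 0 := by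
  simp only [occL_cons, occL_nil, Dt.B, Root.occ, Wd.occ, old, rV, rE, rY, rX, kE, kY,
    List.map_cons, List.map_nil, List.sum_cons, List.sum_nil, Lt.occ, Multiset.insert_eq_cons,
    ← Multiset.singleton_add, pm_zero, Vn, pm_add, q2, q4, pm_singleton, hc.cl1, cl2, hc.cl3, cl4,
    hc.c1E, hc.YtY]
  abel

/-- the P-names of `B` -/
theorem pnL_B : pnL D.B = ({D.p1} + {D.p3} + Wd.pn D.w) +
    (q2 (fun e => nE D.N e) + q2 (fun y => nY D.N y) + q2 (fun x => nrX D.N x) +
      q2 (fun x => nlX D.N x)) := by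
  simp only [pnL_cons, pnL_nil, Dt.B, Root.pn, Wd.pn, rV, rE, rY, rX, kE, kY,
    List.map_cons, List.map_nil, List.sum_cons, List.sum_nil, Lt.pn, q2]
  abel

theorem pnL_old : pnL [D.old] = {D.p2} + ({D.p1} + {D.p3} + Wd.pn D.w) := by
  simp only [pnL_cons, pnL_nil, Root.pn, Wd.pn, old,
    List.map_cons, List.sum_cons, Lt.pn]
  abel

theorem fresh_eq : D.Vn.map Prod.fst + (q2 (fun e => nE D.N e) + q2 (fun y => nY D.N y) +
      q2 (fun x => nrX D.N x) + q2 (fun x => nlX D.N x)) +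
      ((D.fr'.map Prod.fst : List ℕ) : Multiset ℕ) =
    (Multiset.range 30).map (fun i => D.N + i) := by
  have h1 : ((D.fr'.map Prod.fst : List ℕ) : Multiset ℕ) = {D.N + 28} + {D.N + 29} := rfl
  have h2 : (Multiset.range 30) = {0} + {1} + {2} + {3} + {4} + {5} + {6} + {7} + {8} + {9} + {10}
    + {11} + {12} + {13} + {14} + {15} + {16} + {17} + {18} + {19} + {20} + {21} + {22} + {23} +
    {24} + {25} + {26} + {27} + {28} + {29} := by decide
  rw [h1, h2]
  simp only [Vn, q2, q4, Multiset.map_add, Multiset.map_singleton, nh1, nh3, nE, nY, nrX, nlX, na,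
    nn', nb, nm', Bool.toNat_false, Bool.toNat_true, add_zero, mul_zero, mul_one,
    Nat.add_assoc, Nat.reduceAdd]
  abel

theorem all_names : D.Vn.map Prod.fst + pnL D.B + ((D.fr'.map Prod.fst : List ℕ) : Multiset ℕ) =
    (Multiset.range 30).map (fun i => D.N + i) + ({D.p1} + {D.p3} + Wd.pn D.w) := by
  rw [← fresh_eq, pnL_B]
  abel

theorem nodup_new (h1 : (pnL [D.old]).Nodup) (h2 : ∀ x ∈ pnL [D.old], x < D.N) :
    (D.Vn.map Prod.fst + pnL D.B + ((D.fr'.map Prod.fst : List ℕ) : Multiset ℕ)).Nodup := by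
  rw [all_names]
  rw [pnL_old] at h1 h2
  refine Multiset.nodup_add.2 ⟨?_, (Multiset.nodup_add.1 h1).2.1, ?_⟩
  · exact (Multiset.nodup_range 30).map (fun a b h => by simpa using h)
  · rw [Multiset.disjoint_left]
    intro x hx hx'
    obtain ⟨i, _, rfl⟩ := Multiset.mem_map.1 hx
    have := h2 _ (Multiset.mem_add.2 (Or.inr hx'))
    omega

theorem fresh_new {T : Set ℕ} (hT : ∀ x ∈ T, x < D.N) {y : ℕ}
    (hy : y ∈ D.Vn.map Prod.fst + pnL D.B + ((D.fr'.map Prod.fst : List ℕ) : Multiset ℕ)) :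
    y ∈ (0 : Multiset (ℕ × ℕ)).map Prod.fst ∨ y ∈ pnL [D.old] ∨ y ∉ T := by
  rw [all_names] at hy
  rcases Multiset.mem_add.1 hy with hy | hy
  · right; right
    obtain ⟨i, _, rfl⟩ := Multiset.mem_map.1 hy
    intro h
    have := hT _ h
    omega
  · right; left
    rw [pnL_old]
    exact Multiset.mem_add.2 (Or.inr hy)

/-! ### counts and lengths -/

theorem len_bool (l : List Bool) : l.length = l.count false + l.count true := by
  induction l with
  | nil => simp
  | cons b l ih =>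
    rw [List.length_cons, List.count_cons, List.count_cons]
    cases b <;> simp <;> omega

theorem len_eq_of_count {l l' : List Bool} (h : ∀ b, l.count b = l'.count b) :
    l.length = l'.length := by
  rw [len_bool, len_bool, h, h]

theorem count_lt {l : List Bool} {k : ℕ} (hl : l.length = k) (h : ∀ b, 0 < l.count b) (b : Bool) :
    l.count b < k := by
  have h1 := len_bool l
  have h2 := h (!b)
  cases b
  · simp only [Bool.not_false] at h2; omega
  · simp only [Bool.not_true] at h2; omega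

theorem jl_count_le (c d : List Bool) (h : c.length = d.length) (b a : Bool) :
    (jl c d).count (b, a) ≤ c.count b := by
  rw [← count_restr, ← length_restr c d b h]
  exact List.count_le_length

/-- all the facts on lengths and counts -/
structure Fc (n : ℕ) (O : Subring ℂ) (D : Dt) : Prop extends Cn D where
  hk : D.k ≤ n
  hξ : IsSc O D.ξ
  lc1 : D.c1.length = D.k
  lE : D.E.length = D.k
  lX : D.X.length = D.k
  lX' : D.X'.length = D.k
  lY : D.Y.length = D.k
  lEt : D.Et.length = D.k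
  lYt : D.Yt.length = D.k
  lXE : D.XE.length = D.k
  lXY : D.XY.length = D.k
  c1Et : ∀ b, D.c1.count b = D.Et.count b
  XX' : ∀ b, D.X.count b = D.X'.count b
  Yc3 : ∀ b, D.Y.count b = D.c3.count b
  s1 : (∀ x y, D.σ1 x y = 1) ∨ Wd.last D.w (some D.c3) = some D.e1
  s2 : (∀ x y, D.σ2 x y = 1) ∨ D.E = D.e2
  s3 : (∀ x y, D.σ3 x y = 1) ∨ D.X' = D.e3
  t1 : ∀ x y, IsSc O (D.σ1 x y)
  t2 : ∀ x y, IsSc O (D.σ2 x y)
  t3 : ∀ x y, IsSc O (D.σ3 x y)
  hw : Wd.WF O D.w D.k (some D.c3)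
  pE : ∀ b, 0 < D.E.count b
  pX : ∀ b, 0 < D.X.count b
  pY : ∀ b, 0 < D.Y.count b

theorem sg_isSc {O : Subring ℂ} (x y : Bool) : IsSc O (sg x y) := by
  unfold sg
  split_ifs
  · exact IsSc.neg_one
  · exact IsSc.one

theorem WF_B {O : Subring ℂ} (F : Fc n O D) : ∀ r ∈ D.B, r.WF O n := by
  rw [forall_B]
  have hk := F.hk
  refine ⟨?_, ?_, ?_, ?_, ?_, ?_⟩
  · refine ⟨F.hk, F.hξ, F.lc1, F.c1Et, ?_, F.t1, F.lYt, fun b => (F.YtY b).trans (F.Yc3 b),
      Or.inr rfl, fun x y => sg_isSc x y, F.hw⟩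
    exact F.s1
  · intro e
    refine ⟨?_, IsSc.one, ?_⟩
    · exact (List.count_le_length.trans F.lE.le).trans hk
    · refine ⟨length_restr _ _ _ (F.lE.trans F.lX.symm), fun b => ?_, Or.inl fun _ _ => rfl,
        fun _ _ => IsSc.one, trivial⟩
      rw [count_restr, count_restr, F.cL]
  · intro y
    refine ⟨?_, IsSc.one, ?_⟩
    · exact (List.count_le_length.trans F.lY.le).trans hk
    · refine ⟨?_, fun b => ?_, Or.inl fun _ _ => rfl, fun _ _ => IsSc.one, trivial⟩
      · rw [length_restr _ _ _ (F.lYt.trans F.lXY.symm), F.YtY]; rfl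
      · rw [count_restr, count_restr, count_jl_swap, F.cR, count_jl_swap]
  · intro x
    refine ⟨?_, IsSc.one, ?_⟩
    · exact (List.count_le_length.trans F.lX.le).trans hk
    · refine ⟨?_, fun b => ?_, Or.inl fun _ _ => rfl, fun _ _ => IsSc.one, ?_, fun b => ?_,
        Or.inr rfl, fun _ _ => sg_isSc _ _, trivial⟩
      · rw [length_restr _ _ _ (F.lX'.trans F.lY.symm), ← F.XX']; rfl
      · rw [count_restr, count_restr, F.cR]
      · show (restr D.XE D.Et x).length = D.X.count x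
        rw [← length_restr D.X D.E x (F.lX.trans F.lE.symm)]
        apply len_eq_of_count
        intro b
        rw [count_restr, count_restr, count_jl_swap, ← F.cL, count_jl_swap]
      · rw [count_restr, count_restr, count_jl_swap, ← F.cL, count_jl_swap]
  · intro e x
    refine ⟨?_, F.t2 e x, trivial⟩
    have h1 := jl_count_le D.E D.X (F.lE.trans F.lX.symm) e x
    have h2 : D.E.count e ≤ D.E.length := List.count_le_length
    have h3 := F.lE
    show (jl D.E D.X).count (e, x) ≤ n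
    omega
  · intro x y
    refine ⟨?_, F.t3 x y, trivial⟩
    have h1 := jl_count_le D.X' D.Y (F.lX'.trans F.lY.symm) x y
    have h2 : D.X'.count x ≤ D.X'.length := List.count_le_length
    have h3 := F.lX'
    show (jl D.X' D.Y).count (x, y) ≤ n
    omega

/-- the roots other than `rV` -/
def Bt (D : Dt) : List Root := [D.rE false, D.rE true, D.rY false, D.rY true, D.rX false, D.rX true,
  D.kE false false, D.kE false true, D.kE true false, D.kE true true,
  D.kY false false, D.kY false true, D.kY true false, D.kY true true]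

theorem B_eq : D.B = D.rV :: D.Bt := rfl

theorem Bt_lt {O : Subring ℂ} (F : Fc n O D) : ∀ r ∈ D.Bt, r.k < D.k := by
  have hE := count_lt F.lE F.pE
  have hX := count_lt F.lX F.pX
  have hY := count_lt F.lY F.pY
  have hj1 : ∀ e x, (jl D.E D.X).count (e, x) < D.k := fun e x =>
    (jl_count_le D.E D.X (F.lE.trans F.lX.symm) e x).trans_lt (hE e)
  have hj2 : ∀ x y, (jl D.X' D.Y).count (x, y) < D.k := fun x y =>
    (jl_count_le D.X' D.Y (F.lX'.trans F.lY.symm) x y).trans_lt (by rw [← F.XX']; exact hX x)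
  simp only [Bt, List.mem_cons, List.not_mem_nil, or_false, forall_eq_or_imp, forall_eq,
    rE, rY, rX, kE, kY]
  exact ⟨hE _, hE _, hY _, hY _, hX _, hX _, hj1 _ _, hj1 _ _, hj1 _ _, hj1 _ _,
    hj2 _ _, hj2 _ _, hj2 _ _, hj2 _ _⟩

theorem adm_B {O : Subring ℂ} (F : Fc n O D) (k0 : ℕ) (h : Adm k0 ⟨[D.old], []⟩) :
    Adm k0 ⟨D.B, []⟩ := by
  have h0 : D.k < k0 ∨ (D.k = k0 ∧ _) := h D.old (List.mem_singleton.2 rfl)
  intro r hr
  rw [show (Sys.mk D.B []).roots = D.rV :: D.Bt from rfl] at hr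
  rcases List.mem_cons.1 hr with rfl | hr
  · rcases h0 with h0 | h0
    · exact Or.inl h0
    · refine Or.inr ⟨h0.1, _, List.mem_cons_self, ?_⟩
      intro b
      show 0 < D.c1.count b
      rw [F.c1E]
      exact F.pE b
  · have := Bt_lt F r hr
    left
    rcases h0 with h0 | h0
    · omega
    · omega

/-! ### weights -/

theorem lt_wt_le (l : Lt) (k m : ℕ) (h : m ∈ l.wt k) : m ≤ 3 * k + 2 := by
  cases l with
  | full x ε =>
    have h' : m ∈ ({3 * k + 1} : Multiset ℕ) := h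
    rw [Multiset.mem_singleton] at h'
    omega
  | par p e σ c c' g =>
    simp only [Lt.wt] at h
    split_ifs at h <;> simp at h <;> omega

theorem root_wt_le (r : Root) (m : ℕ) (h : m ∈ r.wt) : m ≤ 3 * r.k + 2 := by
  unfold Root.wt at h
  rcases Multiset.mem_cons.1 h with h | h
  · omega
  · obtain ⟨l, _, h⟩ := (mem_listSum _ _ _).1 h
    exact lt_wt_le l _ _ h

theorem wt_nd (p : ℕ) (e : List Bool) (σ : Bool → Bool → ℂˣ) (c c' : List Bool) (g : Bool → ℕ)
    (k : ℕ) (h : ∀ b, 0 < c.count b) :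
    ∃ s : Multiset ℕ, Lt.wt k (Lt.par p e σ c c' g) = {3 * k} + s ∧ ∀ y ∈ s, y = 3 * k - 1 := by
  simp only [Lt.wt]
  rw [if_pos h]
  split_ifs
  · exact ⟨0, by simp, by simp⟩
  · exact ⟨{3 * k - 1}, rfl, by simp⟩

theorem wt_B {O : Subring ℂ} (F : Fc n O D) :
    Multiset.IsDershowitzMannaLT (wtL D.B) (wtL [D.old]) := by
  obtain ⟨s, hs, hs'⟩ := wt_nd D.p3 D.Et sg D.Yt D.c3 (nh3 D.N) D.k
    (fun b => by rw [F.YtY]; exact F.pY b)
  obtain ⟨s3, hs3, -⟩ := wt_nd D.p3 D.e3 D.σ3 D.Y D.c3 D.g3 D.k F.pY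
  obtain ⟨s2, hs2, -⟩ := wt_nd D.p2 D.e2 D.σ2 D.X D.X' D.g2 D.k F.pX
  have hk : 0 < D.k := (Nat.zero_le _).trans_lt (count_lt F.lE F.pE false)
  refine ⟨{3 * D.k} + Lt.wt D.k (Lt.par D.p1 D.e1 D.σ1 D.c1 D.E D.g1) + {3 * D.k} +
    Wd.wt D.w D.k, s + wtL D.Bt, {3 * D.k} + s2 + s3, ?_, ?_, ?_, ?_⟩
  · intro h
    have := congrArg Multiset.card h
    simp at this
  · rw [B_eq, wtL_cons]
    have : D.rV.wt = {3 * D.k} + (Lt.wt D.k (Lt.par D.p1 D.e1 D.σ1 D.c1 D.E D.g1) +
      (Lt.wt D.k (Lt.par D.p3 D.Et sg D.Yt D.c3 (nh3 D.N)) + Wd.wt D.w D.k)) := by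
      simp only [Root.wt, rV, Wd.wt, List.map_cons, List.sum_cons]
      rfl
    rw [this, hs]
    abel
  · rw [wtL_cons, wtL_nil]
    have : D.old.wt = {3 * D.k} + (Lt.wt D.k (Lt.par D.p1 D.e1 D.σ1 D.c1 D.E D.g1) +
      (Lt.wt D.k (Lt.par D.p2 D.e2 D.σ2 D.X D.X' D.g2) +
      (Lt.wt D.k (Lt.par D.p3 D.e3 D.σ3 D.Y D.c3 D.g3) + Wd.wt D.w D.k))) := by
      simp only [Root.wt, old, Wd.wt, List.map_cons, List.sum_cons]
      rfl
    rw [this, hs3, hs2]
    abel
  · intro y hy
    refine ⟨3 * D.k, by simp, ?_⟩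
    rcases Multiset.mem_add.1 hy with hy | hy
    · have := hs' y hy
      omega
    · obtain ⟨r, hr, hy⟩ := (mem_listSum _ _ _).1 hy
      have h1 := root_wt_le r y hy
      have h2 := Bt_lt F r hr
      omega

end Dt

end Crest.Agent.R003.S227
end

-- ▼ part R003/S5_227

/-!
# Row 3: step S5 (helper227)
-/

set_option autoImplicit false

namespace Crest.Agent.R003.S227

open Dt

variable {n : ℕ}

/-- values at the fresh names -/
def tab (h1 h3 : Bool → G n) (uE vY vX uX : Bool → G n) (a n' b m' : Bool → Bool → G n)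
    (zL zR : G n) : ℕ → G n
  | 0 => h1 false
  | 1 => h1 true
  | 2 => h3 false
  | 3 => h3 true
  | 4 => uE false
  | 5 => uE true
  | 6 => vY false
  | 7 => vY true
  | 8 => vX false
  | 9 => vX true
  | 10 => uX false
  | 11 => uX true
  | 12 => a false false
  | 13 => a false true
  | 14 => a true false
  | 15 => a true true
  | 16 => n' false false
  | 17 => n' false true
  | 18 => n' true false
  | 19 => n' true true
  | 20 => b false false
  | 21 => b false true
  | 22 => b true false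
  | 23 => b true true
  | 24 => m' false false
  | 25 => m' false true
  | 26 => m' true false
  | 27 => m' true true
  | 28 => zL
  | 29 => zR
  | _ => 1

/-- the new point -/
def newρ (N p1 p3 : ℕ) (q1 q3 : G n) (t : ℕ → G n) (ρ : ℕ → G n) : ℕ → G n := fun y =>
  if y = p1 then q1 else if y = p3 then q3 else if N ≤ y then t (y - N) else ρ y

section newρ

variable {N p1 p3 : ℕ} {q1 q3 : G n} {t ρ : ℕ → G n}

theorem newρ_p1 : newρ N p1 p3 q1 q3 t ρ p1 = q1 := by simp [newρ]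

theorem newρ_p3 (h : p1 ≠ p3) : newρ N p1 p3 q1 q3 t ρ p3 = q3 := by
  simp [newρ, h.symm]

theorem newρ_fresh (h1 : p1 < N) (h3 : p3 < N) (i : ℕ) :
    newρ N p1 p3 q1 q3 t ρ (N + i) = t i := by
  have e1 : ¬ (N + i = p1) := by omega
  have e2 : ¬ (N + i = p3) := by omega
  simp [newρ, e1, e2]

theorem newρ_old {y : ℕ} (h : y < N) (h1 : y ≠ p1) (h3 : y ≠ p3) :
    newρ N p1 p3 q1 q3 t ρ y = ρ y := by
  simp [newρ, h1, h3, not_le.2 h]

end newρ

/-- the map on points -/
def PL (D : Dt) (ΦL : (Bool → G n) → (Bool → G n) → G n → G n) (τ : ℕ → G n) : G n :=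
  L5 n D.E D.X D.σ2 ΦL (fun e => τ (nE D.N e)) (fun x => τ (nlX D.N x)) (τ (nzL D.N))

def PR (D : Dt) (ΦR : (Bool → G n) → (Bool → G n) → G n → G n) (τ : ℕ → G n) : G n :=
  R5 n D.X' D.Y D.σ3 ΦR (fun x => τ (nrX D.N x)) (fun y => τ (nY D.N y)) (τ (nzR D.N))

def Phi (D : Dt) (N1 N3 : G n) (ΦL ΦR : (Bool → G n) → (Bool → G n) → G n → G n)
    (τ : ℕ → G n) : ℕ → G n := fun y =>
  if y = D.p1 then P1of n D.E D.X D.σ2 N1 (PL D ΦL τ) (τ D.p1)
  else if y = D.p2 then PL D ΦL τ * Th n D.Et D.Yt N1 N3 * PR D ΦR τ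
  else if y = D.p3 then P3of n D.X' D.Y D.σ3 N3 (PR D ΦR τ) (τ D.p3)
  else τ y

section Phi

variable {D : Dt} {N1 N3 : G n} {ΦL ΦR : (Bool → G n) → (Bool → G n) → G n → G n} {τ : ℕ → G n}

theorem Phi_p1 : Phi D N1 N3 ΦL ΦR τ D.p1 = P1of n D.E D.X D.σ2 N1 (PL D ΦL τ) (τ D.p1) := by
  simp [Phi]

theorem Phi_p2 (h : D.p1 ≠ D.p2) :
    Phi D N1 N3 ΦL ΦR τ D.p2 = PL D ΦL τ * Th n D.Et D.Yt N1 N3 * PR D ΦR τ := by
  simp [Phi, h.symm]

theorem Phi_p3 (h : D.p1 ≠ D.p3) (h' : D.p2 ≠ D.p3) :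
    Phi D N1 N3 ΦL ΦR τ D.p3 = P3of n D.X' D.Y D.σ3 N3 (PR D ΦR τ) (τ D.p3) := by
  simp [Phi, h.symm, h'.symm]

theorem Phi_old {y : ℕ} (h1 : y ≠ D.p1) (h2 : y ≠ D.p2) (h3 : y ≠ D.p3) :
    Phi D N1 N3 ΦL ΦR τ y = τ y := by
  simp [Phi, h1, h2, h3]

end Phi

/-- signs: the labels in the sign are the right ones -/
theorem dsg_fix {e E X : List Bool} {σ : Bool → Bool → ℂˣ} (h : (∀ x y, σ x y = 1) ∨ E = e) :
    dsg n e X σ = dsg n E X σ := by
  rcases h with h | h
  · rw [dsg_one' _ _ h, dsg_one' _ _ h]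
  · rw [h]

theorem s5_core {O : Subring ℂ} (hC : Calc n) (D : Dt) (F : Fc n O D) {rest : List Root}
    {fr : List (ℕ × ℕ)} {ρ : ℕ → G n} (hWF : Sys.WF O n ⟨[D.old] ++ rest, fr⟩)
    (hρ : ρ ∈ Sys.Sol n ⟨[D.old] ++ rest, fr⟩)
    (hlt : ∀ x ∈ Sys.names ⟨[D.old] ++ rest, fr⟩, x < D.N)
    {N1 N3 : G n} {ΦL ΦR : (Bool → G n) → (Bool → G n) → G n → G n}
    {h1 h3 : Bool → G n} {a n' b m' : Bool → Bool → G n}
    {uE uX vY vX : Bool → G n} {q1 q3 zL zR : G n}
    (hcor : Cor5 n D.k D.E D.X D.X' D.Y D.Et D.Yt D.XE D.XY N1 N3)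
    (hGL : GlueFun n D.E D.X D.Et D.XE ΦL) (hGR : GlueFun n D.XY D.Yt D.X' D.Y ΦR)
    (hnew : New5 n D.k D.c1 D.E D.X D.X' D.Y D.c3 D.Et D.Yt D.XE D.XY D.σ2 D.σ3
      (fun e => ρ (D.g1 e)) (fun x => ρ (D.g2 x)) (fun y => ρ (D.g3 y))
      h1 h3 a n' b m' uE uX vY vX q1 q3 zL zR)
    (E1 : P1of n D.E D.X D.σ2 N1 (L5 n D.E D.X D.σ2 ΦL uE uX zL) q1 = ρ D.p1)
    (E2 : L5 n D.E D.X D.σ2 ΦL uE uX zL * Th n D.Et D.Yt N1 N3 *
      R5 n D.X' D.Y D.σ3 ΦR vX vY zR = ρ D.p2)
    (E3 : P3of n D.X' D.Y D.σ3 N3 (R5 n D.X' D.Y D.σ3 ΦR vX vY zR) q3 = ρ D.p3) :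
    Red O n ⟨[D.old] ++ rest, fr⟩ ρ := by
  set S : Sys := ⟨[D.old] ++ rest, fr⟩ with hS
  -- names
  have epn : S.pn = pnL [D.old] + pnL rest := by rw [Sys.pn_eq, hS, pnL_append]
  have eocc : S.occ = occL [D.old] + occL rest := by rw [Sys.occ_eq, hS, occL_append]
  have nd : (pnL [D.old]).Nodup := by
    have := hWF.pn_nodup
    rw [epn] at this
    exact (Multiset.nodup_add.1 this).1
  have nd' : (D.p2 ::ₘ D.p1 ::ₘ D.p3 ::ₘ Wd.pn D.w).Nodup := by
    have e : D.p2 ::ₘ D.p1 ::ₘ D.p3 ::ₘ Wd.pn D.w = {D.p2} + ({D.p1} + {D.p3} + Wd.pn D.w) := by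
      simp only [← Multiset.singleton_add]; abel
    rw [e, ← pnL_old]; exact nd
  simp only [Multiset.nodup_cons, Multiset.mem_cons, not_or] at nd'
  obtain ⟨⟨n21, n23, n2w⟩, ⟨n13, n1w⟩, n3w, -⟩ := nd'
  have lt_pn : ∀ x ∈ pnL [D.old], x < D.N := fun x hx =>
    hlt x (Or.inr (Or.inl (by rw [epn]; exact Multiset.mem_add.2 (Or.inl hx))))
  have lt_occ : ∀ x k ε, (x, k, ε) ∈ occL [D.old] → x < D.N := fun x k ε hx =>
    hlt x (Or.inl ⟨k, ε, by rw [eocc]; exact Multiset.mem_add.2 (Or.inl hx)⟩)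
  have m1 : D.p1 ∈ pnL [D.old] := by rw [pnL_old]; simp
  have m2 : D.p2 ∈ pnL [D.old] := by rw [pnL_old]; simp
  have m3 : D.p3 ∈ pnL [D.old] := by rw [pnL_old]; simp
  have occ_ne : ∀ x k ε, (x, k, ε) ∈ occL [D.old] → ∀ y ∈ pnL [D.old], x ≠ y := by
    rintro x k ε hx y hy rfl
    exact hWF.occ_not_pn (by rw [eocc]; exact Multiset.mem_add.2 (Or.inl hx))
      (by rw [epn]; exact Multiset.mem_add.2 (Or.inl hy))
  -- a set of "kept" names
  have oo : ∀ x k' ε, (x, k', ε) ∈ occL [D.old] →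
      x < D.N ∧ x ≠ D.p1 ∧ x ≠ D.p2 ∧ x ≠ D.p3 := fun x k' ε hx =>
    ⟨lt_occ x k' ε hx, occ_ne x k' ε hx _ m1, occ_ne x k' ε hx _ m2, occ_ne x k' ε hx _ m3⟩
  have ow : ∀ x, ((∃ k' ε, (x, k', ε) ∈ Wd.occ D.w D.k) ∨ x ∈ Wd.pn D.w) →
      x < D.N ∧ x ≠ D.p1 ∧ x ≠ D.p2 ∧ x ≠ D.p3 := by
    rintro x (⟨k', ε, hx⟩ | hx)
    · refine oo x k' ε ?_
      simp only [occL_cons, occL_nil, Root.occ, Dt.old, Wd.occ, List.map_cons, List.sum_cons,
        Multiset.mem_add]
      exact Or.inl (Or.inr (Or.inr (Or.inr hx)))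
    · refine ⟨lt_pn x ?_, ?_, ?_, ?_⟩
      · rw [pnL_old]; exact Multiset.mem_add.2 (Or.inr (Multiset.mem_add.2 (Or.inr hx)))
      · rintro rfl; exact n1w hx
      · rintro rfl; exact n2w hx
      · rintro rfl; exact n3w hx
  have g1o : ∀ e, D.g1 e < D.N ∧ D.g1 e ≠ D.p1 ∧ D.g1 e ≠ D.p2 ∧ D.g1 e ≠ D.p3 := by
    intro e
    refine oo _ (D.c1.count e) true ?_
    simp only [occL_cons, occL_nil, Root.occ, Dt.old, Wd.occ, List.map_cons, List.sum_cons,
      Multiset.mem_add, Lt.occ]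
    left; left
    cases e <;> simp
  have g2o : ∀ e, D.g2 e < D.N ∧ D.g2 e ≠ D.p1 ∧ D.g2 e ≠ D.p2 ∧ D.g2 e ≠ D.p3 := by
    intro e
    refine oo _ (D.X.count e) true ?_
    simp only [occL_cons, occL_nil, Root.occ, Dt.old, Wd.occ, List.map_cons, List.sum_cons,
      Multiset.mem_add, Lt.occ]
    left; right; left
    cases e <;> simp
  have g3o : ∀ e, D.g3 e < D.N ∧ D.g3 e ≠ D.p1 ∧ D.g3 e ≠ D.p2 ∧ D.g3 e ≠ D.p3 := by
    intro e
    refine oo _ (D.Y.count e) true ?_
    simp only [occL_cons, occL_nil, Root.occ, Dt.old, Wd.occ, List.map_cons, List.sum_cons,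
      Multiset.mem_add, Lt.occ]
    left; right; right; left
    cases e <;> simp
  have l1 := lt_pn _ m1
  have l3 := lt_pn _ m3
  -- the new point
  obtain ⟨ρ', hρ'⟩ : ∃ ρ' : ℕ → G n, ρ' = newρ D.N D.p1 D.p3 q1 q3
    (tab h1 h3 uE vY vX uX a n' b m' zL zR) ρ := ⟨_, rfl⟩
  have r1 : ρ' D.p1 = q1 := by rw [hρ']; exact newρ_p1
  have r3 : ρ' D.p3 = q3 := by rw [hρ']; exact newρ_p3 n13
  have rf : ∀ i, ρ' (D.N + i) = tab h1 h3 uE vY vX uX a n' b m' zL zR i := fun i => by
    rw [hρ']; exact newρ_fresh l1 l3 i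
  have ro : ∀ {y}, (y < D.N ∧ y ≠ D.p1 ∧ y ≠ D.p2 ∧ y ≠ D.p3) → ρ' y = ρ y := by
    rintro y ⟨hy, hy1, hy2, hy3⟩
    rw [hρ']; exact newρ_old hy hy1 hy3
  have f1 : ∀ e, ρ' (nh1 D.N e) = h1 e := by
    intro e; cases e
    · exact rf 0
    · exact rf 1
  have f2 : ∀ e, ρ' (nh3 D.N e) = h3 e := by
    intro e; cases e
    · exact rf 2
    · exact rf 3
  have f3 : ∀ e, ρ' (nE D.N e) = uE e := by
    intro e; cases e
    · exact rf 4
    · exact rf 5
  have f4 : ∀ e, ρ' (nY D.N e) = vY e := by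
    intro e; cases e
    · exact rf 6
    · exact rf 7
  have f5 : ∀ e, ρ' (nrX D.N e) = vX e := by
    intro e; cases e
    · exact rf 8
    · exact rf 9
  have f6 : ∀ e, ρ' (nlX D.N e) = uX e := by
    intro e; cases e
    · exact rf 10
    · exact rf 11
  have f7 : ∀ e x, ρ' (na D.N e x) = a e x := by
    intro e x; cases e <;> cases x
    · exact rf 12
    · exact rf 13
    · exact rf 14
    · exact rf 15
  have f8 : ∀ e x, ρ' (nn' D.N e x) = n' e x := by
    intro e x; cases e <;> cases x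
    · exact rf 16
    · exact rf 17
    · exact rf 18
    · exact rf 19
  have f9 : ∀ e x, ρ' (nb D.N e x) = b e x := by
    intro e x; cases e <;> cases x
    · exact rf 20
    · exact rf 21
    · exact rf 22
    · exact rf 23
  have f10 : ∀ e x, ρ' (nm' D.N e x) = m' e x := by
    intro e x; cases e <;> cases x
    · exact rf 24
    · exact rf 25
    · exact rf 26
    · exact rf 27
  have f11 : ρ' (nzL D.N) = zL := rf 28
  have f12 : ρ' (nzR D.N) = zR := rf 29
  have hPEq : D.PEq ρ' := by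
    unfold Dt.PEq
    simp only [f1, f2, f3, f4, f5, f6, f7, f8, f9, f10, f11, f12, r1, r3, ro (g1o _), ro (g2o _),
      ro (g3o _)]
    exact hnew
  -- the old equations
  have hold : D.old.Sol ρ := hρ.1 _ (List.mem_append.2 (Or.inl (List.mem_singleton.2 rfl)))
  obtain ⟨hSat, hEq⟩ := hold
  have A1 : IsPar D.c1 D.E (fun b => ρ (D.g1 b)) (ρ D.p1) :=
    hSat (Lt.par D.p1 D.e1 D.σ1 D.c1 D.E D.g1) (by simp [Dt.old])
  have A2 : IsPar D.X D.X' (fun b => ρ (D.g2 b)) (ρ D.p2) :=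
    hSat (Lt.par D.p2 D.e2 D.σ2 D.X D.X' D.g2) (by simp [Dt.old])
  have A3 : IsPar D.Y D.c3 (fun b => ρ (D.g3 b)) (ρ D.p3) :=
    hSat (Lt.par D.p3 D.e3 D.σ3 D.Y D.c3 D.g3) (by simp [Dt.old])
  have A4 : Wd.Sat ρ D.w D.k := fun l hl => hSat l (by simp [Dt.old, hl])
  have wSat : ∀ τ τ' : ℕ → G n, (∀ y, (y < D.N ∧ y ≠ D.p1 ∧ y ≠ D.p2 ∧ y ≠ D.p3) → τ y = τ' y) →
      Wd.Sat τ D.w D.k → Wd.Sat τ' D.w D.k := fun τ τ' h h' =>
    Wd.Sat_congr (fun x hx => h x (ow x hx)) h'
  have wEval : ∀ τ τ' : ℕ → G n, (∀ y, (y < D.N ∧ y ≠ D.p1 ∧ y ≠ D.p2 ∧ y ≠ D.p3) → τ y = τ' y) →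
      Wd.eval τ D.w = Wd.eval τ' D.w := fun τ τ' h =>
    Wd.eval_congr D.k (fun x hx => h x (ow x hx))
  have d2 : dsg n D.e2 D.X D.σ2 = dsg n D.E D.X D.σ2 := dsg_fix F.s2
  have d3 : dsg n D.e3 D.Y D.σ3 = dsg n D.X' D.Y D.σ3 := dsg_fix F.s3
  have hbw := New5.bwd hC F.lE F.lX F.lX' F.lY F.hk hcor hGL hGR hnew
  simp only [E1, E2, E3] at hbw
  obtain ⟨-, -, -, hbw4⟩ := hbw
  have hEq' : scal n D.k D.ξ * (dsg n D.e1 D.c1 D.σ1 * ρ D.p1 * (dsg n D.E D.X D.σ2 * ρ D.p2 *
      (dsg n D.X' D.Y D.σ3 * ρ D.p3 * Wd.eval ρ D.w))) = 1 := by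
    have h := hEq
    simp only [Dt.old, Wd.eval, List.map_cons, List.prod_cons, Lt.eval, d2, d3] at h
    exact h
  have hVEq : D.VEq ρ' := by
    unfold Dt.VEq
    rw [r1, r3, wEval ρ' ρ (fun y hy => ro hy)]
    rw [← hEq']
    calc scal n D.k D.ξ * (dsg n D.e1 D.c1 D.σ1 * q1 * (dsg n D.Et D.Yt sg * q3 * Wd.eval ρ D.w))
        = scal n D.k D.ξ * (dsg n D.e1 D.c1 D.σ1 * (q1 * (dsg n D.Et D.Yt sg * q3)) *
            Wd.eval ρ D.w) := by group
      _ = _ := by rw [← hbw4]; group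
  have hSol' := sol_bwd (D := D) F.toCn (τ := ρ')
    (fun e => by rw [ro (g1o e), ← F.c1E]; exact A1.blk e)
    (fun e => by rw [ro (g2o e)]; exact A2.blk e)
    (fun e => by rw [ro (g3o e)]; exact A3.blk e)
    (wSat ρ ρ' (fun y hy => (ro hy).symm) A4) hVEq hPEq
  -- properties of points of the new system
  have kL : ∀ τ : ℕ → G n, D.PEq τ → ∃ nn, GlueData D.E D.X D.Et D.XE nn
      (fun e => (DE n D.E D.X D.σ2 e)⁻¹ * τ (nE D.N e)) (fun x => (τ (nlX D.N x))⁻¹) (τ (nzL D.N)) :=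
    fun τ h => ⟨_, New5.glueL hC F.lE F.lX F.hk h⟩
  have kR : ∀ τ : ℕ → G n, D.PEq τ → ∃ nn, GlueData D.XY D.Yt D.X' D.Y nn
      (fun x => (τ (nrX D.N x))⁻¹) (fun y => τ (nY D.N y) * (DY n D.X' D.Y D.σ3 y)⁻¹)
      (τ (nzR D.N)) :=
    fun τ h => ⟨_, New5.glueR hC F.lX' F.lY F.lXY F.hk h⟩
  have notLoc : ∀ x, x ∉ Loc S [D.old] → x < D.N ∧ x ≠ D.p1 ∧ x ≠ D.p2 ∧ x ≠ D.p3 := by
    intro x hx
    have hx1 : x ∈ S.names := by
      by_contra h; exact hx (Or.inl h)
    have hx2 : x ∉ pnL [D.old] := fun h => hx (Or.inr (Or.inl h))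
    exact ⟨hlt x hx1, fun h => hx2 (h ▸ m1), fun h => hx2 (h ▸ m2), fun h => hx2 (h ▸ m3)⟩
  have nmL : ∀ x ∈ namesL [D.old], x = D.p1 ∨ x = D.p2 ∨ x = D.p3 ∨
      (x < D.N ∧ x ≠ D.p1 ∧ x ≠ D.p2 ∧ x ≠ D.p3) := by
    rintro x (⟨k', ε, hx⟩ | hx)
    · exact Or.inr (Or.inr (Or.inr (oo x k' ε hx)))
    · by_cases q1 : x = D.p1
      · exact Or.inl q1
      by_cases q2 : x = D.p2
      · exact Or.inr (Or.inl q2)
      by_cases q3 : x = D.p3
      · exact Or.inr (Or.inr (Or.inl q3))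
      exact Or.inr (Or.inr (Or.inr ⟨lt_pn x hx, q1, q2, q3⟩))
  refine local_step [D.old] D.B rest fr D.fr' ρ ρ' 0 D.Vn (Phi D N1 N3 ΦL ΦR) hWF hρ (WF_B F)
    ?_ (by simp) (by simp) (occ_bal F.toCn) (nodup_new nd lt_pn) (fun y hy => fresh_new hlt hy)
    (wt_B F) (adm_B F) hSol'.1 hSol'.2 ?_ ?_ ?_ ?_ ?_ ?_
  · intro z hz
    simp only [Dt.fr', List.mem_cons, List.not_mem_nil, or_false] at hz
    rcases hz with rfl | rfl
    · exact F.hk
    · exact F.hk
  · intro x hx
    exact ro (notLoc x hx)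
  · -- polynomiality
    intro x
    have pL : PolG {σ : ℕ → G n | (∀ r ∈ D.B, r.Sol σ) ∧ ∀ z ∈ D.fr', σ z.1 ∈ GLk n z.2}
        (fun σ => PL D ΦL σ) :=
      polL5 hGL (fun e => PolG.coord _) (fun x => PolG.coord _) (PolG.coord _)
        (fun σ hσ => kL σ (sol_fwd hσ.1 hσ.2).2.2.2.2.2)
    have pR : PolG {σ : ℕ → G n | (∀ r ∈ D.B, r.Sol σ) ∧ ∀ z ∈ D.fr', σ z.1 ∈ GLk n z.2}
        (fun σ => PR D ΦR σ) :=
      polR5 hGR (fun e => PolG.coord _) (fun x => PolG.coord _) (PolG.coord _)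
        (fun σ hσ => kR σ (sol_fwd hσ.1 hσ.2).2.2.2.2.2)
    unfold Phi
    exact PolG.ite _ (polP1 pL (PolG.coord _)) (PolG.ite _ (polP2 pL pR)
      (PolG.ite _ (polP3 pR (PolG.coord _)) (PolG.coord _)))
  · intro x hx σ
    obtain ⟨-, hx1, hx2, hx3⟩ := notLoc x hx
    exact Phi_old hx1 hx2 hx3
  · -- the old equations hold
    intro σ h h' r hr
    rw [List.mem_singleton] at hr
    subst hr
    obtain ⟨-, -, -, hw4, hV, hP⟩ := sol_fwd h h'
    obtain ⟨b1, b2, b3, b4⟩ := New5.bwd hC F.lE F.lX F.lX' F.lY F.hk hcor hGL hGR hP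
    have q1 : Phi D N1 N3 ΦL ΦR σ D.p1 = P1of n D.E D.X D.σ2 N1 (PL D ΦL σ) (σ D.p1) := Phi_p1
    have q2 : Phi D N1 N3 ΦL ΦR σ D.p2 = PL D ΦL σ * Th n D.Et D.Yt N1 N3 * PR D ΦR σ :=
      Phi_p2 (Ne.symm n21)
    have q3 : Phi D N1 N3 ΦL ΦR σ D.p3 = P3of n D.X' D.Y D.σ3 N3 (PR D ΦR σ) (σ D.p3) :=
      Phi_p3 n13 n23
    have qo : ∀ {y}, (y < D.N ∧ y ≠ D.p1 ∧ y ≠ D.p2 ∧ y ≠ D.p3) →
        Phi D N1 N3 ΦL ΦR σ y = σ y := fun hy => Phi_old hy.2.1 hy.2.2.1 hy.2.2.2
    constructor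
    · intro l hl
      simp only [Dt.old, List.mem_cons] at hl
      rcases hl with rfl | rfl | rfl | hl
      · show IsPar D.c1 D.E (fun b => Phi D N1 N3 ΦL ΦR σ (D.g1 b)) (Phi D N1 N3 ΦL ΦR σ D.p1)
        simp only [qo (g1o _), q1]
        exact b1
      · show IsPar D.X D.X' (fun b => Phi D N1 N3 ΦL ΦR σ (D.g2 b)) (Phi D N1 N3 ΦL ΦR σ D.p2)
        simp only [qo (g2o _), q2]
        exact b2
      · show IsPar D.Y D.c3 (fun b => Phi D N1 N3 ΦL ΦR σ (D.g3 b)) (Phi D N1 N3 ΦL ΦR σ D.p3)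
        simp only [qo (g3o _), q3]
        exact b3
      · exact wSat σ _ (fun y hy => (qo hy).symm) hw4 l hl
    · simp only [Dt.old, Wd.eval, List.map_cons, List.prod_cons, Lt.eval, d2, d3, q1, q2, q3]
      have e5 : (List.map (Lt.eval (Phi D N1 N3 ΦL ΦR σ)) D.w).prod = Wd.eval σ D.w :=
        wEval _ _ (fun y hy => qo hy)
      rw [e5]
      unfold Dt.VEq at hV
      rw [← hV]
      have b4' : P1of n D.E D.X D.σ2 N1 (PL D ΦL σ) (σ D.p1) *
          (dsg n D.E D.X D.σ2 * (PL D ΦL σ * Th n D.Et D.Yt N1 N3 * PR D ΦR σ)) *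
          (dsg n D.X' D.Y D.σ3 * P3of n D.X' D.Y D.σ3 N3 (PR D ΦR σ) (σ D.p3)) =
          σ D.p1 * (dsg n D.Et D.Yt sg * σ D.p3) := b4
      calc _ = scal n D.k D.ξ * (dsg n D.e1 D.c1 D.σ1 *
            (P1of n D.E D.X D.σ2 N1 (PL D ΦL σ) (σ D.p1) *
          (dsg n D.E D.X D.σ2 * (PL D ΦL σ * Th n D.Et D.Yt N1 N3 * PR D ΦR σ)) *
          (dsg n D.X' D.Y D.σ3 * P3of n D.X' D.Y D.σ3 N3 (PR D ΦR σ) (σ D.p3))) *
            Wd.eval σ D.w) := by simp only [mul_assoc]
        _ = _ := by rw [b4']; simp only [mul_assoc]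
  · -- integrality
    intro σ h h' hint x hx hxL
    obtain ⟨-, -, -, hw4, hV, hP⟩ := sol_fwd h h'
    have memocc : ∀ r ∈ D.B, ∀ x k ε, (x, k, ε) ∈ r.occ → σ x ∈ GO O n := fun r hr x k ε hx =>
      hint x (Or.inl ⟨k, ε, by
        rw [Sys.occ_eq, occL_append]
        exact Multiset.mem_add.2 (Or.inl (mem_occL.2 ⟨r, hr, hx⟩))⟩)
    have mempn : ∀ x ∈ pnL D.B, σ x ∈ GO O n := fun x hx =>
      hint x (Or.inr (Or.inl (by
        rw [Sys.pn_eq, pnL_append]
        exact Multiset.mem_add.2 (Or.inl hx))))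
    have memfr : ∀ z ∈ D.fr', σ z.1 ∈ GO O n := fun z hz =>
      hint z.1 (Or.inr (Or.inr (by
        simp only [List.map_append, List.mem_append]
        exact Or.inl (List.mem_map.2 ⟨z, hz, rfl⟩))))
    have iL : PL D ΦL σ ∈ GO O n := by
      obtain ⟨nn, hd⟩ := kL σ hP
      refine intL5 hGL F.t2 (fun e => mempn _ ?_) (fun x => mempn _ ?_) (memfr (nzL D.N, D.k) ?_)
        nn hd
      · rw [pnL_B]; cases e <;> simp [q2]
      · rw [pnL_B]; cases x <;> simp [q2]
      · simp [Dt.fr']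
    have iR : PR D ΦR σ ∈ GO O n := by
      obtain ⟨nn, hd⟩ := kR σ hP
      refine intR5 hGR F.t3 (fun e => mempn _ ?_) (fun x => mempn _ ?_) (memfr (nzR D.N, D.k) ?_)
        nn hd
      · rw [pnL_B]; cases e <;> simp [q2]
      · rw [pnL_B]; cases x <;> simp [q2]
      · simp [Dt.fr']
    have i1 : σ D.p1 ∈ GO O n := mempn _ (by rw [pnL_B]; simp)
    have i3 : σ D.p3 ∈ GO O n := mempn _ (by rw [pnL_B]; simp)
    unfold Phi
    split_ifs with c1 c2 c3
    · exact intP1 hcor F.t2 iL i1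
    · exact (GO O n).mul_mem ((GO O n).mul_mem iL (intTh hcor)) iR
    · exact intP3 hcor F.t3 iR i3
    · rcases hx with ⟨k', ε, hx⟩ | hx
      · have h9 : (x, k', ε) ∈ occL D.B + pm 0 := by
          rw [← occ_bal F.toCn]
          exact Multiset.mem_add.2 (Or.inl hx)
        rw [pm_zero, add_zero] at h9
        obtain ⟨r, hr, h10⟩ := mem_occL.1 h9
        exact memocc r hr x k' ε h10
      · refine mempn x ?_
        rw [pnL_B]
        rw [pnL_old] at hx
        rcases Multiset.mem_add.1 hx with hx | hx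
        · exact absurd (Multiset.mem_singleton.1 hx) c2
        · exact Multiset.mem_add.2 (Or.inl hx)
  · intro x hx hxL
    rcases nmL x hx with rfl | rfl | rfl | hx
    · rw [Phi_p1, ← E1]
      unfold PL
      simp only [f3, f6, f11, r1]
    · rw [Phi_p2 (Ne.symm n21), ← E2]
      unfold PL PR
      simp only [f3, f4, f5, f6, f11, f12]
    · rw [Phi_p3 n13 n23, ← E3]
      unfold PR
      simp only [f4, f5, f12, r3]
    · rw [Phi_old hx.2.1 hx.2.2.1 hx.2.2.2, ro hx]

/-- **Step S5** -/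
theorem s5 {O : Subring ℂ} (hC : Calc n) (hX : Extract n) (hG : Glue n) (hN : NF5 n) : S5 O n := by
  intro k ξ w p1 p2 p3 e1 e2 e3 c1 E X X' Y c3 σ1 σ2 σ3 g1 g2 g3 rest fr ρ S pE pX pY hWF hρ
  have hr0 := hWF.roots _ List.mem_cons_self
  obtain ⟨hk, hξ, lc1, n1, s1, t1, lX, n2, s2, t2, lY, n3, s3, t3, hw⟩ := hr0
  change k ≤ n at hk
  change c1.length = k at lc1
  change X.length = k at lX
  change Y.length = k at lY
  change Wd.WF O w k (some c3) at hw
  obtain ⟨hSat, hEq⟩ := hρ.1 _ List.mem_cons_self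
  have A1 : IsPar c1 E (fun b => ρ (g1 b)) (ρ p1) := hSat (Lt.par p1 e1 σ1 c1 E g1) (by simp)
  have A2 : IsPar X X' (fun b => ρ (g2 b)) (ρ p2) := hSat (Lt.par p2 e2 σ2 X X' g2) (by simp)
  have A3 : IsPar Y c3 (fun b => ρ (g3 b)) (ρ p3) := hSat (Lt.par p3 e3 σ3 Y c3 g3) (by simp)
  have lE : E.length = k := (len_eq_of_count n1).symm.trans lc1
  have lX' : X'.length = k := (len_eq_of_count n2).symm.trans lX
  obtain ⟨Et, Yt, XE, XY, N1, N3, ΦL, ΦR, h1, h3, a, n', b, m', uE, uX, vY, vX, q1, q3, zL, zR,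
    hcor, hGL, hGR, hnew, E1, E2, E3⟩ := fwd5 hC hX hG hN hk σ2 σ3 lE lX lX' lY A1 A2 A3
  obtain ⟨N, hlt⟩ := Sys.exists_fresh S
  have F : Fc n O ⟨N, k, ξ, p1, p2, p3, e1, e2, e3, c1, E, X, X', Y, c3, σ1, σ2, σ3, g1, g2,
      g3, w, Et, Yt, XE, XY⟩ :=
    { c1E := n1
      YtY := fun b => (hnew.pq3.cnt b).trans (n3 b).symm
      cL := hcor.cL
      cR := hcor.cR
      hk := hk
      hξ := hξ
      lc1 := lc1
      lE := lE
      lX := lX
      lX' := lX'
      lY := lY
      lEt := hcor.lEt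
      lYt := hcor.lYt
      lXE := hcor.lXE
      lXY := hcor.lXY
      c1Et := hnew.pq1.cnt
      XX' := n2
      Yc3 := n3
      s1 := s1
      s2 := s2.imp id (fun h => Option.some.inj h)
      s3 := s3.imp id (fun h => Option.some.inj h)
      t1 := t1
      t2 := t2
      t3 := t3
      hw := hw
      pE := pE
      pX := pX
      pY := pY }
  exact s5_core hC ⟨N, k, ξ, p1, p2, p3, e1, e2, e3, c1, E, X, X', Y, c3, σ1, σ2, σ3, g1, g2,
      g3, w, Et, Yt, XE, XY⟩ F hWF hρ hlt hcor hGL hGR hnew E1 E2 E3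

end Crest.Agent.R003.S227
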