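import Crest.Agent.R003.Iface
import Crest.Agent.R003.Corner832

-- ▼ part R003/TwoLab832
section

/-!
# Row 3 (S0003): the two-label lemma (helper832)

If `P ∈ GL_k` is block triangular for the labels `(c|c')` and for the labels `(d|d')`, then it is block
triangular for the joint labels.
-/

set_option autoImplicit false

namespace Crest.Agent.R003

open Finset

theorem lab_lt832 {Λ : Type} {c : List Λ} {i : ℕ} {a : Λ} (h : lab c i = some a) : i < c.length := by
  by_contra hh
  rw [lab, List.getElem?_eq_none (by omega)] at h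
  cases h

theorem exists_lab {Λ : Type} {c : List Λ} {i : ℕ} (h : i < c.length) : ∃ a, lab c i = some a :=
  ⟨_, List.getElem?_eq_getElem h⟩

theorem sum_lab_range {Λ : Type} [BEq Λ] [LawfulBEq Λ] [DecidableEq Λ] (c : List Λ) (b : Λ) (m : ℕ) :
    ∑ i ∈ range m, (if lab c i = some b then 1 else 0) = (c.take m).count b := by
  induction m with
  | zero => simp
  | succ m ih =>
    rw [sum_range_succ, ih, List.take_add_one, List.count_append]
    congr 1
    unfold lab
    cases h : (c)[m]? with
    | none => simp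
    | some x =>
      by_cases hx : x = b
      · subst hx; simp
      · simp [hx]

theorem sum_lab {Λ : Type} [BEq Λ] [LawfulBEq Λ] [DecidableEq Λ] {n : ℕ} (c : List Λ) (b : Λ) (h : c.length ≤ n) :
    ∑ i : Fin n, (if lab c i.1 = some b then 1 else 0) = c.count b := by
  rw [Fin.sum_univ_eq_sum_range (fun i => if lab c i = some b then 1 else 0) n, sum_lab_range,
    List.take_of_length_le h]

theorem exists_perm_ne_zero {n : ℕ} (P : G n) : ∃ σ : Equiv.Perm (Fin n), ∀ j, P.1 (σ j) j ≠ 0 := by
  by_contra hcon
  push Not at hcon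
  have hdet : P.1.det = 0 := by
    rw [Matrix.det_apply]
    apply sum_eq_zero
    intro σ _
    obtain ⟨j, hj⟩ := hcon σ
    have h0 : ∏ i, P.1 (σ i) i = 0 := prod_eq_zero (mem_univ j) hj
    exact (congrArg (fun z => Equiv.Perm.sign σ • z) h0).trans (smul_zero _)
  have hu : IsUnit P.1.det := by
    rw [← Matrix.isUnit_iff_isUnit_det]
    exact P.isUnit
  rw [hdet] at hu
  exact not_isUnit_zero hu

/-- along a permutation in the support of a block triangular matrix the labels agree -/
theorem lab_perm' {n : ℕ} {c c' : List Bool} {P : G n} (hn : c.length ≤ n)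
    (hcnt : ∀ l, c.count l = c'.count l) (hmem : P ∈ GLk n c.length)
    (hz : ∀ (i j : Fin n) (a b : Bool), lab c i.1 = some a → lab c' j.1 = some b → ¬ a ≤ b →
      P.1 i j = 0)
    (σ : Equiv.Perm (Fin n)) (hσ : ∀ j, P.1 (σ j) j ≠ 0) (j : Fin n) :
    lab c (σ j).1 = lab c' j.1 := by
  have hlen : c.length = c'.length := by
    exact (List.perm_iff_count.mpr hcnt).length_eq
  have hout : ∀ j : Fin n, c.length ≤ j.1 → σ j = j := by
    intro j hj
    by_contra hne
    apply hσ j
    rw [hmem (σ j) j (Or.inr hj), if_neg hne]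
  have hin : ∀ j : Fin n, j.1 < c.length → (σ j).1 < c.length := by
    intro j hj
    by_contra hne
    apply hσ j
    rw [hmem (σ j) j (Or.inl (by omega)), if_neg]
    intro hh
    rw [hh] at hne
    omega
  have hle : ∀ j : Fin n, (if lab c (σ j).1 = some true then 1 else 0) ≤
      (if lab c' j.1 = some true then 1 else 0) := by
    intro j
    by_cases hj : j.1 < c.length
    · obtain ⟨a, ha⟩ := exists_lab (hin j hj)
      obtain ⟨b, hb⟩ := exists_lab (c := c') (i := j.1) (by omega)
      rw [ha, hb]
      by_cases hab : a ≤ b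
      · cases a
        · simp
        · have : b = true := by
            cases b
            · exact absurd hab (by decide)
            · rfl
          rw [this]
      · exact absurd (hz _ _ _ _ ha hb hab) (hσ j)
    · have h1 : lab c (σ j).1 = none := by
        rw [hout j (by omega)]
        exact List.getElem?_eq_none (by omega)
      rw [h1]
      simp
  have hsum : ∑ j : Fin n, (if lab c (σ j).1 = some true then 1 else 0) =
      ∑ j : Fin n, (if lab c' j.1 = some true then 1 else 0) := by
    rw [Equiv.sum_comp σ (fun j => if lab c j.1 = some true then 1 else 0), sum_lab _ _ hn,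
      sum_lab _ _ (by rw [← hlen]; exact hn), hcnt]
  have heq := (sum_eq_sum_iff_of_le (fun j _ => hle j)).mp hsum j (mem_univ j)
  by_cases hj : j.1 < c.length
  · obtain ⟨a, ha⟩ := exists_lab (hin j hj)
    obtain ⟨b, hb⟩ := exists_lab (c := c') (i := j.1) (by omega)
    rw [ha, hb] at heq ⊢
    cases a <;> cases b <;> simp at heq ⊢
  · rw [hout j (by omega)]
    unfold lab
    rw [List.getElem?_eq_none (by omega), List.getElem?_eq_none (by omega)]

theorem lab_perm {n : ℕ} {c c' : List Bool} {g : Bool → G n} {P : G n} (h : IsPar c c' g P)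
    (σ : Equiv.Perm (Fin n)) (hσ : ∀ j, P.1 (σ j) j ≠ 0) (j : Fin n) :
    lab c (σ j).1 = lab c' j.1 :=
  lab_perm' h.len h.cnt h.mem h.zero σ hσ j

/-- the inverse of an invertible block triangular matrix is block triangular -/
theorem inv_zero {n : ℕ} {c c' : List Bool} {P : G n} (hn : c.length ≤ n)
    (hcnt : ∀ l, c.count l = c'.count l) (hmem : P ∈ GLk n c.length)
    (hz : ∀ (i j : Fin n) (a b : Bool), lab c i.1 = some a → lab c' j.1 = some b → ¬ a ≤ b →
      P.1 i j = 0) (i j : Fin n) (a b : Bool) (hi : lab c' i.1 = some a) (hj : lab c j.1 = some b)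
    (hab : ¬ a ≤ b) : (P⁻¹).1 i j = 0 := by
  classical
  have hlen : c.length = c'.length := (List.perm_iff_count.mpr hcnt).length_eq
  obtain ⟨σ, hσ⟩ := exists_perm_ne_zero P
  have hlab := lab_perm' hn hcnt hmem hz σ hσ
  have ha : a = true := by
    cases a
    · exact absurd (Bool.false_le b) hab
    · rfl
  have hb : b = false := by
    cases b
    · rfl
    · exact absurd (Bool.le_true a) hab
  subst ha hb
  let bf : Fin n → Bool := fun i => decide (lab c' i.1 = some true)
  let M : Matrix (Fin n) (Fin n) ℂ := P.1.submatrix σ id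
  have hM : M.BlockTriangular bf := by
    intro i j hij
    have h1 : bf i = true ∧ bf j = false := by
      revert hij
      generalize bf i = x
      generalize bf j = y
      cases x <;> cases y <;> simp
    have h2 : lab c' i.1 = some true := by simpa [bf] using h1.1
    have h3 : lab c' j.1 ≠ some true := by simpa [bf] using h1.2
    have h4 : lab c (σ i).1 = some true := by rw [hlab, h2]
    change P.1 (σ i) j = 0
    by_cases hj : j.1 < c'.length
    · obtain ⟨x, hx⟩ := exists_lab hj
      have : x = false := by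
        cases x
        · rfl
        · exact absurd hx h3
      subst this
      exact hz _ _ _ _ h4 hx (by decide)
    · rw [hmem _ _ (Or.inr (by omega)), if_neg]
      intro hh
      have := lab_lt832 h4
      rw [hh] at this
      omega
  have hPP : P.1 * (P⁻¹).1 = 1 := by rw [← Units.val_mul, mul_inv_cancel]; rfl
  have hMM : M * ((P⁻¹).1.submatrix id σ) = 1 := by
    have e := Matrix.submatrix_mul_equiv P.1 (P⁻¹).1 σ (Equiv.refl _) σ
    rw [hPP, Matrix.submatrix_one_equiv] at e
    exact e
  let _ : Invertible M := ⟨_, mul_eq_one_comm.mp hMM, hMM⟩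
  have hMi : M⁻¹ = (P⁻¹).1.submatrix id σ := Matrix.inv_eq_right_inv hMM
  have hT := Matrix.blockTriangular_inv_of_blockTriangular hM
  have hj' : lab c' (σ.symm j).1 = some false := by
    rw [← hlab, Equiv.apply_symm_apply, hj]
  have h5 := @hT i (σ.symm j) (by
    have e1 : bf i = true := by simp [bf, hi]
    have e2 : bf (σ.symm j) = false := by simp [bf, hj']
    rw [e1, e2]
    decide)
  rw [hMi] at h5
  change (P⁻¹).1 i (σ (σ.symm j)) = 0 at h5
  rwa [Equiv.apply_symm_apply] at h5

theorem lab_jl {c d : List Bool} {i : ℕ} {a b : Bool} :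
    lab (jl c d) i = some (a, b) ↔ lab c i = some a ∧ lab d i = some b := by
  unfold lab jl
  rw [List.getElem?_zip_eq_some]

/-- joint classes have equal sizes -/
theorem count_jl {n : ℕ} {c d c' d' : List Bool} {g h : Bool → G n} {P : G n}
    (h1 : IsPar c c' g P) (h2 : IsPar d d' h P) [BEq (Bool × Bool)] [LawfulBEq (Bool × Bool)]
    (l : Bool × Bool) :
    (jl c d).count l = (jl c' d').count l := by
  obtain ⟨σ, hσ⟩ := exists_perm_ne_zero P
  have hl1 : (jl c d).length ≤ n := by
    rw [List.length_zip]; exact (min_le_left _ _).trans h1.len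
  have hlen : c.length = c'.length := (List.perm_iff_count.mpr h1.cnt).length_eq
  have hl2 : (jl c' d').length ≤ n := by
    rw [List.length_zip]; exact (min_le_left _ _).trans (hlen ▸ h1.len)
  rw [← sum_lab _ _ hl1, ← sum_lab _ _ hl2,
    ← Equiv.sum_comp σ (fun j => if lab (jl c d) j.1 = some l then 1 else 0)]
  apply sum_congr rfl
  intro j _
  have e1 := lab_perm h1 σ hσ j
  have e2 := lab_perm h2 σ hσ j
  obtain ⟨a, b⟩ := l
  simp only [lab_jl, e1, e2]

/-- every standardised position is attained -/
theorem exists_pos {Λ : Type} [DecidableEq Λ] (c : List Λ) (a : Λ) {t : ℕ} (ht : t < c.count a) :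
    ∃ i, lab c i = some a ∧ (c.take i).count a = t := by
  induction c generalizing t with
  | nil => simp at ht
  | cons x c ih =>
    by_cases hx : x = a
    · subst hx
      cases t with
      | zero => exact ⟨0, by simp [lab], by simp⟩
      | succ t =>
        rw [List.count_cons_self] at ht
        obtain ⟨i, h1, h2⟩ := ih (t := t) (by omega)
        exact ⟨i + 1, by simpa [lab] using h1, by rw [List.take_succ_cons, List.count_cons_self, h2]⟩
    · rw [List.count_cons_of_ne (by simpa using hx)] at ht
      obtain ⟨i, h1, h2⟩ := ih ht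
      exact ⟨i + 1, by simpa [lab] using h1, by
        rw [List.take_succ_cons, List.count_cons_of_ne (by simpa using hx), h2]⟩

/-- Existence of the diagonal blocks: an invertible matrix which is block triangular together with its
inverse has invertible diagonal blocks. -/
theorem exists_blocks {n : ℕ} {Λ : Type} [PartialOrder Λ] [DecidableEq Λ] {c c' : List Λ} {P : G n}
    (hn : c.length ≤ n) (hcnt : ∀ l, c.count l = c'.count l) (hmem : P ∈ GLk n c.length)
    (hz : ∀ (i j : Fin n) (a b : Λ), lab c i.1 = some a → lab c' j.1 = some b → ¬ a ≤ b →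
      P.1 i j = 0)
    (hz' : ∀ (i j : Fin n) (a b : Λ), lab c' i.1 = some a → lab c j.1 = some b → ¬ a ≤ b →
      (P⁻¹).1 i j = 0) :
    ∃ g : Λ → G n, IsPar c c' g P := by
  classical
  have hlen : c.length = c'.length := (List.perm_iff_count.mpr hcnt).length_eq
  -- position maps
  have hpos : ∀ (a : Λ) (t : Fin n), ∃ i : Fin n, t.1 < c.count a →
      lab c i.1 = some a ∧ (c.take i.1).count a = t.1 := by
    intro a t
    by_cases ht : t.1 < c.count a
    · obtain ⟨i, h1, h2⟩ := exists_pos c a ht
      exact ⟨⟨i, (lab_lt832 h1).trans_le hn⟩, fun _ => ⟨h1, h2⟩⟩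
    · exact ⟨t, fun h => absurd h ht⟩
  have hpos' : ∀ (a : Λ) (t : Fin n), ∃ i : Fin n, t.1 < c.count a →
      lab c' i.1 = some a ∧ (c'.take i.1).count a = t.1 := by
    intro a t
    by_cases ht : t.1 < c.count a
    · obtain ⟨i, h1, h2⟩ := exists_pos c' a (t := t.1) (by rw [← hcnt]; exact ht)
      exact ⟨⟨i, (lab_lt832 h1).trans_le (hlen ▸ hn)⟩, fun _ => ⟨h1, h2⟩⟩
    · exact ⟨t, fun h => absurd h ht⟩
  choose p hp using hpos
  choose p' hp' using hpos'
  -- the blocks
  let B : Λ → Matrix (Fin n) (Fin n) ℂ := fun a u v =>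
    if u.1 < c.count a ∧ v.1 < c.count a then P.1 (p a u) (p' a v) else if u = v then 1 else 0
  let B' : Λ → Matrix (Fin n) (Fin n) ℂ := fun a u v =>
    if u.1 < c.count a ∧ v.1 < c.count a then (P⁻¹).1 (p' a u) (p a v) else if u = v then 1 else 0
  have hinj : ∀ a (u v : Fin n), u.1 < c.count a → v.1 < c.count a → p a u = p a v → u = v := by
    intro a u v hu hv h
    apply Fin.ext
    rw [← (hp a u hu).2, ← (hp a v hv).2, h]
  have hinj' : ∀ a (u v : Fin n), u.1 < c.count a → v.1 < c.count a → p' a u = p' a v → u = v := by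
    intro a u v hu hv h
    apply Fin.ext
    rw [← (hp' a u hu).2, ← (hp' a v hv).2, h]
  have hPP : P.1 * (P⁻¹).1 = 1 := by rw [← Units.val_mul, mul_inv_cancel]; rfl
  have hBB : ∀ a, B a * B' a = 1 := by
    intro a
    ext u v
    rw [Matrix.mul_apply, Matrix.one_apply]
    by_cases hu : u.1 < c.count a
    · have e1 : ∀ w : Fin n, B a u w * B' a w v = if w.1 < c.count a ∧ v.1 < c.count a then
          P.1 (p a u) (p' a w) * (P⁻¹).1 (p' a w) (p a v) else 0 := by
        intro w
        by_cases hw : w.1 < c.count a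
        · by_cases hv : v.1 < c.count a
          · simp only [B, B', hu, hw, hv, and_self, if_true]
          · have hwv : w ≠ v := by rintro rfl; exact hv hw
            simp only [B', hv, and_false, if_false, hwv, mul_zero]
        · have huw : u ≠ w := by rintro rfl; exact hw hu
          simp only [B, hw, and_false, if_false, huw, zero_mul, false_and]
      rw [sum_congr rfl fun w _ => e1 w]
      by_cases hv : v.1 < c.count a
      · have e2 : ∑ w : Fin n, (if w.1 < c.count a ∧ v.1 < c.count a then
            P.1 (p a u) (p' a w) * (P⁻¹).1 (p' a w) (p a v) else 0) =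
            ∑ w ∈ univ.filter (fun w : Fin n => w.1 < c.count a),
              P.1 (p a u) (p' a w) * (P⁻¹).1 (p' a w) (p a v) := by
          rw [sum_filter]
          apply sum_congr rfl
          intro w _
          simp only [hv, and_true]
        have e3 : ∑ w ∈ univ.filter (fun w : Fin n => w.1 < c.count a),
              P.1 (p a u) (p' a w) * (P⁻¹).1 (p' a w) (p a v) =
            ∑ j : Fin n, P.1 (p a u) j * (P⁻¹).1 j (p a v) := by
          rw [← sum_image (s := univ.filter (fun w : Fin n => w.1 < c.count a)) (g := p' a)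
            (f := fun j => P.1 (p a u) j * (P⁻¹).1 j (p a v))]
          · apply sum_subset (subset_univ _)
            intro j _ hj
            have hpu := (hp a u hu).1
            have hpv := (hp a v hv).1
            have hjne : lab c' j.1 ≠ some a := by
              intro hh
              apply hj
              rw [mem_image]
              have ht : (c'.take j.1).count a < c.count a := by
                rw [hcnt]; exact take_count_lt hh
              refine ⟨⟨(c'.take j.1).count a, ht.trans_le ((List.count_le_length).trans hn)⟩, ?_, ?_⟩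
              · simpa using ht
              · apply Fin.ext
                have h3 := hp' a ⟨(c'.take j.1).count a,
                  ht.trans_le ((List.count_le_length).trans hn)⟩ ht
                exact take_count_inj h3.1 hh h3.2
            by_cases hjl : j.1 < c'.length
            · obtain ⟨b, hb⟩ := exists_lab hjl
              have hab : b ≠ a := by
                rintro rfl; exact hjne hb
              by_cases h1 : a ≤ b
              · rw [hz' j (p a v) b a hb hpv (fun h2 => hab (le_antisymm h2 h1)), mul_zero]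
              · rw [hz (p a u) j a b hpu hb h1, zero_mul]
            · rw [hmem (p a u) j (Or.inr (by omega)), if_neg, zero_mul]
              intro hh
              have := lab_lt832 hpu
              rw [hh] at this
              omega
          · intro x hx y hy hxy
            simp only [coe_filter, mem_univ, true_and, Set.mem_ofPred_eq] at hx hy
            exact hinj' a x y hx hy hxy
        rw [e2, e3, ← Matrix.mul_apply, hPP, Matrix.one_apply]
        by_cases huv : u = v
        · subst huv; simp
        · rw [if_neg huv, if_neg]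
          intro hh
          exact huv (hinj a u v hu hv hh)
      · have huv : u ≠ v := by rintro rfl; exact hv hu
        simp [hv, huv]
    · rw [sum_eq_single u]
      · simp only [B, B', hu, false_and, if_false, if_true, one_mul]
      · intro w _ hw
        simp only [B, hu, false_and, if_false, Ne.symm hw, zero_mul]
      · simp
  have hBB' : ∀ a, B' a * B a = 1 := fun a => mul_eq_one_comm.mp (hBB a)
  let g : Λ → G n := fun a => ⟨B a, B' a, hBB a, hBB' a⟩
  refine ⟨g, hn, hcnt, hmem, ?_, hz, ?_⟩
  · intro l i j hij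
    change B l i j = _
    have : ¬ (i.1 < c.count l ∧ j.1 < c.count l) := by
      rcases hij with h | h <;> omega
    simp only [B, this, if_false]
  · intro i j u v a hi hj hu hv
    change P.1 i j = B a u v
    have hu' : u.1 < c.count a := by rw [hu]; exact take_count_lt hi
    have hv' : v.1 < c.count a := by rw [hv, hcnt]; exact take_count_lt hj
    simp only [B, hu', hv', and_self, if_true]
    have e1 : p a u = i := Fin.ext (take_count_inj (hp a u hu').1 hi (by rw [(hp a u hu').2, hu]))
    have e2 : p' a v = j := Fin.ext (take_count_inj (hp' a v hv').1 hj (by rw [(hp' a v hv').2, hv]))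
    rw [e1, e2]

/-- Block extraction for Boolean labels: an invertible matrix with the zero pattern has blocks. -/
theorem exists_blocks_bool {n : ℕ} {c c' : List Bool} {P : G n} (hn : c.length ≤ n)
    (hcnt : ∀ l, c.count l = c'.count l) (hmem : P ∈ GLk n c.length)
    (hz : ∀ (i j : Fin n) (a b : Bool), lab c i.1 = some a → lab c' j.1 = some b → ¬ a ≤ b →
      P.1 i j = 0) :
    ∃ g : Bool → G n, IsPar c c' g P :=
  exists_blocks hn hcnt hmem hz (inv_zero hn hcnt hmem hz)

/-- **S6 matrix lemma.** -/
theorem twoLab (n : ℕ) : TwoLab n := by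
  intro c d c' d' g h P hcd hcd' h1 h2
  have h1' := inv_zero h1.len h1.cnt h1.mem h1.zero
  have h2' := inv_zero h2.len h2.cnt h2.mem h2.zero
  have hl : (jl c d).length = c.length := by
    rw [List.length_zip, ← hcd, min_self]
  apply exists_blocks (hl.trans_le h1.len) ?_ (hl ▸ h1.mem)
  · rintro i j ⟨a, b⟩ ⟨a', b'⟩ hi hj hab
    rw [lab_jl] at hi hj
    by_cases h3 : a ≤ a'
    · exact h2.zero i j b b' hi.2 hj.2 (fun h4 => hab ⟨h3, h4⟩)
    · exact h1.zero i j a a' hi.1 hj.1 h3
  · rintro i j ⟨a, b⟩ ⟨a', b'⟩ hi hj hab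
    rw [lab_jl] at hi hj
    by_cases h3 : a ≤ a'
    · exact h2' i j b b' hi.2 hj.2 (fun h4 => hab ⟨h3, h4⟩)
    · exact h1' i j a a' hi.1 hj.1 h3
  · intro l
    exact @count_jl n c d c' d' g h P h1 h2 instBEqOfDecidableEq inferInstance l

end Crest.Agent.R003
end

-- ▼ part R003/Theta832

/-!
# Row 3 (S0003): the matrix `Θ = N₁ D₁₃ N₃` of step S5 (helper832)
-/

set_option autoImplicit false

namespace Crest.Agent.R003

open Finset

/-! ### the four labellings of the corner -/

def labE : Atm → Bool
  | .a000 => false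
  | .a001 => false
  | .a100 => true
  | .a010 => false
  | .al => false
  | .be => true
  | .a101 => true
  | .a011 => false
  | .a110 => true
  | .a111 => true

def labY : Atm → Bool
  | .a000 => false
  | .a001 => true
  | .a100 => false
  | .a010 => false
  | .al => true
  | .be => false
  | .a101 => true
  | .a011 => true
  | .a110 => false
  | .a111 => true

def labXE : Atm → Bool
  | .a000 => false
  | .a001 => false
  | .a100 => false
  | .a010 => true
  | .al => true
  | .be => false
  | .a101 => false
  | .a011 => true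
  | .a110 => true
  | .a111 => true

def labXY : Atm → Bool
  | .a000 => false
  | .a001 => false
  | .a100 => false
  | .a010 => true
  | .al => false
  | .be => true
  | .a101 => false
  | .a011 => true
  | .a110 => true
  | .a111 => true

/-- the nilpotent matrix with entries `1` at `(s + t, s + m + t)`, `t < m` -/
def nilp (n s m : ℕ) : Matrix (Fin n) (Fin n) ℂ :=
  fun i j => if s ≤ i.1 ∧ i.1 < s + m ∧ j.1 = i.1 + m then 1 else 0

theorem nilp_sq (n s m : ℕ) : nilp n s m * nilp n s m = 0 := by
  ext i j
  rw [Matrix.mul_apply, Matrix.zero_apply]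
  apply sum_eq_zero
  intro l _
  unfold nilp
  by_cases h1 : s ≤ i.1 ∧ i.1 < s + m ∧ l.1 = i.1 + m
  · rw [if_neg (c := s ≤ l.1 ∧ l.1 < s + m ∧ j.1 = l.1 + m) (by omega), mul_zero]
  · rw [if_neg h1, zero_mul]

/-- `1 + N` -/
def nG (n s m : ℕ) : G n where
  val := 1 + nilp n s m
  inv := 1 - nilp n s m
  val_inv := by
    rw [mul_sub, add_mul, add_mul, nilp_sq]
    simp
  inv_val := by
    rw [sub_mul, mul_add, mul_add, nilp_sq]
    simp

/-- `1 + Nᵀ` -/
def nGT (n s m : ℕ) : G n where
  val := 1 + (nilp n s m).transpose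
  inv := 1 - (nilp n s m).transpose
  val_inv := by
    rw [mul_sub, add_mul, add_mul, ← Matrix.transpose_mul, nilp_sq]
    simp
  inv_val := by
    rw [sub_mul, mul_add, mul_add, ← Matrix.transpose_mul, nilp_sq]
    simp

theorem nG_apply (n s m : ℕ) (i j : Fin n) : (nG n s m).1 i j =
    (if i = j then 1 else 0) + if s ≤ i.1 ∧ i.1 < s + m ∧ j.1 = i.1 + m then 1 else 0 := by
  change (1 + nilp n s m) i j = _
  rw [Matrix.add_apply, Matrix.one_apply]
  rfl

theorem nGT_apply (n s m : ℕ) (i j : Fin n) : (nGT n s m).1 i j =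
    (if i = j then 1 else 0) + if s ≤ j.1 ∧ j.1 < s + m ∧ i.1 = j.1 + m then 1 else 0 := by
  change (1 + (nilp n s m).transpose) i j = _
  rw [Matrix.add_apply, Matrix.one_apply]
  rfl

theorem nilp_mem (O : Subring ℂ) (n s m : ℕ) (i j : Fin n) : nilp n s m i j ∈ O := by
  unfold nilp
  split_ifs
  · exact O.one_mem
  · exact O.zero_mem

theorem one_mem_O (O : Subring ℂ) (n : ℕ) (i j : Fin n) :
    (1 : Matrix (Fin n) (Fin n) ℂ) i j ∈ O := by
  rw [Matrix.one_apply]
  split_ifs
  · exact O.one_mem
  · exact O.zero_mem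

theorem nG_mem_GO (O : Subring ℂ) (n s m : ℕ) : nG n s m ∈ GO O n := by
  intro i j
  exact ⟨O.add_mem (one_mem_O O n i j) (nilp_mem O n s m i j),
    O.sub_mem (one_mem_O O n i j) (nilp_mem O n s m i j)⟩

theorem nGT_mem_GO (O : Subring ℂ) (n s m : ℕ) : nGT n s m ∈ GO O n := by
  intro i j
  exact ⟨O.add_mem (one_mem_O O n i j) (nilp_mem O n s m j i),
    O.sub_mem (one_mem_O O n i j) (nilp_mem O n s m j i)⟩

theorem nG_mem_GLk {n s m k : ℕ} (h : s + m + m ≤ k) : nG n s m ∈ GLk n k := by
  intro i j hij
  rw [nG_apply, if_neg (c := s ≤ i.1 ∧ i.1 < s + m ∧ j.1 = i.1 + m) (by omega), add_zero]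

theorem nGT_mem_GLk {n s m k : ℕ} (h : s + m + m ≤ k) : nGT n s m ∈ GLk n k := by
  intro i j hij
  rw [nGT_apply, if_neg (c := s ≤ j.1 ∧ j.1 < s + m ∧ i.1 = j.1 + m) (by omega), add_zero]

/-- a unipotent block triangular matrix -/
theorem isPar_unip {n : ℕ} {c : List Bool} {P : G n} (hn : c.length ≤ n)
    (hm : P ∈ GLk n c.length)
    (h : ∀ (i j : Fin n) (a b : Bool), lab c i.1 = some a → lab c j.1 = some b →
      ¬ (a = false ∧ b = true) → P.1 i j = if i = j then 1 else 0) :
    IsPar c c (fun _ => (1 : G n)) P where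
  len := hn
  cnt := fun _ => rfl
  mem := hm
  blk := fun l => (GLk n _).one_mem
  zero := by
    intro i j a b hi hj hab
    rw [h i j a b hi hj, if_neg]
    · rintro rfl
      rw [hi] at hj
      exact hab (by rw [Option.some.inj hj])
    · rintro ⟨rfl, rfl⟩
      exact hab (by decide)
  diag := by
    intro i j u v a hi hj hu hv
    rw [h i j a a hi hj (by rintro ⟨h1, h2⟩; rw [h1] at h2; cases h2)]
    change _ = (1 : Matrix (Fin n) (Fin n) ℂ) u v
    rw [Matrix.one_apply]
    by_cases hij : i = j
    · subst hij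
      rw [if_pos rfl, if_pos (Fin.ext (by rw [hu, hv]))]
    · rw [if_neg hij, if_neg]
      rintro rfl
      exact hij (Fin.ext (take_count_inj hi hj (by rw [← hu, ← hv])))

namespace Sz

/-- start of the plane atoms -/
def st (z : Sz) : ℕ := z.start .al

theorem start_be (z : Sz) : z.start .be = z.st + z.m := rfl

theorem two_m_le (z : Sz) : z.st + z.m + z.m ≤ z.tot := by
  simp only [st, start, tot]
  omega

/-- `N₁` -/
def N1 (z : Sz) (n : ℕ) : G n := nG n z.st z.m

/-- `N₃` -/
def N3 (z : Sz) (n : ℕ) : G n := nGT n z.st z.m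

theorem lab_al {Λ : Type} (z : Sz) (f : Atm → Λ) {i : ℕ} (h1 : z.st ≤ i) (h2 : i < z.st + z.m) :
    lab (z.lst f) i = some (f .al) := by
  have := z.lst_getElem f .al (i - z.st) (by simp only [size]; omega)
  rw [show z.start .al + (i - z.st) = i by simp only [st] at *; omega] at this
  exact this

theorem lab_be {Λ : Type} (z : Sz) (f : Atm → Λ) {i : ℕ} (h1 : z.st ≤ i) (h2 : i < z.st + z.m) :
    lab (z.lst f) (i + z.m) = some (f .be) := by
  have := z.lst_getElem f .be (i - z.st) (by simp only [size]; omega)
  rw [show z.start .be + (i - z.st) = i + z.m by simp only [start_be] at *; omega] at this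
  exact this

theorem isPar_N1 (z : Sz) {n : ℕ} (hn : z.tot ≤ n) :
    IsPar (z.lst labE) (z.lst labE) (fun _ => (1 : G n)) (z.N1 n) := by
  apply isPar_unip
  · rw [lst_length]; exact hn
  · rw [lst_length]; exact nG_mem_GLk z.two_m_le
  · intro i j a b hi hj hab
    rw [N1, nG_apply, if_neg (c := z.st ≤ i.1 ∧ i.1 < z.st + z.m ∧ j.1 = i.1 + z.m), add_zero]
    rintro ⟨h1, h2, h3⟩
    rw [z.lab_al labE h1 h2] at hi
    rw [h3, z.lab_be labE h1 h2] at hj
    exact hab ⟨(Option.some.inj hi).symm, (Option.some.inj hj).symm⟩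

theorem isPar_N3 (z : Sz) {n : ℕ} (hn : z.tot ≤ n) :
    IsPar (z.lst labY) (z.lst labY) (fun _ => (1 : G n)) (z.N3 n) := by
  apply isPar_unip
  · rw [lst_length]; exact hn
  · rw [lst_length]; exact nGT_mem_GLk z.two_m_le
  · intro i j a b hi hj hab
    rw [N3, nGT_apply, if_neg (c := z.st ≤ j.1 ∧ j.1 < z.st + z.m ∧ i.1 = j.1 + z.m), add_zero]
    rintro ⟨h1, h2, h3⟩
    rw [z.lab_al labY h1 h2] at hj
    rw [h3, z.lab_be labY h1 h2] at hi
    exact hab ⟨(Option.some.inj hi).symm, (Option.some.inj hj).symm⟩

/-- entries of `Θ` -/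
noncomputable def thE (z : Sz) (i j : ℕ) : ℂ :=
  if i = j then (if z.st ≤ i ∧ i < z.st + z.m then 0 else (dsv (z.lst labE) (z.lst labY) sg i : ℂ))
  else if (z.st ≤ i ∧ i < z.st + z.m ∧ j = i + z.m) ∨ (z.st ≤ j ∧ j < z.st + z.m ∧ i = j + z.m)
  then 1 else 0

/-- `Θ` -/
noncomputable def Th (z : Sz) (n : ℕ) : G n :=
  z.N1 n * dsg n (z.lst labE) (z.lst labY) sg * z.N3 n

theorem Th_apply (z : Sz) {n : ℕ} (hn : z.tot ≤ n) (i j : Fin n) :
    (z.Th n).1 i j = z.thE i.1 j.1 := by
  have h2m := z.two_m_le
  have dal : ∀ i, z.st ≤ i → i < z.st + z.m → dsv (z.lst labE) (z.lst labY) sg i = -1 := by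
    intro i h1 h2
    rw [dsv_of_some (z.lab_al labE h1 h2) (z.lab_al labY h1 h2)]
    simp [sg, labE, labY]
  have dbe : ∀ i, z.st ≤ i → i < z.st + z.m → dsv (z.lst labE) (z.lst labY) sg (i + z.m) = 1 := by
    intro i h1 h2
    rw [dsv_of_some (z.lab_be labE h1 h2) (z.lab_be labY h1 h2)]
    simp [sg, labE]
  unfold Th
  rw [Units.val_mul, Units.val_mul, Matrix.mul_apply]
  have e1 : ∀ l : Fin n, ((z.N1 n).1 * (dsg n (z.lst labE) (z.lst labY) sg).1) i l =
      (z.N1 n).1 i l * (dsv (z.lst labE) (z.lst labY) sg l.1 : ℂ) := by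
    intro l
    rw [Matrix.mul_apply, sum_eq_single l]
    · rw [dsg_apply, if_pos rfl]
    · intro l' _ h
      rw [dsg_apply, if_neg h, mul_zero]
    · simp
  simp only [e1]
  unfold N1 N3 thE
  simp only [nG_apply, nGT_apply]
  by_cases hi : z.st ≤ i.1 ∧ i.1 < z.st + z.m
  · -- row in the `α` part
    have hb : i.1 + z.m < n := by omega
    rw [← sum_subset (subset_univ {i, ⟨i.1 + z.m, hb⟩})]
    · have hm : 0 < z.m := by omega
      rw [sum_pair (by intro h; have := congrArg Fin.val h; simp at this; omega)]
      rw [dal _ hi.1 hi.2, dbe _ hi.1 hi.2]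
      have hii : i ≠ (⟨i.1 + z.m, hb⟩ : Fin n) := by
        intro h; have := congrArg Fin.val h; simp at this; omega
      by_cases hij : i = j
      · subst hij
        simp [hi.1, hi.2, hm.ne', hii, hii.symm]
      · have hij' : i.1 ≠ j.1 := fun h => hij (Fin.ext h)
        by_cases hj : j.1 = i.1 + z.m
        · have hji : (⟨i.1 + z.m, hb⟩ : Fin n) = j := Fin.ext hj.symm
          simp [hi.1, hi.2, hm.ne', hij, hj, hji]
        · have hji : (⟨i.1 + z.m, hb⟩ : Fin n) ≠ j := fun h => hj (by rw [← h])
          have h3 : ¬ (z.st ≤ j.1 ∧ j.1 < z.st + z.m ∧ i.1 + z.m = j.1 + z.m) := by omega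
          have h4 : ¬ (z.st ≤ j.1 ∧ j.1 < z.st + z.m ∧ i.1 = j.1 + z.m) := by omega
          simp only [hij, if_false, h3, h4, hji, hj, hij', and_false, or_self, mul_zero, add_zero]
    · intro l _ hl
      simp only [mem_insert, mem_singleton, not_or] at hl
      have h1 : ¬ (i = l) := fun h => hl.1 h.symm
      have h2 : ¬ (z.st ≤ i.1 ∧ i.1 < z.st + z.m ∧ l.1 = i.1 + z.m) := by
        rintro ⟨_, _, h⟩
        exact hl.2 (Fin.ext h)
      simp only [h1, h2, if_false, add_zero, zero_mul]
  · have hrow : ∀ l : Fin n, ((if i = l then (1 : ℂ) else 0) +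
        if z.st ≤ i.1 ∧ i.1 < z.st + z.m ∧ l.1 = i.1 + z.m then 1 else 0) =
        if i = l then 1 else 0 := by
      intro l
      rw [if_neg (c := z.st ≤ i.1 ∧ i.1 < z.st + z.m ∧ l.1 = i.1 + z.m)
        (fun h => hi ⟨h.1, h.2.1⟩), add_zero]
    simp only [hrow]
    rw [sum_eq_single i]
    · by_cases hij : i = j
      · subst hij
        have h3 : ¬ (z.st ≤ i.1 ∧ i.1 < z.st + z.m ∧ i.1 = i.1 + z.m) :=
          fun h => hi ⟨h.1, h.2.1⟩
        simp only [if_true, one_mul, h3, if_false, add_zero, mul_one, hi]
      · have hij' : i.1 ≠ j.1 := fun h => hij (Fin.ext h)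
        have h3 : ¬ (z.st ≤ i.1 ∧ i.1 < z.st + z.m ∧ j.1 = i.1 + z.m) :=
          fun h => hi ⟨h.1, h.2.1⟩
        by_cases hj : z.st ≤ j.1 ∧ j.1 < z.st + z.m ∧ i.1 = j.1 + z.m
        · have hd := dbe _ hj.1 hj.2.1
          rw [← hj.2.2] at hd
          rw [if_pos rfl, one_mul, if_neg hij, zero_add, if_pos hj, mul_one, hd, if_neg hij',
            if_pos (Or.inr hj)]
          simp
        · simp only [if_true, one_mul, hij, if_false, zero_add, hj, mul_zero, hij', h3, or_self]
    · intro l _ hl
      rw [if_neg (Ne.symm hl), zero_mul, zero_mul]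
    · simp

theorem dsv_start (z : Sz) (p : Atm) (t : ℕ) (ht : t < z.size p) :
    dsv (z.lst labE) (z.lst labY) sg (z.start p + t) = sg (labE p) (labY p) :=
  dsv_of_some (z.lst_getElem labE p t ht) (z.lst_getElem labY p t ht)

theorem F1 (z : Sz) (p q : Atm) (t t' : ℕ) (ht : t < z.size p) (ht' : t' < z.size q) :
    z.start p + t = z.start q + t' ↔ p = q ∧ t = t' := by
  cases p <;> cases q <;> simp only [start, size, reduceCtorEq, false_and, true_and, iff_false] at ht ht' ⊢ <;>
    omega

theorem F2 (z : Sz) (p : Atm) (t : ℕ) (ht : t < z.size p) :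
    (z.st ≤ z.start p + t ∧ z.start p + t < z.st + z.m) ↔ p = .al := by
  cases p <;> simp only [start, size, st, reduceCtorEq, iff_false, iff_true] at ht ⊢ <;> omega

theorem F3 (z : Sz) (p q : Atm) (t t' : ℕ) (ht : t < z.size p) (ht' : t' < z.size q)
    (hp : p = .al) :
    z.start q + t' = z.start p + t + z.m ↔ q = .be ∧ t = t' := by
  subst hp
  cases q <;> simp only [start, size, reduceCtorEq, false_and, true_and, iff_false] at ht ht' ⊢ <;>
    omega

theorem F5 (z : Sz) (x : Bool) (p q : Atm) (t t' : ℕ) (ht : t < z.size p)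
    (ht' : t' < z.size q) (hp : labXE p = x) (hq : labXY q = x) :
    z.pre labXE x p + t = z.pre labXY x q + t' ↔
      t = t' ∧ (p = q ∨ (p = .al ∧ q = .be) ∨ (p = .be ∧ q = .al)) := by
  cases x <;> cases p <;> (try (exact absurd hp (by decide))) <;> cases q <;>
    (try (exact absurd hq (by decide))) <;>
    simp only [pre, size, labXE, labXY, if_true, if_false, Bool.false_eq_true, Bool.true_eq_false,
      reduceCtorEq, and_true, or_false, and_false, iff_false, and_self, or_true, or_self]
      at ht ht' ⊢ <;> omega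

/-- the only combinatorial check of step S5 -/
theorem thE_diag (z : Sz) (x : Bool) (p q : Atm) (t t' : ℕ) (ht : t < z.size p)
    (ht' : t' < z.size q) (hp : labXE p = x) (hq : labXY q = x) :
    z.thE (z.start p + t) (z.start q + t') =
      if z.pre labXE x p + t = z.pre labXY x q + t' then (sg (labE p) (labY q) : ℂ) else 0 := by
  have f1 := z.F1 p q t t' ht ht'
  have f2 := z.F2 p t ht
  have f2' := z.F2 q t' ht'
  have f5 := z.F5 x p q t t' ht ht' hp hq
  have h3 : (z.st ≤ z.start p + t ∧ z.start p + t < z.st + z.m ∧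
      z.start q + t' = z.start p + t + z.m) ↔ (p = .al ∧ q = .be ∧ t = t') := by
    constructor
    · rintro ⟨h1, h2, h3⟩
      have hpa := f2.mp ⟨h1, h2⟩
      exact ⟨hpa, (z.F3 p q t t' ht ht' hpa).mp h3⟩
    · rintro ⟨h1, h2⟩
      exact ⟨(f2.mpr h1).1, (f2.mpr h1).2, (z.F3 p q t t' ht ht' h1).mpr h2⟩
  have h4 : (z.st ≤ z.start q + t' ∧ z.start q + t' < z.st + z.m ∧
      z.start p + t = z.start q + t' + z.m) ↔ (q = .al ∧ p = .be ∧ t' = t) := by
    constructor
    · rintro ⟨h1, h2, h3⟩
      have hpa := f2'.mp ⟨h1, h2⟩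
      exact ⟨hpa, (z.F3 q p t' t ht' ht hpa).mp h3⟩
    · rintro ⟨h1, h2⟩
      exact ⟨(f2'.mpr h1).1, (f2'.mpr h1).2, (z.F3 q p t' t ht' ht h1).mpr h2⟩
  unfold thE
  rw [z.dsv_start p t ht]
  by_cases htt : t = t'
  · subst htt
    by_cases hpq : p = q
    · subst hpq
      rw [if_pos (f1.mpr ⟨rfl, rfl⟩), if_pos (f5.mpr ⟨rfl, Or.inl rfl⟩), if_neg]
      rw [f2]
      rintro rfl
      rw [← hq] at hp
      exact absurd hp (by decide)
    · rw [if_neg (fun h => hpq (f1.mp h).1)]
      by_cases h5 : (p = .al ∧ q = .be) ∨ (p = .be ∧ q = .al)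
      · rw [if_pos (f5.mpr ⟨rfl, Or.inr h5⟩), if_pos]
        · rcases h5 with ⟨rfl, rfl⟩ | ⟨rfl, rfl⟩ <;> simp [sg, labE, labY]
        · rcases h5 with ⟨rfl, rfl⟩ | ⟨rfl, rfl⟩
          · exact Or.inl (h3.mpr ⟨rfl, rfl, rfl⟩)
          · exact Or.inr (h4.mpr ⟨rfl, rfl, rfl⟩)
      · have hB : ¬ (z.pre labXE x p + t = z.pre labXY x q + t) := by
          intro h
          rcases (f5.mp h).2 with h | h
          · exact hpq h
          · exact h5 h
        rw [if_neg hB, if_neg]
        rintro (h | h)
        · have := h3.mp h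
          exact h5 (Or.inl ⟨this.1, this.2.1⟩)
        · have := h4.mp h
          exact h5 (Or.inr ⟨this.2.1, this.1⟩)
  · rw [if_neg (fun h => htt (f1.mp h).2), if_neg (fun h => htt (f5.mp h).1), if_neg]
    rintro (h | h)
    · exact htt (h3.mp h).2.2
    · exact htt (h4.mp h).2.2.symm

theorem Th_isPar (z : Sz) {n : ℕ} (hn : z.tot ≤ n) :
    IsPar (z.lst labXE) (z.lst labXY)
      (fun x => dsg n (restr (z.lst labXY) (z.lst labY) x) (restr (z.lst labXE) (z.lst labE) x)
        (fun y e => sg e y)) (z.Th n) where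
  len := by rw [lst_length]; exact hn
  cnt := by
    intro l
    cases l <;> simp [lst, labXE, labXY, List.count_replicate]
  mem := by
    rw [lst_length]
    exact (GLk n _).mul_mem ((GLk n _).mul_mem (nG_mem_GLk z.two_m_le)
      (dsg_mem_GLk832 (Or.inl (by rw [lst_length])))) (nGT_mem_GLk z.two_m_le)
  blk := by
    intro l
    apply dsg_mem_GLk832
    right
    rw [restr_length832 (by rw [lst_length, lst_length])]
  zero := by
    intro i j a b hi hj hab
    have ha : a = true := by
      cases a
      · exact absurd (Bool.false_le b) hab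
      · rfl
    have hb : b = false := by
      cases b
      · rfl
      · exact absurd (Bool.le_true a) hab
    subst ha hb
    rw [z.Th_apply hn]
    obtain ⟨p, t, ht, hip⟩ := z.exists_atm (i := i.1) (by
      have := lab_lt832 hi; rwa [lst_length] at this)
    obtain ⟨q, t', ht', hjq⟩ := z.exists_atm (i := j.1) (by
      have := lab_lt832 hj; rwa [lst_length] at this)
    rw [hip] at hi ⊢
    rw [hjq] at hj ⊢
    have hp : labXE p = true := by
      have := z.lst_getElem labXE p t ht
      rw [lab, this] at hi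
      exact Option.some.inj hi
    have hq : labXY q = false := by
      have := z.lst_getElem labXY q t' ht'
      rw [lab, this] at hj
      exact Option.some.inj hj
    unfold thE
    by_cases h1 : z.start p + t = z.start q + t'
    · obtain ⟨rfl, rfl⟩ := (z.F1 p q t t' ht ht').mp h1
      rw [if_pos rfl, if_pos]
      rw [z.F2 p t ht]
      cases p <;> simp_all [labXE, labXY]
    · rw [if_neg h1, if_neg]
      rintro (⟨h2, h3, h4⟩ | ⟨h2, h3, h4⟩)
      · have h5 := (z.F2 p t ht).mp ⟨h2, h3⟩
        have h6 := (z.F3 p q t t' ht ht' h5).mp h4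
        rw [h6.1] at hq
        exact absurd hq (by decide)
      · have h5 := (z.F2 q t' ht').mp ⟨h2, h3⟩
        have h6 := (z.F3 q p t' t ht' ht h5).mp h4
        rw [h6.1] at hp
        exact absurd hp (by decide)
  diag := by
    intro i j u v x hi hj hu hv
    have hlen1 : (z.lst labXE).length = (z.lst labE).length := by rw [lst_length, lst_length]
    have hlen2 : (z.lst labXY).length = (z.lst labY).length := by rw [lst_length, lst_length]
    have hr1 := lab_restr hlen1 hi
    have hr2 := lab_restr hlen2 hj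
    rw [← hu] at hr1
    rw [← hv] at hr2
    rw [z.Th_apply hn]
    obtain ⟨p, t, ht, hip⟩ := z.exists_atm (i := i.1) (by
      have := lab_lt832 hi; rwa [lst_length] at this)
    obtain ⟨q, t', ht', hjq⟩ := z.exists_atm (i := j.1) (by
      have := lab_lt832 hj; rwa [lst_length] at this)
    rw [hip] at hi hu hr1 ⊢
    rw [hjq] at hj hv hr2 ⊢
    have hp : labXE p = x := by
      have := z.lst_getElem labXE p t ht
      rw [lab, this] at hi
      exact Option.some.inj hi
    have hq : labXY q = x := by
      have := z.lst_getElem labXY q t' ht'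
      rw [lab, this] at hj
      exact Option.some.inj hj
    have hr1' : lab (restr (z.lst labXE) (z.lst labE) x) u.1 = some (labE p) := by
      rw [hr1]; exact z.lst_getElem labE p t ht
    have hr2' : lab (restr (z.lst labXY) (z.lst labY) x) v.1 = some (labY q) := by
      rw [hr2]; exact z.lst_getElem labY q t' ht'
    rw [z.lst_count_take labXE x p t ht, if_pos hp] at hu
    rw [z.lst_count_take labXY x q t' ht', if_pos hq] at hv
    rw [z.thE_diag x p q t t' ht ht' hp hq, ← hu, ← hv, dsg_apply]
    by_cases huv : u = v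
    · subst huv
      rw [if_pos rfl, if_pos rfl, dsv_of_some hr2' hr1']
    · rw [if_neg huv, if_neg (fun h => huv (Fin.ext h))]

end Sz

end Crest.Agent.R003
private theorem rz_e2389c5959 : type_of% @_root_.Crest.Agent.R003.labE.eq_1 := @_root_.Crest.Agent.R003.labE.eq_1 -- L15
private theorem rz_af792a6278 : type_of% @_root_.Crest.Agent.R003.labXE.eq_1 := @_root_.Crest.Agent.R003.labXE.eq_1 -- L39
private theorem rz_19e994a627 : type_of% @_root_.Crest.Agent.R003.labXY.eq_1 := @_root_.Crest.Agent.R003.labXY.eq_1 -- L51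
private theorem rz_dbf2b13f0b : type_of% @_root_.Crest.Agent.R003.labY.eq_1 := @_root_.Crest.Agent.R003.labY.eq_1 -- L27
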