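import Mathlib
import Crest.Agent.R003.Kr576

-- ▼ part R003/De576
section

/-!
# R3 (S0003), Part 3(iv), block (De): derivations and transcendence degree, characteristic 0

`exists_derivation`: values of an `F`-derivation `E → E` can be prescribed on an algebraically
independent family.
`card_le_finrank`: if `L : (τ → E) →ₗ[E] M` kills `(δ (y_t))_t` for every `F`-derivation `δ` of `E`
then every subfamily of `y` algebraically independent over `F` has at most `dim ker L` elements.
`trdeg_adjoin_le_finrank`: the same for `trdeg F F(y)`.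
-/

set_option autoImplicit false

namespace Crest.Agent.R003

open MvPolynomial Algebra TensorProduct

universe u v w

section

variable {F : Type u} {E : Type v} [Field F] [Field E] [Algebra F E]

/-- Extension of derivations along formally étale maps. -/
theorem exists_derivation_of_formallyEtale (A : Type*) [CommRing A] [Algebra F A]
    [Algebra A E] [IsScalarTower F A E] [FormallyEtale A E] (D : Derivation F A E) :
    ∃ δ : Derivation F E E, ∀ a : A, δ (algebraMap A E a) = D a := by
  let l : Ω[A⁄F] →ₗ[A] E := D.liftKaehlerDifferential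
  let l' : E ⊗[A] Ω[A⁄F] →ₗ[E] E := LinearMap.liftBaseChange E l
  let l'' : Ω[E⁄F] →ₗ[E] E :=
    l' ∘ₗ (KaehlerDifferential.tensorKaehlerEquivOfFormallyEtale F A E).symm.toLinearMap
  refine ⟨l''.compDer (KaehlerDifferential.D F E), fun a => ?_⟩
  change l' ((KaehlerDifferential.tensorKaehlerEquivOfFormallyEtale F A E).symm
    (KaehlerDifferential.D F E (algebraMap A E a))) = D a
  rw [KaehlerDifferential.tensorKaehlerEquivOfFormallyEtale_symm_D_algebraMap]
  simp [l', l]

/-- A transcendence basis makes `E` formally étale over the polynomial ring (char 0), so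
derivations with arbitrary values exist. -/
theorem exists_derivation_of_isTranscendenceBasis [CharZero F] {ι : Type w} (b : ι → E)
    (hb : IsTranscendenceBasis F b) (v : ι → E) :
    ∃ δ : Derivation F E E, ∀ i, δ (b i) = v i := by
  let A := MvPolynomial ι F
  let _ : Algebra A E := (aeval b : MvPolynomial ι F →ₐ[F] E).toAlgebra
  have hmap : ∀ f : A, algebraMap A E f = aeval b f := fun f => rfl
  have : IsScalarTower F A E := IsScalarTower.of_algebraMap_eq (fun x => by
    rw [hmap]; simp [A])
  have hinj : Function.Injective (algebraMap A E) := hb.1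
  let Q := FractionRing A
  have : FaithfulSMul A E := (faithfulSMul_iff_algebraMap_injective A E).2 hinj
  let _ : Algebra Q E := FractionRing.liftAlgebra A E
  have : IsScalarTower A Q E := FractionRing.isScalarTower_liftAlgebra A E
  have : CharZero E := charZero_of_injective_algebraMap (algebraMap F E).injective
  have hAQ : CharZero Q := ⟨fun a b h => by
      have := congrArg (algebraMap Q E) h
      simpa using this⟩
  have h1 : FormallyEtale A Q := FormallyEtale.of_isLocalization (nonZeroDivisors A)
  have halg : Algebra.IsAlgebraic A E := by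
    have h0 := hb.isAlgebraic
    refine ⟨fun a => ?_⟩
    have h00 : IsAlgebraic (adjoin F (Set.range b)) (RingHom.id E a) := h0.isAlgebraic a
    let f : A →+* adjoin F (Set.range b) :=
      ((aeval b : MvPolynomial ι F →ₐ[F] E).codRestrict (adjoin F (Set.range b))
        (fun x => by rw [adjoin_range_eq_range_aeval]; exact ⟨x, rfl⟩)).toRingHom
    refine IsAlgebraic.of_ringHom_of_comp_eq f (RingHom.id E) h00 ?_ Function.injective_id ?_
    · rintro ⟨y, hy⟩
      have hy' := hy
      rw [adjoin_range_eq_range_aeval] at hy'
      obtain ⟨x, hx⟩ := hy'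
      exact ⟨x, Subtype.ext hx⟩
    · ext x <;> rfl
  have halg' : Algebra.IsAlgebraic Q E :=
    Algebra.IsAlgebraic.extendScalars (R := A) (S := Q) (A := E) (IsFractionRing.injective A Q)
  have h2 : FormallyEtale Q E := FormallyEtale.of_isSeparable Q E
  have h3 : FormallyEtale A E := FormallyEtale.comp A Q E
  obtain ⟨δ, hδ⟩ := exists_derivation_of_formallyEtale (F := F) (E := E) A (mkDerivation F v)
  refine ⟨δ, fun i => ?_⟩
  have := hδ (X i)
  rw [hmap, aeval_X, mkDerivation_X] at this
  exact this

/-- Values of a derivation may be prescribed on any algebraically independent family (char 0). -/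
theorem exists_derivation [CharZero F] {ι : Type w} (b : ι → E)
    (hb : AlgebraicIndependent F b) (v : ι → E) :
    ∃ δ : Derivation F E E, ∀ i, δ (b i) = v i := by
  classical
  have h1 : AlgebraicIndepOn F id (Set.range b) := (algebraicIndependent_subtype_range hb.injective).2 hb
  obtain ⟨t, hst, ht⟩ := exists_isTranscendenceBasis_superset (A := E) h1
  obtain ⟨δ, hδ⟩ := exists_derivation_of_isTranscendenceBasis (F := F) ((↑) : t → E) ht
    (fun x => if h : ∃ i, b i = x.1 then v h.choose else 0)
  refine ⟨δ, fun i => ?_⟩
  have h2 := hδ ⟨b i, hst ⟨i, rfl⟩⟩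
  have h3 : ∃ i', b i' = b i := ⟨i, rfl⟩
  rw [dif_pos h3] at h2
  rw [h2, hb.injective h3.choose_spec]

/-- If the linear map `L` kills all `(δ (y_t))_t`, `δ` an `F`-derivation of `E`, then an
algebraically independent (over `F`) subfamily of `y` has at most `dim ker L` members. -/
theorem card_le_finrank_ker [CharZero F] {τ : Type*} [Finite τ] (y : τ → E)
    {M : Type*} [AddCommGroup M] [Module E M] (L : (τ → E) →ₗ[E] M)
    (hL : ∀ δ : Derivation F E E, L (fun t => δ (y t)) = 0)
    {ι : Type*} [Finite ι] (j : ι → τ) (hj : AlgebraicIndependent F (y ∘ j)) :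
    Nat.card ι ≤ Module.finrank E (LinearMap.ker L) := by
  classical
  have := Fintype.ofFinite ι
  choose δ hδ using fun i : ι => exists_derivation (F := F) (y ∘ j) hj (Pi.single i 1)
  let w : ι → LinearMap.ker L := fun i => ⟨fun t => δ i (y t), hL (δ i)⟩
  have hw : LinearIndependent E w := by
    have h1 : LinearIndependent E (fun i : ι => (fun i' : ι => δ i (y (j i')))) := by
      have h2 : (fun i : ι => (fun i' : ι => δ i (y (j i')))) =
          fun i => (Pi.single i (1 : E) : ι → E) := by
        funext i i'
        exact hδ i i'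
      rw [h2]
      exact Pi.linearIndependent_single_one ι E
    have h3 : (fun i : ι => (fun i' : ι => δ i (y (j i')))) =
        ((LinearMap.funLeft E E j) ∘ₗ (LinearMap.ker L).subtype) ∘ w := by
      funext i i'
      rfl
    rw [h3] at h1
    exact h1.of_comp _
  have := hw.fintype_card_le_finrank
  rwa [Nat.card_eq_fintype_card]

end

end Crest.Agent.R003
end

-- ▼ part R003/Td576

/-!
# R3 (S0003), Part 3(iv): the natural number `td K S = trdeg_K K(S)` for finite `S`,
generic points of zero sets, specialisation, and the derivation bound.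
-/

set_option autoImplicit false

namespace Crest.Agent.R003

open MvPolynomial Cardinal IntermediateField

universe u v w

section td

variable (K : Type u) {E : Type v} [Field K] [Field E] [Algebra K E]

/-- transcendence degree of the subfield generated by `S`, as a natural number -/
noncomputable def td (S : Set E) : ℕ := (Algebra.trdeg K (adjoin K S)).toNat

instance adjoin_isAlgebraic (S : Set E) :
    Algebra.IsAlgebraic (Algebra.adjoin K ((Subtype.val : adjoin K S → E) ⁻¹' S)) (adjoin K S) := by
  have himg : (Algebra.adjoin K ((Subtype.val : adjoin K S → E) ⁻¹' S)).map (adjoin K S).val =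
      Algebra.adjoin K S := by
    rw [AlgHom.map_adjoin]
    congr 1
    change Subtype.val '' ((Subtype.val : adjoin K S → E) ⁻¹' S) = S
    rw [Set.image_preimage_eq_inter_range, Subtype.range_coe, Set.inter_eq_left]
    exact subset_adjoin K S
  refine ⟨fun x => ?_⟩
  have h1 : IsAlgebraic (Algebra.adjoin K S) ((adjoin K S).val.toRingHom x) := by
    rw [← IntermediateField.isAlgebraic_adjoin_iff]
    exact isAlgebraic_algebraMap (R := adjoin K S) (A := E) x
  let f : Algebra.adjoin K ((Subtype.val : adjoin K S → E) ⁻¹' S) →+* Algebra.adjoin K S :=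
    (((adjoin K S).val.comp (Algebra.adjoin K ((Subtype.val : adjoin K S → E) ⁻¹' S)).val).codRestrict
      (Algebra.adjoin K S) (fun y => by
        rw [← himg]
        exact ⟨y.1, y.2, rfl⟩)).toRingHom
  refine IsAlgebraic.of_ringHom_of_comp_eq f (adjoin K S).val.toRingHom h1 ?_
    Subtype.val_injective ?_
  · rintro ⟨y, hy⟩
    have hy' := hy
    rw [← himg] at hy'
    obtain ⟨z, hz, hz'⟩ := hy'
    exact ⟨⟨z, hz⟩, Subtype.ext hz'⟩
  · ext z; rfl

theorem trdeg_le_mk (S : Set E) : Algebra.trdeg K (adjoin K S) ≤ #S := by
  have h := Algebra.IsAlgebraic.trdeg_le_cardinalMk K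
    ((Subtype.val : adjoin K S → E) ⁻¹' S)
  refine h.trans ?_
  exact mk_preimage_of_injective _ _ Subtype.val_injective

theorem trdeg_lt_aleph0 {S : Set E} (hS : S.Finite) :
    Algebra.trdeg K (adjoin K S) < ℵ₀ :=
  (trdeg_le_mk K S).trans_lt (Cardinal.mk_lt_aleph0_iff.2 hS)

theorem td_cast {S : Set E} (hS : S.Finite) : (td K S : Cardinal) = Algebra.trdeg K (adjoin K S) :=
  Cardinal.cast_toNat_of_lt_aleph0 (trdeg_lt_aleph0 K hS)

theorem td_le_ncard {S : Set E} (hS : S.Finite) : td K S ≤ S.ncard := by
  have h : (td K S : Cardinal) ≤ (S.ncard : Cardinal) := by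
    rw [td_cast K hS, Set.cast_ncard hS]
    exact trdeg_le_mk K S
  exact_mod_cast h

theorem td_mono_subset {S T : Set E} (hT : T.Finite) (h : S ⊆ T) : td K S ≤ td K T := by
  have hS := hT.subset h
  have h1 : (td K S : Cardinal) ≤ (td K T : Cardinal) := by
    rw [td_cast K hS, td_cast K hT]
    exact _root_.trdeg_le_of_injective (IntermediateField.inclusion (adjoin.mono K S T h))
      (IntermediateField.inclusion_injective _)
  exact_mod_cast h1

/-- additivity in towers -/
theorem td_union {S T : Set E} (hS : S.Finite) (hT : T.Finite) :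
    td K (S ∪ T) = td K S + td (adjoin K S) T := by
  have h1 : (td K (S ∪ T) : Cardinal) = (td K S : Cardinal) + (td (adjoin K S) T : Cardinal) := by
    rw [td_cast K (hS.union hT), td_cast K hS, td_cast (adjoin K S) hT]
    have i1 : FaithfulSMul K (adjoin K S) :=
      (faithfulSMul_iff_algebraMap_injective _ _).2 (algebraMap K (adjoin K S)).injective
    have i2 : FaithfulSMul (adjoin K S) (adjoin (adjoin K S) T) :=
      (faithfulSMul_iff_algebraMap_injective _ _).2
        (algebraMap (adjoin K S) (adjoin (adjoin K S) T)).injective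
    rw [_root_.trdeg_add_eq K (adjoin K S) (A := adjoin (adjoin K S) T)]
    rw [← adjoin_adjoin_left]
    rfl
  exact_mod_cast h1

/-- every element of `S` algebraic over `K(T)` implies `td S ≤ td T` -/
theorem td_mono {S T : Set E} (hS : S.Finite) (hT : T.Finite)
    (h : ∀ x ∈ S, IsAlgebraic (adjoin K T) x) : td K S ≤ td K T := by
  have h1 : td K S ≤ td K (T ∪ S) :=
    td_mono_subset K (hT.union hS) Set.subset_union_right
  rw [td_union K hT hS] at h1
  have h2 : td (adjoin K T) S = 0 := by
    have : Algebra.IsAlgebraic (adjoin K T) (adjoin (adjoin K T) S) :=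
      isAlgebraic_adjoin (fun x hx => (h x hx).isIntegral)
    unfold td
    rw [_root_.trdeg_eq_zero]
    simp
  omega

theorem td_empty : td K (∅ : Set E) = 0 := by
  have := td_le_ncard K (S := (∅ : Set E)) Set.finite_empty
  simpa using this

/-- an algebraically independent subfamily of maximal size -/
theorem exists_algebraicIndependent {σ : Type w} [Finite σ] (x : σ → E) :
    ∃ (s : Set σ), AlgebraicIndependent K (fun i : s => x i) ∧ s.ncard = td K (Set.range x) := by
  classical
  have hfin : (Set.range x).Finite := Set.finite_range x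
  obtain ⟨t, hts, ht⟩ := exists_isTranscendenceBasis_subset (R := K) (A := adjoin K (Set.range x))
    ((Subtype.val : adjoin K (Set.range x) → E) ⁻¹' (Set.range x))
  have hch : ∀ y : t, ∃ i, x i = y.1.1 := fun y => hts y.2
  choose g hg using hch
  have hginj : Function.Injective g := by
    intro y z hyz
    apply Subtype.ext
    apply Subtype.ext
    rw [← hg y, ← hg z, hyz]
  refine ⟨Set.range g, ?_, ?_⟩
  · have h1 : AlgebraicIndependent K (fun y : t => (y.1.1 : E)) := by
      have := ht.1.map' (f := (adjoin K (Set.range x)).val) Subtype.val_injective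
      exact this
    have e := Equiv.ofInjective g hginj
    rw [← algebraicIndependent_equiv (Equiv.ofInjective g hginj)]
    have h2 : ((fun i : Set.range g => x i) ∘ (Equiv.ofInjective g hginj)) =
        fun y : t => (y.1.1 : E) := by
      funext y
      simp [hg]
    rw [h2]
    exact h1
  · unfold td
    rw [← ht.cardinalMk_eq_trdeg, ← Nat.card_coe_set_eq, Nat.card_range_of_injective hginj]
    rfl

/-- an algebraically independent subfamily has at most `td` members -/
theorem card_le_td {σ : Type w} [Finite σ] (x : σ → E) {ι : Type*} [Finite ι] (j : ι → σ)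
    (hj : AlgebraicIndependent K (x ∘ j)) : Nat.card ι ≤ td K (Set.range x) := by
  have hfin : (Set.range x).Finite := Set.finite_range x
  let y : ι → adjoin K (Set.range x) := fun i => ⟨x (j i), subset_adjoin K _ ⟨j i, rfl⟩⟩
  have hy : AlgebraicIndependent K y := by
    have : AlgebraicIndependent K ((adjoin K (Set.range x)).val ∘ y) := hj
    exact AlgebraicIndependent.of_comp _ this
  have h1 := hy.lift_cardinalMk_le_trdeg
  have h2 := Cardinal.toNat_le_toNat h1 (by
    rw [Cardinal.lift_lt_aleph0]; exact trdeg_lt_aleph0 K hfin)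
  rw [Cardinal.toNat_lift, Cardinal.toNat_lift] at h2
  exact h2


end td

/-- A common zero `T` of `f_1, …, f_m` has a generic point `x` (in an algebraically closed field)
over it, with `trdeg ≥ |σ| - m`. -/
theorem exists_generic {K : Type u} [Field K] {σ : Type v} [Finite σ] {m : Type w} [Finite m]
    (f : m → MvPolynomial σ K) (T : σ → K) (hT : ∀ i, eval T (f i) = 0) :
    ∃ (E : Type (max u v)) (_ : Field E) (_ : Algebra K E) (_ : IsAlgClosed E) (x : σ → E),
      (∀ i, aeval x (f i) = 0) ∧ (∀ g : MvPolynomial σ K, aeval x g = 0 → eval T g = 0) ∧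
      Nat.card σ ≤ Nat.card m + td K (Set.range x) := by
  classical
  let I : Ideal (MvPolynomial σ K) := Ideal.span (Set.range f)
  let mT : Ideal (MvPolynomial σ K) := RingHom.ker (eval T)
  have hmT : mT.IsPrime := RingHom.ker_isPrime _
  have hI : I ≤ mT := by
    rw [Ideal.span_le]
    rintro _ ⟨i, rfl⟩
    exact hT i
  obtain ⟨P, hP, hPT⟩ := Ideal.exists_minimalPrimes_le hI
  have hPprime : P.IsPrime := hP.1.1
  have hht : P.height ≤ (Nat.card m : ℕ∞) := by
    have h1 := Ideal.height_le_card_of_mem_minimalPrimes_span (Set.finite_range f) hP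
    refine h1.trans ?_
    have h2 : (Set.range f).ncard ≤ Nat.card m := by
      rw [← Nat.card_coe_set_eq]
      exact Nat.card_le_card_of_surjective (Set.rangeFactorization f)
        Set.rangeFactorization_surjective
    exact_mod_cast h2
  obtain ⟨ι, hι, j, hj, hcard⟩ := card_le_height_add K σ P
  let Q := MvPolynomial σ K ⧸ P
  let E := AlgebraicClosure (FractionRing Q)
  let φ : MvPolynomial σ K →ₐ[K] E :=
    (IsScalarTower.toAlgHom K Q E).comp (Ideal.Quotient.mkₐ K P)
  have hφ : ∀ g, φ g = 0 ↔ g ∈ P := by
    intro g
    have h1 : φ g = algebraMap Q E (Ideal.Quotient.mk P g) := rfl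
    have h2 : Function.Injective (algebraMap Q E) := by
      rw [IsScalarTower.algebraMap_eq Q (FractionRing Q) E]
      exact (algebraMap (FractionRing Q) E).injective.comp (IsFractionRing.injective Q _)
    rw [h1, map_eq_zero_iff _ h2, Ideal.Quotient.eq_zero_iff_mem]
  let x : σ → E := fun i => φ (X i)
  have hx : ∀ g : MvPolynomial σ K, aeval x g = φ g := by
    intro g
    have : (aeval x : MvPolynomial σ K →ₐ[K] E) = φ := by
      apply MvPolynomial.algHom_ext
      intro i
      rw [aeval_X]
    rw [this]
  refine ⟨E, inferInstance, inferInstance, inferInstance, x, ?_, ?_, ?_⟩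
  · intro i
    rw [hx, hφ]
    exact hP.1.2 (Ideal.subset_span ⟨i, rfl⟩)
  · intro g hg
    rw [hx, hφ] at hg
    exact hPT hg
  · have h1 : AlgebraicIndependent K (x ∘ j) := by
      rw [AlgebraicIndependent, injective_iff_map_eq_zero]
      intro g hg
      apply hj
      rw [← hφ, ← hx, aeval_rename]
      exact hg
    have h2 := card_le_td K x j h1
    have h3 : (Nat.card σ : ℕ∞) ≤ ((Nat.card m + Nat.card ι : ℕ) : ℕ∞) := by
      push_cast
      exact hcard.trans (by gcongr)
    have h4 : Nat.card σ ≤ Nat.card m + Nat.card ι := by exact_mod_cast h3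
    omega

/-- Nullstellensatz specialisation: a zero of `f_1, f_2, …` (any family) with `g ≠ 0` in an
extension field gives one over the algebraically closed field `K`. -/
theorem specialise {K : Type u} [Field K] [IsAlgClosed K] {E : Type v} [Field E] [Algebra K E]
    {τ : Type w} [Finite τ] (z : τ → E) (g : MvPolynomial τ K) (hg : aeval z g ≠ 0) :
    ∃ z₀ : τ → K, eval z₀ g ≠ 0 ∧ ∀ f : MvPolynomial τ K, aeval z f = 0 → eval z₀ f = 0 := by
  classical
  let P : Ideal (MvPolynomial τ K) := RingHom.ker (aeval z : MvPolynomial τ K →ₐ[K] E)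
  have hP : P.IsPrime := RingHom.ker_isPrime _
  by_contra hcon
  push Not at hcon
  -- `g` vanishes on the zero locus of `P`
  have h1 : g ∈ vanishingIdeal K (zeroLocus K P) := by
    rw [mem_vanishingIdeal_iff]
    intro z₀ hz₀
    by_contra hne
    obtain ⟨f, hf, hf'⟩ := hcon z₀ hne
    exact hf' (hz₀ f hf)
  rw [vanishingIdeal_zeroLocus_eq_radical, hP.radical] at h1
  exact hg h1

end Crest.Agent.R003
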