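import Crest.Agent.R003.Flow992
import Crest.Agent.R003.NF452
import Crest.Agent.R003.Cg475B
import Crest.Agent.R003.Td576
import Crest.Agent.R003.Deb576
import Mathlib
import Crest.Agent.R003.Fr576
import Crest.Agent.R003.Gl478A
import Crest.Agent.R003.Defs
import Crest.Agent.R003.Bas486

-- ▼ part R003/UnitNF992
section

/-!
# Row 3 (S0003): the ring of integers of `rootField K n` satisfies the hypotheses of (U) (helper992)
-/

set_option autoImplicit false

open Crest.NumberTheoryR.CharVarRel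

namespace Crest.Agent.R003.Unit

/-- `O = OO (rootField K n)` satisfies `IsIntRing`. -/
theorem isIntRing_rootField (K : Subfield ℂ) (hK : FiniteDimensional ℚ K) {n : ℕ} (hn : 2 < n) :
    IsIntRing (OO (rootField K n)) (rootField K n) where
  fin := finiteDimensional_rootField K hK n (by omega)
  mem := fun _ => mem_OO
  nonreal := exists_not_real K hn
  place := exists_embedding K hK (by omega)

end Crest.Agent.R003.Unit
end

-- ▼ part R003/Cg475C
section

/-!
# R3 (S0003), Part 3 (iv), Lemma (4): tuples with a nontrivial centraliser (helper475)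

`x : J → M_n(E)`, `z = dim C(x) ≥ 2` implies `dim span {δ x} + z ≤ |J| n²` (`|J| ≥ 2`).
-/

set_option autoImplicit false

namespace Crest.Agent.R003.Cg

open Matrix Module Polynomial

universe u v

section der

variable {F : Type v} {E : Type u} [Field F] [Field E] [Algebra F E] {n : ℕ}

theorem map_der_mul (δ : Derivation F E E) (A B : Matrix (Fin n) (Fin n) E) :
    (A * B).map δ = A.map δ * B + A * B.map δ := by
  ext i j
  simp only [Matrix.map_apply, Matrix.mul_apply, Matrix.add_apply, map_sum, Derivation.leibniz,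
    smul_eq_mul, Finset.sum_add_distrib]
  rw [add_comm]
  congr 1
  exact Finset.sum_congr rfl fun k _ => mul_comm _ _

end der

variable {E : Type u} [Field E] {n : ℕ}

/-- the centraliser of a tuple -/
def cen {J : Type*} (x : J → Matrix (Fin n) (Fin n) E) : Submodule E (Matrix (Fin n) (Fin n) E) :=
  ⨅ j, LinearMap.ker (ad (x j))

theorem mem_cen {J : Type*} (x : J → Matrix (Fin n) (Fin n) E) (Z : Matrix (Fin n) (Fin n) E) :
    Z ∈ cen x ↔ ∀ j, x j * Z = Z * x j := by
  simp only [cen, Submodule.mem_iInf, mem_ker_ad]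

theorem one_mem_cen {J : Type*} (x : J → Matrix (Fin n) (Fin n) E) : 1 ∈ cen x := by
  rw [mem_cen]; intro j; simp

/-- Lemma (4), linear part. `D` is a space of "tangent vectors" `v` at the tuple `x`, each of which
has a companion `Ξ` with `[v_j, X] + [x_j, Ξ] = 0` and `Ξ ⊥ [C(X), C(X)]`, for every `X ∈ C(x)`. -/
theorem tuple_bound [Infinite E] {J : Type*} [Fintype J] (x : J → Matrix (Fin n) (Fin n) E)
    (D : Submodule E (J → Matrix (Fin n) (Fin n) E))
    (hD : ∀ X ∈ cen x, ∀ v ∈ D, ∃ Ξ ∈ tf.orthogonal (com X),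
      ∀ j, v j * X - X * v j + (x j * Ξ - Ξ * x j) = 0)
    (hJ : 2 ≤ Fintype.card J) (hz : 2 ≤ finrank E (cen x)) :
    finrank E D + finrank E (cen x) ≤ Fintype.card J * n ^ 2 := by
  classical
  -- choose X
  have hex : ∃ k : ℕ, ∃ X ∈ cen x, finrank E (LinearMap.ker (ad X)) = k := ⟨_, 1, one_mem_cen x, rfl⟩
  obtain ⟨X, hX, hXk⟩ := Nat.find_spec hex
  have hmin : ∀ Z ∈ cen x, finrank E (LinearMap.ker (ad X)) ≤ finrank E (LinearMap.ker (ad Z)) := by
    intro Z hZ
    rw [hXk]
    exact Nat.find_min' hex ⟨Z, hZ, rfl⟩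
  -- a nonscalar element of the centraliser
  have hns : ∃ Z ∈ cen x, ∀ c : E, Z ≠ c • 1 := by
    by_contra hcon
    push Not at hcon
    have h1 : cen x ≤ Submodule.span E {(1 : Matrix (Fin n) (Fin n) E)} := by
      intro Z hZ
      obtain ⟨c, hc⟩ := hcon Z hZ
      rw [Submodule.mem_span_singleton]
      exact ⟨c, hc.symm⟩
    have h2 := Submodule.finrank_mono h1
    have h3 := finrank_span_le_card (R := E) ({(1 : Matrix (Fin n) (Fin n) E)} : Set _)
    simp at h3
    omega
  obtain ⟨Z₀, hZ₀, hZ₀'⟩ := hns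
  have h4 : finrank E (LinearMap.ker (ad X)) + n ≤ n ^ 2 :=
    (Nat.add_le_add_right (hmin Z₀ hZ₀) n).trans (finrank_cen_le Z₀ hZ₀')
  -- `C(x) ⊆ [C(X),C(X)]^⊥`
  have h5 : cen x ≤ tf.orthogonal (com X) := by
    intro Z hZ
    have h6 : ∀ Y ∈ LinearMap.ker (ad X), ad Z Y ∈ LinearMap.range (ad X) := by
      intro Y hY
      refine map_ker_le (ad X) (ad Z) (fun t => ?_) Y hY
      have h7 : ad X + t • ad Z = ad (X + t • Z) := by
        ext1 W
        simp only [LinearMap.add_apply, LinearMap.smul_apply, ad_apply, add_mul, mul_add, smul_mul_assoc,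
          mul_smul_comm, smul_sub]
        abel
      rw [h7]
      have h8 := hmin (X + t • Z) (Submodule.add_mem _ hX (Submodule.smul_mem _ t hZ))
      have h9 := finrank_ad X
      have h10 := finrank_ad (X + t • Z)
      omega
    rw [LinearMap.BilinForm.mem_orthogonal_iff]
    intro P hP
    induction hP using Submodule.span_induction with
    | mem P hP =>
      obtain ⟨Y, hY, Y', hY', rfl⟩ := hP
      have h11 := (mem_range_ad X (ad Z Y)).1 (h6 Y hY) Y' hY'
      change ((Y * Y' - Y' * Y) * Z).trace = 0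
      rw [ad_apply, mul_sub, trace_sub, sub_eq_zero] at h11
      rw [sub_mul, trace_sub, sub_eq_zero]
      have e1 : (Y * Y' * Z).trace = (Y' * (Z * Y)).trace := by
        rw [mul_assoc, trace_mul_comm, mul_assoc]
      rw [e1, h11, mul_assoc]
    | zero => simp
    | add P Q _ _ hP hQ =>
      change tf (P + Q) Z = 0
      rw [map_add, LinearMap.add_apply]
      have a1 : tf P Z = 0 := hP
      have a2 : tf Q Z = 0 := hQ
      rw [a1, a2, add_zero]
    | smul c P _ hP =>
      change tf (c • P) Z = 0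
      rw [map_smul, LinearMap.smul_apply]
      have a1 : tf P Z = 0 := hP
      rw [a1, smul_zero]
  -- the space `ℒ`
  let V := tf.orthogonal (com X)
  let Λ : (J → Matrix (Fin n) (Fin n) E) × Matrix (Fin n) (Fin n) E →ₗ[E]
      (J → Matrix (Fin n) (Fin n) E) :=
    { toFun := fun p j => p.1 j * X - X * p.1 j + (x j * p.2 - p.2 * x j)
      map_add' := fun a b => by
        funext j
        simp only [Prod.fst_add, Prod.snd_add, Pi.add_apply, add_mul, mul_add]
        abel
      map_smul' := fun c a => by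
        funext j
        simp only [Prod.smul_fst, Prod.smul_snd, Pi.smul_apply, smul_mul_assoc, mul_smul_comm,
          RingHom.id_apply, ← smul_sub, ← smul_add] }
  let L : Submodule E ((J → Matrix (Fin n) (Fin n) E) × Matrix (Fin n) (Fin n) E) :=
    LinearMap.ker Λ ⊓ V.comap (LinearMap.snd E _ _)
  -- upper bound
  have h12 : finrank E L ≤ finrank E V + Fintype.card J * finrank E (LinearMap.ker (ad X)) := by
    let π : L →ₗ[E] V := LinearMap.codRestrict V (LinearMap.snd E _ _ ∘ₗ L.subtype) (fun p => p.2.2)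
    have h13 := LinearMap.finrank_range_add_finrank_ker π
    have h14 : finrank E (LinearMap.range π) ≤ finrank E V := Submodule.finrank_le _
    have h15 : finrank E (LinearMap.ker π) ≤ Fintype.card J * finrank E (LinearMap.ker (ad X)) := by
      let ψ : LinearMap.ker π →ₗ[E] (J → LinearMap.ker (ad X)) :=
        LinearMap.pi fun j => LinearMap.codRestrict (LinearMap.ker (ad X))
          (LinearMap.proj j ∘ₗ LinearMap.fst E _ _ ∘ₗ L.subtype ∘ₗ (LinearMap.ker π).subtype)
          (fun p => by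
            have hp1 : Λ p.1.1 = 0 := p.1.2.1
            have hp2 : p.1.1.2 = 0 := congrArg Subtype.val p.2
            have hp3 : p.1.1.1 j * X - X * p.1.1.1 j + (x j * p.1.1.2 - p.1.1.2 * x j) = 0 :=
              congrFun hp1 j
            rw [hp2, mul_zero, zero_mul, sub_zero, add_zero, sub_eq_zero] at hp3
            exact (mem_ker_ad X _).2 hp3.symm)
      have hψ : Function.Injective ψ := by
        intro p q hpq
        have h16 : p.1.1.1 = q.1.1.1 := by
          funext j
          exact congrArg Subtype.val (congrFun hpq j)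
        have hp2 : p.1.1.2 = 0 := congrArg Subtype.val p.2
        have hq2 : q.1.1.2 = 0 := congrArg Subtype.val q.2
        exact Subtype.ext (Subtype.ext (Prod.ext h16 (hp2.trans hq2.symm)))
      have h17 := LinearMap.finrank_le_finrank_of_injective hψ
      rw [Module.finrank_pi_fintype] at h17
      simpa using h17
    omega
  -- lower bound
  have h18 : finrank E D + finrank E (cen x) ≤ finrank E L := by
    let π : L →ₗ[E] (J → Matrix (Fin n) (Fin n) E) := LinearMap.fst E _ _ ∘ₗ L.subtype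
    have h19 := LinearMap.finrank_range_add_finrank_ker π
    have h20 : D ≤ LinearMap.range π := by
      intro v hv
      obtain ⟨Ξ, hΞ, hΞ'⟩ := hD X hX v hv
      exact ⟨⟨(v, Ξ), ⟨funext hΞ', hΞ⟩⟩, rfl⟩
    have h21 := Submodule.finrank_mono h20
    have h22 : finrank E (cen x) ≤ finrank E (LinearMap.ker π) := by
      let ψ : cen x →ₗ[E] LinearMap.ker π :=
        LinearMap.codRestrict _ (LinearMap.codRestrict L
          (LinearMap.inr E _ _ ∘ₗ (cen x).subtype) (fun Z => by
            refine ⟨?_, h5 Z.2⟩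
            funext j
            have := (mem_cen x Z.1).1 Z.2 j
            change (0 : Matrix (Fin n) (Fin n) E) * X - X * 0 + (x j * Z.1 - Z.1 * x j) = 0
            rw [this]; simp)) (fun Z => rfl)
      apply LinearMap.finrank_le_finrank_of_injective (f := ψ)
      intro a b hab
      have := congrArg (fun z => z.1.1.2) hab
      exact Subtype.ext this
    omega
  have h23 := finrank_orth_com X
  have h24 : finrank E V + finrank E (LinearMap.ker (ad X)) ≤ n ^ 2 + n := h23
  obtain ⟨m, hm⟩ := Nat.exists_eq_add_of_le hJ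
  rw [hm] at h12 ⊢
  nlinarith

end Crest.Agent.R003.Cg
end

-- ▼ part R003/Cg475D
section

/-!
# R3 (S0003), Part 3 (iv), (Ce): the differential of a product of commutators (helper475)
-/

set_option autoImplicit false

namespace Crest.Agent.R003.Cg

open Matrix Module Polynomial

universe u v

section comm

variable {E : Type u} [Field E] {n : ℕ}

/-- the differential of the commutator -/
def dC (A B : GL (Fin n) E) :
    Matrix (Fin n) (Fin n) E × Matrix (Fin n) (Fin n) E →ₗ[E] Matrix (Fin n) (Fin n) E :=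
  LinearMap.coprod
    (LinearMap.mulRight E (B.1 * (A⁻¹).1 * (B⁻¹).1) -
      LinearMap.mulLeft E (A.1 * B.1 * (A⁻¹).1) ∘ₗ LinearMap.mulRight E ((A⁻¹).1 * (B⁻¹).1))
    (LinearMap.mulLeft E A.1 ∘ₗ LinearMap.mulRight E ((A⁻¹).1 * (B⁻¹).1) -
      LinearMap.mulLeft E (A.1 * B.1 * (A⁻¹).1 * (B⁻¹).1) ∘ₗ LinearMap.mulRight E (B⁻¹).1)

theorem dC_apply (A B : GL (Fin n) E) (a b : Matrix (Fin n) (Fin n) E) :
    dC A B (a, b) = a * (B.1 * (A⁻¹).1 * (B⁻¹).1) -
      (A.1 * B.1 * (A⁻¹).1) * (a * ((A⁻¹).1 * (B⁻¹).1)) +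
      (A.1 * (b * ((A⁻¹).1 * (B⁻¹).1)) -
      (A.1 * B.1 * (A⁻¹).1 * (B⁻¹).1) * (b * (B⁻¹).1)) := rfl

theorem eq_of_trace {P Q : Matrix (Fin n) (Fin n) E}
    (h : ∀ a : Matrix (Fin n) (Fin n) E, (a * P).trace = (a * Q).trace) : P = Q := by
  rw [← sub_eq_zero]
  apply (tf_nondeg (E := E) (n := n)).2
  intro a
  change (a * (P - Q)).trace = 0
  rw [mul_sub, trace_sub, h a, sub_self]

theorem comm_of_dC (A B : GL (Fin n) E) (R : Matrix (Fin n) (Fin n) E)
    (h : ∀ a b, (dC A B (a, b) * R).trace = 0) :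
    A.1 * ((A * B * A⁻¹ * B⁻¹).1 * R) = ((A * B * A⁻¹ * B⁻¹).1 * R) * A.1 ∧
    B.1 * ((A * B * A⁻¹ * B⁻¹).1 * R) = ((A * B * A⁻¹ * B⁻¹).1 * R) * B.1 := by
  have hA : A.1 * (A⁻¹).1 = 1 := by rw [← Units.val_mul, mul_inv_cancel]; rfl
  have hA' : (A⁻¹).1 * A.1 = 1 := by rw [← Units.val_mul, inv_mul_cancel]; rfl
  have hB : B.1 * (B⁻¹).1 = 1 := by rw [← Units.val_mul, mul_inv_cancel]; rfl
  have hB' : (B⁻¹).1 * B.1 = 1 := by rw [← Units.val_mul, inv_mul_cancel]; rfl
  have e1 : B.1 * (A⁻¹).1 * (B⁻¹).1 * R = (A⁻¹).1 * (B⁻¹).1 * R * (A.1 * B.1 * (A⁻¹).1) := by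
    apply eq_of_trace
    intro a
    have := h a 0
    rw [dC_apply, zero_mul, zero_mul, mul_zero, mul_zero, sub_zero, add_zero, sub_mul, trace_sub,
      sub_eq_zero] at this
    rw [← mul_assoc, this, mul_assoc (A.1 * B.1 * (A⁻¹).1), trace_mul_comm]
    simp only [mul_assoc]
  have e2 : (A⁻¹).1 * (B⁻¹).1 * R * A.1 = (B⁻¹).1 * R * (A.1 * B.1 * (A⁻¹).1 * (B⁻¹).1) := by
    apply eq_of_trace
    intro b
    have := h 0 b
    rw [dC_apply, zero_mul, zero_mul, mul_zero, sub_zero, zero_add, sub_mul, trace_sub,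
      sub_eq_zero] at this
    have e3 : (b * ((A⁻¹).1 * (B⁻¹).1 * R * A.1)).trace =
        (A.1 * (b * ((A⁻¹).1 * (B⁻¹).1)) * R).trace := by
      rw [mul_assoc A.1, trace_mul_comm A.1]
      simp only [mul_assoc]
    rw [e3, this, mul_assoc (A.1 * B.1 * (A⁻¹).1 * (B⁻¹).1), trace_mul_comm]
    simp only [mul_assoc]
  simp only [Units.val_mul]
  set Q := A.1 * B.1 * (A⁻¹).1 * (B⁻¹).1 * R with hQ
  have f1 : Q = (B⁻¹).1 * R * (A.1 * B.1 * (A⁻¹).1) := by
    have := congrArg (fun Z => A.1 * Z) e1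
    simp only [← mul_assoc, hA, one_mul] at this
    rw [hQ, this]
    simp only [← mul_assoc]
  have f2 : (B⁻¹).1 * R = A.1 * Q * (B⁻¹).1 * (A⁻¹).1 := by
    have h2 : (A⁻¹).1 * (B⁻¹).1 * R * A.1 = Q * (B⁻¹).1 := by
      rw [e2, f1]; simp only [mul_assoc]
    have h3 := congrArg (fun Z => A.1 * Z * (A⁻¹).1) h2
    simp only [← mul_assoc, hA, one_mul] at h3
    rw [mul_assoc ((B⁻¹).1 * R), hA, mul_one] at h3
    exact h3
  have g1 : Q = A.1 * Q * (A⁻¹).1 := by
    conv_lhs => rw [f1, f2]
    rw [mul_assoc (A.1 * Q * (B⁻¹).1), ← mul_assoc (A⁻¹).1, ← mul_assoc (A⁻¹).1, hA', one_mul,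
      mul_assoc (A.1 * Q), ← mul_assoc (B⁻¹).1, hB', one_mul]
  have g2 : Q = A.1 * (B.1 * Q * (B⁻¹).1) * (A⁻¹).1 := by
    conv_lhs => rw [hQ, mul_assoc _ (B⁻¹).1, f2]
    simp only [← mul_assoc]
    rw [mul_assoc (A.1 * B.1) (A⁻¹).1 A.1, hA', mul_one]
  have g1' : A.1 * Q = Q * A.1 := by
    conv_rhs => rw [g1]
    rw [mul_assoc, hA', mul_one]
  have g3 : Q = B.1 * Q * (B⁻¹).1 := by
    have h4 : (A⁻¹).1 * Q * A.1 = B.1 * Q * (B⁻¹).1 := by
      conv_lhs => rw [g2]
      rw [← mul_assoc, ← mul_assoc, hA', one_mul, mul_assoc, hA', mul_one]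
    rw [mul_assoc, ← g1', ← mul_assoc, hA', one_mul] at h4
    exact h4
  refine ⟨g1', ?_⟩
  conv_rhs => rw [g3]
  rw [mul_assoc, hB', mul_one]

end comm

section prod

variable {E : Type u} [Field E] {n : ℕ} {ι : Type*}

/-- product of commutators -/
def Wp (T : ι × Bool → GL (Fin n) E) (l : List ι) : GL (Fin n) E :=
  (l.map fun i => T (i, false) * T (i, true) * (T (i, false))⁻¹ * (T (i, true))⁻¹).prod

@[simp] theorem Wp_nil (T : ι × Bool → GL (Fin n) E) : Wp T [] = 1 := rfl

theorem Wp_cons (T : ι × Bool → GL (Fin n) E) (i : ι) (l : List ι) :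
    Wp T (i :: l) = (T (i, false) * T (i, true) * (T (i, false))⁻¹ * (T (i, true))⁻¹) * Wp T l := by
  rw [Wp, List.map_cons, List.prod_cons]; rfl

/-- its differential -/
def dW (T : ι × Bool → GL (Fin n) E) : List ι →
    ((ι × Bool → Matrix (Fin n) (Fin n) E) →ₗ[E] Matrix (Fin n) (Fin n) E)
  | [] => 0
  | i :: l => LinearMap.mulRight E (Wp T l).1 ∘ₗ dC (T (i, false)) (T (i, true)) ∘ₗ
      (LinearMap.prod (LinearMap.proj (i, false)) (LinearMap.proj (i, true))) +
      LinearMap.mulLeft E (T (i, false) * T (i, true) * (T (i, false))⁻¹ * (T (i, true))⁻¹).1 ∘ₗ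
        dW T l

theorem dW_cons (T : ι × Bool → GL (Fin n) E) (i : ι) (l : List ι)
    (v : ι × Bool → Matrix (Fin n) (Fin n) E) :
    dW T (i :: l) v = dC (T (i, false)) (T (i, true)) (v (i, false), v (i, true)) * (Wp T l).1 +
      (T (i, false) * T (i, true) * (T (i, false))⁻¹ * (T (i, true))⁻¹).1 * dW T l v := rfl

theorem dW_congr (T : ι × Bool → GL (Fin n) E) (l : List ι)
    (v v' : ι × Bool → Matrix (Fin n) (Fin n) E) (h : ∀ i ∈ l, ∀ b, v (i, b) = v' (i, b)) :
    dW T l v = dW T l v' := by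
  induction l with
  | nil => rfl
  | cons i l ih =>
    rw [dW_cons, dW_cons, ih (fun j hj => h j (List.mem_cons_of_mem _ hj)),
      h i List.mem_cons_self, h i List.mem_cons_self]

theorem comm_Wp (T : ι × Bool → GL (Fin n) E) (l : List ι) (Q : Matrix (Fin n) (Fin n) E)
    (h : ∀ i ∈ l, ∀ b, (T (i, b)).1 * Q = Q * (T (i, b)).1) : (Wp T l).1 * Q = Q * (Wp T l).1 := by
  have hinv : ∀ g : GL (Fin n) E, g.1 * Q = Q * g.1 → (g⁻¹).1 * Q = Q * (g⁻¹).1 := by
    intro g hg
    have h1 : (g⁻¹).1 * g.1 = 1 := by rw [← Units.val_mul, inv_mul_cancel]; rfl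
    have h2 : g.1 * (g⁻¹).1 = 1 := by rw [← Units.val_mul, mul_inv_cancel]; rfl
    calc (g⁻¹).1 * Q = (g⁻¹).1 * Q * (g.1 * (g⁻¹).1) := by rw [h2, mul_one]
      _ = (g⁻¹).1 * (Q * g.1) * (g⁻¹).1 := by simp only [mul_assoc]
      _ = (g⁻¹).1 * (g.1 * Q) * (g⁻¹).1 := by rw [hg]
      _ = Q * (g⁻¹).1 := by rw [← mul_assoc, h1, one_mul]
  have hmul : ∀ g g' : GL (Fin n) E, g.1 * Q = Q * g.1 → g'.1 * Q = Q * g'.1 →
      (g * g').1 * Q = Q * (g * g').1 := by
    intro g g' hg hg'
    rw [Units.val_mul, mul_assoc, hg', ← mul_assoc, hg, mul_assoc]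
  induction l with
  | nil => simp
  | cons i l ih =>
    rw [Wp_cons]
    have h1 := h i List.mem_cons_self false
    have h2 := h i List.mem_cons_self true
    exact hmul _ _ (hmul _ _ (hmul _ _ (hmul _ _ h1 h2) (hinv _ h1)) (hinv _ h2))
      (ih fun j hj => h j (List.mem_cons_of_mem _ hj))

/-- the orthogonal of the image of the differential -/
theorem comm_of_dW (T : ι × Bool → GL (Fin n) E) (l : List ι) (hl : l.Nodup)
    (R : Matrix (Fin n) (Fin n) E) (h : ∀ v, (dW T l v * R).trace = 0) :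
    ∀ i ∈ l, ∀ b, (T (i, b)).1 * ((Wp T l).1 * R) = ((Wp T l).1 * R) * (T (i, b)).1 := by
  classical
  induction l generalizing R with
  | nil => simp
  | cons i l ih =>
    obtain ⟨hi, hl'⟩ := List.nodup_cons.1 hl
    set C := T (i, false) * T (i, true) * (T (i, false))⁻¹ * (T (i, true))⁻¹ with hC
    -- the part at `i`
    have h1 : ∀ a b, (dC (T (i, false)) (T (i, true)) (a, b) * ((Wp T l).1 * R)).trace = 0 := by
      intro a b
      let v : ι × Bool → Matrix (Fin n) (Fin n) E :=
        fun p => if p.1 = i then (if p.2 then b else a) else 0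
      have h2 := h v
      have h3 : dW T l v = 0 := by
        rw [dW_congr T l v 0 (fun j hj b' => ?_), map_zero]
        have : j ≠ i := fun hji => hi (hji ▸ hj)
        simp [v, this]
      rw [dW_cons, h3, mul_zero, add_zero] at h2
      have h4 : v (i, false) = a := by simp [v]
      have h5 : v (i, true) = b := by simp [v]
      rw [h4, h5, mul_assoc] at h2
      exact h2
    obtain ⟨h6, h7⟩ := comm_of_dC _ _ _ h1
    have hQ : (Wp T (i :: l)).1 * R = C.1 * ((Wp T l).1 * R) := by
      rw [Wp_cons, Units.val_mul, mul_assoc]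
    -- `Q` commutes with `C`
    have h8 : C.1 * (C.1 * ((Wp T l).1 * R)) = (C.1 * ((Wp T l).1 * R)) * C.1 := by
      have := comm_Wp T [i] (C.1 * ((Wp T l).1 * R)) (by
        intro j hj b
        rw [List.mem_singleton] at hj
        subst hj
        cases b
        · exact h6
        · exact h7)
      rwa [Wp_cons, Wp_nil, mul_one] at this
    have hC1 : (C⁻¹).1 * C.1 = 1 := by rw [← Units.val_mul, inv_mul_cancel]; rfl
    have h9 : (Wp T l).1 * (R * C.1) = C.1 * ((Wp T l).1 * R) := by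
      have h10 := congrArg (fun Z => (C⁻¹).1 * Z) h8
      simp only [← mul_assoc, hC1, one_mul] at h10
      rw [← mul_assoc, ← h10, mul_assoc]
    have h11 := ih hl' (R * C.1) (by
      intro v
      let v' : ι × Bool → Matrix (Fin n) (Fin n) E := fun p => if p.1 = i then 0 else v p
      have h12 := h v'
      have h13 : v' (i, false) = 0 := by simp [v']
      have h14 : v' (i, true) = 0 := by simp [v']
      have h15 : dW T l v' = dW T l v := by
        apply dW_congr
        intro j hj b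
        have : j ≠ i := fun hji => hi (hji ▸ hj)
        simp [v', this]
      have h16 : dC (T (i, false)) (T (i, true))
          ((0 : Matrix (Fin n) (Fin n) E), (0 : Matrix (Fin n) (Fin n) E)) = 0 :=
        LinearMap.map_zero (dC (T (i, false)) (T (i, true)))
      rw [dW_cons, h13, h14, h16, zero_mul, zero_add, h15] at h12
      rw [← mul_assoc, trace_mul_comm, ← mul_assoc]
      exact h12)
    rw [hQ]
    intro j hj b
    rcases List.mem_cons.1 hj with rfl | hj'
    · cases b
      · exact h6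
      · exact h7
    · have := h11 j hj' b
      rw [h9] at this
      exact this

/-- (Ce) the kernel of the differential -/
theorem finrank_ker_dW [Fintype ι] (T : ι × Bool → GL (Fin n) E) (l : List ι) (hl : l.Nodup)
    (hmem : ∀ i, i ∈ l) :
    finrank E (LinearMap.ker (dW T l)) + n ^ 2 ≤
      2 * Fintype.card ι * n ^ 2 + finrank E (cen fun p => (T p).1) := by
  classical
  have h1 := LinearMap.finrank_range_add_finrank_ker (dW T l)
  rw [Module.finrank_pi_fintype] at h1
  simp only [finrank_mat, Finset.sum_const, Finset.card_univ, Fintype.card_prod, Fintype.card_bool,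
    smul_eq_mul] at h1
  -- orthogonal of the range
  have h2 := LinearMap.BilinForm.finrank_orthogonal (tf_nondeg (E := E) (n := n))
    (LinearMap.range (dW T l))
  have h3 := Submodule.finrank_le (LinearMap.range (dW T l))
  rw [finrank_mat] at h2 h3
  have h4 : finrank E (tf.orthogonal (LinearMap.range (dW T l))) ≤
      finrank E (cen fun p => (T p).1) := by
    let ψ : tf.orthogonal (LinearMap.range (dW T l)) →ₗ[E] cen fun p => (T p).1 :=
      LinearMap.codRestrict _ (LinearMap.mulLeft E (Wp T l).1 ∘ₗ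
        (tf.orthogonal (LinearMap.range (dW T l))).subtype) (by
          intro R
          rw [mem_cen]
          rintro ⟨i, b⟩
          exact comm_of_dW T l hl R.1 (fun v => R.2 _ ⟨v, rfl⟩) i (hmem i) b)
    apply LinearMap.finrank_le_finrank_of_injective (f := ψ)
    intro a b hab
    have h5 : (Wp T l).1 * a.1 = (Wp T l).1 * b.1 := congrArg Subtype.val hab
    have h6 := congrArg (fun Z => ((Wp T l)⁻¹).1 * Z) h5
    have h7 : ((Wp T l)⁻¹).1 * (Wp T l).1 = 1 := by rw [← Units.val_mul, inv_mul_cancel]; rfl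
    simp only [← mul_assoc, h7, one_mul] at h6
    exact Subtype.ext h6
  have h5 : 2 * Fintype.card ι * n ^ 2 = Fintype.card ι * 2 * n ^ 2 := by ring
  omega

end prod

end Crest.Agent.R003.Cg
end

-- ▼ part R003/Cg475E
section

/-!
# R3 (S0003), Part 3 (iv): the count (helper475)
-/

set_option autoImplicit false

namespace Crest.Agent.R003.Cg

open Matrix Module Polynomial

universe u v

variable {F : Type v} {E : Type u} [Field F] [Field E] [Algebra F E] {n : ℕ}

theorem map_der_inv (δ : Derivation F E E) (A : GL (Fin n) E) :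
    (A⁻¹).1.map δ = -((A⁻¹).1 * (A.1.map δ * (A⁻¹).1)) := by
  have h1 : (A⁻¹).1 * A.1 = 1 := by rw [← Units.val_mul, inv_mul_cancel]; rfl
  have h2 : A.1 * (A⁻¹).1 = 1 := by rw [← Units.val_mul, mul_inv_cancel]; rfl
  have h3 : (1 : Matrix (Fin n) (Fin n) E).map δ = 0 := by
    ext i j
    rw [Matrix.map_apply, Matrix.one_apply]
    split_ifs <;> simp
  have h4 := map_der_mul δ A.1 (A⁻¹).1
  rw [h2, h3] at h4
  have h5 : A.1 * (A⁻¹).1.map δ = -(A.1.map δ * (A⁻¹).1) := (neg_eq_of_add_eq_zero_right h4.symm).symm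
  calc (A⁻¹).1.map δ = (A⁻¹).1 * (A.1 * (A⁻¹).1.map δ) := by rw [← mul_assoc, h1, one_mul]
    _ = _ := by rw [h5, mul_neg]

theorem map_der_comm (δ : Derivation F E E) (A B : GL (Fin n) E) :
    (A * B * A⁻¹ * B⁻¹).1.map δ = dC A B (A.1.map δ, B.1.map δ) := by
  simp only [Units.val_mul]
  rw [map_der_mul, map_der_mul, map_der_mul, map_der_inv, map_der_inv, dC_apply]
  simp only [add_mul, mul_neg, neg_mul, mul_assoc]
  abel

theorem map_der_Wp {ι : Type*} (δ : Derivation F E E) (T : ι × Bool → GL (Fin n) E) (l : List ι) :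
    (Wp T l).1.map δ = dW T l (fun p => (T p).1.map δ) := by
  induction l with
  | nil =>
    rw [Wp_nil]
    change (1 : Matrix (Fin n) (Fin n) E).map δ = 0
    ext i j
    rw [Matrix.map_apply, Matrix.one_apply]
    split_ifs <;> simp
  | cons i l ih =>
    rw [Wp_cons, Units.val_mul, map_der_mul, map_der_comm, ih, dW_cons]

/-- the tangent space of a tuple -/
def tan (F : Type v) {E : Type u} [Field F] [Field E] [Algebra F E] {n : ℕ} {J : Type*}
    (x : J → Matrix (Fin n) (Fin n) E) : Submodule E (J → Matrix (Fin n) (Fin n) E) :=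
  LinearMap.range
    ({ toFun := fun δ j => (x j).map δ
       map_add' := fun a b => by funext j; ext; simp
       map_smul' := fun a b => by funext j; ext; simp } :
      Derivation F E E →ₗ[E] (J → Matrix (Fin n) (Fin n) E))

theorem mem_tan {J : Type*} (x : J → Matrix (Fin n) (Fin n) E)
    (v : J → Matrix (Fin n) (Fin n) E) :
    v ∈ tan F x ↔ ∃ δ : Derivation F E E, ∀ j, (x j).map δ = v j := by
  constructor
  · rintro ⟨δ, rfl⟩
    exact ⟨δ, fun j => rfl⟩
  · rintro ⟨δ, h⟩
    exact ⟨δ, funext h⟩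

/-- Lemma (4) -/
theorem tan_bound [Infinite E] {J : Type*} [Fintype J] (x : J → Matrix (Fin n) (Fin n) E)
    (hJ : 2 ≤ Fintype.card J) (hz : 2 ≤ finrank E (cen x)) :
    finrank E (tan F x) + finrank E (cen x) ≤ Fintype.card J * n ^ 2 := by
  refine tuple_bound x (tan F x) ?_ hJ hz
  intro X hX v hv
  obtain ⟨δ, hδ⟩ := (mem_tan x v).1 hv
  have hX' := (mem_cen x X).1 hX
  refine ⟨X.map δ, ?_, ?_⟩
  · rw [LinearMap.BilinForm.mem_orthogonal_iff]
    intro P hP
    induction hP using Submodule.span_induction with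
    | mem P hP =>
      obtain ⟨Y, hY, Y', hY', rfl⟩ := hP
      have hY1 := (mem_ker_ad X Y).1 hY
      have h1 : ad (X.map δ) Y ∈ LinearMap.range (ad X) := by
        refine ⟨-(Y.map δ), ?_⟩
        have h2 := congrArg (fun Z => Z.map δ) hY1
        simp only [map_der_mul] at h2
        rw [ad_apply, ad_apply, eq_comm]
        rw [← sub_eq_zero] at h2 ⊢
        rw [← h2]
        noncomm_ring
      have h11 := (mem_range_ad X (ad (X.map δ) Y)).1 h1 Y' hY'
      change ((Y * Y' - Y' * Y) * X.map δ).trace = 0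
      rw [ad_apply, mul_sub, trace_sub, sub_eq_zero] at h11
      rw [sub_mul, trace_sub, sub_eq_zero]
      have e1 : (Y * Y' * X.map δ).trace = (Y' * (X.map δ * Y)).trace := by
        rw [mul_assoc, trace_mul_comm, mul_assoc]
      rw [e1, h11, mul_assoc]
    | zero => simp
    | add P Q _ _ hP hQ =>
      change tf (P + Q) (X.map δ) = 0
      rw [map_add, LinearMap.add_apply]
      have a1 : tf P (X.map δ) = 0 := hP
      have a2 : tf Q (X.map δ) = 0 := hQ
      rw [a1, a2, add_zero]
    | smul c P _ hP =>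
      change tf (c • P) (X.map δ) = 0
      rw [map_smul, LinearMap.smul_apply]
      have a1 : tf P (X.map δ) = 0 := hP
      rw [a1, smul_zero]
  · intro j
    have h2 := congrArg (fun Z => Z.map δ) (hX' j)
    simp only [map_der_mul] at h2
    rw [hδ j] at h2
    rw [← sub_eq_zero] at h2
    rw [← h2]
    noncomm_ring

/-- the count: both halves of a generic solution are generic tuples -/
theorem count [Infinite E] {ι₁ ι₂ : Type*} [Fintype ι₁] [Fintype ι₂]
    (x : ι₁ × Bool → GL (Fin n) E) (y : ι₂ × Bool → GL (Fin n) E) (l₁ : List ι₁) (l₂ : List ι₂)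
    (hl₁ : l₁.Nodup) (hl₂ : l₂.Nodup) (hm₁ : ∀ i, i ∈ l₁) (hm₂ : ∀ i, i ∈ l₂)
    (c : F) (hW : (Wp x l₁ * Wp y l₂).1 = Matrix.scalar (Fin n) (algebraMap F E c))
    (h₁ : 1 ≤ Fintype.card ι₁) (h₂ : 1 ≤ Fintype.card ι₂)
    (hD : (2 * Fintype.card ι₁ + 2 * Fintype.card ι₂) * n ^ 2 + 1 ≤
      finrank E (tan F (Sum.elim (fun p => (x p).1) (fun p => (y p).1))) + n ^ 2) :
    tan F (fun p => (x p).1) = ⊤ := by
  classical
  set D := tan F (Sum.elim (fun p => (x p).1) (fun p => (y p).1)) with hDdef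
  -- derivations kill `W`
  have hWδ : ∀ δ : Derivation F E E,
      (Wp x l₁).1.map δ * (Wp y l₂).1 + (Wp x l₁).1 * (Wp y l₂).1.map δ = 0 := by
    intro δ
    rw [← map_der_mul, ← Units.val_mul, hW]
    ext i j
    rw [Matrix.map_apply, Matrix.scalar_apply, Matrix.diagonal_apply]
    split_ifs <;> simp
  have hinv : ∀ (g : GL (Fin n) E), (g⁻¹).1 * g.1 = 1 := fun g => by
    rw [← Units.val_mul, inv_mul_cancel]; rfl
  have hinv' : ∀ (g : GL (Fin n) E), g.1 * (g⁻¹).1 = 1 := fun g => by
    rw [← Units.val_mul, mul_inv_cancel]; rfl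
  -- first projection
  have A1 : finrank E D ≤ finrank E (tan F (fun p => (x p).1)) +
      finrank E (LinearMap.ker (dW y l₂)) := by
    let ρ : D →ₗ[E] (ι₁ × Bool → Matrix (Fin n) (Fin n) E) :=
      LinearMap.funLeft E _ (Sum.inl : ι₁ × Bool → (ι₁ × Bool) ⊕ (ι₂ × Bool)) ∘ₗ D.subtype
    have h3 := LinearMap.finrank_range_add_finrank_ker ρ
    have h4 : LinearMap.range ρ ≤ tan F (fun p => (x p).1) := by
      rintro _ ⟨v, rfl⟩
      obtain ⟨δ, hδ⟩ := (mem_tan _ _).1 v.2
      exact (mem_tan _ _).2 ⟨δ, fun j => hδ (Sum.inl j)⟩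
    have h5 := Submodule.finrank_mono h4
    have h6 : finrank E (LinearMap.ker ρ) ≤ finrank E (LinearMap.ker (dW y l₂)) := by
      let ψ : LinearMap.ker ρ →ₗ[E] LinearMap.ker (dW y l₂) :=
        LinearMap.codRestrict _ (LinearMap.funLeft E _
          (Sum.inr : ι₂ × Bool → (ι₁ × Bool) ⊕ (ι₂ × Bool)) ∘ₗ D.subtype ∘ₗ
            (LinearMap.ker ρ).subtype) (by
          intro v
          obtain ⟨δ, hδ⟩ := (mem_tan _ _).1 v.1.2
          have hv : ∀ p, v.1.1 (Sum.inl p) = 0 := fun p => congrFun (LinearMap.mem_ker.1 v.2) p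
          have e1 : (fun p => (x p).1.map δ) = 0 := by
            funext p
            exact (hδ (Sum.inl p)).trans (hv p)
          have e2 := hWδ δ
          rw [map_der_Wp δ x l₁, e1, map_zero, zero_mul, zero_add] at e2
          have e3 := congrArg (fun Z => ((Wp x l₁)⁻¹).1 * Z) e2
          simp only [← mul_assoc, hinv, one_mul, mul_zero] at e3
          rw [map_der_Wp] at e3
          rw [LinearMap.mem_ker, ← e3]
          congr 1
          funext p
          exact (hδ (Sum.inr p)).symm)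
      apply LinearMap.finrank_le_finrank_of_injective (f := ψ)
      intro a b hab
      have ha : ∀ p, a.1.1 (Sum.inl p) = 0 := fun p => congrFun (LinearMap.mem_ker.1 a.2) p
      have hb : ∀ p, b.1.1 (Sum.inl p) = 0 := fun p => congrFun (LinearMap.mem_ker.1 b.2) p
      have hab' := congrArg Subtype.val hab
      refine Subtype.ext (Subtype.ext (funext fun p => ?_))
      cases p with
      | inl p => rw [ha, hb]
      | inr p => exact congrFun hab' p
    omega
  -- second projection
  have A2 : finrank E D ≤ finrank E (tan F (fun p => (y p).1)) +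
      finrank E (LinearMap.ker (dW x l₁)) := by
    let ρ : D →ₗ[E] (ι₂ × Bool → Matrix (Fin n) (Fin n) E) :=
      LinearMap.funLeft E _ (Sum.inr : ι₂ × Bool → (ι₁ × Bool) ⊕ (ι₂ × Bool)) ∘ₗ D.subtype
    have h3 := LinearMap.finrank_range_add_finrank_ker ρ
    have h4 : LinearMap.range ρ ≤ tan F (fun p => (y p).1) := by
      rintro _ ⟨v, rfl⟩
      obtain ⟨δ, hδ⟩ := (mem_tan _ _).1 v.2
      exact (mem_tan _ _).2 ⟨δ, fun j => hδ (Sum.inr j)⟩
    have h5 := Submodule.finrank_mono h4
    have h6 : finrank E (LinearMap.ker ρ) ≤ finrank E (LinearMap.ker (dW x l₁)) := by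
      let ψ : LinearMap.ker ρ →ₗ[E] LinearMap.ker (dW x l₁) :=
        LinearMap.codRestrict _ (LinearMap.funLeft E _
          (Sum.inl : ι₁ × Bool → (ι₁ × Bool) ⊕ (ι₂ × Bool)) ∘ₗ D.subtype ∘ₗ
            (LinearMap.ker ρ).subtype) (by
          intro v
          obtain ⟨δ, hδ⟩ := (mem_tan _ _).1 v.1.2
          have hv : ∀ p, v.1.1 (Sum.inr p) = 0 := fun p => congrFun (LinearMap.mem_ker.1 v.2) p
          have e1 : (fun p => (y p).1.map δ) = 0 := by
            funext p
            exact (hδ (Sum.inr p)).trans (hv p)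
          have e2 := hWδ δ
          rw [map_der_Wp δ y l₂, e1, map_zero, mul_zero, add_zero] at e2
          have e3 := congrArg (fun Z => Z * ((Wp y l₂)⁻¹).1) e2
          simp only [mul_assoc, hinv', mul_one, zero_mul] at e3
          rw [map_der_Wp] at e3
          rw [LinearMap.mem_ker, ← e3]
          congr 1
          funext p
          exact (hδ (Sum.inl p)).symm)
      apply LinearMap.finrank_le_finrank_of_injective (f := ψ)
      intro a b hab
      have ha : ∀ p, a.1.1 (Sum.inr p) = 0 := fun p => congrFun (LinearMap.mem_ker.1 a.2) p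
      have hb : ∀ p, b.1.1 (Sum.inr p) = 0 := fun p => congrFun (LinearMap.mem_ker.1 b.2) p
      have hab' := congrArg Subtype.val hab
      refine Subtype.ext (Subtype.ext (funext fun p => ?_))
      cases p with
      | inr p => rw [ha, hb]
      | inl p => exact congrFun hab' p
    omega
  have B1 := finrank_ker_dW y l₂ hl₂ hm₂
  have B2 := finrank_ker_dW x l₁ hl₁ hm₁
  have C1 := tan_bound (F := F) (fun p => (x p).1) (by
    rw [Fintype.card_prod, Fintype.card_bool]; omega)
  have C2 := tan_bound (F := F) (fun p => (y p).1) (by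
    rw [Fintype.card_prod, Fintype.card_bool]; omega)
  rw [Fintype.card_prod, Fintype.card_bool] at C1 C2
  have e1 : 2 * Fintype.card ι₁ * n ^ 2 = Fintype.card ι₁ * 2 * n ^ 2 := by ring
  have e2 : 2 * Fintype.card ι₂ * n ^ 2 = Fintype.card ι₂ * 2 * n ^ 2 := by ring
  have e3 : (2 * Fintype.card ι₁ + 2 * Fintype.card ι₂) * n ^ 2 =
    Fintype.card ι₁ * 2 * n ^ 2 + Fintype.card ι₂ * 2 * n ^ 2 := by ring
  rw [e1] at B2
  rw [e2] at B1
  rw [e3] at hD
  apply Submodule.eq_top_of_finrank_eq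
  apply le_antisymm (Submodule.finrank_le _)
  rw [Module.finrank_pi_fintype]
  simp only [finrank_mat, Finset.sum_const, Finset.card_univ, Fintype.card_prod, Fintype.card_bool,
    smul_eq_mul]
  by_cases hy : 2 ≤ finrank E (cen fun p => (y p).1)
  · have C2' := C2 hy
    by_cases hx : 2 ≤ finrank E (cen fun p => (x p).1)
    · have C1' := C1 hx
      omega
    · omega
  · omega

end Crest.Agent.R003.Cg
end

-- ▼ part R003/Cg475F
section

/-!
# R3 (S0003), Part 3 (iv): the first handle of a generic solution is a generic pair (helper475)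
-/

set_option autoImplicit false

namespace Crest.Agent.R003.Cg

open Matrix Module Polynomial

universe u v

variable {F : Type v} {E : Type u} [Field F] [Field E] [Algebra F E] {n : ℕ}

theorem Wp_map {ι κ : Type*} (T : κ × Bool → GL (Fin n) E) (f : ι → κ) (l : List ι) :
    Wp T (l.map f) = Wp (fun p : ι × Bool => T (f p.1, p.2)) l := by
  rw [Wp, Wp, List.map_map]; rfl

theorem Wp_finRange_succ {g : ℕ} (T : Fin (g + 1) × Bool → GL (Fin n) E) :
    Wp T (List.finRange (g + 1)) =
      Wp (fun p : Unit × Bool => T (0, p.2)) [()] *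
        Wp (fun p : Fin g × Bool => T (p.1.succ, p.2)) (List.finRange g) := by
  rw [List.finRange_succ, Wp_cons, Wp_map, Wp_cons, Wp_nil, mul_one]

theorem gen_indep [CharZero F] {g : ℕ} (hg : 1 ≤ g) (T : Fin (g + 1) × Bool → GL (Fin n) E) (c : F)
    (hT : (Wp T (List.finRange (g + 1))).1 = Matrix.scalar (Fin n) (algebraMap F E c))
    (htd : 2 * (g + 1) * n ^ 2 + 1 ≤ td F (Set.range fun q : (Fin (g + 1) × Bool) × Fin n × Fin n =>
      (T q.1).1 q.2.1 q.2.2) + n ^ 2) :
    AlgebraicIndependent F (Sum.elim (fun p : Fin n × Fin n => (T (0, false)).1 p.1 p.2)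
      (fun p : Fin n × Fin n => (T (0, true)).1 p.1 p.2)) := by
  classical
  have : CharZero E := charZero_of_injective_algebraMap (algebraMap F E).injective
  let x : Unit × Bool → GL (Fin n) E := fun p => T (0, p.2)
  let y : Fin g × Bool → GL (Fin n) E := fun p => T (p.1.succ, p.2)
  have hcount := count (F := F) x y [()] (List.finRange g) (by simp) (List.nodup_finRange g)
    (by simp) (List.mem_finRange) c (by
      rw [← hT, Wp_finRange_succ]) (by simp) (by simpa using hg) (by
      -- rank of the tangent space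
      let J := (Unit × Bool) ⊕ (Fin g × Bool)
      let X : J → Matrix (Fin n) (Fin n) E := Sum.elim (fun p => (x p).1) (fun p => (y p).1)
      let e : Fin (g + 1) × Bool → J := fun q => Fin.cases (motive := fun _ => J) (Sum.inl ((), q.2))
        (fun i => Sum.inr (i, q.2)) q.1
      have he : ∀ q, X (e q) = (T q).1 := by
        rintro ⟨i, b⟩
        cases i using Fin.cases with
        | zero => rfl
        | succ i => rfl
      let Ψ : (J → Matrix (Fin n) (Fin n) E) →ₗ[E]
          ((Fin (g + 1) × Bool) × Fin n × Fin n → E) :=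
        { toFun := fun v q => v (e q.1) q.2.1 q.2.2
          map_add' := fun a b => rfl
          map_smul' := fun a b => rfl }
      have h1 : derSpan F (fun q : (Fin (g + 1) × Bool) × Fin n × Fin n =>
          (T q.1).1 q.2.1 q.2.2) ≤ (tan F X).map Ψ := by
        rw [derSpan, Submodule.span_le]
        rintro _ ⟨δ, rfl⟩
        refine ⟨fun j => (X j).map δ, (mem_tan _ _).2 ⟨δ, fun j => rfl⟩, ?_⟩
        funext q
        change ((X (e q.1)).map δ) q.2.1 q.2.2 = _
        rw [he, Matrix.map_apply]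
      have h2 := td_le_finrank_derSpan (K := F) (fun q : (Fin (g + 1) × Bool) × Fin n × Fin n =>
          (T q.1).1 q.2.1 q.2.2)
      have h3 := Submodule.finrank_mono h1
      have h4 : finrank E ((tan F X).map Ψ) ≤ finrank E (tan F X) := Submodule.finrank_map_le _ _
      have h5 : (2 * Fintype.card Unit + 2 * Fintype.card (Fin g)) * n ^ 2 =
        2 * (g + 1) * n ^ 2 := by
        rw [Fintype.card_unit, Fintype.card_fin]; ring
      rw [h5]
      change _ ≤ finrank E (tan F X) + n ^ 2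
      omega)
  apply algebraicIndependent_of_derivation_span
  rw [eq_top_iff]
  intro v _
  have h6 : (fun p : Unit × Bool => Matrix.of fun i j =>
      v (if p.2 then Sum.inr (i, j) else Sum.inl (i, j))) ∈ tan F (fun p => (x p).1) := by
    rw [hcount]; trivial
  obtain ⟨δ, hδ⟩ := (mem_tan _ _).1 h6
  apply Submodule.subset_span
  refine ⟨δ, ?_⟩
  funext q
  rcases q with p | p
  · have := congrFun (congrFun (hδ ((), false)) p.1) p.2
    simpa [x] using this
  · have := congrFun (congrFun (hδ ((), true)) p.1) p.2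
    simpa [x] using this

end Crest.Agent.R003.Cg
end

-- ▼ part R003/Gen576
section

/-!
# R3 (S0003), Part 3(v): from the special solutions `(g D g⁻¹ c, B, …)` to all solutions
-/

set_option autoImplicit false

namespace Crest.Agent.R003

namespace Gen

open Matrix MvPolynomial

universe u v w

section ring

variable {ι : Type*} {n : ℕ} {R : Type*} [CommRing R]

/-- product of commutators with adjugates instead of inverses -/
def Wadj (M : ι × Bool → Matrix (Fin n) (Fin n) R) (l : List ι) : Matrix (Fin n) (Fin n) R :=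
  (l.map fun i => M (i, false) * M (i, true) * adjugate (M (i, false)) *
    adjugate (M (i, true))).prod

/-- the product of the determinants -/
def dd (M : ι × Bool → Matrix (Fin n) (Fin n) R) (l : List ι) : R :=
  (l.map fun i => (M (i, false)).det * (M (i, true)).det).prod

theorem Wadj_map {S : Type*} [CommRing S] (φ : R →+* S)
    (M : ι × Bool → Matrix (Fin n) (Fin n) R) (l : List ι) :
    (Wadj M l).map φ = Wadj (fun p => (M p).map φ) l := by
  induction l with
  | nil => simp [Wadj]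
  | cons i l ih =>
    simp only [Wadj, List.map_cons, List.prod_cons] at ih ⊢
    rw [Matrix.map_mul, ih, Matrix.map_mul, Matrix.map_mul, Matrix.map_mul]
    have h1 : ∀ N : Matrix (Fin n) (Fin n) R, (adjugate N).map φ = adjugate (N.map φ) := fun N =>
      (RingHom.map_adjugate φ N)
    rw [h1, h1]

theorem dd_map {S : Type*} [CommRing S] (φ : R →+* S)
    (M : ι × Bool → Matrix (Fin n) (Fin n) R) (l : List ι) :
    φ (dd M l) = dd (fun p => (M p).map φ) l := by
  induction l with
  | nil => simp [dd]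
  | cons i l ih =>
    simp only [dd, List.map_cons, List.prod_cons] at ih ⊢
    rw [map_mul, ih, map_mul]
    have h1 : ∀ N : Matrix (Fin n) (Fin n) R, φ N.det = (N.map φ).det := fun N =>
      (RingHom.map_det φ N)
    rw [h1, h1]

theorem adjugate_units (T : GL (Fin n) R) : adjugate T.1 = T.1.det • (T⁻¹).1 := by
  have h1 : T.1 * adjugate T.1 = T.1.det • 1 := Matrix.mul_adjugate T.1
  have h2 : (T⁻¹).1 * T.1 = 1 := by rw [← Units.val_mul, inv_mul_cancel]; rfl
  calc adjugate T.1 = ((T⁻¹).1 * T.1) * adjugate T.1 := by rw [h2, one_mul]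
    _ = (T⁻¹).1 * (T.1 * adjugate T.1) := by rw [mul_assoc]
    _ = T.1.det • (T⁻¹).1 := by rw [h1, Matrix.mul_smul, mul_one]

theorem Wadj_GL (T : ι × Bool → GL (Fin n) R) (l : List ι) :
    Wadj (fun p => (T p).1) l = dd (fun p => (T p).1) l •
      ((l.map fun i => T (i, false) * T (i, true) * (T (i, false))⁻¹ *
        (T (i, true))⁻¹).prod).1 := by
  induction l with
  | nil => simp [Wadj, dd]
  | cons i l ih =>
    simp only [Wadj, dd, List.map_cons, List.prod_cons] at ih ⊢
    rw [ih, adjugate_units, adjugate_units]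
    simp only [Units.val_mul, Matrix.mul_smul, Matrix.smul_mul, smul_smul]
    congr 1
    ring

theorem det_comm_prod (T : ι × Bool → GL (Fin n) R) (l : List ι) :
    (((l.map fun i => T (i, false) * T (i, true) * (T (i, false))⁻¹ *
        (T (i, true))⁻¹).prod).1).det = 1 := by
  induction l with
  | nil => simp
  | cons i l ih =>
    rw [List.map_cons, List.prod_cons, Units.val_mul, Matrix.det_mul, ih, mul_one]
    simp only [Units.val_mul, Matrix.det_mul]
    have h1 : ∀ g : GL (Fin n) R, g.1.det * (g⁻¹).1.det = 1 := by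
      intro g
      rw [← Matrix.det_mul, ← Units.val_mul, mul_inv_cancel]
      simp
    calc _ = ((T (i, false)).1.det * ((T (i, false))⁻¹).1.det) *
          ((T (i, true)).1.det * ((T (i, true))⁻¹).1.det) := by ring
      _ = 1 := by rw [h1, h1, one_mul]

end ring

/-- a `K`-algebra of finite type (nontrivial) over an algebraically closed field has a point -/
theorem exists_algHom {K : Type u} [Field K] [IsAlgClosed K] (R : Type v) [CommRing R] [Nontrivial R]
    [Algebra K R] [Algebra.FiniteType K R] : Nonempty (R →ₐ[K] K) := by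
  obtain ⟨m, hm⟩ := Ideal.exists_maximal R
  let _ : Field (R ⧸ m) := Ideal.Quotient.field m
  have h1 : Algebra.FiniteType K (R ⧸ m) :=
    Algebra.FiniteType.of_surjective (Ideal.Quotient.mkₐ K m) (Ideal.Quotient.mkₐ_surjective K m)
  have h2 : Module.Finite K (R ⧸ m) := finite_of_finite_type_of_isJacobsonRing K (R ⧸ m)
  have h3 : Function.Bijective (algebraMap K (R ⧸ m)) :=
    IsAlgClosed.algebraMap_bijective_of_isIntegral
  let e : K ≃ₐ[K] (R ⧸ m) := AlgEquiv.ofBijective (Algebra.ofId K (R ⧸ m)) h3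
  exact ⟨e.symm.toAlgHom.comp (Ideal.Quotient.mkₐ K m)⟩

section gen

variable {J : Type} {k : ℕ}

/-- the generic family of matrices -/
noncomputable def gen (J : Type) (k : ℕ) (p : J) :
    Matrix (Fin k) (Fin k) (MvPolynomial (J × Fin k × Fin k) ℂ) :=
  Matrix.of fun a b => X (p, a, b)

theorem gen_map {R : Type*} [CommRing R] [Algebra ℂ R] (T : J → Matrix (Fin k) (Fin k) R) (p : J) :
    (gen J k p).map (aeval (R := ℂ) fun q : J × Fin k × Fin k => T q.1 q.2.1 q.2.2) = T p := by
  ext a b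
  simp [gen]

/-- clearing denominators -/
theorem exists_clear [Fintype J] {F : (J → G k) → ℂ} (hF : F ∈ Pol J k) :
    ∃ (f : MvPolynomial (J × Fin k × Fin k) ℂ) (N : ℕ), ∀ T : J → G k,
      F T * (∏ p, (T p).1.det) ^ N = aeval (fun q : J × Fin k × Fin k => (T q.1).1 q.2.1 q.2.2) f := by
  classical
  let dp : MvPolynomial (J × Fin k × Fin k) ℂ := ∏ p, (gen J k p).det
  have hdet : ∀ (T : J → G k) p, aeval (fun q : J × Fin k × Fin k => (T q.1).1 q.2.1 q.2.2)
      (gen J k p).det = (T p).1.det := by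
    intro T p
    rw [AlgHom.map_det, AlgHom.mapMatrix_apply]
    congr 1
    exact gen_map (fun p => (T p).1) p
  have hdp : ∀ T : J → G k, aeval (fun q : J × Fin k × Fin k => (T q.1).1 q.2.1 q.2.2) dp =
      ∏ p, (T p).1.det := by
    intro T
    rw [map_prod]
    exact Finset.prod_congr rfl (fun p _ => hdet T p)
  induction hF using Algebra.adjoin_induction with
  | mem F hF =>
    rcases hF with ⟨x, i, j, rfl⟩ | ⟨x, i, j, rfl⟩
    · exact ⟨X (x, i, j), 0, fun T => by simp⟩
    · refine ⟨adjugate (gen J k x) i j * ∏ p ∈ Finset.univ.erase x, (gen J k p).det, 1, ?_⟩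
      intro T
      rw [map_mul, map_prod, pow_one]
      have h1 : aeval (fun q : J × Fin k × Fin k => (T q.1).1 q.2.1 q.2.2)
          (adjugate (gen J k x) i j) = (T x).1.det * ((T x)⁻¹).1 i j := by
        have h2 : ((adjugate (gen J k x)).map
            (aeval (R := ℂ) fun q : J × Fin k × Fin k => (T q.1).1 q.2.1 q.2.2)) =
            adjugate (T x).1 := by
          have h3 := RingHom.map_adjugate
            (aeval (R := ℂ) fun q : J × Fin k × Fin k => (T q.1).1 q.2.1 q.2.2).toRingHom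
            (gen J k x)
          have h4 : (aeval (R := ℂ) fun q : J × Fin k × Fin k =>
              (T q.1).1 q.2.1 q.2.2).toRingHom.mapMatrix (gen J k x) = (T x).1 :=
            gen_map (fun p => (T p).1) x
          rw [h4] at h3
          exact h3
        have h5 := congrFun (congrFun h2 i) j
        rw [Matrix.map_apply, adjugate_units, Matrix.smul_apply, smul_eq_mul] at h5
        exact h5
      rw [h1, ← Finset.mul_prod_erase Finset.univ _ (Finset.mem_univ x)]
      rw [Finset.prod_congr rfl (fun p _ => hdet T p)]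
      ring
  | algebraMap r =>
    refine ⟨C r, 0, fun T => ?_⟩
    rw [pow_zero, mul_one, aeval_C]
    rfl
  | add F1 F2 _ _ h1 h2 =>
    obtain ⟨f1, N1, h1⟩ := h1
    obtain ⟨f2, N2, h2⟩ := h2
    refine ⟨f1 * dp ^ N2 + f2 * dp ^ N1, N1 + N2, fun T => ?_⟩
    rw [map_add, map_mul, map_mul, map_pow, map_pow, hdp, ← h1, ← h2, Pi.add_apply]
    ring
  | mul F1 F2 _ _ h1 h2 =>
    obtain ⟨f1, N1, h1⟩ := h1
    obtain ⟨f2, N2, h2⟩ := h2
    refine ⟨f1 * f2, N1 + N2, fun T => ?_⟩
    rw [map_mul, ← h1, ← h2, Pi.mul_apply]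
    ring

theorem scal_val (k : ℕ) (ξ : ℂˣ) : (scal k k ξ).1 = Matrix.scalar (Fin k) (ξ : ℂ) := by
  ext a b
  change Matrix.diagonal (fun i : Fin k => ((if i.1 < k then ξ else 1 : ℂˣ) : ℂ)) a b = _
  rw [Matrix.scalar_apply, Matrix.diagonal_apply, Matrix.diagonal_apply]
  simp

/-- specialisation to `ℂ` of a solution over a field `E ⊇ ℂ` of the special form -/
theorem specialise_special {E : Type u} [Field E] [Algebra ℂ E] {h : ℕ} (i0 : Fin h)
    (TE : Fin h × Bool → GL (Fin k) E) (ξ : ℂˣ)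
    (hZ : (((List.finRange h).map fun i => TE (i, false) * TE (i, true) * (TE (i, false))⁻¹ *
        (TE (i, true))⁻¹).prod).1 = Matrix.scalar (Fin k) (algebraMap ℂ E ξ))
    (D : Fin k → ℂˣ) (H H1 Cm C1 : Matrix (Fin k) (Fin k) E) (hH : H * H1 = 1)
    (hC : Cm * C1 = 1) (hcomm : Cm * (TE (i0, true)).1 = (TE (i0, true)).1 * Cm)
    (hA : (TE (i0, false)).1 = H * diagonal (fun i => algebraMap ℂ E (D i)) * H1 * Cm)
    (hsep : (TE (i0, true)).1.charpoly.Separable)
    (f : MvPolynomial ((Fin h × Bool) × Fin k × Fin k) ℂ)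
    (hf : aeval (fun q : (Fin h × Bool) × Fin k × Fin k => (TE q.1).1 q.2.1 q.2.2) f ≠ 0) :
    ∃ T1 ∈ Gl.Z k h ξ, (∃ g c : G k, c * T1 (i0, true) = T1 (i0, true) * c ∧
      T1 (i0, false) = g * dg D * g⁻¹ * c) ∧ (T1 (i0, true)).1.charpoly.Separable ∧
      aeval (fun q : (Fin h × Bool) × Fin k × Fin k => (T1 q.1).1 q.2.1 q.2.2) f ≠ 0 := by
  classical
  -- the element to be inverted
  let x : (Fin h × Bool) × Fin k × Fin k → E := fun q => (TE q.1).1 q.2.1 q.2.2
  let w : E := aeval x f * Polynomial.resultant (TE (i0, true)).1.charpoly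
    (Polynomial.derivative (TE (i0, true)).1.charpoly) k k * ∏ p, (TE p).1.det
  have hw : w ≠ 0 := by
    refine mul_ne_zero (mul_ne_zero hf ?_) ?_
    · exact (separable_iff_resultant (Matrix.charpoly_monic _)
        (by rw [Matrix.charpoly_natDegree_eq_dim, Fintype.card_fin])).1 hsep
    · rw [Finset.prod_ne_zero_iff]
      intro p _
      exact ((Matrix.isUnit_iff_isUnit_det _).1 (TE p).isUnit).ne_zero
  let S : Set E := Set.range x ∪ Set.range (fun q : Fin k × Fin k => H q.1 q.2) ∪
    Set.range (fun q : Fin k × Fin k => H1 q.1 q.2) ∪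
    Set.range (fun q : Fin k × Fin k => Cm q.1 q.2) ∪
    Set.range (fun q : Fin k × Fin k => C1 q.1 q.2) ∪ {w⁻¹}
  have hSfin : S.Finite := by
    refine ((((Set.finite_range _).union (Set.finite_range _)).union (Set.finite_range _)).union
      (Set.finite_range _)).union (Set.finite_range _) |>.union (Set.finite_singleton _)
  let R0 := Algebra.adjoin ℂ S
  have hft : Algebra.FiniteType ℂ R0 := by
    rw [← Subalgebra.fg_iff_finiteType]
    exact Subalgebra.fg_def.2 ⟨S, hSfin, rfl⟩
  obtain ⟨φ⟩ := exists_algHom (K := ℂ) R0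
  have hmem : ∀ {z : E}, z ∈ S → z ∈ R0 := fun hz => Algebra.subset_adjoin hz
  have hxm : ∀ q, x q ∈ R0 := fun q => hmem (by
    simp only [S, Set.mem_union, Set.mem_range]
    exact Or.inl (Or.inl (Or.inl (Or.inl (Or.inl ⟨q, rfl⟩)))))
  have hHm : ∀ a b, H a b ∈ R0 := fun a b => hmem (by
    simp only [S, Set.mem_union, Set.mem_range]
    exact Or.inl (Or.inl (Or.inl (Or.inl (Or.inr ⟨(a, b), rfl⟩)))))
  have hH1m : ∀ a b, H1 a b ∈ R0 := fun a b => hmem (by
    simp only [S, Set.mem_union, Set.mem_range]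
    exact Or.inl (Or.inl (Or.inl (Or.inr ⟨(a, b), rfl⟩))))
  have hCm : ∀ a b, Cm a b ∈ R0 := fun a b => hmem (by
    simp only [S, Set.mem_union, Set.mem_range]
    exact Or.inl (Or.inl (Or.inr ⟨(a, b), rfl⟩)))
  have hC1m : ∀ a b, C1 a b ∈ R0 := fun a b => hmem (by
    simp only [S, Set.mem_union, Set.mem_range]
    exact Or.inl (Or.inr ⟨(a, b), rfl⟩))
  have hwm : w⁻¹ ∈ R0 := hmem (by simp [S])
  -- lifting
  let j : R0 →+* E := R0.val.toRingHom
  have hj : Function.Injective j := Subtype.val_injective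
  have hjM : ∀ {M N : Matrix (Fin k) (Fin k) R0}, M.map j = N.map j → M = N := by
    intro M N hMN
    ext a b : 1
    exact hj (congrFun (congrFun hMN a) b)
  let T0 : Fin h × Bool → Matrix (Fin k) (Fin k) R0 := fun p =>
    Matrix.of fun a b => ⟨x (p, a, b), hxm _⟩
  let H0 : Matrix (Fin k) (Fin k) R0 := Matrix.of fun a b => ⟨H a b, hHm a b⟩
  let H10 : Matrix (Fin k) (Fin k) R0 := Matrix.of fun a b => ⟨H1 a b, hH1m a b⟩
  let C0 : Matrix (Fin k) (Fin k) R0 := Matrix.of fun a b => ⟨Cm a b, hCm a b⟩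
  let C10 : Matrix (Fin k) (Fin k) R0 := Matrix.of fun a b => ⟨C1 a b, hC1m a b⟩
  have hT0 : ∀ p, (T0 p).map j = (TE p).1 := fun p => by ext a b; rfl
  have hH0 : H0.map j = H := by ext a b; rfl
  have hH10 : H10.map j = H1 := by ext a b; rfl
  have hC0 : C0.map j = Cm := by ext a b; rfl
  have hC10 : C10.map j = C1 := by ext a b; rfl
  have hjalg : ∀ a : ℂ, j (algebraMap ℂ R0 a) = algebraMap ℂ E a := fun a => rfl
  have hone : (1 : Matrix (Fin k) (Fin k) R0).map j = 1 :=
    Matrix.map_one _ (map_zero _) (map_one _)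
  -- identities over `R0`
  have eH : H0 * H10 = 1 := hjM (by rw [Matrix.map_mul, hH0, hH10, hH, hone])
  have eC : C0 * C10 = 1 := hjM (by rw [Matrix.map_mul, hC0, hC10, hC, hone])
  have ecomm : C0 * T0 (i0, true) = T0 (i0, true) * C0 := hjM (by
    rw [Matrix.map_mul, Matrix.map_mul, hC0, hT0, hcomm])
  have eA : T0 (i0, false) = H0 * diagonal (fun i => algebraMap ℂ R0 (D i)) * H10 * C0 := hjM (by
    rw [Matrix.map_mul, Matrix.map_mul, Matrix.map_mul, hH0, hH10, hC0, hT0, hA,
      Matrix.diagonal_map (map_zero _)]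
    rfl)
  have eW : Wadj T0 (List.finRange h) = dd T0 (List.finRange h) •
      Matrix.scalar (Fin k) (algebraMap ℂ R0 ξ) := hjM (by
    rw [Wadj_map]
    have h1 : (fun p => (T0 p).map j) = fun p => (TE p).1 := funext hT0
    rw [h1, Wadj_GL, hZ]
    ext a b
    rw [Matrix.map_apply, Matrix.smul_apply, Matrix.smul_apply, smul_eq_mul, smul_eq_mul, map_mul,
      dd_map, h1]
    congr 1
    rw [Matrix.scalar_apply, Matrix.scalar_apply, Matrix.diagonal_apply, Matrix.diagonal_apply]
    split_ifs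
    · rfl
    · simp)
  -- the inverted element
  let x0 : (Fin h × Bool) × Fin k × Fin k → R0 := fun q => ⟨x q, hxm q⟩
  let w0 : R0 := aeval x0 f * Polynomial.resultant (T0 (i0, true)).charpoly
    (Polynomial.derivative (T0 (i0, true)).charpoly) k k * ∏ p, (T0 p).det
  have hx0 : j (aeval x0 f) = aeval x f := by
    have h1 := MvPolynomial.map_aeval x0 j f
    rw [h1, MvPolynomial.aeval_def]
    rfl
  have hw0 : j w0 = w := by
    simp only [w0, w, map_mul, map_prod]
    rw [hx0]
    congr 1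
    · congr 1
      rw [← Polynomial.resultant_map_map, ← Polynomial.derivative_map, ← Matrix.charpoly_map, hT0]
    · refine Finset.prod_congr rfl (fun p _ => ?_)
      rw [← hT0 p]
      exact RingHom.map_det j (T0 p)
  have hw1 : w0 * ⟨w⁻¹, hwm⟩ = 1 := hj (by
    rw [map_mul, hw0, map_one]
    exact mul_inv_cancel₀ hw)
  have hφw : φ w0 ≠ 0 := by
    intro h0
    have := congrArg φ hw1
    rw [map_mul, h0, zero_mul, map_one] at this
    exact zero_ne_one this
  have hφ1 : φ (aeval x0 f) ≠ 0 := by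
    intro h0; apply hφw; simp only [w0, map_mul, h0, zero_mul]
  have hφ2 : φ (Polynomial.resultant (T0 (i0, true)).charpoly
      (Polynomial.derivative (T0 (i0, true)).charpoly) k k) ≠ 0 := by
    intro h0; apply hφw; simp only [w0, map_mul, h0, zero_mul, mul_zero]
  have hφ3 : ∀ p, φ ((T0 p).det) ≠ 0 := by
    intro p h0
    apply hφw
    have : φ (∏ p, (T0 p).det) = 0 := by
      rw [map_prod]; exact Finset.prod_eq_zero (Finset.mem_univ p) h0
    simp only [w0, map_mul, this, mul_zero]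
  -- the point over `ℂ`
  let φr : R0 →+* ℂ := φ.toRingHom
  have hdet : ∀ p, ((T0 p).map φr).det ≠ 0 := fun p => by
    rw [show ((T0 p).map φr).det = φ ((T0 p).det) from (RingHom.map_det φr (T0 p)).symm]
    exact hφ3 p
  let T1 : Fin h × Bool → G k := fun p => Matrix.GeneralLinearGroup.mkOfDetNeZero _ (hdet p)
  have hT1 : ∀ p, (T1 p).1 = (T0 p).map φr := fun p => rfl
  have honeφ : (1 : Matrix (Fin k) (Fin k) R0).map φr = 1 :=
    Matrix.map_one _ (map_zero _) (map_one _)
  have fH : H0.map φr * H10.map φr = 1 := by rw [← Matrix.map_mul, eH, honeφ]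
  have fC : C0.map φr * C10.map φr = 1 := by rw [← Matrix.map_mul, eC, honeφ]
  let g : G k := ⟨H0.map φr, H10.map φr, fH, mul_eq_one_comm.1 fH⟩
  let c : G k := ⟨C0.map φr, C10.map φr, fC, mul_eq_one_comm.1 fC⟩
  refine ⟨T1, ?_, ⟨g, c, ?_, ?_⟩, ?_, ?_⟩
  · have h1 := Wadj_map φr T0 (List.finRange h)
    have h2 : (fun p => (T0 p).map φr) = fun p => (T1 p).1 := rfl
    rw [h2, Wadj_GL, eW] at h1
    have h3 : dd (fun p => (T1 p).1) (List.finRange h) ≠ 0 := by
      unfold dd
      apply List.prod_ne_zero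
      intro h0
      rw [List.mem_map] at h0
      obtain ⟨i, _, hi⟩ := h0
      rcases mul_eq_zero.1 hi with h4 | h4
      · exact hdet _ h4
      · exact hdet _ h4
    have h4 : (dd T0 (List.finRange h) • Matrix.scalar (Fin k) (algebraMap ℂ R0 ξ)).map φr =
        dd (fun p => (T1 p).1) (List.finRange h) • Matrix.scalar (Fin k) (ξ : ℂ) := by
      ext a b
      rw [Matrix.map_apply, Matrix.smul_apply, Matrix.smul_apply, smul_eq_mul, smul_eq_mul, map_mul,
        dd_map, h2]
      congr 1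
      rw [Matrix.scalar_apply, Matrix.scalar_apply, Matrix.diagonal_apply, Matrix.diagonal_apply]
      split_ifs
      · exact φ.commutes _
      · simp
    rw [h4] at h1
    have h5 := smul_right_injective _ h3 h1
    change ((List.finRange h).map fun i => T1 (i, false) * T1 (i, true) * (T1 (i, false))⁻¹ *
      (T1 (i, true))⁻¹).prod = scal k k ξ
    apply Units.ext
    rw [← h5, scal_val]
  · apply Units.ext
    rw [Units.val_mul, Units.val_mul]
    change C0.map φr * (T0 (i0, true)).map φr = (T0 (i0, true)).map φr * C0.map φr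
    rw [← Matrix.map_mul, ← Matrix.map_mul, ecomm]
  · apply Units.ext
    rw [Units.val_mul, Units.val_mul, Units.val_mul]
    change (T0 (i0, false)).map φr = H0.map φr * diagonal (fun i => (D i : ℂ)) * H10.map φr *
      C0.map φr
    rw [eA, Matrix.map_mul, Matrix.map_mul, Matrix.map_mul, Matrix.diagonal_map (map_zero _)]
    congr 3
    have h6 : (fun i => φr (algebraMap ℂ R0 (D i : ℂ))) = fun i => (D i : ℂ) := by
      funext i
      exact φ.commutes _
    rw [← h6]
  · rw [separable_iff_resultant (Matrix.charpoly_monic _)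
      (by rw [Matrix.charpoly_natDegree_eq_dim, Fintype.card_fin])]
    have h6 : (T1 (i0, true)).1.charpoly = (T0 (i0, true)).charpoly.map φr := by
      rw [hT1, Matrix.charpoly_map]
    rw [h6, Polynomial.derivative_map, Polynomial.resultant_map_map]
    exact hφ2
  · have h6 : aeval (fun q : (Fin h × Bool) × Fin k × Fin k => (T1 q.1).1 q.2.1 q.2.2) f =
        φ (aeval x0 f) := by
      rw [← AlgHom.comp_apply, MvPolynomial.comp_aeval]
      rfl
    rw [h6]
    exact hφ1

theorem aeval_Wadj {ι : Type} {R : Type*} [CommRing R] [Algebra ℂ R]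
    (T : ι × Bool → Matrix (Fin k) (Fin k) R) (l : List ι) (a b : Fin k) :
    aeval (fun q : (ι × Bool) × Fin k × Fin k => T q.1 q.2.1 q.2.2)
      (Wadj (gen (ι × Bool) k) l a b) = Wadj T l a b := by
  have h1 := Wadj_map (aeval (R := ℂ)
    fun q : (ι × Bool) × Fin k × Fin k => T q.1 q.2.1 q.2.2).toRingHom (gen (ι × Bool) k) l
  have h2 : (fun p => (gen (ι × Bool) k p).map (aeval (R := ℂ)
      fun q : (ι × Bool) × Fin k × Fin k => T q.1 q.2.1 q.2.2).toRingHom) = T :=
    funext fun p => gen_map T p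
  rw [h2] at h1
  rw [← h1]
  rfl

theorem aeval_dd {ι : Type} {R : Type*} [CommRing R] [Algebra ℂ R]
    (T : ι × Bool → Matrix (Fin k) (Fin k) R) (l : List ι) :
    aeval (fun q : (ι × Bool) × Fin k × Fin k => T q.1 q.2.1 q.2.2)
      (dd (gen (ι × Bool) k) l) = dd T l := by
  have h1 := dd_map (aeval (R := ℂ)
    fun q : (ι × Bool) × Fin k × Fin k => T q.1 q.2.1 q.2.2).toRingHom (gen (ι × Bool) k) l
  have h2 : (fun p => (gen (ι × Bool) k p).map (aeval (R := ℂ)
      fun q : (ι × Bool) × Fin k × Fin k => T q.1 q.2.1 q.2.2).toRingHom) = T :=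
    funext fun p => gen_map T p
  rw [h2] at h1
  rw [← h1]
  rfl

theorem dd_ne_zero {ι : Type} {E : Type*} [Field E] (T : ι × Bool → GL (Fin k) E) (l : List ι) :
    dd (fun p => (T p).1) l ≠ 0 := by
  unfold dd
  apply List.prod_ne_zero
  intro h0
  rw [List.mem_map] at h0
  obtain ⟨i, _, hi⟩ := h0
  rcases mul_eq_zero.1 hi with h4 | h4
  · exact ((Matrix.isUnit_iff_isUnit_det _).1 (T (i, false)).isUnit).ne_zero h4
  · exact ((Matrix.isUnit_iff_isUnit_det _).1 (T (i, true)).isUnit).ne_zero h4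

/-- Part 3(v): if all special solutions (`A₁ = g D g⁻¹ c`, `c` commuting with the separable `B₁`) are
approximable, then all solutions are. -/
theorem appr_of_special {O : Subring ℂ} {g : ℕ} (hk : 1 ≤ k) (hg : 1 ≤ g) (D : Fin k → ℂˣ)
    (hD : Function.Injective D) (ξ : ℂˣ)
    (hsp : ∀ T1 ∈ Gl.Z k (g + 1) ξ, (∃ a c : G k, c * T1 (0, true) = T1 (0, true) * c ∧
      T1 (0, false) = a * dg D * a⁻¹ * c) → (T1 (0, true)).1.charpoly.Separable →
      Appr O (Gl.Z k (g + 1) ξ) Set.univ T1) :
    ∀ T ∈ Gl.Z k (g + 1) ξ, Appr O (Gl.Z k (g + 1) ξ) Set.univ T := by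
  classical
  intro T hT F hF hv
  by_contra hne
  obtain ⟨f, N, hf⟩ := exists_clear hF
  let J := Fin (g + 1) × Bool
  let l := List.finRange (g + 1)
  let last : Fin k := ⟨k - 1, by omega⟩
  let m := {ab : Fin k × Fin k // ab ≠ (last, last)}
  let ent : J × Fin k × Fin k → ℂ := fun q => (T q.1).1 q.2.1 q.2.2
  let P : m → MvPolynomial (J × Fin k × Fin k) ℂ := fun ab =>
    Wadj (gen J k) l ab.1.1 ab.1.2 - dd (gen J k) l * C (Matrix.scalar (Fin k) (ξ : ℂ) ab.1.1 ab.1.2)
  have hTW : (((List.finRange (g + 1)).map fun i => T (i, false) * T (i, true) * (T (i, false))⁻¹ *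
      (T (i, true))⁻¹).prod) = scal k k ξ := hT
  have hξ : (ξ : ℂ) ^ k = 1 := by
    have h1 := det_comm_prod T l
    rw [hTW, scal_val] at h1
    rw [Matrix.scalar_apply, Matrix.det_diagonal] at h1
    simpa using h1
  have hP : ∀ ab, eval ent (P ab) = 0 := by
    intro ab
    have h1 : ∀ p : MvPolynomial (J × Fin k × Fin k) ℂ, eval ent p = aeval ent p := fun p => by
      rw [MvPolynomial.aeval_eq_eval]
    rw [h1]
    simp only [P, map_sub, map_mul]
    rw [aeval_Wadj (fun p => (T p).1), aeval_dd (fun p => (T p).1), Wadj_GL, hTW, scal_val,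
      Matrix.smul_apply, smul_eq_mul, aeval_C]
    simp
  obtain ⟨E, _, _, _, x, hxP, hxT, hcard⟩ := exists_generic P ent hP
  let TEm : J → Matrix (Fin k) (Fin k) E := fun p => Matrix.of fun a b => x (p, a, b)
  have hTEx : (fun q : J × Fin k × Fin k => TEm q.1 q.2.1 q.2.2) = x := rfl
  have hdet : ∀ p, (TEm p).det ≠ 0 := by
    intro p h0
    have h1 : aeval x ((gen J k p).det) = 0 := by
      rw [← h0, AlgHom.map_det, AlgHom.mapMatrix_apply]
      congr 1
      exact gen_map TEm p
    have h2 := hxT _ h1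
    have h3 : eval ent ((gen J k p).det) = (T p).1.det := by
      rw [RingHom.map_det, RingHom.mapMatrix_apply]
      congr 1
      ext a b
      simp [gen, ent]
    rw [h3] at h2
    exact ((Matrix.isUnit_iff_isUnit_det _).1 (T p).isUnit).ne_zero h2
  let TE : J → GL (Fin k) E := fun p => Matrix.GeneralLinearGroup.mkOfDetNeZero _ (hdet p)
  have hTE : ∀ p, (TE p).1 = TEm p := fun p => rfl
  have hξE : (algebraMap ℂ E ξ) ^ k = 1 := by rw [← map_pow, hξ, map_one]
  have hξ0 : algebraMap ℂ E ξ ≠ 0 := by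
    rw [Ne, map_eq_zero_iff _ (algebraMap ℂ E).injective]
    exact ξ.ne_zero
  -- the equation over `E`
  have hW : ((l.map fun i => TE (i, false) * TE (i, true) * (TE (i, false))⁻¹ *
      (TE (i, true))⁻¹).prod).1 = Matrix.scalar (Fin k) (algebraMap ℂ E ξ) := by
    obtain ⟨W, hWdef⟩ : ∃ W, W = ((l.map fun i => TE (i, false) * TE (i, true) *
      (TE (i, false))⁻¹ * (TE (i, true))⁻¹).prod).1 := ⟨_, rfl⟩
    have hdetW : W.det = 1 := by rw [hWdef]; exact det_comm_prod TE l
    have hent : ∀ a b, (a, b) ≠ (last, last) →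
        W a b = Matrix.scalar (Fin k) (algebraMap ℂ E ξ) a b := by
      intro a b hab
      have h1 := hxP ⟨(a, b), hab⟩
      simp only [P, map_sub, map_mul] at h1
      rw [← hTEx, aeval_Wadj TEm, aeval_dd TEm, sub_eq_zero] at h1
      have h2 := congrFun (congrFun (Wadj_GL TE l) a) b
      rw [← hWdef, Matrix.smul_apply, smul_eq_mul] at h2
      have h3 : Wadj TEm l a b = Wadj (fun p => (TE p).1) l a b := rfl
      rw [h3, h2] at h1
      have h4 := mul_left_cancel₀ (dd_ne_zero TE l) h1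
      rw [h4, aeval_C, Matrix.scalar_apply, Matrix.scalar_apply, Matrix.diagonal_apply,
        Matrix.diagonal_apply]
      split_ifs
      · rfl
      · simp
    have hdiag : W = diagonal (fun i => if i = last then W last last else algebraMap ℂ E ξ) := by
      ext a b
      rw [Matrix.diagonal_apply]
      by_cases hab : (a, b) = (last, last)
      · rw [Prod.mk.injEq] at hab
        rw [hab.1, hab.2]; simp
      · rw [hent a b hab, Matrix.scalar_apply, Matrix.diagonal_apply]
        split_ifs with h1 h2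
        · exfalso; apply hab; rw [← h1, h2]
        · rfl
        · rfl
    have hlast : W last last = algebraMap ℂ E ξ := by
      rw [hdiag, Matrix.det_diagonal, ← Finset.mul_prod_erase Finset.univ _ (Finset.mem_univ last)]
        at hdetW
      rw [if_pos rfl] at hdetW
      have h1 : ∏ x ∈ Finset.univ.erase last, (if x = last then W last last else algebraMap ℂ E ξ) =
          (algebraMap ℂ E ξ) ^ (k - 1) := by
        rw [Finset.prod_congr rfl (fun i hi => if_neg (Finset.ne_of_mem_erase hi)),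
          Finset.prod_const, Finset.card_erase_of_mem (Finset.mem_univ _), Finset.card_univ,
          Fintype.card_fin]
      rw [h1] at hdetW
      have h2 : algebraMap ℂ E ξ * (algebraMap ℂ E ξ) ^ (k - 1) = 1 := by
        rw [← pow_succ', show k - 1 + 1 = k by omega, hξE]
      exact mul_right_cancel₀ (pow_ne_zero (k - 1) hξ0) (hdetW.trans h2.symm)
    rw [← hWdef]
    rw [hdiag, hlast, Matrix.scalar_apply]
    congr 1
    funext i
    split_ifs <;> rfl
  -- transcendence degree
  have htd : 2 * (g + 1) * k ^ 2 + 1 ≤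
      td ℂ (Set.range fun q : (Fin (g + 1) × Bool) × Fin k × Fin k => (TE q.1).1 q.2.1 q.2.2) +
        k ^ 2 := by
    have h1 : Nat.card (J × Fin k × Fin k) = 2 * (g + 1) * k ^ 2 := by
      rw [Nat.card_eq_fintype_card]
      simp only [J, Fintype.card_prod, Fintype.card_fin, Fintype.card_bool]
      ring
    have h2 : Nat.card m = k ^ 2 - 1 := by
      rw [Nat.card_eq_fintype_card]
      simp only [m]
      rw [Fintype.card_subtype_compl (fun ab : Fin k × Fin k => ab = (last, last)),
        Fintype.card_subtype_eq, Fintype.card_prod, Fintype.card_fin, pow_two]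
    have h3 : (fun q : (Fin (g + 1) × Bool) × Fin k × Fin k => (TE q.1).1 q.2.1 q.2.2) = x := rfl
    rw [h3]
    rw [h1, h2] at hcard
    have h4 : 1 ≤ k ^ 2 := Nat.one_le_pow _ _ (by omega)
    omega
  have hind := Cg.gen_indep (F := ℂ) hg TE (ξ : ℂ) hW htd
  obtain ⟨H, H1, q, hH, hH', hA, hsep, hu⟩ := frame (K := ℂ) (TE (0, false)).1 (TE (0, true)).1 hind
    (D := fun i => (D i : ℂ)) (fun i j hij => hD (Units.ext hij)) (fun i => (D i).ne_zero)
  obtain ⟨cu, hcu⟩ := hu
  have hcomm : (Polynomial.aeval (TE (0, true)).1 q) * (TE (0, true)).1 =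
      (TE (0, true)).1 * (Polynomial.aeval (TE (0, true)).1 q) := by
    have h1 : Polynomial.aeval (TE (0, true)).1 (q * Polynomial.X) =
        Polynomial.aeval (TE (0, true)).1 (Polynomial.X * q) := by rw [mul_comm]
    rwa [map_mul, map_mul, Polynomial.aeval_X] at h1
  have hfx : aeval (fun q : (Fin (g + 1) × Bool) × Fin k × Fin k => (TE q.1).1 q.2.1 q.2.2) f ≠ 0 := by
    intro h0
    have h1 : eval ent f = 0 := hxT f h0
    have h2 := hf T
    have h3 : aeval ent f = eval ent f := by rw [MvPolynomial.aeval_eq_eval]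
    change F T * _ = aeval ent f at h2
    rw [h3, h1] at h2
    rcases mul_eq_zero.1 h2 with h4 | h4
    · exact hne h4
    · have h6 : (∏ p, (T p).1.det) ≠ 0 := by
        rw [Finset.prod_ne_zero_iff]
        intro p _
        exact ((Matrix.isUnit_iff_isUnit_det _).1 (T p).isUnit).ne_zero
      exact pow_ne_zero _ h6 h4
  obtain ⟨T1, hT1, ⟨a, c, hc1, hc2⟩, hT1s, hT1f⟩ := specialise_special (0 : Fin (g + 1)) TE ξ hW D H H1
    (Polynomial.aeval (TE (0, true)).1 q) (cu⁻¹).1 hH
    (by rw [← hcu, ← Units.val_mul, mul_inv_cancel]; rfl) hcomm hA hsep f hfx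
  have h1 := hsp T1 hT1 ⟨a, c, hc1, hc2⟩ hT1s F hF hv
  have h2 := hf T1
  rw [h1, zero_mul] at h2
  exact hT1f h2.symm

end gen

end Gen

end Crest.Agent.R003
end

-- ▼ part R003/WD518A
section

/-!
# Row 3: upper triangular matrices with separated diagonal (helper518)

For `d` upper triangular with diagonal `D` (pairwise distinct entries) the matrix `v` whose columns are
the columns of the Lagrange idempotents `e_b(d)` conjugates `d` to the diagonal matrix `D`.
-/

set_option autoImplicit false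

namespace Crest.Agent.R003.WD

open Matrix Polynomial

variable {k : ℕ}

/-- upper triangular with diagonal `D` -/
def UT (D : Fin k → ℂ) (d : Matrix (Fin k) (Fin k) ℂ) : Prop :=
  (∀ i j, j < i → d i j = 0) ∧ ∀ i, d i i = D i

theorem UT.mul {D D' : Fin k → ℂ} {d d' : Matrix (Fin k) (Fin k) ℂ} (h : UT D d) (h' : UT D' d') :
    UT (fun i => D i * D' i) (d * d') := by
  refine ⟨fun i j hij => ?_, fun i => ?_⟩
  · rw [Matrix.mul_apply]
    refine Finset.sum_eq_zero fun l _ => ?_
    rcases lt_or_ge l i with hl | hl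
    · rw [h.1 i l hl, zero_mul]
    · rw [h'.1 l j (lt_of_lt_of_le hij hl), mul_zero]
  · rw [Matrix.mul_apply, Finset.sum_eq_single i]
    · rw [h.2, h'.2]
    · intro l _ hl
      rcases lt_or_gt_of_ne hl with hl | hl
      · rw [h.1 i l hl, zero_mul]
      · rw [h'.1 l i hl, mul_zero]
    · simp

theorem UT.add {D D' : Fin k → ℂ} {d d' : Matrix (Fin k) (Fin k) ℂ} (h : UT D d) (h' : UT D' d') :
    UT (fun i => D i + D' i) (d + d') :=
  ⟨fun i j hij => by rw [Matrix.add_apply, h.1 i j hij, h'.1 i j hij, add_zero],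
    fun i => by rw [Matrix.add_apply, h.2, h'.2]⟩

theorem UT.smul {D : Fin k → ℂ} {d : Matrix (Fin k) (Fin k) ℂ} (c : ℂ) (h : UT D d) :
    UT (fun i => c * D i) (c • d) :=
  ⟨fun i j hij => by rw [Matrix.smul_apply, h.1 i j hij, smul_zero],
    fun i => by rw [Matrix.smul_apply, h.2, smul_eq_mul]⟩

theorem UT.one : UT (fun _ => 1) (1 : Matrix (Fin k) (Fin k) ℂ) :=
  ⟨fun i j hij => by rw [Matrix.one_apply, if_neg (ne_of_gt hij)], fun i => by simp⟩

theorem UT.pow {D : Fin k → ℂ} {d : Matrix (Fin k) (Fin k) ℂ} (h : UT D d) (m : ℕ) :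
    UT (fun i => D i ^ m) (d ^ m) := by
  induction m with
  | zero => simpa using UT.one
  | succ m ih =>
    have := ih.mul h
    simpa [pow_succ] using this

theorem UT.aeval {D : Fin k → ℂ} {d : Matrix (Fin k) (Fin k) ℂ} (h : UT D d) (f : ℂ[X]) :
    UT (fun i => f.eval (D i)) (Polynomial.aeval d f) := by
  induction f using Polynomial.induction_on' with
  | add p q hp hq =>
    have := hp.add hq
    simpa using this
  | monomial m c =>
    have := (h.pow m).smul c
    simpa [Polynomial.aeval_monomial, Algebra.algebraMap_eq_smul_one, ← smul_eq_mul, smul_mul_assoc]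
      using this

theorem UT.charpoly {D : Fin k → ℂ} {d : Matrix (Fin k) (Fin k) ℂ} (h : UT D d) :
    d.charpoly = ∏ i, (X - C (D i)) := by
  rw [Matrix.charpoly_of_isUpperTriangular d (fun i j hij => h.1 i j hij)]
  exact Finset.prod_congr rfl fun i _ => by rw [h.2]

theorem UT.aeval_eq_zero {D : Fin k → ℂ} {d : Matrix (Fin k) (Fin k) ℂ} (h : UT D d)
    (hD : Function.Injective D) (f : ℂ[X]) (hf : ∀ i, f.eval (D i) = 0) :
    Polynomial.aeval d f = 0 := by
  have h1 : (∏ i, (X - C (D i)) : ℂ[X]) ∣ f := by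
    refine Finset.prod_dvd_of_coprime ?_ fun i _ => ?_
    · intro i _ j _ hij
      exact Polynomial.pairwise_coprime_X_sub_C hD hij
    · rw [Polynomial.dvd_iff_isRoot]
      exact hf i
  obtain ⟨g, rfl⟩ := h1
  rw [← h.charpoly, map_mul, Matrix.aeval_self_charpoly, zero_mul]

/-- Lagrange polynomial -/
noncomputable def eP (D : Fin k → ℂ) (b : Fin k) : ℂ[X] :=
  ∏ j ∈ Finset.univ.erase b, (C ((D b - D j)⁻¹) * (X - C (D j)))

theorem eP_eval {D : Fin k → ℂ} (hD : Function.Injective D) (b i : Fin k) :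
    (eP D b).eval (D i) = if i = b then 1 else 0 := by
  unfold eP
  rw [Polynomial.eval_prod]
  split_ifs with h
  · subst h
    refine Finset.prod_eq_one fun j hj => ?_
    have hj' : i ≠ j := (Finset.ne_of_mem_erase hj).symm
    have : D i - D j ≠ 0 := sub_ne_zero.2 (hD.ne hj')
    simp [this]
  · refine Finset.prod_eq_zero (i := i) (Finset.mem_erase.2 ⟨h, Finset.mem_univ i⟩) ?_
    simp

/-- the conjugating matrix `v` (columns) -/
noncomputable def vM (D : Fin k → ℂ) (d : Matrix (Fin k) (Fin k) ℂ) : Matrix (Fin k) (Fin k) ℂ :=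
  Matrix.of fun a b => (Polynomial.aeval d (eP D b)) a b

/-- its inverse `w` (rows) -/
noncomputable def wM (D : Fin k → ℂ) (d : Matrix (Fin k) (Fin k) ℂ) : Matrix (Fin k) (Fin k) ℂ :=
  Matrix.of fun a b => (Polynomial.aeval d (eP D a)) a b

theorem wM_mul_vM {D : Fin k → ℂ} {d : Matrix (Fin k) (Fin k) ℂ} (h : UT D d)
    (hD : Function.Injective D) : wM D d * vM D d = 1 := by
  ext a c
  have h1 : (wM D d * vM D d) a c =
      (Polynomial.aeval d (eP D a) * Polynomial.aeval d (eP D c)) a c := by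
    rw [Matrix.mul_apply, Matrix.mul_apply]
    rfl
  rw [h1, ← map_mul]
  rcases eq_or_ne a c with rfl | hac
  · have h2 : Polynomial.aeval d (eP D a * eP D a - eP D a) = 0 := by
      refine h.aeval_eq_zero hD _ fun i => ?_
      simp only [Polynomial.eval_sub, Polynomial.eval_mul, eP_eval hD]
      split_ifs <;> simp
    rw [map_sub, sub_eq_zero] at h2
    rw [h2, (h.aeval (eP D a)).2]
    simp [eP_eval hD]
  · have h2 : Polynomial.aeval d (eP D a * eP D c) = 0 := by
      refine h.aeval_eq_zero hD _ fun i => ?_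
      simp only [Polynomial.eval_mul, eP_eval hD]
      split_ifs with h3 h4
      · exact absurd (h3.symm.trans h4) hac
      all_goals simp
    rw [h2, Matrix.zero_apply, Matrix.one_apply, if_neg hac]

theorem vM_mul_wM {D : Fin k → ℂ} {d : Matrix (Fin k) (Fin k) ℂ} (h : UT D d)
    (hD : Function.Injective D) : vM D d * wM D d = 1 :=
  mul_eq_one_comm.1 (wM_mul_vM h hD)

theorem mul_vM {D : Fin k → ℂ} {d : Matrix (Fin k) (Fin k) ℂ} (h : UT D d)
    (hD : Function.Injective D) : d * vM D d = vM D d * Matrix.diagonal D := by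
  ext a c
  have h1 : (d * vM D d) a c = (d * Polynomial.aeval d (eP D c)) a c := by
    rw [Matrix.mul_apply, Matrix.mul_apply]
    rfl
  have h2 : Polynomial.aeval d (X * eP D c - C (D c) * eP D c) = 0 := by
    refine h.aeval_eq_zero hD _ fun i => ?_
    simp only [Polynomial.eval_sub, Polynomial.eval_mul, Polynomial.eval_X, Polynomial.eval_C,
      eP_eval hD]
    split_ifs with h3
    · subst h3; simp
    · simp
  rw [map_sub, map_mul, map_mul, sub_eq_zero, Polynomial.aeval_X, Polynomial.aeval_C] at h2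
  rw [h1, h2, Matrix.mul_diagonal, Algebra.algebraMap_eq_smul_one, smul_mul_assoc, one_mul,
    Matrix.smul_apply, smul_eq_mul, mul_comm]
  rfl

theorem vM_diagonal {D : Fin k → ℂ} (hD : Function.Injective D) : vM D (Matrix.diagonal D) = 1 := by
  ext a c
  have h : UT D (Matrix.diagonal D) :=
    ⟨fun i j hij => by rw [Matrix.diagonal_apply_ne _ (ne_of_gt hij)], fun i => by simp⟩
  have hL : ∀ f : ℂ[X], ∀ a c, a ≠ c → Polynomial.aeval (Matrix.diagonal D) f a c = 0 := by
    intro f
    induction f using Polynomial.induction_on' with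
    | add p q hp hq =>
      intro a c hac
      rw [map_add, Matrix.add_apply, hp a c hac, hq a c hac, add_zero]
    | monomial m r =>
      intro a c hac
      rw [Polynomial.aeval_monomial, Matrix.diagonal_pow, Algebra.algebraMap_eq_smul_one,
        smul_mul_assoc, one_mul, Matrix.smul_apply, Matrix.diagonal_apply_ne _ hac, smul_zero]
  rcases eq_or_ne a c with rfl | hac
  · change (Polynomial.aeval (Matrix.diagonal D) (eP D a)) a a = (1 : Matrix (Fin k) (Fin k) ℂ) a a
    rw [(h.aeval _).2 a]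
    simp only [eP_eval hD, Matrix.one_apply_eq, if_true]
  · change (Polynomial.aeval (Matrix.diagonal D) (eP D c)) a c = (1 : Matrix (Fin k) (Fin k) ℂ) a c
    rw [hL _ a c hac, Matrix.one_apply, if_neg hac]

/-- integrality: polynomials whose value at every `O`-matrix is an `O`-matrix -/
theorem eP_integral {D : Fin k → ℂ} (O : Subring ℂ) (hO : ∀ i, D i ∈ O)
    (hu : ∀ i j, i ≠ j → (D i - D j)⁻¹ ∈ O) {d : Matrix (Fin k) (Fin k) ℂ}
    (hd : ∀ i j, d i j ∈ O) (b : Fin k) : ∀ i j, Polynomial.aeval d (eP D b) i j ∈ O := by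
  unfold eP
  have key : ∀ s : Finset (Fin k), (∀ j ∈ s, j ≠ b) → ∀ i j,
      Polynomial.aeval d (∏ j ∈ s, (C ((D b - D j)⁻¹) * (X - C (D j)))) i j ∈ O := by
    intro s
    induction s using Finset.induction_on with
    | empty =>
      intro _ i j
      rw [Finset.prod_empty, map_one, Matrix.one_apply]
      split_ifs
      · exact O.one_mem
      · exact O.zero_mem
    | insert a s ha ih =>
      intro hs i j
      rw [Finset.prod_insert ha, map_mul, Matrix.mul_apply]
      refine O.sum_mem fun l _ => O.mul_mem ?_ (ih (fun j hj => hs j (Finset.mem_insert_of_mem hj)) l j)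
      rw [map_mul, map_sub, Polynomial.aeval_X, Polynomial.aeval_C, Polynomial.aeval_C,
        Algebra.algebraMap_eq_smul_one, Algebra.algebraMap_eq_smul_one, smul_mul_assoc, one_mul,
        Matrix.smul_apply, smul_eq_mul, Matrix.sub_apply, Matrix.smul_apply, Matrix.one_apply]
      refine O.mul_mem (hu _ _ (Ne.symm (hs a (Finset.mem_insert_self _ _)))) (O.sub_mem (hd _ _) ?_)
      rw [smul_eq_mul]
      refine O.mul_mem (hO a) ?_
      split_ifs
      · exact O.one_mem
      · exact O.zero_mem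
  exact key _ fun j hj => Finset.ne_of_mem_erase hj

/-- polynomiality -/
theorem aeval_mem_Pol {ι : Type} {n : ℕ} (d : (ι → G n) → Matrix (Fin k) (Fin k) ℂ)
    (hd : ∀ i j, (fun ρ => d ρ i j) ∈ Pol ι n) (f : ℂ[X]) :
    ∀ i j, (fun ρ => Polynomial.aeval (d ρ) f i j) ∈ Pol ι n := by
  have hpow : ∀ m : ℕ, ∀ i j, (fun ρ => (d ρ ^ m) i j) ∈ Pol ι n := by
    intro m
    induction m with
    | zero =>
      intro i j
      have : (fun ρ : ι → G n => (d ρ ^ 0) i j) =
          algebraMap ℂ ((ι → G n) → ℂ) ((1 : Matrix (Fin k) (Fin k) ℂ) i j) := by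
        funext ρ
        rw [pow_zero]
        rfl
      rw [this]
      exact Subalgebra.algebraMap_mem _ _
    | succ m ih =>
      intro i j
      have : (fun ρ : ι → G n => (d ρ ^ (m + 1)) i j) =
          ∑ l, (fun ρ => (d ρ ^ m) i l) * (fun ρ => d ρ l j) := by
        funext ρ
        rw [pow_succ, Matrix.mul_apply, Finset.sum_apply]
        rfl
      rw [this]
      exact Subalgebra.sum_mem _ fun l _ => Subalgebra.mul_mem _ (ih i l) (hd l j)
  induction f using Polynomial.induction_on' with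
  | add p q hp hq =>
    intro i j
    have : (fun ρ => Polynomial.aeval (d ρ) (p + q) i j) =
        (fun ρ => Polynomial.aeval (d ρ) p i j) + (fun ρ => Polynomial.aeval (d ρ) q i j) := by
      funext ρ
      rw [map_add]
      rfl
    rw [this]
    exact Subalgebra.add_mem _ (hp i j) (hq i j)
  | monomial m c =>
    intro i j
    have : (fun ρ => Polynomial.aeval (d ρ) (Polynomial.monomial m c) i j) =
        c • (fun ρ => (d ρ ^ m) i j) := by
      funext ρ
      rw [Polynomial.aeval_monomial, Algebra.algebraMap_eq_smul_one, smul_mul_assoc, one_mul]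
      rfl
    rw [this]
    exact Subalgebra.smul_mem _ (hpow m i j) c

end Crest.Agent.R003.WD
end

-- ▼ part R003/WD518B
section

/-!
# Row 3: polynomial maps, the map lemma, and the polynomial map `vG` (helper518)
-/

set_option autoImplicit false

namespace Crest.Agent.R003.WD

open Matrix Polynomial

section pol

variable {ι κ : Type} {n m : ℕ} {S : Set (ι → G n)}

theorem polG_name (S : Set (ι → G n)) (x : ι) : PolG S (fun ρ => ρ x) := by
  intro i j
  refine ⟨⟨fun ρ => (ρ x).1 i j, ?_, fun _ _ => rfl⟩, ⟨fun ρ => ((ρ x)⁻¹).1 i j, ?_, fun _ _ => rfl⟩⟩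
  · exact Algebra.subset_adjoin (Or.inl ⟨x, i, j, rfl⟩)
  · exact Algebra.subset_adjoin (Or.inr ⟨x, i, j, rfl⟩)

theorem const_mem_Pol (c : ℂ) : (fun _ : ι → G n => c) ∈ Pol ι n :=
  Subalgebra.algebraMap_mem (Pol ι n) c


theorem polG_inv {Φ : (ι → G n) → G m} (h : PolG S Φ) : PolG S (fun ρ => (Φ ρ)⁻¹) := by
  intro i j
  refine ⟨(h i j).2, ?_⟩
  obtain ⟨F, hF, hF'⟩ := (h i j).1
  exact ⟨F, hF, fun ρ hρ => by rw [inv_inv]; exact hF' ρ hρ⟩

theorem mul_aux {A B : (ι → G n) → Matrix (Fin m) (Fin m) ℂ}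
    (hA : ∀ i j, ∃ F ∈ Pol ι n, ∀ ρ ∈ S, A ρ i j = F ρ)
    (hB : ∀ i j, ∃ F ∈ Pol ι n, ∀ ρ ∈ S, B ρ i j = F ρ) (i j : Fin m) :
    ∃ F ∈ Pol ι n, ∀ ρ ∈ S, (A ρ * B ρ) i j = F ρ := by
  choose FA hFA hFA' using hA
  choose FB hFB hFB' using hB
  refine ⟨∑ l, FA i l * FB l j, Subalgebra.sum_mem _ fun l _ => Subalgebra.mul_mem _ (hFA i l) (hFB l j),
    fun ρ hρ => ?_⟩
  rw [Matrix.mul_apply, Finset.sum_apply]
  exact Finset.sum_congr rfl fun l _ => by rw [Pi.mul_apply, hFA' i l ρ hρ, hFB' l j ρ hρ]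

theorem polG_mul {Φ Ψ : (ι → G n) → G m} (h : PolG S Φ) (h' : PolG S Ψ) :
    PolG S (fun ρ => Φ ρ * Ψ ρ) := by
  intro i j
  constructor
  · obtain ⟨F, hF, hF'⟩ := mul_aux (fun i j => (h i j).1) (fun i j => (h' i j).1) i j
    exact ⟨F, hF, fun ρ hρ => hF' ρ hρ⟩
  · obtain ⟨F, hF, hF'⟩ := mul_aux (fun i j => (h' i j).2) (fun i j => (h i j).2) i j
    refine ⟨F, hF, fun ρ hρ => ?_⟩
    rw [_root_.mul_inv_rev]
    exact hF' ρ hρ

/-- composition with a polynomial map -/
theorem pol_comp {Φ : (ι → G n) → (κ → G m)} (hΦ : ∀ x, PolG S (fun ρ => Φ ρ x))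
    (F : (κ → G m) → ℂ) (hF : F ∈ Pol κ m) : ∃ F' ∈ Pol ι n, ∀ ρ ∈ S, F (Φ ρ) = F' ρ := by
  unfold Pol at hF
  induction hF using Algebra.adjoin_induction with
  | mem F hF =>
    rcases hF with ⟨x, i, j, rfl⟩ | ⟨x, i, j, rfl⟩
    · exact (hΦ x i j).1
    · exact (hΦ x i j).2
  | algebraMap c => exact ⟨_, const_mem_Pol c, fun _ _ => rfl⟩
  | add F F' _ _ h h' =>
    obtain ⟨a, ha, ha'⟩ := h
    obtain ⟨b, hb, hb'⟩ := h'
    exact ⟨a + b, Subalgebra.add_mem _ ha hb, fun ρ hρ => by
      rw [Pi.add_apply, Pi.add_apply, ha' ρ hρ, hb' ρ hρ]⟩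
  | mul F F' _ _ h h' =>
    obtain ⟨a, ha, ha'⟩ := h
    obtain ⟨b, hb, hb'⟩ := h'
    exact ⟨a * b, Subalgebra.mul_mem _ ha hb, fun ρ hρ => by
      rw [Pi.mul_apply, Pi.mul_apply, ha' ρ hρ, hb' ρ hρ]⟩

/-- THE MAP LEMMA between different index types and sizes -/
theorem appr_map {O : Subring ℂ} {Q : Set ι} {ρ : ι → G n} (hρ : ρ ∈ S) (h : Appr O S Q ρ)
    (S' : Set (κ → G m)) (Q' : Set κ) (Φ : (ι → G n) → (κ → G m))
    (hΦ : ∀ x, PolG S (fun ρ => Φ ρ x)) (hS : ∀ ρ ∈ S, Φ ρ ∈ S')
    (hQ : ∀ ρ ∈ S, (∀ x ∈ Q, ρ x ∈ GO O n) → ∀ y ∈ Q', Φ ρ y ∈ GO O m) :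
    Appr O S' Q' (Φ ρ) := by
  intro F hF hF0
  obtain ⟨F', hF', hE⟩ := pol_comp hΦ F hF
  rw [hE ρ hρ]
  refine h F' hF' fun ρ' hρ' hi => ?_
  rw [← hE ρ' hρ']
  exact hF0 _ (hS ρ' hρ') (hQ ρ' hρ' hi)

end pol

section v

variable {k : ℕ}

open Classical in
/-- the conjugating matrix as an element of `G k` -/
noncomputable def vG (D : Fin k → ℂ) (d : G k) : G k :=
  if h : UT D d.1 ∧ Function.Injective D then
    ⟨vM D d.1, wM D d.1, vM_mul_wM h.1 h.2, wM_mul_vM h.1 h.2⟩ else 1

theorem vG_val {D : Fin k → ℂ} {d : G k} (h : UT D d.1) (hD : Function.Injective D) :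
    (vG D d).1 = vM D d.1 := by
  unfold vG
  rw [dif_pos ⟨h, hD⟩]

theorem vG_inv_val {D : Fin k → ℂ} {d : G k} (h : UT D d.1) (hD : Function.Injective D) :
    ((vG D d)⁻¹).1 = wM D d.1 := by
  unfold vG
  rw [dif_pos ⟨h, hD⟩]
  rfl

theorem mul_vG {D : Fin k → ℂˣ} {d : G k} (h : UT (fun i => (D i : ℂ)) d.1)
    (hD : Function.Injective D) : d * vG (fun i => (D i : ℂ)) d = vG (fun i => (D i : ℂ)) d * dg D := by
  have hD' : Function.Injective fun i => (D i : ℂ) := fun i j hij => hD (Units.ext hij)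
  apply Units.ext
  rw [Units.val_mul, Units.val_mul, vG_val h hD', mul_vM h hD']
  rfl

theorem vG_dg {D : Fin k → ℂˣ} (hD : Function.Injective D) :
    vG (fun i => (D i : ℂ)) (dg D) = 1 := by
  have hD' : Function.Injective fun i => (D i : ℂ) := fun i j hij => hD (Units.ext hij)
  have h : UT (fun i => (D i : ℂ)) (dg D).1 :=
    ⟨fun i j hij => Matrix.diagonal_apply_ne _ (ne_of_gt hij), fun i => Matrix.diagonal_apply_eq _ _⟩
  apply Units.ext
  rw [vG_val h hD']
  exact vM_diagonal hD'

theorem vG_GO {D : Fin k → ℂ} (O : Subring ℂ) (hO : ∀ i, D i ∈ O)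
    (hu : ∀ i j, i ≠ j → (D i - D j)⁻¹ ∈ O) {d : G k} (hd : d ∈ GO O k) : vG D d ∈ GO O k := by
  by_cases h : UT D d.1 ∧ Function.Injective D
  · intro i j
    rw [vG_val h.1 h.2, vG_inv_val h.1 h.2]
    exact ⟨eP_integral O hO hu (fun i j => (hd i j).1) j i j,
      eP_integral O hO hu (fun i j => (hd i j).1) i i j⟩
  · unfold vG
    rw [dif_neg h]
    exact (GO O k).one_mem

theorem polG_vG {ι : Type} {n : ℕ} {S : Set (ι → G n)} {D : Fin k → ℂ}
    (hD : Function.Injective D) {Φ : (ι → G n) → G k} (hΦ : PolG S Φ)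
    (h : ∀ ρ ∈ S, UT D (Φ ρ).1) : PolG S (fun ρ => vG D (Φ ρ)) := by
  have hd : ∀ i j, ∃ F ∈ Pol ι n, ∀ ρ ∈ S, (Φ ρ).1 i j = F ρ := fun i j => (hΦ i j).1
  choose F hF hF' using hd
  set d : (ι → G n) → Matrix (Fin k) (Fin k) ℂ := fun ρ => Matrix.of fun i j => F i j ρ with hdd
  have hdP : ∀ i j, (fun ρ => d ρ i j) ∈ Pol ι n := fun i j => hF i j
  have hdE : ∀ ρ ∈ S, (Φ ρ).1 = d ρ := by
    intro ρ hρ
    ext i j
    exact hF' i j ρ hρ
  intro i j
  refine ⟨⟨_, aeval_mem_Pol d hdP (eP D j) i j, fun ρ hρ => ?_⟩,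
    ⟨_, aeval_mem_Pol d hdP (eP D i) i j, fun ρ hρ => ?_⟩⟩
  · rw [vG_val (h ρ hρ) hD, hdE ρ hρ]
    rfl
  · rw [vG_inv_val (h ρ hρ) hD, hdE ρ hρ]
    rfl

/-- the pair of equations used for `B₁` -/
theorem vG_conj {D : Fin k → ℂˣ} (hD : Function.Injective D) {d d' : G k}
    (h : UT (fun i => (D i : ℂ)) d.1) (h' : UT (fun i => (D i : ℂ)) (d'⁻¹).1) (h1 h2 : G k) :
    let B := h2 * vG (fun i => (D i : ℂ)) d'⁻¹ * (vG (fun i => (D i : ℂ)) d)⁻¹ * h1⁻¹
    B * (h1 * d * h1⁻¹)⁻¹ * B⁻¹ = h2 * d' * h2⁻¹ := by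
  intro B
  have e1 := mul_vG h hD
  have e2 := mul_vG h' hD
  set v := vG (fun i => (D i : ℂ)) d
  set v' := vG (fun i => (D i : ℂ)) d'⁻¹
  have e1' : d = v * dg D * v⁻¹ := by rw [← e1, mul_assoc, mul_inv_cancel, mul_one]
  have e2' : d'⁻¹ = v' * dg D * v'⁻¹ := by rw [← e2, mul_assoc, mul_inv_cancel, mul_one]
  have e3 : d' = v' * (dg D)⁻¹ * v'⁻¹ := by
    rw [← inv_inv d', e2']
    group
  change h2 * v' * v⁻¹ * h1⁻¹ * (h1 * d * h1⁻¹)⁻¹ * (h2 * v' * v⁻¹ * h1⁻¹)⁻¹ = _
  rw [e3, e1']
  group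

end v

end Crest.Agent.R003.WD
end

-- ▼ part R003/WD518C
section

/-!
# Row 3: nested P-words (helper518)

`nestW p L`, `nestR p L` for a list `L` of blocks `(size, scalar)`: a word and auxiliary roots whose
solutions are the block upper triangular matrices with scalar diagonal blocks and arbitrary entries
above them. Names used: `p, .., p + 3 * (L.length - 1) - 1`.
-/

set_option autoImplicit false

namespace Crest.Agent.R003.WD

open Matrix Polynomial

/-! ### contiguous labels -/

/-- `m` zeros followed by `r` ones -/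
abbrev stdl (m r : ℕ) : List Bool := List.replicate m false ++ List.replicate r true

theorem stdl_length (m r : ℕ) : (stdl m r).length = m + r := by simp [stdl]

theorem count_false_stdl (m r : ℕ) : (stdl m r).count false = m := by
  simp [stdl, List.count_append, List.count_replicate]

theorem count_true_stdl (m r : ℕ) : (stdl m r).count true = r := by
  simp [stdl, List.count_append, List.count_replicate]

theorem lab_stdl (m r i : ℕ) : lab (stdl m r) i =
    if i < m then some false else if i < m + r then some true else none := by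
  simp only [lab, stdl, List.getElem?_append, List.length_replicate, List.getElem?_replicate]
  split_ifs <;> first | rfl | omega

theorem take_count_false (m r i : ℕ) (h : i ≤ m) : ((stdl m r).take i).count false = i := by
  rw [stdl, List.take_append_of_le_length (by simpa using h), List.take_replicate,
    List.count_replicate]
  simp [h]

theorem take_count_true (m r i : ℕ) (_h : m ≤ i) (h' : i ≤ m + r) :
    ((stdl m r).take i).count true = i - m := by
  rw [stdl, List.take_append, List.length_replicate, List.count_append, List.take_replicate,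
    List.take_replicate, List.count_replicate, List.count_replicate]
  simp
  omega

theorem isPar_std_iff {n m r : ℕ} {g : Bool → G n} {P : G n} :
    IsPar (stdl m r) (stdl m r) g P ↔ m + r ≤ n ∧ P ∈ GLk n (m + r) ∧ g false ∈ GLk n m ∧
      g true ∈ GLk n r ∧ (∀ i j : Fin n, m ≤ i.1 → i.1 < m + r → j.1 < m → P.1 i j = 0) ∧
      (∀ i j : Fin n, i.1 < m → j.1 < m → P.1 i j = (g false).1 i j) ∧
      (∀ i j u v : Fin n, i.1 < m + r → j.1 < m + r → i.1 = u.1 + m → j.1 = v.1 + m →
        P.1 i j = (g true).1 u v) := by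
  constructor
  · intro h
    refine ⟨by simpa using h.len, by simpa using h.mem, ?_, ?_, ?_, ?_, ?_⟩
    · have := h.blk false; rwa [count_false_stdl] at this
    · have := h.blk true; rwa [count_true_stdl] at this
    · intro i j hi hi' hj
      refine h.zero i j true false ?_ ?_ (by decide)
      · rw [lab_stdl, if_neg (by omega), if_pos hi']
      · rw [lab_stdl, if_pos hj]
    · intro i j hi hj
      refine h.diag i j i j false ?_ ?_ ?_ ?_
      · rw [lab_stdl, if_pos hi]
      · rw [lab_stdl, if_pos hj]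
      · rw [take_count_false _ _ _ hi.le]
      · rw [take_count_false _ _ _ hj.le]
    · intro i j u v hi hj hu hv
      refine h.diag i j u v true ?_ ?_ ?_ ?_
      · rw [lab_stdl, if_neg (by omega), if_pos hi]
      · rw [lab_stdl, if_neg (by omega), if_pos hj]
      · rw [take_count_true _ _ _ (by omega) hi.le]; omega
      · rw [take_count_true _ _ _ (by omega) hj.le]; omega
  · rintro ⟨h1, h2, h3, h4, h5, h6, h7⟩
    refine ⟨by simpa using h1, fun _ => rfl, by simpa using h2, ?_, ?_, ?_⟩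
    · rintro (_ | _)
      · rw [count_false_stdl]; exact h3
      · rw [count_true_stdl]; exact h4
    · intro i j a b ha hb hab
      rw [lab_stdl] at ha hb
      split_ifs at ha hb with k1 k2 k3 k4 <;> simp only [Option.some.injEq] at ha hb <;> subst ha <;>
        subst hb
      · exact absurd le_rfl hab
      · exact absurd (by decide) hab
      · exact h5 i j (by omega) (by omega) (by omega)
      · exact absurd le_rfl hab
    · intro i j u v a ha hb hu hv
      rw [lab_stdl] at ha hb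
      split_ifs at ha hb with k1 k2 k3 k4 <;> simp only [Option.some.injEq] at ha hb <;> subst ha
      · rw [take_count_false _ _ _ (by omega)] at hu hv
        have e1 : u = i := Fin.ext hu
        have e2 : v = j := Fin.ext hv
        rw [e1, e2]
        exact h6 i j (by omega) (by omega)
      · exact absurd hb (by decide)
      · exact absurd hb (by decide)
      · rw [take_count_true _ _ _ (by omega) (by omega)] at hu hv
        exact h7 i j u v (by omega) (by omega) (by omega) (by omega)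

/-! ### nested words -/

/-- total size of a list of blocks -/
def len (L : List (ℕ × ℂˣ)) : ℕ := (L.map Prod.fst).sum

theorem len_cons (a : ℕ × ℂˣ) (L : List (ℕ × ℂˣ)) : len (a :: L) = a.1 + len L := by
  simp [len]

/-- block number and scalar at a position -/
def blkOf : List (ℕ × ℂˣ) → ℕ → ℕ × ℂˣ
  | [], _ => (0, 1)
  | a :: L, i => if i < a.1 then (0, a.2) else ((blkOf L (i - a.1)).1 + 1, (blkOf L (i - a.1)).2)

theorem blkOf_mono (L : List (ℕ × ℂˣ)) {i j : ℕ} (h : i ≤ j) : (blkOf L i).1 ≤ (blkOf L j).1 := by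
  induction L generalizing i j with
  | nil => exact le_rfl
  | cons a L ih =>
    unfold blkOf
    split_ifs with h1 h2 h2
    · exact le_rfl
    · exact Nat.zero_le _
    · omega
    · exact Nat.succ_le_succ (ih (by omega))

theorem blkOf_lt {a : ℕ × ℂˣ} {L : List (ℕ × ℂˣ)} {i : ℕ} (h : i < a.1) :
    blkOf (a :: L) i = (0, a.2) := by
  rw [blkOf, if_pos h]

theorem blkOf_ge {a : ℕ × ℂˣ} {L : List (ℕ × ℂˣ)} {i : ℕ} (h : ¬ i < a.1) :
    blkOf (a :: L) i = ((blkOf L (i - a.1)).1 + 1, (blkOf L (i - a.1)).2) := by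
  rw [blkOf, if_neg h]

/-- block upper triangular with scalar diagonal blocks -/
def NT {n : ℕ} (L : List (ℕ × ℂˣ)) (X : G n) : Prop :=
  len L ≤ n ∧ X ∈ GLk n (len L) ∧ ∀ i j : Fin n, i.1 < len L → j.1 < len L →
    ((blkOf L j.1).1 < (blkOf L i.1).1 → X.1 i j = 0) ∧
    ((blkOf L j.1).1 = (blkOf L i.1).1 → X.1 i j = if i = j then ((blkOf L i.1).2 : ℂ) else 0)

/-- scalar of a nested word -/
def nestS : List (ℕ × ℂˣ) → ℂˣ
  | [b] => b.2
  | _ => 1

/-- the nested word -/
def nestW : ℕ → List (ℕ × ℂˣ) → Wd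
  | p, a :: b :: L => [Lt.par p [] (fun _ _ => 1) (stdl a.1 (len (b :: L))) (stdl a.1 (len (b :: L)))
      (fun x => bif x then p + 2 else p + 1)]
  | _, _ => []

/-- the auxiliary roots -/
def nestR : ℕ → List (ℕ × ℂˣ) → List Root
  | p, a :: b :: L => ⟨a.1, a.2, [Lt.full (p + 1) false]⟩ ::
      ⟨len (b :: L), nestS (b :: L), nestW (p + 3) (b :: L) ++ [Lt.full (p + 2) false]⟩ ::
      nestR (p + 3) (b :: L)
  | _, _ => []

/-- the full names with ranks -/
def nestV : ℕ → List (ℕ × ℂˣ) → Multiset (ℕ × ℕ)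
  | p, a :: b :: L => {(p + 1, a.1)} + {(p + 2, len (b :: L))} + nestV (p + 3) (b :: L)
  | _, _ => 0

theorem nestW_single (p : ℕ) (a : ℕ × ℂˣ) : nestW p [a] = [] := rfl

theorem nestW_cons (p : ℕ) (a b : ℕ × ℂˣ) (L : List (ℕ × ℂˣ)) : nestW p (a :: b :: L) =
    [Lt.par p [] (fun _ _ => 1) (stdl a.1 (len (b :: L))) (stdl a.1 (len (b :: L)))
      (fun x => bif x then p + 2 else p + 1)] := rfl

theorem nestR_cons (p : ℕ) (a b : ℕ × ℂˣ) (L : List (ℕ × ℂˣ)) : nestR p (a :: b :: L) =
    ⟨a.1, a.2, [Lt.full (p + 1) false]⟩ ::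
      ⟨len (b :: L), nestS (b :: L), nestW (p + 3) (b :: L) ++ [Lt.full (p + 2) false]⟩ ::
      nestR (p + 3) (b :: L) := rfl

theorem nestV_cons (p : ℕ) (a b : ℕ × ℂˣ) (L : List (ℕ × ℂˣ)) : nestV p (a :: b :: L) =
    {(p + 1, a.1)} + {(p + 2, len (b :: L))} + nestV (p + 3) (b :: L) := rfl

/-- positive and negative occurrences of a multiset of full names -/
def pr (V : Multiset (ℕ × ℕ)) : Multiset (ℕ × ℕ × Bool) :=
  V.map (fun v => (v.1, v.2, true)) + V.map (fun v => (v.1, v.2, false))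

theorem pr_add (V W : Multiset (ℕ × ℕ)) : pr (V + W) = pr V + pr W := by
  simp only [pr, Multiset.map_add]
  abel

theorem nest_occ (p : ℕ) (L : List (ℕ × ℂˣ)) (k : ℕ) :
    Wd.occ (nestW p L) k + ((nestR p L).map Root.occ).sum = pr (nestV p L) := by
  induction L generalizing p k with
  | nil => rfl
  | cons a L ih =>
    cases L with
    | nil => rfl
    | cons b L =>
      rw [nestW_cons, nestR_cons, nestV_cons, pr_add, ← ih (p + 3) (len (b :: L)), List.map_cons,
        List.map_cons, List.sum_cons, List.sum_cons]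
      simp only [Root.occ, H486.occ_cons, H486.occ_app, Lt.occ, count_false_stdl, count_true_stdl,
        cond_false, cond_true]
      have h0 : ∀ k, Wd.occ [] k = 0 := fun _ => rfl
      simp only [h0, add_zero, pr, Multiset.insert_eq_cons, Multiset.map_add, Multiset.map_singleton,
        ← Multiset.singleton_add]
      abel

theorem nest_pn (p : ℕ) (L : List (ℕ × ℂˣ)) :
    (nestV p L).map Prod.fst + (Wd.pn (nestW p L) + ((nestR p L).map Root.pn).sum) =
      ((List.range' p (3 * (L.length - 1)) : List ℕ) : Multiset ℕ) := by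
  induction L generalizing p with
  | nil => rfl
  | cons a L ih =>
    cases L with
    | nil => rfl
    | cons b L =>
      have e1 : 3 * ((a :: b :: L).length - 1) = 3 + 3 * ((b :: L).length - 1) := by
        simp only [List.length_cons]; omega
      rw [e1, List.range'_append_1.symm, ← Multiset.coe_add, ← ih (p + 3), nestW_cons, nestR_cons,
        nestV_cons, List.map_cons, List.map_cons, List.sum_cons, List.sum_cons, Multiset.map_add,
        Multiset.map_add]
      have e2 : ((List.range' p 3 : List ℕ) : Multiset ℕ) = {p} + {p + 1} + {p + 2} := rfl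
      rw [e2]
      simp only [Root.pn, H486.pn_cons, H486.pn_app, Lt.pn]
      have h0 : Wd.pn [] = 0 := rfl
      simp only [h0, add_zero, zero_add, Multiset.map_singleton]
      abel

theorem nest_WF (O : Subring ℂ) (p : ℕ) (L : List (ℕ × ℂˣ)) (hL : ∀ a ∈ L, IsSc O a.2)
    (prev : Option (List Bool)) : Wd.WF O (nestW p L) (len L) prev := by
  have h1 : IsSc O 1 := ⟨by simp, 1, one_pos, by simp⟩
  cases L with
  | nil => trivial
  | cons a L =>
    cases L with
    | nil => trivial
    | cons b L =>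
      rw [nestW_cons]
      exact ⟨by rw [stdl_length, len_cons a], fun _ => rfl, Or.inl fun _ _ => rfl, fun _ _ => h1, trivial⟩

theorem nestS_sc (O : Subring ℂ) (L : List (ℕ × ℂˣ)) (hL : ∀ a ∈ L, IsSc O a.2) : IsSc O (nestS L) := by
  have h1 : IsSc O 1 := ⟨by simp, 1, one_pos, by simp⟩
  cases L with
  | nil => exact h1
  | cons a L =>
    cases L with
    | nil => exact hL a (by simp)
    | cons b L => exact h1

theorem nestR_WF (O : Subring ℂ) (n p : ℕ) (L : List (ℕ × ℂˣ)) (hL : ∀ a ∈ L, IsSc O a.2)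
    (hn : len L ≤ n) : ∀ r ∈ nestR p L, r.WF O n := by
  induction L generalizing p with
  | nil => intro r hr; simp [nestR] at hr
  | cons a L ih =>
    cases L with
    | nil => intro r hr; simp [nestR] at hr
    | cons b L =>
      rw [len_cons] at hn
      have hL' : ∀ x ∈ b :: L, IsSc O x.2 := fun x hx => hL x (List.mem_cons_of_mem _ hx)
      intro r hr
      rw [nestR_cons, List.mem_cons, List.mem_cons] at hr
      rcases hr with rfl | rfl | hr
      · exact ⟨by dsimp only; omega, hL a (by simp), trivial⟩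
      · refine ⟨by dsimp only; omega, nestS_sc O _ hL', ?_⟩
        dsimp only
        rw [H486.WF_app]
        exact ⟨nest_WF O _ _ hL' _, trivial⟩
      · exact ih (p + 3) hL' (by omega) r hr

/-- the ranks of the auxiliary roots -/
theorem nestR_rank (p : ℕ) (L : List (ℕ × ℂˣ)) (h0 : ∀ a ∈ L, 0 < a.1) :
    ∀ r ∈ nestR p L, r.k < len L := by
  induction L generalizing p with
  | nil => intro r hr; simp [nestR] at hr
  | cons a L ih =>
    cases L with
    | nil => intro r hr; simp [nestR] at hr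
    | cons b L =>
      have ha := h0 a (by simp)
      have hb : 0 < len (b :: L) := by
        have := h0 b (by simp)
        rw [len_cons]; omega
      intro r hr
      rw [nestR_cons, List.mem_cons, List.mem_cons] at hr
      rw [len_cons a]
      rcases hr with rfl | rfl | hr
      · dsimp only; omega
      · dsimp only; omega
      · have := ih (p + 3) (fun x hx => h0 x (List.mem_cons_of_mem _ hx)) r hr
        omega

section value
variable {n : ℕ}

theorem dsg_one (e c : List Bool) : dsg n e c (fun _ _ => 1) = 1 := by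
  apply Units.ext
  change Matrix.diagonal _ = (1 : Matrix (Fin n) (Fin n) ℂ)
  rw [← Matrix.diagonal_one]
  congr 1
  funext i
  dsimp only
  split <;> rfl

theorem scal_one (k : ℕ) : scal n k 1 = 1 := by
  apply Units.ext
  change Matrix.diagonal _ = (1 : Matrix (Fin n) (Fin n) ℂ)
  rw [← Matrix.diagonal_one]
  congr 1
  funext i
  dsimp only
  split <;> rfl

theorem scal_apply (k : ℕ) (a : ℂˣ) (i j : Fin n) :
    (scal n k a).1 i j = if i = j then (if i.1 < k then (a : ℂ) else 1) else 0 := by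
  change Matrix.diagonal _ i j = _
  rw [Matrix.diagonal_apply]
  dsimp only
  split_ifs <;> rfl

theorem scal_mem (k : ℕ) (a : ℂˣ) : scal n k a ∈ GLk n k := by
  intro i j hij
  rw [scal_apply]
  split_ifs with h1 h2
  · subst h1; omega
  · rfl
  · rfl

/-- the matrix value of a nested word -/
def nval (ρ : ℕ → G n) (p : ℕ) (L : List (ℕ × ℂˣ)) : G n :=
  scal n (len L) (nestS L) * Wd.eval ρ (nestW p L)

theorem nval_single (ρ : ℕ → G n) (p : ℕ) (a : ℕ × ℂˣ) : nval ρ p [a] = scal n (len [a]) a.2 := by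
  rw [nval, nestW_single, H486.eval_nil, mul_one]
  rfl

theorem nval_cons (ρ : ℕ → G n) (p : ℕ) (a b : ℕ × ℂˣ) (L : List (ℕ × ℂˣ)) :
    nval ρ p (a :: b :: L) = ρ p := by
  rw [nval, nestW_cons, H486.eval_cons, H486.eval_nil, mul_one]
  change scal n _ 1 * (dsg n _ _ _ * ρ p) = ρ p
  rw [scal_one, dsg_one, one_mul, one_mul]

/-- the equations of the child names -/
theorem root_full_neg (ρ : ℕ → G n) (k x : ℕ) (ξ : ℂˣ) (w : Wd)
    (h : (⟨k, ξ, w ++ [Lt.full x false]⟩ : Root).Sol ρ) :
    Wd.Sat ρ w k ∧ ρ x = scal n k ξ * Wd.eval ρ w := by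
  obtain ⟨h1, h2⟩ := h
  dsimp only at h1 h2
  rw [H486.Sat_app] at h1
  rw [H486.eval_app, H486.eval_cons, H486.eval_nil, mul_one] at h2
  refine ⟨h1.1, ?_⟩
  change scal n k ξ * (Wd.eval ρ w * (ρ x)⁻¹) = 1 at h2
  rw [← mul_assoc, mul_inv_eq_one] at h2
  exact h2.symm

theorem root_full_neg' (ρ : ℕ → G n) (k x : ℕ) (ξ : ℂˣ) (w : Wd) (h : Wd.Sat ρ w k)
    (hx : ρ x = scal n k ξ * Wd.eval ρ w) (hk : ρ x ∈ GLk n k) :
    (⟨k, ξ, w ++ [Lt.full x false]⟩ : Root).Sol ρ := by
  refine ⟨?_, ?_⟩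
  · dsimp only
    rw [H486.Sat_app]
    refine ⟨h, ?_⟩
    rintro l hl
    rw [List.mem_singleton] at hl
    subst hl
    exact hk
  · dsimp only
    rw [H486.eval_app, H486.eval_cons, H486.eval_nil, mul_one]
    change scal n k ξ * (Wd.eval ρ w * (ρ x)⁻¹) = 1
    rw [← mul_assoc, mul_inv_eq_one, hx]

theorem NT_single (a : ℕ × ℂˣ) (ha : a.1 ≤ n) : NT [a] (scal n (len [a]) a.2) := by
  have hl : len [a] = a.1 := by simp [len]
  refine ⟨by rwa [hl], scal_mem _ _, fun i j hi hj => ⟨fun h => ?_, fun _ => ?_⟩⟩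
  · rw [hl] at hi hj
    simp [blkOf, hi, hj] at h
  · rw [scal_apply, if_pos hi]
    rw [hl] at hi
    simp [blkOf, hi]

theorem NT_of_Sol (ρ : ℕ → G n) (p : ℕ) (L : List (ℕ × ℂˣ)) (hL : L ≠ []) (hn : len L ≤ n)
    (h : Wd.Sat ρ (nestW p L) (len L)) (hR : ∀ r ∈ nestR p L, r.Sol ρ) : NT L (nval ρ p L) := by
  induction L generalizing p with
  | nil => exact absurd rfl hL
  | cons a L ih =>
    cases L with
    | nil =>
      rw [nval_single]
      refine NT_single a ?_
      simpa [len] using hn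
    | cons b L =>
      have h1 := h _ (List.mem_singleton_self _)
      change IsPar (stdl a.1 (len (b :: L))) (stdl a.1 (len (b :: L))) _ (ρ p) at h1
      rw [isPar_std_iff] at h1
      simp only [cond_true, cond_false] at h1
      rw [nestR_cons] at hR
      have hr1 := hR _ (List.mem_cons_self)
      have hr2 := hR _ (List.mem_cons_of_mem _ List.mem_cons_self)
      have hr3 : ∀ r ∈ nestR (p + 3) (b :: L), r.Sol ρ := fun r hr =>
        hR r (List.mem_cons_of_mem _ (List.mem_cons_of_mem _ hr))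
      have e8 := (root_full_neg ρ a.1 (p + 1) a.2 [] hr1).2
      obtain ⟨h3, e9⟩ := root_full_neg ρ _ (p + 2) _ _ hr2
      rw [H486.eval_nil, mul_one] at e8
      rw [e8, e9] at h1
      obtain ⟨e1, e2, e3, e4, e5, e6, e7⟩ := h1
      have hn' : len (b :: L) ≤ n := by rw [len_cons] at hn; omega
      have h4 := ih (p + 3) (List.cons_ne_nil _ _) hn' h3 hr3
      obtain ⟨-, -, h6⟩ := h4
      rw [nval_cons]
      rw [← len_cons] at e1 e2
      refine ⟨e1, e2, fun i j hi hj => ?_⟩
      rw [len_cons] at hi hj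
      by_cases hi' : i.1 < a.1
      · by_cases hj' : j.1 < a.1
        · refine ⟨fun h => ?_, fun _ => ?_⟩
          · simp [blkOf, hi', hj'] at h
          · rw [e6 i j hi' hj', scal_apply, if_pos hi']
            simp [blkOf, hi']
        · refine ⟨fun h => ?_, fun h => ?_⟩
          · simp [blkOf, hi', hj'] at h
          · simp [blkOf, hi', hj'] at h
      · by_cases hj' : j.1 < a.1
        · refine ⟨fun _ => ?_, fun h => ?_⟩
          · exact e5 i j (by omega) (by omega) hj'
          · simp [blkOf, hi', hj'] at h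
        · have hiu : i.1 - a.1 < n := by omega
          have hjv : j.1 - a.1 < n := by omega
          have h7 := h6 ⟨i.1 - a.1, hiu⟩ ⟨j.1 - a.1, hjv⟩ (by simp; omega) (by simp; omega)
          have h8 := e7 i j ⟨i.1 - a.1, hiu⟩ ⟨j.1 - a.1, hjv⟩ (by omega) (by omega)
            (by simp; omega) (by simp; omega)
          rw [blkOf_ge hi', blkOf_ge hj', add_lt_add_iff_right, add_left_inj]
          refine ⟨fun h => ?_, fun h => ?_⟩
          · rw [h8]
            exact h7.1 h
          · rw [h8]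
            have h9 := h7.2 h
            have h10 : (⟨i.1 - a.1, hiu⟩ : Fin n) = ⟨j.1 - a.1, hjv⟩ ↔ i = j := by
              rw [Fin.ext_iff, Fin.ext_iff]
              simp only
              omega
            simp only [h10] at h9
            exact h9

/-- the lower right block moved to the top left -/
noncomputable def lowM (X : Matrix (Fin n) (Fin n) ℂ) (m r : ℕ) : Matrix (Fin n) (Fin n) ℂ :=
  Matrix.of fun u v => if h : u.1 + m < m + r ∧ v.1 + m < m + r ∧ m + r ≤ n then
    X ⟨u.1 + m, lt_of_lt_of_le h.1 h.2.2⟩ ⟨v.1 + m, lt_of_lt_of_le h.2.1 h.2.2⟩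
    else if u = v then 1 else 0

theorem exists_low {a : ℕ × ℂˣ} {L : List (ℕ × ℂˣ)} {X : G n} (hX : NT (a :: L) X) :
    ∃ Y : G n, NT L Y ∧ ∀ i j u v : Fin n, i.1 < a.1 + len L → j.1 < a.1 + len L → i.1 = u.1 + a.1 →
      j.1 = v.1 + a.1 → X.1 i j = Y.1 u v := by
  obtain ⟨h1, h2, h3⟩ := hX
  rw [len_cons] at h1 h2 h3
  have key : ∀ u v : Fin n, u.1 < len L → v.1 < len L →
      ((blkOf L v.1).1 < (blkOf L u.1).1 → lowM X.1 a.1 (len L) u v = 0) ∧
      ((blkOf L v.1).1 = (blkOf L u.1).1 →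
        lowM X.1 a.1 (len L) u v = if u = v then ((blkOf L u.1).2 : ℂ) else 0) := by
    intro u v hu hv
    have hc : u.1 + a.1 < a.1 + len L ∧ v.1 + a.1 < a.1 + len L ∧ a.1 + len L ≤ n :=
      ⟨by omega, by omega, h1⟩
    have hlow : lowM X.1 a.1 (len L) u v = X.1 ⟨u.1 + a.1, lt_of_lt_of_le hc.1 hc.2.2⟩
        ⟨v.1 + a.1, lt_of_lt_of_le hc.2.1 hc.2.2⟩ := by
      simp only [lowM, Matrix.of_apply]
      rw [dif_pos hc]
    have h4 := h3 ⟨u.1 + a.1, lt_of_lt_of_le hc.1 hc.2.2⟩ ⟨v.1 + a.1, lt_of_lt_of_le hc.2.1 hc.2.2⟩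
      hc.1 hc.2.1
    simp only [blkOf, Nat.not_lt.2 (Nat.le_add_left a.1 _), if_false, Nat.add_sub_cancel,
      add_lt_add_iff_right, add_left_inj, Fin.mk.injEq] at h4
    rw [hlow]
    refine ⟨h4.1, fun h => ?_⟩
    rw [h4.2 h]
    simp only [Fin.ext_iff]
  have hut : (lowM X.1 a.1 (len L)).BlockTriangular id := by
    intro u v huv
    simp only [id] at huv
    by_cases hc : u.1 < len L ∧ v.1 < len L
    · obtain ⟨k1, k2⟩ := key u v hc.1 hc.2
      rcases (blkOf_mono L (le_of_lt huv)).lt_or_eq with h | h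
      · exact k1 h
      · rw [k2 h, if_neg (ne_of_gt huv)]
    · simp only [lowM, Matrix.of_apply]
      rw [dif_neg (by omega), if_neg (ne_of_gt huv)]
  have hdet : (lowM X.1 a.1 (len L)).det ≠ 0 := by
    rw [Matrix.det_of_isUpperTriangular hut]
    refine Finset.prod_ne_zero_iff.2 fun u _ => ?_
    by_cases hu : u.1 < len L
    · rw [(key u u hu hu).2 rfl, if_pos rfl]
      exact Units.ne_zero _
    · simp only [lowM, Matrix.of_apply]
      rw [dif_neg (by omega)]
      simp
  refine ⟨Matrix.GeneralLinearGroup.mkOfDetNeZero _ hdet, ⟨by omega, ?_, key⟩, ?_⟩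
  · intro i j hij
    change lowM X.1 a.1 (len L) i j = _
    simp only [lowM, Matrix.of_apply]
    rw [dif_neg (by omega)]
  · intro i j u v hi hj hu hv
    change _ = lowM X.1 a.1 (len L) u v
    simp only [lowM, Matrix.of_apply]
    rw [dif_pos ⟨by omega, by omega, h1⟩]
    exact congrArg₂ X.1 (Fin.ext hu) (Fin.ext hv)

theorem nest_exists (L : List (ℕ × ℂˣ)) (hL : L ≠ []) (X : G n) (hX : NT L X) (p : ℕ) :
    ∃ r : ℕ → G n, ∀ ρ : ℕ → G n, (∀ j, p ≤ j → j < p + 3 * (L.length - 1) → ρ j = r j) →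
      Wd.Sat ρ (nestW p L) (len L) ∧ (∀ r ∈ nestR p L, r.Sol ρ) ∧ nval ρ p L = X := by
  induction L generalizing p X with
  | nil => exact absurd rfl hL
  | cons a L ih =>
    cases L with
    | nil =>
      refine ⟨fun _ => 1, fun ρ _ => ⟨fun l hl => by simp [nestW] at hl,
        fun r hr => by simp [nestR] at hr, ?_⟩⟩
      rw [nval_single]
      have hl : len [a] = a.1 := by simp [len]
      obtain ⟨h1, h2, h3⟩ := hX
      apply Units.ext
      ext i j
      by_cases hi : i.1 < len [a]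
      · by_cases hj : j.1 < len [a]
        · have h4 := (h3 i j hi hj).2 (by rw [hl] at hi hj; simp [blkOf, hi, hj])
          rw [h4, scal_apply, if_pos hi]
          rw [hl] at hi
          simp [blkOf, hi]
        · rw [h2 i j (Or.inr (by omega)), scal_apply, if_pos hi]
          have : i ≠ j := by rintro rfl; exact hj hi
          rw [if_neg this, if_neg this]
      · rw [h2 i j (Or.inl (by omega)), scal_apply, if_neg hi]
    | cons b L =>
      obtain ⟨Y, hY, hXY⟩ := exists_low hX
      obtain ⟨r, hr⟩ := ih (List.cons_ne_nil _ _) Y hY (p + 3)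
      obtain ⟨h1, h2, h3⟩ := hX
      refine ⟨fun j => if j = p then X else if j = p + 1 then scal n a.1 a.2 else
        if j = p + 2 then Y else r j, fun ρ hρ => ?_⟩
      have hlen : 3 * ((a :: b :: L).length - 1) = 3 + 3 * ((b :: L).length - 1) := by
        simp only [List.length_cons]; omega
      rw [hlen] at hρ
      have hp : ρ p = X := by
        rw [hρ p le_rfl (by omega)]
        exact if_pos rfl
      have hp1 : ρ (p + 1) = scal n a.1 a.2 := by
        rw [hρ (p + 1) (by omega) (by omega)]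
        dsimp only
        rw [if_neg (by omega), if_pos rfl]
      have hp2 : ρ (p + 2) = Y := by
        rw [hρ (p + 2) (by omega) (by omega)]
        dsimp only
        rw [if_neg (by omega), if_neg (by omega), if_pos rfl]
      have hρ' : ∀ j, p + 3 ≤ j → j < p + 3 + 3 * ((b :: L).length - 1) → ρ j = r j := by
        intro j hj hj'
        rw [hρ j (by omega) (by omega)]
        dsimp only
        rw [if_neg (by omega), if_neg (by omega), if_neg (by omega)]
      obtain ⟨h4, h4', h5⟩ := hr ρ hρ'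
      have hlc : len (a :: b :: L) = a.1 + len (b :: L) := len_cons _ _
      refine ⟨?_, ?_, by rw [nval_cons, hp]⟩
      · intro l hl
        rw [nestW_cons, List.mem_singleton] at hl
        subst hl
        change IsPar (stdl a.1 (len (b :: L))) (stdl a.1 (len (b :: L))) _ (ρ p)
        rw [isPar_std_iff]
        simp only [cond_true, cond_false]
        rw [hp, hp1, hp2]
        refine ⟨by rw [← hlc]; exact h1, by rw [← hlc]; exact h2, scal_mem _ _, hY.2.1, ?_, ?_, hXY⟩
        · intro i j hi hi' hj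
          refine (h3 i j (by omega) (by omega)).1 ?_
          have : ¬ i.1 < a.1 := by omega
          simp [blkOf, hj, this]
        · intro i j hi hj
          rw [(h3 i j (by omega) (by omega)).2 (by simp [blkOf, hi, hj]), scal_apply, if_pos hi]
          simp [blkOf, hi]
      · intro r' hr'
        rw [nestR_cons, List.mem_cons, List.mem_cons] at hr'
        rcases hr' with rfl | rfl | hr'
        · refine root_full_neg' ρ _ _ _ [] (fun l hl => by simp at hl) ?_ ?_
          · rw [hp1, H486.eval_nil, mul_one]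
          · rw [hp1]; exact scal_mem _ _
        · refine root_full_neg' ρ _ _ _ _ h4 ?_ ?_
          · rw [hp2]; exact h5.symm
          · rw [hp2]; exact hY.2.1
        · exact h4' r' hr'

end value

end Crest.Agent.R003.WD
private theorem rz_682829d258 : type_of% @_root_.Crest.Agent.R003.WD.blkOf.eq_def := @_root_.Crest.Agent.R003.WD.blkOf.eq_def -- L110
private theorem rz_f5b4f903a8 : type_of% @_root_.Crest.Agent.R003.WD.blkOf.eq_1 := @_root_.Crest.Agent.R003.WD.blkOf.eq_1 -- L110
private theorem rz_8eff9b2d38 : type_of% @_root_.Crest.Agent.R003.WD.nestR.eq_def := @_root_.Crest.Agent.R003.WD.nestR.eq_def -- L151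
private theorem rz_c4dfcc5989 : type_of% @_root_.Crest.Agent.R003.WD.nestR.eq_1 := @_root_.Crest.Agent.R003.WD.nestR.eq_1 -- L151
private theorem rz_66fbd87aac : type_of% @_root_.Crest.Agent.R003.WD.nestW.eq_1 := @_root_.Crest.Agent.R003.WD.nestW.eq_1 -- L145
end

-- ▼ part R003/WD518D

/-!
# Row 3, block W_D (Part 3 (i)) (helper518)

From the Elimination Theorem: every solution of `∏ [A_i,B_i] = ξ` with `A_0` conjugate to the diagonal
matrix `D` is approximable.
-/

set_option autoImplicit false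

namespace Crest.Agent.R003.WD

open Matrix

/-! ### blocks of size one -/

def dL {k : ℕ} (D : Fin k → ℂˣ) : List (ℕ × ℂˣ) := List.ofFn fun i => (1, D i)

theorem dL_succ {k : ℕ} (D : Fin (k + 1) → ℂˣ) : dL D = (1, D 0) :: dL (fun i => D i.succ) := by
  rw [dL, List.ofFn_succ]
  rfl

theorem len_dL {k : ℕ} (D : Fin k → ℂˣ) : len (dL D) = k := by
  induction k with
  | zero => rfl
  | succ k ih => rw [dL_succ, len_cons, ih, Nat.add_comm]

theorem length_dL {k : ℕ} (D : Fin k → ℂˣ) : (dL D).length = k := by simp [dL]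

theorem blkOf_dL {k : ℕ} (D : Fin k → ℂˣ) (i : Fin k) : blkOf (dL D) i.1 = (i.1, D i) := by
  induction k with
  | zero => exact i.elim0
  | succ k ih =>
    rw [dL_succ]
    refine Fin.cases ?_ (fun j => ?_) i
    · rw [blkOf_lt (by simp)]
      rfl
    · rw [blkOf_ge (by simp)]
      have := ih (fun i => D i.succ) j
      simp only [Fin.val_succ, Nat.add_sub_cancel]
      rw [this]

theorem NT_dL {k : ℕ} (D : Fin k → ℂˣ) (X : G k) :
    NT (dL D) X ↔ UT (fun i => (D i : ℂ)) X.1 := by
  constructor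
  · rintro ⟨-, -, h⟩
    refine ⟨fun i j hij => ?_, fun i => ?_⟩
    · refine (h i j (by rw [len_dL]; exact i.2) (by rw [len_dL]; exact j.2)).1 ?_
      rw [blkOf_dL, blkOf_dL]
      exact hij
    · rw [(h i i (by rw [len_dL]; exact i.2) (by rw [len_dL]; exact i.2)).2 rfl, blkOf_dL, if_pos rfl]
  · intro h
    refine ⟨by rw [len_dL], fun i j hij => ?_, fun i j _ _ => ⟨fun hij => ?_, fun hij => ?_⟩⟩
    · rw [len_dL] at hij
      have := i.2
      have := j.2
      omega
    · rw [blkOf_dL, blkOf_dL] at hij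
      exact h.1 i j hij
    · rw [blkOf_dL, blkOf_dL] at hij
      have : i = j := Fin.ext hij.symm
      subst this
      rw [h.2, blkOf_dL, if_pos rfl]

theorem dL_shape {k : ℕ} (hk : 2 ≤ k) (D : Fin k → ℂˣ) : ∃ a b L, dL D = a :: b :: L := by
  obtain ⟨m, rfl⟩ := Nat.exists_eq_add_of_le' hk
  exact ⟨_, _, _, by rw [dL_succ, dL_succ]⟩

theorem UT_inv {k : ℕ} {D : Fin k → ℂˣ} {X : G k} (h : UT (fun i => (D i : ℂ)) X.1) :
    UT (fun i => (((D i)⁻¹ : ℂˣ) : ℂ)) (X⁻¹).1 := by
  have h1 : (X⁻¹).1 = (X.1)⁻¹ := Matrix.coe_units_inv X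
  have hb : (X.1).BlockTriangular id := fun i j hij => h.1 i j hij
  have : Invertible X.1 := Units.invertible X
  have h2 : ((X⁻¹).1).BlockTriangular id := by
    rw [h1]
    exact Matrix.blockTriangular_inv_of_blockTriangular hb
  have h3 : UT (fun i => (X⁻¹).1 i i) (X⁻¹).1 := ⟨fun i j hij => h2 hij, fun _ => rfl⟩
  refine ⟨h3.1, fun i => ?_⟩
  have h4 := (h3.mul h).2 i
  rw [← Units.val_mul, inv_mul_cancel] at h4
  simp only [Units.val_one, Matrix.one_apply_eq] at h4
  have h5 : (((D i)⁻¹ : ℂˣ) : ℂ) = ((D i : ℂ))⁻¹ := Units.val_inv_eq_inv_val _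
  exact (eq_inv_of_mul_eq_one_left h4.symm).trans h5.symm

theorem mem_GLk_top {k : ℕ} (g : G k) : g ∈ GLk k k := by
  intro i j hij
  have := i.2
  have := j.2
  omega

/-! ### commutator words -/

def cw : ℕ → ℕ → Wd
  | _, 0 => []
  | s, m + 1 => Lt.full s true :: Lt.full (s + 1) true :: Lt.full s false :: Lt.full (s + 1) false ::
      cw (s + 2) m

def cV (k : ℕ) : ℕ → ℕ → Multiset (ℕ × ℕ)
  | _, 0 => 0
  | s, m + 1 => {(s, k)} + {(s + 1, k)} + cV k (s + 2) m

theorem eval_cw {n : ℕ} (ρ : ℕ → G n) (s m : ℕ) : Wd.eval ρ (cw s m) =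
    ((List.finRange m).map fun i => ρ (s + 2 * i.1) * ρ (s + 2 * i.1 + 1) * (ρ (s + 2 * i.1))⁻¹ *
      (ρ (s + 2 * i.1 + 1))⁻¹).prod := by
  induction m generalizing s with
  | zero => rfl
  | succ m ih =>
    rw [cw, H486.eval_cons, H486.eval_cons, H486.eval_cons, H486.eval_cons, ih, List.finRange_succ,
      List.map_cons, List.prod_cons, List.map_map]
    simp only [Lt.eval, if_true, Fin.val_zero, mul_zero, add_zero, mul_assoc]
    have key : ∀ i : Fin m, s + 2 + 2 * i.1 = s + 2 * (i.1 + 1) := fun i => by ring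
    simp only [key]
    rfl

theorem occ_cw (k s m : ℕ) : Wd.occ (cw s m) k = pr (cV k s m) := by
  induction m generalizing s with
  | zero => rfl
  | succ m ih =>
    rw [cw, cV, pr_add, ← ih]
    simp only [H486.occ_cons, Lt.occ, pr, Multiset.map_add, Multiset.map_singleton]
    abel

theorem pn_cw (s m : ℕ) : Wd.pn (cw s m) = 0 := by
  induction m generalizing s with
  | zero => rfl
  | succ m ih =>
    rw [cw]
    simp only [H486.pn_cons, Lt.pn, ih, add_zero]

theorem cV_fst (k s m : ℕ) : (cV k s m).map Prod.fst = ((List.range' s (2 * m) : List ℕ) : Multiset ℕ) := by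
  induction m generalizing s with
  | zero => rfl
  | succ m ih =>
    have e1 : 2 * (m + 1) = 2 + 2 * m := by ring
    have e2 : ((List.range' s 2 : List ℕ) : Multiset ℕ) = {s} + {s + 1} := rfl
    rw [cV, e1, List.range'_append_1.symm, ← Multiset.coe_add, ← ih, e2, Multiset.map_add,
      Multiset.map_add, Multiset.map_singleton, Multiset.map_singleton]

theorem WF_cw (O : Subring ℂ) (k s m : ℕ) (d : Option (List Bool)) : Wd.WF O (cw s m) k d := by
  induction m generalizing s d with
  | zero => trivial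
  | succ m ih => exact ih (s + 2) none

/-! ### the system -/

section sys

variable {k : ℕ} (D : Fin k → ℂˣ) (h : ℕ) (ξ : ℂˣ)

/-- the base name of the first nest -/
abbrev P1 (h : ℕ) : ℕ := 2 + 2 * h
/-- the base name of the second nest -/
abbrev P2 (k h : ℕ) : ℕ := 2 + 2 * h + 3 * (k - 1)

/-- the main word -/
def mw : Wd := Lt.full 0 true :: (nestW (P1 h) (dL D) ++ Lt.full 0 false :: Lt.full 1 true ::
  (nestW (P2 k h) (dL fun i => (D i)⁻¹) ++ Lt.full 1 false :: cw 2 h))

def Sy : Sys := ⟨⟨k, ξ⁻¹, mw D h⟩ :: (nestR (P1 h) (dL D) ++ nestR (P2 k h) (dL fun i => (D i)⁻¹)), []⟩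

theorem eval_mw {n : ℕ} (ρ : ℕ → G n) : Wd.eval ρ (mw D h) = ρ 0 * Wd.eval ρ (nestW (P1 h) (dL D)) *
    (ρ 0)⁻¹ * (ρ 1 * Wd.eval ρ (nestW (P2 k h) (dL fun i => (D i)⁻¹)) * (ρ 1)⁻¹) *
    Wd.eval ρ (cw 2 h) := by
  rw [mw]
  simp only [H486.eval_cons, H486.eval_app, Lt.eval, if_true, mul_assoc]
  rfl

variable {D h ξ}

theorem Sy_WF {O : Subring ℂ} (hD : ∀ i, IsSc O (D i)) (hξ : IsSc O ξ) : (Sy D h ξ).WF O k := by
  have hL1 : ∀ a ∈ dL D, IsSc O a.2 := by
    intro a ha
    rw [dL, List.mem_ofFn] at ha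
    obtain ⟨i, rfl⟩ := ha
    exact hD i
  have hL2 : ∀ a ∈ dL (fun i => (D i)⁻¹), IsSc O a.2 := by
    intro a ha
    rw [dL, List.mem_ofFn] at ha
    obtain ⟨i, rfl⟩ := ha
    exact (hD i).inv
  refine ⟨?_, fun z hz => absurd hz (by simp [Sy]), ?_⟩
  · intro r hr
    rw [Sy] at hr
    simp only [List.mem_cons, List.mem_append] at hr
    rcases hr with rfl | hr | hr
    · refine ⟨le_rfl, hξ.inv, ?_⟩
      dsimp only
      have w1 := nest_WF O (P1 h) (dL D) hL1 none
      have w2 := nest_WF O (P2 k h) (dL fun i => (D i)⁻¹) hL2 none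
      rw [len_dL] at w1 w2
      change Wd.WF O (nestW (P1 h) (dL D) ++ Lt.full 0 false :: Lt.full 1 true ::
        (nestW (P2 k h) (dL fun i => (D i)⁻¹) ++ Lt.full 1 false :: cw 2 h)) k none
      rw [H486.WF_app]
      refine ⟨w1, ?_⟩
      change Wd.WF O (nestW (P2 k h) (dL fun i => (D i)⁻¹) ++ Lt.full 1 false :: cw 2 h) k none
      rw [H486.WF_app]
      exact ⟨w2, WF_cw O k 2 h none⟩
    · exact nestR_WF O k (P1 h) (dL D) hL1 (by rw [len_dL]) r hr
    · exact nestR_WF O k (P2 k h) _ hL2 (by rw [len_dL]) r hr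
  · refine ⟨{(0, k)} + {(1, k)} + cV k 2 h + nestV (P1 h) (dL D) +
      nestV (P2 k h) (dL fun i => (D i)⁻¹), ?_, ?_⟩
    · change _ = pr _
      have h1 := nest_occ (P1 h) (dL D) k
      have h2 := nest_occ (P2 k h) (dL fun i => (D i)⁻¹) k
      rw [pr_add, pr_add, pr_add, ← occ_cw, ← h1, ← h2]
      rw [Sys.occ, Sy]
      simp only [List.map_cons, List.map_append, List.sum_cons, List.sum_append, Root.occ, mw,
        H486.occ_cons, H486.occ_app, Lt.occ, pr, Multiset.map_add, Multiset.map_singleton]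
      abel
    · have h1 := nest_pn (P1 h) (dL D)
      have h2 := nest_pn (P2 k h) (dL fun i => (D i)⁻¹)
      rw [length_dL] at h1 h2
      have h3 := cV_fst k 2 h
      have h4 : (({(0, k)} + {(1, k)} + cV k 2 h + nestV (P1 h) (dL D) +
          nestV (P2 k h) (dL fun i => (D i)⁻¹) : Multiset (ℕ × ℕ)).map Prod.fst + (Sy D h ξ).pn +
          (((Sy D h ξ).free.map Prod.fst : List ℕ) : Multiset ℕ)) =
          ((List.range' 0 (2 + 2 * h + 3 * (k - 1) + 3 * (k - 1)) : List ℕ) : Multiset ℕ) := by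
        rw [List.range'_append_1.symm, List.range'_append_1.symm, List.range'_append_1.symm,
          ← Multiset.coe_add, ← Multiset.coe_add, ← Multiset.coe_add]
        simp only [zero_add]
        rw [← h1, ← h2, ← h3]
        have e2 : ((List.range' 0 2 : List ℕ) : Multiset ℕ) = {0} + {1} := rfl
        rw [e2, Sys.pn, Sy]
        simp only [List.map_cons, List.map_append, List.sum_cons, List.sum_append, Root.pn, mw,
          H486.pn_cons, H486.pn_app, Lt.pn, Multiset.map_add, Multiset.map_singleton, pn_cw,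
          List.map_nil, Multiset.coe_nil, zero_add, add_zero]
        abel
      rw [h4, Multiset.coe_nodup]
      exact List.nodup_range'

theorem pos_dL (D : Fin k → ℂˣ) : ∀ a ∈ dL D, 0 < a.1 := by
  intro a ha
  rw [dL, List.mem_ofFn] at ha
  obtain ⟨i, rfl⟩ := ha
  exact one_pos

theorem par_mem_nest (hk : 2 ≤ k) (D : Fin k → ℂˣ) (p : ℕ) :
    ∃ l ∈ nestW p (dL D), l.Nd ∧ p ∈ H486.lnm l := by
  obtain ⟨a, b, L, hL⟩ := dL_shape hk D
  have ha : 0 < a.1 := pos_dL D a (by rw [hL]; simp)
  have hb : 0 < len (b :: L) := by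
    have := pos_dL D b (by rw [hL]; simp)
    rw [len_cons]; omega
  refine ⟨Lt.par p [] (fun _ _ => 1) (stdl a.1 (len (b :: L))) (stdl a.1 (len (b :: L)))
      (fun x => bif x then p + 2 else p + 1),
    by rw [hL, nestW_cons]; exact List.mem_singleton_self _, ?_, Or.inl rfl⟩
  rintro (_ | _)
  · rw [count_false_stdl]; exact ha
  · rw [count_true_stdl]; exact hb

theorem Sy_Adm (hk : 2 ≤ k) : Adm k (Sy D h ξ) := by
  have hp : ∀ D : Fin k → ℂˣ, ∀ a ∈ dL D, 0 < a.1 := pos_dL
  intro r hr
  rw [Sy] at hr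
  simp only [List.mem_cons, List.mem_append] at hr
  rcases hr with rfl | hr | hr
  · right
    refine ⟨rfl, ?_⟩
    obtain ⟨l, hl, hNd, -⟩ := par_mem_nest hk D (P1 h)
    exact ⟨l, List.mem_cons_of_mem _ (List.mem_append_left _ hl), hNd⟩
  · left
    have := nestR_rank (P1 h) (dL D) (hp D) r hr
    rwa [len_dL] at this
  · left
    have := nestR_rank (P2 k h) (dL fun i => (D i)⁻¹) (hp _) r hr
    rwa [len_dL] at this

theorem eval_nest (hk : 2 ≤ k) (D : Fin k → ℂˣ) {n : ℕ} (ρ : ℕ → G n) (p : ℕ) :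
    Wd.eval ρ (nestW p (dL D)) = ρ p ∧ nval ρ p (dL D) = ρ p := by
  obtain ⟨a, b, L, hL⟩ := dL_shape hk D
  have h1 : nval ρ p (dL D) = ρ p := by rw [hL, nval_cons]
  refine ⟨?_, h1⟩
  rw [nval, hL] at h1
  change scal n _ 1 * _ = _ at h1
  rwa [scal_one, one_mul, ← hL] at h1

/-- the polynomial map -/
noncomputable def Φ (D : Fin k → ℂˣ) (h : ℕ) (ρ : ℕ → G k) : Fin (h + 1) × Bool → G k := fun y =>
  Fin.cases
    (bif y.2 then ρ 1 * vG (fun i => (D i : ℂ)) (ρ (P2 k h))⁻¹ * (vG (fun i => (D i : ℂ)) (ρ (P1 h)))⁻¹ *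
      (ρ 0)⁻¹ else ρ 0 * ρ (P1 h) * (ρ 0)⁻¹)
    (fun j => bif y.2 then ρ (2 + 2 * j.1 + 1) else ρ (2 + 2 * j.1)) y.1

theorem Φ_0f (ρ : ℕ → G k) : Φ D h ρ (0, false) = ρ 0 * ρ (P1 h) * (ρ 0)⁻¹ := rfl
theorem Φ_0t (ρ : ℕ → G k) : Φ D h ρ (0, true) = ρ 1 * vG (fun i => (D i : ℂ)) (ρ (P2 k h))⁻¹ *
    (vG (fun i => (D i : ℂ)) (ρ (P1 h)))⁻¹ * (ρ 0)⁻¹ := rfl
theorem Φ_sf (ρ : ℕ → G k) (j : Fin h) : Φ D h ρ (j.succ, false) = ρ (2 + 2 * j.1) := rfl
theorem Φ_st (ρ : ℕ → G k) (j : Fin h) : Φ D h ρ (j.succ, true) = ρ (2 + 2 * j.1 + 1) := rfl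

theorem Sol_UT (hk : 2 ≤ k) {ρ : ℕ → G k} (hρ : ρ ∈ (Sy D h ξ).Sol k) :
    UT (fun i => (D i : ℂ)) (ρ (P1 h)).1 ∧ UT (fun i => (D i : ℂ)) ((ρ (P2 k h))⁻¹).1 ∧
      Wd.eval ρ (mw D h) = scal k k ξ := by
  obtain ⟨hr, -⟩ := hρ
  have hm := hr _ List.mem_cons_self
  have hr1 : ∀ r ∈ nestR (P1 h) (dL D), r.Sol ρ := fun r h' =>
    hr r (List.mem_cons_of_mem _ (List.mem_append_left _ h'))
  have hr2 : ∀ r ∈ nestR (P2 k h) (dL fun i => (D i)⁻¹), r.Sol ρ := fun r h' =>
    hr r (List.mem_cons_of_mem _ (List.mem_append_right _ h'))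
  obtain ⟨hs, he⟩ := hm
  dsimp only at hs he
  have hs1 : Wd.Sat ρ (nestW (P1 h) (dL D)) (len (dL D)) := by
    rw [len_dL]
    intro l hl
    exact hs l (List.mem_cons_of_mem _ (List.mem_append_left _ hl))
  have hs2 : Wd.Sat ρ (nestW (P2 k h) (dL fun i => (D i)⁻¹)) (len (dL fun i => (D i)⁻¹)) := by
    rw [len_dL]
    intro l hl
    exact hs l (List.mem_cons_of_mem _ (List.mem_append_right _ (List.mem_cons_of_mem _
      (List.mem_cons_of_mem _ (List.mem_append_left _ hl)))))
  have hne : ∀ D : Fin k → ℂˣ, dL D ≠ [] := by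
    intro D
    obtain ⟨a, b, L, hL⟩ := dL_shape hk D
    rw [hL]; exact List.cons_ne_nil _ _
  have n1 := NT_of_Sol ρ (P1 h) (dL D) (hne D) (by rw [len_dL]) hs1 hr1
  have n2 := NT_of_Sol ρ (P2 k h) (dL fun i => (D i)⁻¹) (hne _) (by rw [len_dL]) hs2 hr2
  rw [(eval_nest hk D ρ _).2, NT_dL] at n1
  rw [(eval_nest hk _ ρ _).2, NT_dL] at n2
  refine ⟨n1, ?_, ?_⟩
  · have := UT_inv (D := fun i => (D i)⁻¹) n2
    simpa using this
  · have : scal k k ξ * (scal k k ξ⁻¹ * Wd.eval ρ (mw D h)) = scal k k ξ := by rw [he, mul_one]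
    rw [← mul_assoc] at this
    have e : scal k k ξ * scal k k ξ⁻¹ = 1 := by
      apply Units.ext
      ext i j
      rw [Units.val_mul, Matrix.mul_apply, Finset.sum_eq_single i]
      · rw [scal_apply, scal_apply, if_pos rfl, if_pos i.2, if_pos i.2]
        split_ifs with hij
        · subst hij; simp
        · simp [hij]
      · intro l _ hl
        rw [scal_apply, if_neg (Ne.symm hl), zero_mul]
      · simp
    rwa [e, one_mul] at this

theorem prod_succ (T : Fin (h + 1) × Bool → G k) : ((List.finRange (h + 1)).map fun i => T (i, false) *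
    T (i, true) * (T (i, false))⁻¹ * (T (i, true))⁻¹).prod = T (0, false) * (T (0, true) *
    (T (0, false))⁻¹ * (T (0, true))⁻¹) * ((List.finRange h).map fun i => T (i.succ, false) *
    T (i.succ, true) * (T (i.succ, false))⁻¹ * (T (i.succ, true))⁻¹).prod := by
  rw [List.finRange_succ, List.map_cons, List.prod_cons, List.map_map]
  simp only [mul_assoc]
  rfl

theorem Φ_mem (hk : 2 ≤ k) (hinj : Function.Injective D) {ρ : ℕ → G k}
    (hρ : ρ ∈ (Sy D h ξ).Sol k) : Φ D h ρ ∈ Gl.Z k (h + 1) ξ := by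
  obtain ⟨u1, u2, he⟩ := Sol_UT hk hρ
  change ((List.finRange (h + 1)).map fun i => Φ D h ρ (i, false) * Φ D h ρ (i, true) *
    (Φ D h ρ (i, false))⁻¹ * (Φ D h ρ (i, true))⁻¹).prod = scal k k ξ
  rw [prod_succ, Φ_0t, Φ_0f]
  have hB := vG_conj hinj u1 u2 (ρ 0) (ρ 1)
  dsimp only at hB
  rw [hB, ← he, eval_mw, eval_cw, (eval_nest hk D ρ _).1, (eval_nest hk _ ρ _).1]
  rfl

/-- THE W_D BLOCK -/
theorem wd {O : Subring ℂ} {k : ℕ} (hk : 2 ≤ k) (D : Fin k → ℂˣ) (hsc : ∀ i, IsSc O (D i))
    (hinj : Function.Injective D) (hu : ∀ i j, i ≠ j → ((D i : ℂ) - D j)⁻¹ ∈ O) (hO : Good O)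
    (hE : ElimStatement O k k) (hC : ∀ j < k, Closed O j) : Gl.WDStmt O k D := by
  intro h ξ hξ T hT hg
  obtain ⟨g, hg⟩ := hg
  have hinj' : Function.Injective fun i => (D i : ℂ) := fun i j hij => hinj (Units.ext hij)
  have hP1 : P1 h = 2 + 2 * h := rfl
  have hP2 : P2 k h = 2 + 2 * h + 3 * (k - 1) := rfl
  have hne : ∀ D : Fin k → ℂˣ, dL D ≠ [] := by
    intro D
    obtain ⟨a, b, L, hL⟩ := dL_shape hk D
    rw [hL]; exact List.cons_ne_nil _ _
  have hdgUT : ∀ D : Fin k → ℂˣ, UT (fun i => (D i : ℂ)) (dg D).1 := fun D =>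
    ⟨fun i j hij => Matrix.diagonal_apply_ne _ (ne_of_gt hij), fun i => Matrix.diagonal_apply_eq _ _⟩
  obtain ⟨r1, hr1⟩ := nest_exists (dL D) (hne D) (dg D) ((NT_dL D _).2 (hdgUT D)) (P1 h)
  obtain ⟨r2, hr2⟩ := nest_exists (dL fun i => (D i)⁻¹) (hne _) (dg fun i => (D i)⁻¹)
    ((NT_dL _ _).2 (hdgUT _)) (P2 k h)
  rw [length_dL] at hr1 hr2
  -- the point
  set ρ : ℕ → G k := fun x => if x = 0 then g else if x = 1 then T (0, true) * g else
    if hx : (x - 2) / 2 < h ∧ x < P1 h then T (Fin.succ ⟨(x - 2) / 2, hx.1⟩, decide (x % 2 = 1)) else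
    if x < P2 k h then r1 x else r2 x with hρdef
  have e0 : ρ 0 = g := rfl
  have e1 : ρ 1 = T (0, true) * g := rfl
  have e2 : ∀ j : Fin h, ρ (2 + 2 * j.1) = T (j.succ, false) := by
    intro j
    have hj := j.2
    simp only [hρdef]
    rw [if_neg (by omega), if_neg (by omega), dif_pos ⟨by omega, by omega⟩]
    have a1 : (2 + 2 * j.1) % 2 = 0 := by omega
    have a2 : (2 + 2 * j.1 - 2) / 2 = j.1 := by omega
    simp only [a1, a2]
    rfl
  have e3 : ∀ j : Fin h, ρ (2 + 2 * j.1 + 1) = T (j.succ, true) := by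
    intro j
    have hj := j.2
    simp only [hρdef]
    rw [if_neg (by omega), if_neg (by omega), dif_pos ⟨by omega, by omega⟩]
    have a1 : (2 + 2 * j.1 + 1) % 2 = 1 := by omega
    have a2 : (2 + 2 * j.1 + 1 - 2) / 2 = j.1 := by omega
    simp only [a1, a2]
    rfl
  have e4 : ∀ x, P1 h ≤ x → x < P1 h + 3 * (k - 1) → ρ x = r1 x := by
    intro x hx hx'
    simp only [hρdef]
    rw [if_neg (by omega), if_neg (by omega), dif_neg (by omega), if_pos (by omega)]
  have e5 : ∀ x, P2 k h ≤ x → x < P2 k h + 3 * (k - 1) → ρ x = r2 x := by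
    intro x hx hx'
    simp only [hρdef]
    rw [if_neg (by omega), if_neg (by omega), dif_neg (by omega), if_neg (by omega)]
  obtain ⟨s1, s2, s3⟩ := hr1 ρ e4
  obtain ⟨t1, t2, t3⟩ := hr2 ρ e5
  rw [(eval_nest hk D ρ _).2] at s3
  rw [(eval_nest hk _ ρ _).2] at t3
  have hdinv : (dg fun i => (D i)⁻¹) = (dg D)⁻¹ := by
    apply Units.ext
    rfl
  have hΦ : Φ D h ρ = T := by
    funext ⟨i, b⟩
    refine Fin.cases ?_ (fun j => ?_) i
    · cases b
      · rw [Φ_0f, e0, s3, hg]
      · rw [Φ_0t, e0, e1, s3, t3, hdinv, inv_inv, vG_dg hinj]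
        group
    · cases b
      · rw [Φ_sf, e2]
      · rw [Φ_st, e3]
  have hmem : ρ ∈ (Sy D h ξ).Sol k := by
    refine ⟨?_, fun z hz => absurd hz (by simp [Sy])⟩
    intro r hr
    rw [Sy] at hr
    simp only [List.mem_cons, List.mem_append] at hr
    rcases hr with rfl | hr | hr
    · rw [len_dL] at s1 t1
      have hfull : ∀ x ε, Lt.Sat ρ k (Lt.full x ε) := fun x ε => mem_GLk_top _
      have hcw : ∀ s m, Wd.Sat ρ (cw s m) k := by
        intro s m
        induction m generalizing s with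
        | zero => intro l hl; simp [cw] at hl
        | succ m ih =>
          rw [cw]
          simp only [H486.Sat_cons]
          exact ⟨hfull _ _, hfull _ _, hfull _ _, hfull _ _, ih _⟩
      refine ⟨?_, ?_⟩
      · dsimp only
        rw [mw]
        simp only [H486.Sat_cons, H486.Sat_app]
        exact ⟨hfull _ _, s1, hfull _ _, hfull _ _, t1, hfull _ _, hcw _ _⟩
      · dsimp only
        have hprod : Wd.eval ρ (mw D h) = scal k k ξ := by
          have hT' : ((List.finRange (h + 1)).map fun i => T (i, false) * T (i, true) *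
            (T (i, false))⁻¹ * (T (i, true))⁻¹).prod = scal k k ξ := hT
          rw [← hT', prod_succ, eval_mw, eval_cw, (eval_nest hk D ρ _).1, (eval_nest hk _ ρ _).1, e0,
            e1, s3, t3, hdinv, hg]
          simp only [e2, e3]
          group
        rw [hprod]
        apply Units.ext
        ext i j
        rw [Units.val_mul, Matrix.mul_apply, Finset.sum_eq_single i]
        · rw [scal_apply, scal_apply, if_pos rfl, if_pos i.2, if_pos i.2]
          split_ifs with hij
          · subst hij; simp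
          · simp [hij]
        · intro l _ hl
          rw [scal_apply, if_neg (Ne.symm hl), zero_mul]
        · simp
    · exact s2 r hr
    · exact t2 r hr
  have hA := hE hO hC (Sy D h ξ) (Sy_WF hsc hξ) (Sy_Adm hk) ρ hmem
  have hfin := appr_map hmem hA (Gl.Z k (h + 1) ξ) Set.univ (Φ D h) ?_ (fun ρ hρ => Φ_mem hk hinj hρ) ?_
  · rwa [hΦ] at hfin
  · rintro ⟨i, b⟩
    refine Fin.cases ?_ (fun j => ?_) i
    · cases b
      · exact polG_mul (polG_mul (polG_name _ 0) (polG_name _ _)) (polG_inv (polG_name _ 0))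
      · refine polG_mul (polG_mul (polG_mul (polG_name _ 1) ?_) (polG_inv ?_))
          (polG_inv (polG_name _ 0))
        · exact polG_vG hinj' (polG_inv (polG_name _ _)) fun ρ hρ => (Sol_UT hk hρ).2.1
        · exact polG_vG hinj' (polG_name _ _) fun ρ hρ => (Sol_UT hk hρ).1
    · cases b
      · exact polG_name _ _
      · exact polG_name _ _
  · intro ρ' hρ' hint
    have hO' : ∀ i, (D i : ℂ) ∈ O := fun i => (hsc i).1
    have hnm : ∀ x, x ∈ H486.wnm (mw D h) → ρ' x ∈ GO O k := fun x hx =>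
      hint x (H486.mem_names.2 (Or.inl ⟨_, List.mem_cons_self, hx⟩))
    have h0 : ρ' 0 ∈ GO O k := hnm 0 ⟨Lt.full 0 true, List.mem_cons_self, rfl⟩
    have h1 : ρ' 1 ∈ GO O k := hnm 1 ⟨Lt.full 1 true, by simp [mw], rfl⟩
    have hp1 : ρ' (P1 h) ∈ GO O k := by
      obtain ⟨l, hl, -, hl'⟩ := par_mem_nest hk D (P1 h)
      exact hnm _ ⟨l, List.mem_cons_of_mem _ (List.mem_append_left _ hl), hl'⟩
    have hp2 : ρ' (P2 k h) ∈ GO O k := by
      obtain ⟨l, hl, -, hl'⟩ := par_mem_nest hk (fun i => (D i)⁻¹) (P2 k h)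
      exact hnm _ ⟨l, List.mem_cons_of_mem _ (List.mem_append_right _ (List.mem_cons_of_mem _
        (List.mem_cons_of_mem _ (List.mem_append_left _ hl)))), hl'⟩
    have hcw : ∀ m s j, j < m → ∀ b : Bool, (s + 2 * j + b.toNat) ∈ H486.wnm (cw s m) := by
      intro m
      induction m with
      | zero => intro s j hj; omega
      | succ m ih =>
        intro s j hj b
        rcases Nat.eq_zero_or_pos j with rfl | hj'
        · cases b
          · exact ⟨Lt.full s true, by simp [cw], rfl⟩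
          · exact ⟨Lt.full (s + 1) true, by simp [cw], rfl⟩
        · obtain ⟨l, hl, hl'⟩ := ih (s + 2) (j - 1) (by omega) b
          refine ⟨l, by rw [cw]; simp [hl], ?_⟩
          have : s + 2 + 2 * (j - 1) + b.toNat = s + 2 * j + b.toNat := by omega
          rwa [this] at hl'
    have hcm : ∀ x, x ∈ H486.wnm (cw 2 h) → ρ' x ∈ GO O k := by
      rintro x ⟨l, hl, hl'⟩
      refine hnm x ⟨l, ?_, hl'⟩
      rw [mw]
      simp [hl]
    rintro ⟨i, b⟩ -
    refine Fin.cases ?_ (fun j => ?_) i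
    · cases b
      · rw [Φ_0f]
        exact (GO O k).mul_mem ((GO O k).mul_mem h0 hp1) ((GO O k).inv_mem h0)
      · rw [Φ_0t]
        exact (GO O k).mul_mem ((GO O k).mul_mem ((GO O k).mul_mem h1
          (vG_GO O hO' hu ((GO O k).inv_mem hp2))) ((GO O k).inv_mem (vG_GO O hO' hu hp1)))
          ((GO O k).inv_mem h0)
    · cases b
      · rw [Φ_sf]
        exact hcm _ (hcw h 2 j.1 j.2 false)
      · rw [Φ_st]
        exact hcm _ (hcw h 2 j.1 j.2 true)

end sys

end Crest.Agent.R003.WD
private theorem rz_0f3a124166 : type_of% @_root_.Crest.Agent.R003.WD.cV.eq_def := @_root_.Crest.Agent.R003.WD.cV.eq_def -- L100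
private theorem rz_6d1583fb2e : type_of% @_root_.Crest.Agent.R003.WD.cV.eq_1 := @_root_.Crest.Agent.R003.WD.cV.eq_1 -- L100
private theorem rz_4c98291ab6 : type_of% @_root_.Crest.Agent.R003.WD.cw.eq_def := @_root_.Crest.Agent.R003.WD.cw.eq_def -- L95
private theorem rz_b6f0b4d9ba : type_of% @_root_.Crest.Agent.R003.WD.cw.eq_1 := @_root_.Crest.Agent.R003.WD.cw.eq_1 -- L95
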