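import Crest.Agent.R003.Tor363e
import Crest.Agent.R003.Cyc644
import Crest.Agent.R003.Gl478A
import Crest.Agent.R003.Hsp992
import Crest.Agent.R003.WD518D_Mg
import Crest.Agent.R003.Driver537
import Crest.Agent.R003.App638
import Crest.Agent.R003.Theta832
import Crest.Agent.R003.S2_412
import Crest.Agent.R003.S7_419
import Crest.Agent.R003.Core5_227
import Crest.Agent.R003.Glue961_Mg
import Crest.Agent.R003.S5_227_Mg
import Crest.Agent.R003.Calc961
import Mathlib
import Crest.Agent.R003.Corner832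
import Crest.Agent.R003.BruhatG686

-- ▼ part R003/Tor363f
section

/-!
# R003 (helper363), file f: `Closed` for `h = 1`, unconditional
-/

set_option autoImplicit false

namespace Crest.Agent.R003.Tor

open Matrix

theorem exists_cyc (l : ℕ) (b : Matrix (Fin l) (Fin l) ℂ) :
    ∃ (c : Matrix (Fin l) (Fin l) ℂ) (v : Fin l → ℂ), c * b = b * c ∧ (cyc c v).det ≠ 0 := by
  obtain ⟨c, v, h1, h2⟩ := Str.exists_commute_cyclic_matrix b
  refine ⟨c, v, h1, ?_⟩
  have h3 := (Str.linearIndependent_iff_det c v).1 h2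
  have h4 : cyc c v = (Matrix.of fun j : Fin l => (c ^ j.1).mulVec v)ᵀ := by
    ext i j
    rfl
  rw [h4, Matrix.det_transpose]
  exact h3

/-- **the case `h = 1` of `Closed O k`** -/
theorem closed_torus {O : Subring ℂ} (hO : Good O) (k : ℕ) (ξ : ℂˣ) (hξ : IsSc O ξ)
    (T : Fin 1 × Bool → G k)
    (hT : ((List.finRange 1).map fun i => T (i, false) * T (i, true) * (T (i, false))⁻¹ *
      (T (i, true))⁻¹).prod = scal k k ξ) :
    Appr O {T : Fin 1 × Bool → G k | ((List.finRange 1).map fun i => T (i, false) * T (i, true) *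
      (T (i, false))⁻¹ * (T (i, true))⁻¹).prod = scal k k ξ} Set.univ T :=
  closed_one hO exists_cyc k ξ hξ T hT

end Crest.Agent.R003.Tor
end

-- ▼ part R003/Gl478B
section

/-!
# Row 3, block INDUCTION GLUE (helper478), part B: `Closed O k` for all `k ≤ r` from the elimination
theorem, for `O = OO (rootField K (p * q))`, `p ≠ q` primes `> r`.
-/

set_option autoImplicit false

open Crest.NumberTheoryR.CharVarRel

namespace Crest.Agent.R003

namespace Gl

open Matrix

/-- `Closed O k` for all `k ≤ r`, abstract form. -/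
theorem closed_le_of {O : Subring ℂ} {L : Subfield ℂ} (hO : Unit.IsIntRing O L) (hgood : Good O)
    (r : ℕ) (D : ∀ k, Fin k → ℂˣ)
    (hsc : ∀ k, k ≤ r → ∀ i, IsSc O (D k i)) (hinj : ∀ k, k ≤ r → Function.Injective (D k))
    (hu : ∀ k, k ≤ r → ∀ i j, i ≠ j → ((D k i : ℂ) - D k j)⁻¹ ∈ O)
    (hE : ∀ k, 2 ≤ k → k ≤ r → ElimStatement O k k) : ∀ k, k ≤ r → Closed O k := by
  refine closed_all_of hgood r D hE ?_ ?_ ?_
  · intro k hk hkr hEk hC
    exact WD.wd hk (D k) (hsc k hkr) (hinj k hkr) (hu k hkr) hgood hEk hC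
  · intro k _ _ ξ hξ T hT
    exact Tor.closed_torus hgood k ξ hξ T hT
  · intro k hk hkr hW h hh ξ hξ T hT
    obtain ⟨g, rfl⟩ : ∃ g, h = g + 1 := ⟨h - 1, by omega⟩
    exact Gen.appr_of_special (by omega) (by omega) (D k) (hinj k hkr) ξ
      (fun T1 hT1 hac hsep => by
        obtain ⟨a, c, hc, hA⟩ := hac
        exact Unit.appr_of_WD hO (D k) hW ξ hξ T1 hT1 a c hc hA hsep) T hT

/-- the root of unity `zt n` as a unit -/
noncomputable def ztu (n : ℕ) : ℂˣ := Units.mk0 (zt n) (Complex.exp_ne_zero _)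

theorem ztu_val (n : ℕ) : (ztu n : ℂ) = zt n := rfl

theorem ztu_pow {n : ℕ} (hn : 0 < n) : ztu n ^ n = 1 := by
  apply Units.ext
  rw [Units.val_pow_eq_pow_val, ztu_val, Units.val_one]
  exact (zt_prim hn.ne').pow_eq_one

/-- `D k i = ζ ^ i` -/
noncomputable def Dz (n k : ℕ) (i : Fin k) : ℂˣ := ztu n ^ i.1

theorem good_OO (K : Subfield ℂ) (n : ℕ) : Good (OO (rootField K n)) :=
  ⟨u0, u0_mem K n, u0_inv_mem K n, fun _ hm => u0_pow_ne_one hm⟩

/-- ALL closed surfaces: `Closed O k`, `k ≤ r`, for `O = OO (rootField K (p * q))`. -/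
theorem closed_le (K : Subfield ℂ) (hK : FiniteDimensional ℚ K) {p q r : ℕ} (hp : p.Prime)
    (hq : q.Prime) (hpq : p ≠ q) (hrp : r < p) (hrq : r < q)
    (hE : ∀ k, 2 ≤ k → k ≤ r → ElimStatement (OO (rootField K (p * q))) k k) :
    ∀ k, k ≤ r → Closed (OO (rootField K (p * q))) k := by
  have hpos : 0 < p * q := Nat.mul_pos hp.pos hq.pos
  have h2 : 2 < p * q := by
    have h3 := hp.two_le
    have h4 := hq.two_le
    nlinarith
  refine closed_le_of (Unit.isIntRing_rootField K hK h2) (good_OO K _) r (Dz (p * q)) ?_ ?_ ?_ hE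
  · intro k _ i
    refine ⟨?_, p * q, hpos, ?_⟩
    · rw [Dz, Units.val_pow_eq_pow_val, ztu_val]
      exact Subring.pow_mem _ (zt_mem K hpos).1 _
    · rw [Dz, ← pow_mul, mul_comm i.1 (p * q), pow_mul, ztu_pow hpos, one_pow]
  · intro k hk i j hij
    have h5 := congrArg Units.val hij
    rw [Dz, Dz, Units.val_pow_eq_pow_val, Units.val_pow_eq_pow_val, ztu_val] at h5
    have hi := i.2
    have hj := j.2
    exact Fin.ext (zt_pow_injOn hp hq hrp (by omega) (by omega) h5)
  · intro k hk i j hij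
    rw [Dz, Dz, Units.val_pow_eq_pow_val, Units.val_pow_eq_pow_val, ztu_val]
    have hi := i.2
    have hj := j.2
    exact zt_sub_inv_mem K hp hq hpq hrp hrq (fun h => hij (Fin.ext h)) (by omega) (by omega)

end Gl

end Crest.Agent.R003
end

-- ▼ part R003/Base537
section

/-! R003 (S0003): base case of the driver (no roots).  helper537 -/

set_option autoImplicit false

namespace Crest.Agent.R003

theorem baseCase (O : Subring ℂ) (n : ℕ) : BaseCase O n := by
  intro hO fr ρ _ hρ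
  have h := appr_freeList hO fr (Sys.names ⟨[], fr⟩) (ρ := ρ) hρ.2
  have hS : Sys.Sol n ⟨[], fr⟩ = {σ : ℕ → G n | ∀ z ∈ fr, σ z.1 ∈ GLk n z.2} := by
    ext σ
    constructor
    · intro h; exact h.2
    · intro h; exact ⟨by simp, h⟩
  rw [hS]
  exact h

end Crest.Agent.R003
end

-- ▼ part R003/NF5a832
section

/-!
# Row 3 (S0003): NF5 from the existence theorem of helper990 (helper832)
-/

set_option autoImplicit false

namespace Crest.Agent.R003

/-- zero pattern for Boolean labels -/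
def ZP {n : ℕ} (c c' : List Bool) (P : G n) : Prop :=
  ∀ (i j : Fin n) (a b : Bool), lab c i.1 = some a → lab c' j.1 = some b → ¬ a ≤ b → P.1 i j = 0

/-- existence part of the normal form (990) -/
def NF5Core (n : ℕ) : Prop :=
  ∀ (k : ℕ), k ≤ n → ∀ (E X X' Y : List Bool) (W : Bool → G n) (P : G n),
    E.length = k → X.length = k → X'.length = k → Y.length = k → IsPar X X' W P →
    ∃ z : Sz, z.tot = k ∧ ∃ L R : G n, L ∈ GLk n k ∧ R ∈ GLk n k ∧ P = L * z.Th n * R ∧
      ZP E (z.lst labE) L ∧ ZP X (z.lst labXE) L ∧ ZP (z.lst labY) Y R ∧ ZP (z.lst labXY) X' R ∧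
      (∀ b, E.count b = (z.lst labE).count b) ∧ (∀ b, Y.count b = (z.lst labY).count b) ∧
      (∀ b, X.count b = (z.lst labXE).count b)

theorem nf5_of_core {n : ℕ} (h : NF5Core n) : NF5 n := by
  intro k hk E X X' Y W P hE hX hX' hY hP
  obtain ⟨z, hz, L, R, hL, hR, hPe, z1, z2, z3, z4, c1, c2, c3⟩ := h k hk E X X' Y W P hE hX hX' hY hP
  have hzn : z.tot ≤ n := hz ▸ hk
  have hTh := z.Th_isPar hzn
  have hcX' : ∀ b, (z.lst labXY).count b = X'.count b := by
    intro b
    rw [← hP.cnt, c3, hTh.cnt]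
  obtain ⟨g1, hg1⟩ := exists_blocks_bool (c := E) (c' := z.lst labE) (P := L) (hE ▸ hk) c1
    (hE.symm ▸ hL) z1
  obtain ⟨g2, hg2⟩ := exists_blocks_bool (c := X) (c' := z.lst labXE) (P := L) (hX ▸ hk) c3
    (hX.symm ▸ hL) z2
  obtain ⟨g3, hg3⟩ := exists_blocks_bool (c := z.lst labY) (c' := Y) (P := R)
    (by rw [z.lst_length]; exact hzn) (fun b => (c2 b).symm) (by rw [z.lst_length, hz]; exact hR) z3
  obtain ⟨g4, hg4⟩ := exists_blocks_bool (c := z.lst labXY) (c' := X') (P := R)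
    (by rw [z.lst_length]; exact hzn) hcX' (by rw [z.lst_length, hz]; exact hR) z4
  obtain ⟨nn, hnn⟩ := twoLab n E X (z.lst labE) (z.lst labXE) g1 g2 L (by rw [hE, hX])
    (by rw [z.lst_length, z.lst_length]) hg1 hg2
  obtain ⟨mm, hmm⟩ := twoLab n (z.lst labXY) (z.lst labY) X' Y g4 g3 R
    (by rw [z.lst_length, z.lst_length]) (by rw [hX', hY]) hg4 hg3
  refine ⟨z.lst labE, z.lst labY, z.lst labXE, z.lst labXY, nn, mm, L, R, z.N1 n, z.N3 n,
    by rw [z.lst_length, hz], by rw [z.lst_length, hz], by rw [z.lst_length, hz],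
    by rw [z.lst_length, hz], ?_, hnn, hmm, z.isPar_N1 hzn, z.isPar_N3 hzn,
    fun O => ⟨nG_mem_GO O n _ _, nGT_mem_GO O n _ _⟩, hTh, hPe⟩
  intro x
  rw [restr_length832 (by rw [z.lst_length, z.lst_length]),
    restr_length832 (by rw [z.lst_length, z.lst_length])]
  exact hTh.cnt x

end Crest.Agent.R003
end

-- ▼ part R003/S4_412
section

/-!
# Row 3: the step S4 (handle: double Bruhat decomposition) (helper412)
-/

set_option autoImplicit false

namespace Crest.Agent.R003.W412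

open Crest.Agent.R003

/-- a root with six full letters -/
theorem sol_six {n : ℕ} (τ : ℕ → G n) (k : ℕ) (x y z u v w : ℕ) :
    (⟨k, 1, [Lt.full x true, Lt.full y false, Lt.full z false, Lt.full u false, Lt.full v false,
      Lt.full w false]⟩ : Root).Sol τ ↔
      (τ x ∈ GLk n k ∧ τ y ∈ GLk n k ∧ τ z ∈ GLk n k ∧ τ u ∈ GLk n k ∧ τ v ∈ GLk n k ∧
        τ w ∈ GLk n k) ∧ τ x = τ w * τ v * τ u * τ z * τ y := by
  simp only [Root.Sol, sat_cons, Lt.Sat, ev_cons, ev_nil, mul_one, scal_one, one_mul, Lt.eval]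
  have e1 : τ x * ((τ y)⁻¹ * ((τ z)⁻¹ * ((τ u)⁻¹ * ((τ v)⁻¹ * (τ w)⁻¹)))) =
      τ x * (τ w * τ v * τ u * τ z * τ y)⁻¹ := by simp [mul_assoc]
  simp only [if_true, Bool.false_eq_true, if_false, e1, mul_inv_eq_one]
  simp [Wd.Sat]

set_option maxHeartbeats 4000000 in
theorem s4 (O : Subring ℂ) (n : ℕ) (hB : Bruhat n) (hC : Calc n) : S4 O n := by
  intro k ξ b a1 a2 a3 b' x y ε δ p e c1 E σ g rest fr ρ S hb ha1 ha2 ha3 hE hS hsol
  obtain ⟨cmul, cinv, -, -, -, -⟩ := hC
  -- unpack well-formedness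
  obtain ⟨hkn, hξ, hwf⟩ := hS.roots _ List.mem_cons_self
  change k ≤ n at hkn
  simp only [Wd.WF, wf_app, Wd.last, last_app] at hwf
  obtain ⟨hc1k, hc1E, hσe, hσs, hwb, hwa1, hwa2, hwa3, hwb'⟩ := hwf
  have hEk : E.length = k := by
    have := List.count_true_add_count_false c1
    have h2 := List.count_true_add_count_false E
    rw [hc1E, hc1E] at this
    omega
  -- unpack the solution
  obtain ⟨hsat, heq⟩ := hsol.1 _ List.mem_cons_self
  simp only [sat_cons, sat_app, Lt.Sat] at hsat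
  obtain ⟨hp, hsb, hx, hsa1, hy, hsa2, -, hsa3, -, hsb'⟩ := hsat
  simp only [ev_cons, ev_app, eval_neg] at heq
  have mb := eval_mem_full hb hsb
  have ma1 := eval_mem_full ha1 hsa1
  have ma2 := eval_mem_full ha2 hsa2
  have ma3 := eval_mem_full ha3 hsa3
  have md := (GLk n k).mul_mem ((GLk n k).mul_mem mb ma3) ma2
  have mx : Lt.eval ρ (Lt.full x ε) ∈ GLk n k := by cases ε <;> simp [Lt.eval, hx]
  have my : Lt.eval ρ (Lt.full y δ) ∈ GLk n k := by cases δ <;> simp [Lt.eval, hy]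
  -- Bruhat
  obtain ⟨Ea, Fa, q, q', γ, γ', hEak, hFak, hq, hq', hX1⟩ := hB k hkn
    (Wd.eval ρ b * Lt.eval ρ (Lt.full x ε) * (Wd.eval ρ b * Wd.eval ρ a3 * Wd.eval ρ a2)⁻¹)
    ((GLk n k).mul_mem ((GLk n k).mul_mem mb mx) ((GLk n k).inv_mem md)) E E hEk hEk
  obtain ⟨Fb, Gb, s, s', β, β', hFbk, hGbk, hs, hs', hX2⟩ := hB k hkn
    (q' * ((Wd.eval ρ b * Wd.eval ρ a3 * Wd.eval ρ a2) * Wd.eval ρ a1 * Lt.eval ρ (Lt.full y δ) *
      Wd.eval ρ a2 * (Wd.eval ρ b * Wd.eval ρ a3 * Wd.eval ρ a2)⁻¹))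
    ((GLk n k).mul_mem (hFak ▸ hq'.mem) ((GLk n k).mul_mem ((GLk n k).mul_mem
      ((GLk n k).mul_mem ((GLk n k).mul_mem md ma1) my) ma2) ((GLk n k).inv_mem md))) Fa E hFak hEk
  have cEa : ∀ t, Ea.count t = c1.count t := fun t => by rw [hc1E, hq.cnt]
  have cFa : ∀ t, Fa.count t = c1.count t := fun t => by rw [hc1E, hq'.cnt]
  have cFb : ∀ t, Fb.count t = c1.count t := fun t => by rw [← cFa, hs.cnt]
  have cGb : ∀ t, Gb.count t = c1.count t := fun t => by rw [hc1E, hs'.cnt]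
  have cE : ∀ t, E.count t = c1.count t := fun t => by rw [hc1E]
  obtain ⟨N, hN⟩ := exists_bound S
  let hh : Bool → ℕ := fun t => N + (5 + t.toNat)
  let z2 : Bool → ℕ := fun t => N + (7 + t.toNat)
  let z3 : Bool → ℕ := fun t => N + (9 + t.toNat)
  let z4 : Bool → ℕ := fun t => N + (11 + t.toNat)
  let z5 : Bool → ℕ := fun t => N + (13 + t.toNat)
  let R' : Root := ⟨k, ξ, Lt.par N e σ c1 Ea hh :: Lt.par (N + 1) [] (fun _ _ => 1) Fa Fb z2 ::
    Lt.par (N + 2) [] (fun _ _ => 1) Gb Fa z3 :: Lt.par (N + 3) [] (fun _ _ => 1) Ea Gb z4 ::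
    Lt.par (N + 4) [] (fun _ _ => 1) Fb E z5 :: (b ++ (a3 ++ (a2 ++ (a1 ++ b'))))⟩
  let C : Bool → Root := fun t =>
    ⟨c1.count t, 1, [Lt.full (g t) true, Lt.full (z5 t) false, Lt.full (z2 t) false,
      Lt.full (z3 t) false, Lt.full (z4 t) false, Lt.full (hh t) false]⟩
  let vals : List (G n) := [ρ p * q, s, s' * q'⁻¹, q⁻¹ * s'⁻¹, s⁻¹ * q',
    ρ (g false) * γ false, ρ (g true) * γ true, β false, β true,
    β' false * (γ' false)⁻¹, β' true * (γ' true)⁻¹, (γ false)⁻¹ * (β' false)⁻¹,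
    (γ true)⁻¹ * (β' true)⁻¹, (β false)⁻¹ * γ' false, (β true)⁻¹ * γ' true]
  let ρ' : ℕ → G n := upd ρ N vals
  let d0 : (ℕ → G n) → G n := fun τ => Wd.eval τ b * Wd.eval τ a3 * Wd.eval τ a2
  let WA : (ℕ → G n) → G n := fun τ =>
    (Wd.eval τ b)⁻¹ * ((τ (N + 4))⁻¹ * (τ (N + 1))⁻¹ * (τ (N + 2))⁻¹ * (τ (N + 3))⁻¹ *
      τ (N + 1) * τ (N + 4)) * d0 τ
  let WB : (ℕ → G n) → G n := fun τ =>
    (Wd.eval τ a1)⁻¹ * (d0 τ)⁻¹ * ((τ (N + 4))⁻¹ * τ (N + 2) * τ (N + 1) * τ (N + 4)) * d0 τ *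
      (Wd.eval τ a2)⁻¹
  let φ : ℕ → (ℕ → G n) → G n := fun z τ =>
    if z = p then τ N * τ (N + 3) * τ (N + 2) * τ (N + 1) * τ (N + 4) else
      if z = x then sgn ε (WA τ) else sgn δ (WB τ)
  let U : Multiset (ℕ × ℕ × Bool) := {(g false, c1.count false, true)} +
    {(g true, c1.count true, true)} + Wd.occ b k + Wd.occ a1 k + Wd.occ a2 k + Wd.occ a3 k +
    Wd.occ b' k
  have hoccR : occs [⟨k, ξ, Lt.par p e σ c1 E g :: (b ++ Lt.full x ε :: (a1 ++ Lt.full y δ :: (a2 ++
      Lt.full x (!ε) :: (a3 ++ Lt.full y (!δ) :: b'))))⟩] = pm ({(x, k)} + {(y, k)}) + U := by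
    simp only [occs_cons, occs_nil, occ_cons, occ_app, Lt.occ, pair_eq, pm, Multiset.map_singleton,
      Multiset.map_add, U]
    cases ε <;> cases δ <;> simp only [Bool.not_false, Bool.not_true] <;> abel
  have hpnR : pns [⟨k, ξ, Lt.par p e σ c1 E g :: (b ++ Lt.full x ε :: (a1 ++ Lt.full y δ :: (a2 ++
      Lt.full x (!ε) :: (a3 ++ Lt.full y (!δ) :: b'))))⟩] = {p} + Wd.pn b' := by
    simp only [pns_cons, pns_nil, pn_cons, pn_app, Lt.pn, pn_full ha1, pn_full ha2, pn_full ha3,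
      pn_full hb]
    abel
  have hoccN : occs [R', C false, C true] =
      pm ({(hh false, c1.count false)} + {(hh true, c1.count true)} +
        {(z2 false, c1.count false)} + {(z2 true, c1.count true)} +
        {(z3 false, c1.count false)} + {(z3 true, c1.count true)} +
        {(z4 false, c1.count false)} + {(z4 true, c1.count true)} +
        {(z5 false, c1.count false)} + {(z5 true, c1.count true)}) + U := by
    simp only [occs_cons, occs_nil, occ_cons, occ_nil, occ_app, Lt.occ, pair_eq, pm, Multiset.map_add,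
      Multiset.map_singleton, U, R', C, cEa, cFa, cFb, cGb]
    abel
  have hpnN : pns [R', C false, C true] =
      ({N} + {N + 1} + {N + 2} + {N + 3} + {N + 4}) + Wd.pn b' := by
    simp only [pns_cons, pns_nil, pn_cons, pn_nil, pn_app, Lt.pn, pn_full ha1, pn_full ha2,
      pn_full ha3, pn_full hb, R', C]
    abel
  obtain ⟨hold1, hold2⟩ := old_nodup (D := {(x, k)} + {(y, k)}) (olds := [_]) hS hoccR hpnR
  have hne : y ≠ x ∧ p ≠ x ∧ p ≠ y := by
    simp only [Multiset.map_singleton, Multiset.map_add, Multiset.nodup_add,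
      Multiset.nodup_singleton,
      Multiset.disjoint_right, Multiset.mem_add, Multiset.mem_singleton,
      true_and, forall_eq] at hold1
    refine ⟨hold1.1, fun h => ?_, fun h => ?_⟩
    · exact hold1.2 (Or.inl h)
    · exact hold1.2 (Or.inr h)
  have hfr : ∀ z, z ∈ (({(hh false, c1.count false)} + {(hh true, c1.count true)} +
        {(z2 false, c1.count false)} + {(z2 true, c1.count true)} +
        {(z3 false, c1.count false)} + {(z3 true, c1.count true)} +
        {(z4 false, c1.count false)} + {(z4 true, c1.count true)} +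
        {(z5 false, c1.count false)} + {(z5 true, c1.count true)} : Multiset (ℕ × ℕ)).map Prod.fst +
        ({N} + {N + 1} + {N + 2} + {N + 3} + {N + 4}) +
          (([] : List (ℕ × ℕ)).map Prod.fst : List ℕ)) ↔ (N ≤ z ∧ z < N + 15) := by
    intro z
    simp only [Multiset.map_add, Multiset.map_singleton, Multiset.mem_add, Multiset.mem_singleton,
      List.map_nil, Multiset.coe_nil, Multiset.notMem_zero, or_false, hh, z2, z3, z4, z5,
      Bool.toNat_false, Bool.toNat_true]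
    omega
  have hk0 : ∀ t, c1.count t < k := by
    intro t
    have h1 := List.count_true_add_count_false c1
    have h2 := hE true
    have h3 := hE false
    rw [← hc1E] at h2 h3
    cases t <;> omega
  -- names of the pieces
  have hmb : ∀ z ∈ nm b k, z ∈ nmU U (Wd.pn b') := by
    rintro z (⟨j, δ, hz⟩ | hz)
    · exact Or.inl ⟨j, δ, by simp [U, hz]⟩
    · rw [pn_full hb] at hz; simp at hz
  have hma1 : ∀ z ∈ nm a1 k, z ∈ nmU U (Wd.pn b') := by
    rintro z (⟨j, δ, hz⟩ | hz)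
    · exact Or.inl ⟨j, δ, by simp [U, hz]⟩
    · rw [pn_full ha1] at hz; simp at hz
  have hma2 : ∀ z ∈ nm a2 k, z ∈ nmU U (Wd.pn b') := by
    rintro z (⟨j, δ, hz⟩ | hz)
    · exact Or.inl ⟨j, δ, by simp [U, hz]⟩
    · rw [pn_full ha2] at hz; simp at hz
  have hma3 : ∀ z ∈ nm a3 k, z ∈ nmU U (Wd.pn b') := by
    rintro z (⟨j, δ, hz⟩ | hz)
    · exact Or.inl ⟨j, δ, by simp [U, hz]⟩
    · rw [pn_full ha3] at hz; simp at hz
  have hmb' : ∀ z ∈ nm b' k, z ∈ nmU U (Wd.pn b') := by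
    rintro z (⟨j, δ, hz⟩ | hz)
    · exact Or.inl ⟨j, δ, by simp [U, hz]⟩
    · exact Or.inr hz
  have hmg : ∀ t, g t ∈ nmU U (Wd.pn b') := by
    intro t
    refine Or.inl ⟨c1.count t, true, ?_⟩
    cases t <;> simp [U]
  have hUN : ∀ z ∈ nmU U (Wd.pn b'), z < N := by
    intro z hz
    refine hN z (nmU_names (olds := [_]) ?_)
    rw [hoccR, hpnR]
    exact nmU_mono (Multiset.le_add_left _ _) (Multiset.le_add_left _ _) hz
  have hUρ : ∀ z ∈ nmU U (Wd.pn b'), ρ' z = ρ z := fun z hz => upd_lt (hUN z hz)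
  have v0 : ρ' N = ρ p * q := by simp [ρ', upd, vals]
  have v1 : ρ' (N + 1) = s := by simp [ρ', upd, vals]
  have v2 : ρ' (N + 2) = s' * q'⁻¹ := by simp [ρ', upd, vals]
  have v3 : ρ' (N + 3) = q⁻¹ * s'⁻¹ := by simp [ρ', upd, vals]
  have v4 : ρ' (N + 4) = s⁻¹ * q' := by simp [ρ', upd, vals]
  have v5 : ∀ t, ρ' (hh t) = ρ (g t) * γ t := by intro t; cases t <;> simp [ρ', upd, vals, hh]
  have v6 : ∀ t, ρ' (z2 t) = β t := by intro t; cases t <;> simp [ρ', upd, vals, z2]
  have v7 : ∀ t, ρ' (z3 t) = β' t * (γ' t)⁻¹ := by intro t; cases t <;> simp [ρ', upd, vals, z3]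
  have v8 : ∀ t, ρ' (z4 t) = (γ t)⁻¹ * (β' t)⁻¹ := by intro t; cases t <;> simp [ρ', upd, vals, z4]
  have v9 : ∀ t, ρ' (z5 t) = (β t)⁻¹ * γ' t := by intro t; cases t <;> simp [ρ', upd, vals, z5]
  have eb : Wd.eval ρ' b = Wd.eval ρ b := eval_congr b k fun z hz => hUρ z (hmb z hz)
  have ea1 : Wd.eval ρ' a1 = Wd.eval ρ a1 := eval_congr a1 k fun z hz => hUρ z (hma1 z hz)
  have ea2 : Wd.eval ρ' a2 = Wd.eval ρ a2 := eval_congr a2 k fun z hz => hUρ z (hma2 z hz)
  have ea3 : Wd.eval ρ' a3 = Wd.eval ρ a3 := eval_congr a3 k fun z hz => hUρ z (hma3 z hz)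
  have eb' : Wd.eval ρ' b' = Wd.eval ρ b' := eval_congr b' k fun z hz => hUρ z (hmb' z hz)
  have hAe : Lt.eval ρ (Lt.full x ε) = (Wd.eval ρ b)⁻¹ * (q * q') *
      (Wd.eval ρ b * Wd.eval ρ a3 * Wd.eval ρ a2) := by
    rw [← hX1]; group
  have hBe : Lt.eval ρ (Lt.full y δ) = (Wd.eval ρ a1)⁻¹ *
      (Wd.eval ρ b * Wd.eval ρ a3 * Wd.eval ρ a2)⁻¹ * (q'⁻¹ * (s * s')) *
      (Wd.eval ρ b * Wd.eval ρ a3 * Wd.eval ρ a2) * (Wd.eval ρ a2)⁻¹ := by
    rw [← hX2]; group
  refine red_gen (olds := [_]) [R', C false, C true] [] ({(x, k)} + {(y, k)}) _ U _ _ _ hS hsol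
    hoccR hpnR hoccN hpnN ?_ ?_ ?_ ?_ ?_ ?_ φ ρ' ?_ ?_ ?_ ?_ ?_ ?_
  · -- nodup
    simp [hh, z2, z3, z4, z5]
  · -- fresh
    intro z hz hz'
    have h1 := (hfr z).1 hz
    have h2 := hN z hz'
    omega
  · simp
  · -- WF
    intro r hr
    simp only [List.mem_cons, List.not_mem_nil, or_false] at hr
    have hck : ∀ t, c1.count t ≤ n := fun t => le_trans List.count_le_length (by omega)
    rcases hr with rfl | rfl | rfl
    · refine ⟨hkn, hξ, ?_⟩
      simp only [R', Wd.WF, wf_app, Wd.last, last_app]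
      refine ⟨hc1k, fun t => (cEa t).symm, ?_, hσs, hFak, fun t => by rw [cFa, cFb],
        Or.inl (by simp), fun _ _ => IsSc.one, hGbk, fun t => by rw [cFa, cGb], Or.inl (by simp),
        fun _ _ => IsSc.one, hEak, fun t => by rw [cEa, cGb], Or.inl (by simp),
        fun _ _ => IsSc.one, hFbk, fun t => by rw [cFb, cE], Or.inl (by simp),
        fun _ _ => IsSc.one, wf_full hb, wf_full ha3, wf_full ha2, wf_full ha1, wf_none hwb'⟩
      rcases hσe with h | h
      · exact Or.inl h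
      · right
        by_cases hd : b' = []
        · subst hd; cases h
        · rw [← h]; exact last_ne_nil hd _ _
    all_goals
      refine ⟨?_, IsSc.one, ?_⟩
      · simp only [C]
        exact hck _
      · simp [C, Wd.WF]
  · -- weight
    have w1 : Lt.wt k (Lt.par N e σ c1 Ea hh) = Lt.wt k (Lt.par p e σ c1 E g) := rfl
    have wp : ∀ (nn : ℕ) (c c' : List Bool) (gg : Bool → ℕ), (∀ t, c.count t = c1.count t) →
        Lt.wt k (Lt.par nn [] (fun _ _ => 1) c c' gg) = {3 * k} := by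
      intro nn c c' gg hc
      simp only [Lt.wt]
      rw [if_pos (fun t => by rw [hc, hc1E]; exact hE t), if_pos (by simp)]
    have w2 := wp (N + 1) Fa Fb z2 cFa
    have w3 := wp (N + 2) Gb Fa z3 cGb
    have w4 := wp (N + 3) Ea Gb z4 cEa
    have w5 := wp (N + 4) Fb E z5 cFb
    refine ⟨{3 * k} + Lt.wt k (Lt.par p e σ c1 E g) + Wd.wt b k + Wd.wt a1 k + Wd.wt a2 k +
      Wd.wt a3 k + Wd.wt b' k, {3 * k} + {3 * k} + {3 * k} + {3 * k} + ((C false).wt + (C true).wt),
      {3 * k + 1} + {3 * k + 1} + {3 * k + 1} + {3 * k + 1}, ?_, ?_, ?_, ?_⟩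
    · simp
    · simp only [List.map_cons, List.map_nil, List.sum_cons, List.sum_nil]
      simp only [Root.wt, R', wt_cons, wt_app, w1, w2, w3, w4, w5, ← Multiset.singleton_add]
      abel
    · simp only [List.map_cons, List.map_nil, List.sum_cons, List.sum_nil, Root.wt, wt_cons, wt_app,
        wt_fl, ← Multiset.singleton_add]
      abel
    · intro y hy
      refine ⟨3 * k + 1, by simp, ?_⟩
      simp only [C, Root.wt, wt_cons, wt_nil, wt_fl, Multiset.mem_add, Multiset.mem_cons,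
        Multiset.mem_singleton, Multiset.notMem_zero, or_false] at hy
      have h1 := hk0 false
      have h2 := hk0 true
      omega
  · -- Adm
    intro k0 hk r hr
    have hk := hk _ List.mem_cons_self
    change k < k0 ∨ k = k0 ∧ _ at hk
    simp only [List.mem_cons, List.not_mem_nil, or_false] at hr
    rcases hr with rfl | rfl | rfl
    · rcases hk with hk | hk
      · exact Or.inl hk
      · refine Or.inr ⟨hk.1, ?_⟩
        exact ⟨_, List.mem_cons_self, fun t => by rw [hc1E]; exact hE t⟩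
    · exact Or.inl (lt_of_lt_of_le (hk0 false) (by omega))
    · exact Or.inl (lt_of_lt_of_le (hk0 true) (by omega))
  · -- ρ' solves the new roots
    refine ⟨?_, by simp⟩
    intro r hr
    simp only [List.mem_cons, List.not_mem_nil, or_false] at hr
    have hC : ∀ t, (C t).Sol ρ' := by
      intro t
      rw [sol_six]
      simp only [v5, v6, v7, v8, v9, hUρ _ (hmg t)]
      have m1 := hp.blk t
      have m2 := hq.blk t
      have m3 := hq'.blk t
      have m4 := hs.blk t
      have m5 := hs'.blk t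
      rw [cE] at m2
      rw [cFa] at m3 m4
      rw [cGb] at m5
      refine ⟨⟨m1, (GLk n _).mul_mem ((GLk n _).inv_mem m4) m3, m4,
        (GLk n _).mul_mem m5 ((GLk n _).inv_mem m3),
        (GLk n _).mul_mem ((GLk n _).inv_mem m2) ((GLk n _).inv_mem m5),
        (GLk n _).mul_mem m1 m2⟩, ?_⟩
      group
    rcases hr with rfl | rfl | rfl
    · refine ⟨?_, ?_⟩
      · simp only [R', sat_cons, sat_app, Lt.Sat, v0, v1, v2, v3, v4, v5, v6, v7, v8, v9]
        refine ⟨cmul _ _ _ _ _ _ _ hp hq, hs, cmul _ _ _ _ _ _ _ hs' (cinv _ _ _ _ hq'),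
          cmul _ _ _ _ _ _ _ (cinv _ _ _ _ hq) (cinv _ _ _ _ hs'),
          cmul _ _ _ _ _ _ _ (cinv _ _ _ _ hs) hq', ?_, ?_, ?_, ?_, ?_⟩
        · exact (sat_congr b k fun z hz => hUρ z (hmb z hz)).2 hsb
        · exact (sat_congr a3 k fun z hz => hUρ z (hma3 z hz)).2 hsa3
        · exact (sat_congr a2 k fun z hz => hUρ z (hma2 z hz)).2 hsa2
        · exact (sat_congr a1 k fun z hz => hUρ z (hma1 z hz)).2 hsa1
        · exact (sat_congr b' k fun z hz => hUρ z (hmb' z hz)).2 hsb'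
      · rw [← heq]
        simp only [R', ev_cons, ev_app, ea1, ea2, ea3, eb, eb', hAe, hBe]
        simp only [Lt.eval.eq_2, v0, v1, v2, v3, v4, dsg_one _ _ (fun _ _ => rfl), one_mul]
        simp [mul_assoc]
    · exact hC false
    · exact hC true
  · -- outside of the fresh names
    intro z hz
    rw [hfr] at hz
    by_cases h : z < N
    · exact upd_lt h
    · exact upd_ge (by simp [vals]; omega)
  · -- φ at ρ'
    intro z hz
    simp only [Multiset.map_singleton, Multiset.map_add, Multiset.mem_add,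
      Multiset.mem_singleton] at hz
    rcases hz with (rfl | rfl) | rfl
    · simp only [φ, if_neg (Ne.symm hne.2.1), if_true, WA, d0, ea2, ea3, eb, v1, v2, v3, v4]
      rw [← sgn_eval ρ z ε, hAe]
      congr 1
      simp [mul_assoc]
    · simp only [φ, if_neg (Ne.symm hne.2.2), if_neg hne.1, WB, d0, ea1, ea2, ea3, eb, v1, v2, v4]
      rw [← sgn_eval ρ z δ, hBe]
      congr 1
      simp [mul_assoc]
    · simp only [φ, if_true, v0, v1, v2, v3, v4]; simp [mul_assoc]
  · -- polynomial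
    intro z _
    simp only [φ]
    have pd0 : PolG (newSol n [R', C false, C true] []) (fun τ => d0 τ) :=
      polG_mul (polG_mul (polG_eval _ _) (polG_eval _ _)) (polG_eval _ _)
    by_cases h : z = p
    · simp only [h, if_true]
      exact polG_mul (polG_mul (polG_mul (polG_mul (polG_name _ _) (polG_name _ _))
        (polG_name _ _)) (polG_name _ _)) (polG_name _ _)
    · simp only [h, if_false]
      by_cases h' : z = x
      · simp only [h', if_true, WA]
        exact polG_sgn ε (polG_mul (polG_mul (polG_inv (polG_eval _ _))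
          (polG_mul (polG_mul (polG_mul (polG_mul (polG_mul (polG_inv (polG_name _ _))
            (polG_inv (polG_name _ _))) (polG_inv (polG_name _ _))) (polG_inv (polG_name _ _)))
              (polG_name _ _)) (polG_name _ _))) pd0)
      · simp only [h', if_false, WB]
        exact polG_sgn δ (polG_mul (polG_mul (polG_mul (polG_mul (polG_inv (polG_eval _ _))
          (polG_inv pd0)) (polG_mul (polG_mul (polG_mul (polG_inv (polG_name _ _))
            (polG_name _ _)) (polG_name _ _)) (polG_name _ _))) pd0) (polG_inv (polG_eval _ _)))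
  · -- integral
    intro τ hτ hint _ z _
    have i1 : ∀ j < 5, τ (N + j) ∈ GO O n := by
      intro j hj
      refine hint _ (Or.inr ?_)
      rw [hpnN]
      simp only [Multiset.mem_add, Multiset.mem_singleton]
      omega
    have iU : ∀ z ∈ nmU U (Wd.pn b'), τ z ∈ GO O n := by
      intro z hz
      refine hint z ?_
      rw [hoccN, hpnN]
      exact nmU_mono (Multiset.le_add_left _ _) (Multiset.le_add_left _ _) hz
    have ib : Wd.eval τ b ∈ GO O n := GO_eval_full hb fun z hz => iU z (hmb z hz)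
    have ia1 : Wd.eval τ a1 ∈ GO O n := GO_eval_full ha1 fun z hz => iU z (hma1 z hz)
    have ia2 : Wd.eval τ a2 ∈ GO O n := GO_eval_full ha2 fun z hz => iU z (hma2 z hz)
    have ia3 : Wd.eval τ a3 ∈ GO O n := GO_eval_full ha3 fun z hz => iU z (hma3 z hz)
    have id0 : d0 τ ∈ GO O n := (GO O n).mul_mem ((GO O n).mul_mem ib ia3) ia2
    have i0 := i1 0 (by norm_num)
    have i2 := i1 2 (by norm_num)
    have i3 := i1 3 (by norm_num)
    have i4 := i1 4 (by norm_num)
    have i1 := i1 1 (by norm_num)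
    have mm : ∀ {u v : G n}, u ∈ GO O n → v ∈ GO O n → u * v ∈ GO O n := fun hu hv =>
      (GO O n).mul_mem hu hv
    have mi : ∀ {u : G n}, u ∈ GO O n → u⁻¹ ∈ GO O n := fun hu => (GO O n).inv_mem hu
    simp only [φ]
    split_ifs
    · exact mm (mm (mm (mm i0 i3) i2) i1) i4
    · exact sgn_mem (mm (mm (mi ib) (mm (mm (mm (mm (mm (mi i4) (mi i1)) (mi i2)) (mi i3)) i1) i4))
        id0)
    · exact sgn_mem (mm (mm (mm (mm (mi ia1) (mi id0)) (mm (mm (mm (mi i4) i2) i1) i4)) id0)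
        (mi ia2))
  · -- back
    intro τ hτ τ' hφ hK r hr
    rw [List.mem_singleton] at hr
    subst hr
    have tb : Wd.eval τ' b = Wd.eval τ b := eval_congr b k fun z hz => hK z (hmb z hz)
    have ta1 : Wd.eval τ' a1 = Wd.eval τ a1 := eval_congr a1 k fun z hz => hK z (hma1 z hz)
    have ta2 : Wd.eval τ' a2 = Wd.eval τ a2 := eval_congr a2 k fun z hz => hK z (hma2 z hz)
    have ta3 : Wd.eval τ' a3 = Wd.eval τ a3 := eval_congr a3 k fun z hz => hK z (hma3 z hz)
    have tb' : Wd.eval τ' b' = Wd.eval τ b' := eval_congr b' k fun z hz => hK z (hmb' z hz)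
    have fp : τ' p = τ N * τ (N + 3) * τ (N + 2) * τ (N + 1) * τ (N + 4) := by
      rw [hφ p (by simp)]; simp [φ]
    have fx : τ' x = sgn ε (WA τ) := by
      rw [hφ x (by simp)]; simp [φ, Ne.symm hne.2.1]
    have fy : τ' y = sgn δ (WB τ) := by
      rw [hφ y (by simp)]; simp [φ, Ne.symm hne.2.2, hne.1]
    have fX : Lt.eval τ' (Lt.full x ε) = WA τ := eval_sgn fx
    have fY : Lt.eval τ' (Lt.full y δ) = WB τ := eval_sgn fy
    obtain ⟨hsR, heR⟩ := hτ.1 R' (by simp)
    simp only [R', sat_cons, sat_app, Lt.Sat] at hsR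
    obtain ⟨s1, s2, s3, s4, s5, s6, s7, s8, s9, s10⟩ := hsR
    simp only [R', ev_cons, ev_app] at heR
    simp only [Lt.eval.eq_2, dsg_one _ _ (fun _ _ => rfl), one_mul] at heR
    have hCs : ∀ t, (C t).Sol τ := by
      intro t; cases t
      · exact hτ.1 _ (by simp)
      · exact hτ.1 _ (by simp)
    have hCe : ∀ t, τ (hh t) * τ (z4 t) * τ (z3 t) * τ (z2 t) * τ (z5 t) = τ' (g t) := by
      intro t
      rw [hK _ (hmg t)]
      exact ((sol_six τ _ _ _ _ _ _ _).1 (hCs t)).2.symm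
    refine ⟨?_, ?_⟩
    · simp only [sat_cons, sat_app, Lt.Sat, fp, ← hCe]
      have mm : ∀ {u v : G n}, u ∈ GLk n k → v ∈ GLk n k → u * v ∈ GLk n k := fun hu hv =>
        (GLk n k).mul_mem hu hv
      have mi : ∀ {u : G n}, u ∈ GLk n k → u⁻¹ ∈ GLk n k := fun hu => (GLk n k).inv_mem hu
      have i1 : τ (N + 1) ∈ GLk n k := hFak ▸ s2.mem
      have i2 : τ (N + 2) ∈ GLk n k := hGbk ▸ s3.mem
      have i3 : τ (N + 3) ∈ GLk n k := hEak ▸ s4.mem
      have i4 : τ (N + 4) ∈ GLk n k := hFbk ▸ s5.mem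
      have ib := eval_mem_full hb s6
      have ia3 := eval_mem_full ha3 s7
      have ia2 := eval_mem_full ha2 s8
      have ia1 := eval_mem_full ha1 s9
      have id0 : d0 τ ∈ GLk n k := mm (mm ib ia3) ia2
      have hxm : τ' x ∈ GLk n k := by
        rw [fx]
        exact sgn_mem (mm (mm (mi ib) (mm (mm (mm (mm (mm (mi i4) (mi i1)) (mi i2)) (mi i3)) i1) i4))
          id0)
      have hym : τ' y ∈ GLk n k := by
        rw [fy]
        exact sgn_mem (mm (mm (mm (mm (mi ia1) (mi id0)) (mm (mm (mm (mi i4) i2) i1) i4)) id0)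
          (mi ia2))
      refine ⟨?_, ?_, hxm, ?_, hym, ?_, hxm, ?_, hym, ?_⟩
      · exact cmul _ _ _ _ _ _ _ (cmul _ _ _ _ _ _ _ (cmul _ _ _ _ _ _ _
          (cmul _ _ _ _ _ _ _ s1 s4) s3) s2) s5
      · exact (sat_congr b k fun z hz => hK z (hmb z hz)).2 s6
      · exact (sat_congr a1 k fun z hz => hK z (hma1 z hz)).2 s9
      · exact (sat_congr a2 k fun z hz => hK z (hma2 z hz)).2 s8
      · exact (sat_congr a3 k fun z hz => hK z (hma3 z hz)).2 s7
      · exact (sat_congr b' k fun z hz => hK z (hmb' z hz)).2 s10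
    · rw [← heR]
      simp only [ev_cons, ev_app, eval_neg, fX, fY, ta1, ta2, ta3, tb, tb']
      simp only [Lt.eval.eq_2, fp, WA, WB, d0]
      simp [mul_assoc]

end Crest.Agent.R003.W412
end

-- ▼ part R003/S6_419
section

/-!
# Row 3 (S0003): step S6 (a root with two P-letters) (helper419)
-/

set_option autoImplicit false

namespace Crest.Agent.R003.S419

open Crest.Agent.R003
open Crest.Agent.R003.S227 (count_restr length_restr count_jl_swap)

/-! ### diagonal sign matrices with one constant label -/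

theorem dsg_repl_left {n m : ℕ} {d : List Bool} (x : Bool) (σ : Bool → Bool → ℂˣ)
    (h : d.length ≤ m) : dsg n (List.replicate m x) d σ = dsg n d d fun _ y => σ x y := by
  rw [dsg, dsg]
  congr 1
  funext i
  rw [lab_replicate]
  by_cases hi : i.1 < d.length
  · obtain ⟨a, ha⟩ := lab_lt hi
    have : i.1 < m := by omega
    rw [ha, if_pos this]
  · have : lab d i.1 = none := by
      simp only [lab, List.getElem?_eq_none_iff]; omega
    rw [this]
    split_ifs <;> rfl

theorem dsg_repl_right {n m : ℕ} {d : List Bool} (x : Bool) (σ : Bool → Bool → ℂˣ)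
    (h : d.length ≤ m) : dsg n d (List.replicate m x) σ = dsg n d d fun e _ => σ e x := by
  rw [dsg, dsg]
  congr 1
  funext i
  rw [lab_replicate]
  by_cases hi : i.1 < d.length
  · obtain ⟨a, ha⟩ := lab_lt hi
    have : i.1 < m := by omega
    rw [ha, if_pos this]
  · have : lab d i.1 = none := by
      simp only [lab, List.getElem?_eq_none_iff]; omega
    rw [this]

/-! ### the point level -/

/-- the equations of the new points of step S6 -/
structure New6 (n k : ℕ) (c1 E X X' : List Bool) (ξ : ℂˣ) (σ1 σ2 : Bool → Bool → ℂˣ)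
    (G1 G2 : Bool → G n) (a b : Bool → Bool → G n) (y z : Bool → G n) (ζ : G n) : Prop where
  py : ∀ e, IsPar (restr E X e) (restr c1 X' e) (a e) (y e)
  pz : ∀ x, IsPar (restr X' c1 x) (restr X E x) (b x) (z x)
  ry : ∀ e, G1 e * y e = 1
  rz : ∀ x, scal n (X.count x) ξ * (G2 x * z x) = 1
  rs : ∀ e x, scal n ((jl c1 X').count (e, x)) (σ1 x e * σ2 e x) * ((a e x)⁻¹ * (b x e)⁻¹) = 1
  pζ : ζ ∈ GLk n k

section point

variable {n : ℕ} {c1 E X X' : List Bool} {ξ : ℂˣ} {σ1 σ2 : Bool → Bool → ℂˣ}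

/-- the blocks of `dsg n X' c1 σ1` -/
def D1x (n : ℕ) (c1 X' : List Bool) (σ1 : Bool → Bool → ℂˣ) (x : Bool) : G n :=
  dsg n (List.replicate (X'.count x) x) (restr X' c1 x) σ1

/-- the blocks of `dsg n E X σ2` -/
def D2x (n : ℕ) (E X : List Bool) (σ2 : Bool → Bool → ℂˣ) (x : Bool) : G n :=
  dsg n (restr X E x) (List.replicate (X.count x) x) σ2

theorem isPar_D1x (hC : Calc n) (h1 : c1.length = X'.length) (hn : X'.length ≤ n) (x : Bool) :
    IsPar (restr X' c1 x) (restr X' c1 x)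
      (fun e => scal n ((jl c1 X').count (e, x)) (σ1 x e)) (D1x n c1 X' σ1 x) := by
  have hl : (restr X' c1 x).length = X'.count x := length_restr _ _ _ h1.symm
  have h2 := isPar_dsg_self (n := n) hC (c := restr X' c1 x)
    (hl.le.trans (List.count_le_length.trans hn)) (fun _ e => σ1 x e)
  rw [D1x, dsg_repl_left _ _ hl.le]
  have : (fun e => scal n ((jl c1 X').count (e, x)) (σ1 x e)) =
      fun b => scal n (List.count b (restr X' c1 x)) (σ1 x b) := by
    funext e
    rw [count_restr, count_jl_swap]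
  rw [this]
  exact h2

theorem isPar_D2x (hC : Calc n) (h1 : E.length = X.length) (hn : X.length ≤ n)
    (hcnt : ∀ l, (jl c1 X').count l = (jl E X).count l) (x : Bool) :
    IsPar (restr X E x) (restr X E x)
      (fun e => scal n ((jl c1 X').count (e, x)) (σ2 e x)) (D2x n E X σ2 x) := by
  have hl : (restr X E x).length = X.count x := length_restr _ _ _ h1.symm
  have h2 := isPar_dsg_self (n := n) hC (c := restr X E x)
    (hl.le.trans (List.count_le_length.trans hn)) (fun e _ => σ2 e x)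
  rw [D2x, dsg_repl_right _ _ hl.le]
  have : (fun e => scal n ((jl c1 X').count (e, x)) (σ2 e x)) =
      fun b => scal n (List.count b (restr X E x)) (σ2 b x) := by
    funext e
    rw [count_restr, count_jl_swap X E, hcnt]
  rw [this]
  exact h2

/-- new points give the data to be glued -/
theorem New6.glue (hC : Calc n) {k : ℕ} {G1 G2 : Bool → G n} {a b : Bool → Bool → G n}
    {y z : Bool → G n} {ζ : G n} (h : New6 n k c1 E X X' ξ σ1 σ2 G1 G2 a b y z ζ)
    (hc1 : c1.length = k) (hE : E.length = k) (hX : X.length = k) (hX' : X'.length = k)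
    (hkn : k ≤ n) (hcnt : ∀ l, (jl c1 X').count l = (jl E X).count l) :
    GlueData c1 X' E X (fun l => (a l.1 l.2)⁻¹) G1
      (fun x => (D1x n c1 X' σ1 x)⁻¹ * z x * (D2x n E X σ2 x)⁻¹) ζ := by
  refine ⟨fun e => ?_, fun x => ?_, hc1 ▸ h.pζ⟩
  · have h1 : G1 e = (y e)⁻¹ := by
      rw [eq_inv_iff_mul_eq_one]; exact h.ry e
    rw [h1]
    exact hC.2.1 _ _ _ _ (h.py e)
  · have h1 := hC.2.1 _ _ _ _ (isPar_D1x (σ1 := σ1) hC (hc1.trans hX'.symm) (hX'.le.trans hkn) x)
    have h2 := hC.2.1 _ _ _ _ (isPar_D2x (σ2 := σ2) hC (hE.trans hX.symm) (hX.le.trans hkn) hcnt x)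
    have h3 := hC.1 _ _ _ _ _ _ _ (hC.1 _ _ _ _ _ _ _ h1 (h.pz x)) h2
    have h4 : (fun e => (a e x)⁻¹) = fun e =>
        (scal n ((jl c1 X').count (e, x)) (σ1 x e))⁻¹ * b x e *
          (scal n ((jl c1 X').count (e, x)) (σ2 e x))⁻¹ := by
      funext e
      have h5 := h.rs e x
      rw [scal_mul] at h5
      have hmem : (a e x)⁻¹ ∈ GLk n ((jl c1 X').count (e, x)) := by
        have h6 := (h.py e).blk x
        rw [count_restr, ← hcnt] at h6
        exact (GLk n _).inv_mem h6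
      have h7 := scal_mul_comm (σ2 e x) hmem
      have h8 : b x e = scal n ((jl c1 X').count (e, x)) (σ1 x e) *
          scal n ((jl c1 X').count (e, x)) (σ2 e x) * (a e x)⁻¹ := by
        rw [← mul_assoc] at h5
        exact (mul_inv_eq_one.1 h5).symm
      rw [h8, mul_assoc (scal n _ (σ1 x e)), h7]
      group
    show IsPar _ _ (fun e => (a e x)⁻¹) _
    rw [h4]
    exact h3


/-- the two P-letters, from the glued matrix -/
theorem back6 (hC : Calc n) {k : ℕ} {G1 G2 : Bool → G n} {a b : Bool → Bool → G n}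
    {y z : Bool → G n} {ζ P : G n} (h : New6 n k c1 E X X' ξ σ1 σ2 G1 G2 a b y z ζ)
    (hc1 : c1.length = k) (hX : X.length = k) (hX' : X'.length = k)
    (hkn : k ≤ n) (hcX : ∀ b, X.count b = X'.count b)
    (hP : IsPar X' X (fun x => (D1x n c1 X' σ1 x)⁻¹ * z x * (D2x n E X σ2 x)⁻¹) P)
    (hE : E.length = k) :
    IsPar X X' G2 (scal n k ξ * (dsg n X' c1 σ1 * P * dsg n E X σ2))⁻¹ := by
  have h1 := hC.2.2.2.2.2 X' c1 σ1 (hX'.trans hc1.symm) (hc1.le.trans hkn)
  have h2 := hC.2.2.2.2.1 E X σ2 (hE.trans hX.symm) (hX.le.trans hkn)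
  have h3 := hC.1 _ _ _ _ _ _ _ (hC.1 _ _ _ _ _ _ _ h1 hP) h2
  have h4 : IsPar X' X' (fun b => scal n (X'.count b) ξ) (scal n k ξ) := by
    have := isPar_dsg_self (n := n) hC (c := X') (hX'.le.trans hkn) (fun _ _ => ξ)
    have e1 : dsg n X' X' (fun _ _ => ξ) = scal n k ξ := by
      have := scal_mul_dsg_self (n := n) (c := X') ξ fun _ _ => 1
      rw [dsg_one _ _ (fun _ _ => rfl), mul_one, hX'] at this
      rw [this]
      simp
    rwa [e1] at this
  have h5 := hC.2.1 _ _ _ _ (hC.1 _ _ _ _ _ _ _ h4 h3)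
  have h6 : G2 = fun b => (scal n (X'.count b) ξ *
      (dsg n (List.replicate (X'.count b) b) (restr X' c1 b) σ1 *
        ((D1x n c1 X' σ1 b)⁻¹ * z b * (D2x n E X σ2 b)⁻¹) *
          dsg n (restr X E b) (List.replicate (X.count b) b) σ2))⁻¹ := by
    funext x
    have h7 := h.rz x
    have e1 : dsg n (List.replicate (X'.count x) x) (restr X' c1 x) σ1 = D1x n c1 X' σ1 x := rfl
    have e2 : dsg n (restr X E x) (List.replicate (X.count x) x) σ2 = D2x n E X σ2 x := rfl
    rw [e1, e2]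
    have e3 : D1x n c1 X' σ1 x * ((D1x n c1 X' σ1 x)⁻¹ * z x * (D2x n E X σ2 x)⁻¹) *
        D2x n E X σ2 x = z x := by group
    rw [e3, ← hcX x]
    have h8 : z x ∈ GLk n (X.count x) := by
      have := (h.pz x).mem
      rw [length_restr _ _ _ (hX'.trans hc1.symm), ← hcX] at this
      exact this
    have h9 := scal_mul_comm ξ h8
    have h10 : scal n (X.count x) ξ = (G2 x * z x)⁻¹ := by
      rw [eq_inv_iff_mul_eq_one]; exact h7
    rw [h9, h10]
    group
  rw [h6]
  exact h5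

/-- the new points, from the two P-letters -/
theorem fwd6 (hC : Calc n) (hT : TwoLab n) (hEx : Extract n) {k : ℕ} {G1 G2 : Bool → G n}
    {P1 P2 : G n}
    (hc1 : c1.length = k) (hE : E.length = k) (hX : X.length = k) (hX' : X'.length = k)
    (hkn : k ≤ n) (hcX : ∀ b, X.count b = X'.count b)
    (hP1 : IsPar c1 E G1 P1) (hP2 : IsPar X X' G2 P2)
    (heq : scal n k ξ * (dsg n X' c1 σ1 * P1 * (dsg n E X σ2 * P2)) = 1) :
    (∀ l, (jl c1 X').count l = (jl E X).count l) ∧
    ∃ (a b : Bool → Bool → G n) (y z : Bool → G n) (nn : Bool × Bool → G n),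
      (∀ ζ ∈ GLk n k, New6 n k c1 E X X' ξ σ1 σ2 G1 G2 a b y z ζ) ∧
      IsPar (jl c1 X') (jl E X) nn P1 ∧
      IsPar X' X (fun x => (D1x n c1 X' σ1 x)⁻¹ * z x * (D2x n E X σ2 x)⁻¹) P1 := by
  have h1 := hC.2.2.2.2.2 X' c1 σ1 (hX'.trans hc1.symm) (hc1.le.trans hkn)
  have h2 := hC.2.2.2.2.1 E X σ2 (hE.trans hX.symm) (hX.le.trans hkn)
  have h4 : IsPar X' X' (fun b => scal n (X'.count b) ξ) (scal n k ξ) := by
    have := isPar_dsg_self (n := n) hC (c := X') (hX'.le.trans hkn) (fun _ _ => ξ)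
    have e1 : dsg n X' X' (fun _ _ => ξ) = scal n k ξ := by
      have := scal_mul_dsg_self (n := n) (c := X') ξ fun _ _ => 1
      rw [dsg_one _ _ (fun _ _ => rfl), mul_one, hX'] at this
      rw [this]
      simp
    rwa [e1] at this
  -- the second label structure of `P1`
  have h5 := hC.2.1 _ _ _ _ hP2
  have h6 := hC.1 _ _ _ _ _ _ _ (hC.1 _ _ _ _ _ _ _ (hC.2.1 _ _ _ _ (hC.1 _ _ _ _ _ _ _ h4 h1)) h5)
    (hC.2.1 _ _ _ _ h2)
  have e1 : (scal n k ξ * dsg n X' c1 σ1)⁻¹ * P2⁻¹ * (dsg n E X σ2)⁻¹ = P1 := by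
    have e0 : scal n k ξ * dsg n X' c1 σ1 * P1 * (dsg n E X σ2 * P2) = 1 := by
      rw [← heq]; group
    have e2 := eq_inv_mul_of_mul_eq (mul_eq_one_iff_eq_inv.1 e0)
    rw [e2]
    group
  rw [e1] at h6
  set hh : Bool → G n := fun x => (scal n (X'.count x) ξ *
    dsg n (List.replicate (X'.count x) x) (restr X' c1 x) σ1)⁻¹ * (G2 x)⁻¹ *
      (dsg n (restr X E x) (List.replicate (X.count x) x) σ2)⁻¹ with hhd
  have h6' : IsPar X' X hh P1 := h6
  obtain ⟨nn, hnn⟩ := hT c1 X' E X G1 hh P1 (hc1.trans hX'.symm) (hE.trans hX.symm) hP1 h6'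
  have hcnt : ∀ l, (jl c1 X').count l = (jl E X).count l := fun l => hnn.cnt227 l
  refine ⟨hcnt, ?_⟩
  obtain ⟨g', h', hg', hh', hge, hhx⟩ := hEx c1 X' E X (hc1.trans hX'.symm) (hE.trans hX.symm) nn P1 hnn
  have eg : g' = G1 := hC.2.2.2.1 _ _ _ _ _ hg' hP1
  have eh : h' = hh := hC.2.2.2.1 _ _ _ _ _ hh' h6'
  rw [eg] at hge
  rw [eh] at hhx
  have hz : (fun x => (D1x n c1 X' σ1 x)⁻¹ * (D1x n c1 X' σ1 x * hh x * D2x n E X σ2 x) *
      (D2x n E X σ2 x)⁻¹) = hh := by
    funext x; group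
  refine ⟨fun e x => (nn (e, x))⁻¹, fun x e => scal n ((jl c1 X').count (e, x)) (σ1 x e) *
    nn (e, x) * scal n ((jl c1 X').count (e, x)) (σ2 e x), fun e => (G1 e)⁻¹,
    fun x => D1x n c1 X' σ1 x * hh x * D2x n E X σ2 x, nn, ?_, hnn, ?_⟩
  · intro ζ hζ
    refine ⟨fun e => ?_, fun x => ?_, fun e => ?_, fun x => ?_, fun e x => ?_, hζ⟩
    · exact hC.2.1 _ _ _ _ (hge e)
    · exact hC.1 _ _ _ _ _ _ _ (hC.1 _ _ _ _ _ _ _
        (isPar_D1x (σ1 := σ1) hC (hc1.trans hX'.symm) (hX'.le.trans hkn) x) (hhx x))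
        (isPar_D2x (σ2 := σ2) hC (hE.trans hX.symm) (hX.le.trans hkn) hcnt x)
    · exact mul_inv_cancel _
    · have h8 : G2 x ∈ GLk n (X.count x) := hP2.blk x
      have h9 := scal_mul_comm ξ h8
      have e2 : hh x = (scal n (X.count x) ξ * D1x n c1 X' σ1 x)⁻¹ * (G2 x)⁻¹ *
          (D2x n E X σ2 x)⁻¹ := by
        rw [hhd, hcX]; rfl
      show scal n (X.count x) ξ * (G2 x * (D1x n c1 X' σ1 x * hh x * D2x n E X σ2 x)) = 1
      rw [e2]
      calc scal n (X.count x) ξ * (G2 x * (D1x n c1 X' σ1 x * ((scal n (X.count x) ξ *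
            D1x n c1 X' σ1 x)⁻¹ * (G2 x)⁻¹ * (D2x n E X σ2 x)⁻¹) * D2x n E X σ2 x))
          = (scal n (X.count x) ξ * G2 x) * (scal n (X.count x) ξ)⁻¹ * (G2 x)⁻¹ := by group
        _ = 1 := by rw [h9]; group
    · have h8 : nn (e, x) ∈ GLk n ((jl c1 X').count (e, x)) := by
        have := (hge e).blk x
        rw [count_restr] at this
        exact this
      have h9 := scal_mul_comm (σ2 e x) h8
      rw [scal_mul]
      show scal n ((jl c1 X').count (e, x)) (σ1 x e) * scal n ((jl c1 X').count (e, x)) (σ2 e x) *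
        ((nn (e, x))⁻¹⁻¹ * (scal n ((jl c1 X').count (e, x)) (σ1 x e) * nn (e, x) *
          scal n ((jl c1 X').count (e, x)) (σ2 e x))⁻¹) = 1
      calc scal n ((jl c1 X').count (e, x)) (σ1 x e) * scal n ((jl c1 X').count (e, x)) (σ2 e x) *
        ((nn (e, x))⁻¹⁻¹ * (scal n ((jl c1 X').count (e, x)) (σ1 x e) * nn (e, x) *
          scal n ((jl c1 X').count (e, x)) (σ2 e x))⁻¹)
          = scal n ((jl c1 X').count (e, x)) (σ1 x e) *
            (scal n ((jl c1 X').count (e, x)) (σ2 e x) * nn (e, x)) *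
            (scal n ((jl c1 X').count (e, x)) (σ2 e x))⁻¹ * (nn (e, x))⁻¹ *
            (scal n ((jl c1 X').count (e, x)) (σ1 x e))⁻¹ := by group
        _ = 1 := by rw [h9]; group
  · show IsPar X' X (fun x => (D1x n c1 X' σ1 x)⁻¹ * (D1x n c1 X' σ1 x * hh x * D2x n E X σ2 x) *
      (D2x n E X σ2 x)⁻¹) P1
    rw [hz]
    exact h6'

end point

/-! ### names and roots -/

/-- name of `y_e` -/
def ny (N : ℕ) (e : Bool) : ℕ := N + e.toNat
/-- name of `z_x` -/
def nz (N : ℕ) (x : Bool) : ℕ := N + (2 + x.toNat)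
/-- children of `y_e` -/
def na (N : ℕ) (e x : Bool) : ℕ := N + (4 + 2 * e.toNat + x.toNat)
/-- children of `z_x` -/
def nb (N : ℕ) (x e : Bool) : ℕ := N + (8 + 2 * x.toNat + e.toNat)
/-- the corner -/
def nc (N : ℕ) : ℕ := N + 12

/-- values at the new names -/
def val6 {n : ℕ} (y z : Bool → G n) (a b : Bool → Bool → G n) (ζ : G n) : ℕ → G n
  | 0 => y false
  | 1 => y true
  | 2 => z false
  | 3 => z true
  | 4 => a false false
  | 5 => a false true
  | 6 => a true false
  | 7 => a true true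
  | 8 => b false false
  | 9 => b false true
  | 10 => b true false
  | 11 => b true true
  | 12 => ζ
  | _ => 1

section roots

variable (N : ℕ) (c1 E X X' : List Bool) (ξ : ℂˣ) (σ1 σ2 : Bool → Bool → ℂˣ) (g1 g2 : Bool → ℕ)

def ry (e : Bool) : Root := ⟨c1.count e, 1, [Lt.full (g1 e) true,
  Lt.par (ny N e) [] (fun _ _ => 1) (restr E X e) (restr c1 X' e) (na N e)]⟩

def rz (x : Bool) : Root := ⟨X.count x, ξ, [Lt.full (g2 x) true,
  Lt.par (nz N x) [] (fun _ _ => 1) (restr X' c1 x) (restr X E x) (nb N x)]⟩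

def rs (e x : Bool) : Root := ⟨(jl c1 X').count (e, x), σ1 x e * σ2 e x,
  [Lt.full (na N e x) false, Lt.full (nb N x e) false]⟩

/-- the new roots -/
def B6 : List Root :=
  [ry N c1 E X X' g1 false, ry N c1 E X X' g1 true, rz N c1 E X X' ξ g2 false,
    rz N c1 E X X' ξ g2 true, rs N c1 X' σ1 σ2 false false, rs N c1 X' σ1 σ2 false true,
    rs N c1 X' σ1 σ2 true false, rs N c1 X' σ1 σ2 true true]

variable {N c1 E X X' ξ σ1 σ2 g1 g2}

theorem ry_mem (e : Bool) : ry N c1 E X X' g1 e ∈ B6 N c1 E X X' ξ σ1 σ2 g1 g2 := by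
  cases e <;> simp [B6]
theorem rz_mem (x : Bool) : rz N c1 E X X' ξ g2 x ∈ B6 N c1 E X X' ξ σ1 σ2 g1 g2 := by
  cases x <;> simp [B6]
theorem rs_mem (e x : Bool) : rs N c1 X' σ1 σ2 e x ∈ B6 N c1 E X X' ξ σ1 σ2 g1 g2 := by
  cases e <;> cases x <;> simp [B6]

theorem B6_cases {r : Root} (h : r ∈ B6 N c1 E X X' ξ σ1 σ2 g1 g2) :
    (∃ e, r = ry N c1 E X X' g1 e) ∨ (∃ x, r = rz N c1 E X X' ξ g2 x) ∨
      ∃ e x, r = rs N c1 X' σ1 σ2 e x := by
  simp only [B6, List.mem_cons, List.not_mem_nil, or_false] at h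
  rcases h with h | h | h | h | h | h | h | h
  · exact Or.inl ⟨_, h⟩
  · exact Or.inl ⟨_, h⟩
  · exact Or.inr (Or.inl ⟨_, h⟩)
  · exact Or.inr (Or.inl ⟨_, h⟩)
  · exact Or.inr (Or.inr ⟨_, _, h⟩)
  · exact Or.inr (Or.inr ⟨_, _, h⟩)
  · exact Or.inr (Or.inr ⟨_, _, h⟩)
  · exact Or.inr (Or.inr ⟨_, _, h⟩)

theorem eval_two {n : ℕ} (ρ : ℕ → G n) (l l' : Lt) : Wd.eval ρ [l, l'] = l.eval ρ * l'.eval ρ := by
  simp [Wd.eval]

theorem Sat_two {n k : ℕ} (ρ : ℕ → G n) (l l' : Lt) :
    Wd.Sat ρ [l, l'] k ↔ l.Sat ρ k ∧ l'.Sat ρ k := by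
  simp [Wd.Sat]

theorem eval_par_triv {n : ℕ} (ρ : ℕ → G n) (p : ℕ) (e c c' : List Bool) (g : Bool → ℕ) :
    Lt.eval ρ (Lt.par p e (fun _ _ => 1) c c' g) = ρ p := by
  show dsg n e c (fun _ _ => 1) * ρ p = ρ p
  rw [dsg_one _ _ (fun _ _ => rfl), one_mul]

theorem ry_sol {n : ℕ} {σ : ℕ → G n} {e : Bool} : (ry N c1 E X X' g1 e).Sol σ ↔
    σ (g1 e) ∈ GLk n (c1.count e) ∧
    IsPar (restr E X e) (restr c1 X' e) (fun x => σ (na N e x)) (σ (ny N e)) ∧
    σ (g1 e) * σ (ny N e) = 1 := by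
  rw [Root.Sol]
  simp only [ry, eval_two, Sat_two, eval_par_triv, scal_one, one_mul]
  constructor
  · rintro ⟨⟨h1, h2⟩, h3⟩; exact ⟨h1, h2, h3⟩
  · rintro ⟨h1, h2, h3⟩; exact ⟨⟨h1, h2⟩, h3⟩

theorem rz_sol {n : ℕ} {σ : ℕ → G n} {x : Bool} : (rz N c1 E X X' ξ g2 x).Sol σ ↔
    σ (g2 x) ∈ GLk n (X.count x) ∧
    IsPar (restr X' c1 x) (restr X E x) (fun e => σ (nb N x e)) (σ (nz N x)) ∧
    scal n (X.count x) ξ * (σ (g2 x) * σ (nz N x)) = 1 := by
  rw [Root.Sol]
  simp only [rz, eval_two, Sat_two, eval_par_triv]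
  constructor
  · rintro ⟨⟨h1, h2⟩, h3⟩; exact ⟨h1, h2, h3⟩
  · rintro ⟨h1, h2, h3⟩; exact ⟨⟨h1, h2⟩, h3⟩

theorem rs_sol {n : ℕ} {σ : ℕ → G n} {e x : Bool} : (rs N c1 X' σ1 σ2 e x).Sol σ ↔
    σ (na N e x) ∈ GLk n ((jl c1 X').count (e, x)) ∧
    σ (nb N x e) ∈ GLk n ((jl c1 X').count (e, x)) ∧
    scal n ((jl c1 X').count (e, x)) (σ1 x e * σ2 e x) *
      ((σ (na N e x))⁻¹ * (σ (nb N x e))⁻¹) = 1 := by
  rw [Root.Sol]
  simp only [rs, eval_two, Sat_two]
  constructor
  · rintro ⟨⟨h1, h2⟩, h3⟩; exact ⟨h1, h2, h3⟩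
  · rintro ⟨h1, h2, h3⟩; exact ⟨⟨h1, h2⟩, h3⟩

theorem new6_of_sol {n k : ℕ} {σ : ℕ → G n}
    (h : ∀ r ∈ B6 N c1 E X X' ξ σ1 σ2 g1 g2, r.Sol σ) (hc : σ (nc N) ∈ GLk n k) :
    New6 n k c1 E X X' ξ σ1 σ2 (fun e => σ (g1 e)) (fun x => σ (g2 x)) (fun e x => σ (na N e x))
      (fun x e => σ (nb N x e)) (fun e => σ (ny N e)) (fun x => σ (nz N x)) (σ (nc N)) :=
  ⟨fun e => (ry_sol.1 (h _ (ry_mem e))).2.1, fun x => (rz_sol.1 (h _ (rz_mem x))).2.1,
    fun e => (ry_sol.1 (h _ (ry_mem e))).2.2, fun x => (rz_sol.1 (h _ (rz_mem x))).2.2,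
    fun e x => (rs_sol.1 (h _ (rs_mem e x))).2.2, hc⟩

theorem sol_of_new6 {n k : ℕ} {σ : ℕ → G n}
    (hcnt : ∀ l, (jl c1 X').count l = (jl E X).count l)
    (hg1 : ∀ e, σ (g1 e) ∈ GLk n (c1.count e)) (hg2 : ∀ x, σ (g2 x) ∈ GLk n (X.count x))
    (h : New6 n k c1 E X X' ξ σ1 σ2 (fun e => σ (g1 e)) (fun x => σ (g2 x))
      (fun e x => σ (na N e x)) (fun x e => σ (nb N x e)) (fun e => σ (ny N e))
      (fun x => σ (nz N x)) (σ (nc N))) :
    ∀ r ∈ B6 N c1 E X X' ξ σ1 σ2 g1 g2, r.Sol σ := by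
  intro r hr
  rcases B6_cases hr with ⟨e, rfl⟩ | ⟨x, rfl⟩ | ⟨e, x, rfl⟩
  · exact ry_sol.2 ⟨hg1 e, h.py e, h.ry e⟩
  · exact rz_sol.2 ⟨hg2 x, h.pz x, h.rz x⟩
  · refine rs_sol.2 ⟨?_, ?_, h.rs e x⟩
    · have := (h.py e).blk x
      rw [count_restr, ← hcnt] at this
      exact this
    · have := (h.pz x).blk e
      rw [count_restr, count_jl_swap] at this
      exact this

end roots

theorem wt_le {r : Root} (h : ∀ l ∈ r.w, l.Untw) {y : ℕ} (hy : y ∈ r.wt) : y ≤ 3 * r.k + 2 := by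
  rw [Root.wt, Multiset.mem_cons] at hy
  rcases hy with rfl | hy
  · omega
  · obtain ⟨l, hl, hy⟩ := (mem_listSum _ _ _).1 hy
    have hu := h l hl
    cases l with
    | full x ε =>
      rw [Lt.wt, Multiset.mem_singleton] at hy
      omega
    | par p e σ c c' g =>
      have hu' : ∀ x y, σ x y = 1 := hu
      rw [Lt.wt, if_pos hu', if_pos hu'] at hy
      split_ifs at hy
      · rw [Multiset.mem_singleton] at hy
        omega
      · rw [Multiset.mem_singleton] at hy
        omega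

/-! ### the step -/

theorem s6 (O : Subring ℂ) (n : ℕ) (hC : Calc n) (hT : TwoLab n) (hEx : Extract n)
    (hG : Glue n) : S6 O n := by
  classical
  intro k ξ p1 p2 e1 e2 c1 E X X' σ1 σ2 g1 g2 rest fr ρ S hE0 hX0 hWF hρ
  set r0 : Root := ⟨k, ξ, [Lt.par p1 e1 σ1 c1 E g1, Lt.par p2 e2 σ2 X X' g2]⟩ with hr0
  have hS : S = ⟨[r0] ++ rest, fr⟩ := rfl
  -- unpack
  obtain ⟨hk, hξ, hw⟩ := hWF.roots r0 List.mem_cons_self
  obtain ⟨hlen, hcnt1, htw1, hsc1, hlenX, hcntX, htw2, hsc2, -⟩ := hw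
  have hkn : k ≤ n := hk
  have hc1 : c1.length = k := hlen
  have hX : X.length = k := hlenX
  have hlc : ∀ c d : List Bool, (∀ b, c.count b = d.count b) → d.length = c.length := by
    intro c d h
    exact (List.perm_iff_count.mpr h).length_eq.symm
  have hE : E.length = k := (hlc c1 E hcnt1).trans hc1
  have hX' : X'.length = k := (hlc X X' hcntX).trans hX
  have htw1' : (∀ x y, σ1 x y = 1) ∨ e1 = X' := by
    rcases htw1 with h | h
    · exact Or.inl h
    · right
      have h' : some X' = some e1 := h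
      exact (Option.some.inj h').symm
  have htw2' : (∀ x y, σ2 x y = 1) ∨ e2 = E := by
    rcases htw2 with h | h
    · exact Or.inl h
    · right
      have h' : some E = some e2 := h
      exact (Option.some.inj h').symm
  have hD1 : dsg n e1 c1 σ1 = dsg n X' c1 σ1 := by
    rcases htw1' with h | h
    · rw [dsg_one _ _ h, dsg_one _ _ h]
    · rw [h]
  have hD2 : dsg n e2 X σ2 = dsg n E X σ2 := by
    rcases htw2' with h | h
    · rw [dsg_one _ _ h, dsg_one _ _ h]
    · rw [h]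
  have hr0sol : ∀ σ : ℕ → G n, r0.Sol σ ↔ (IsPar c1 E (fun b => σ (g1 b)) (σ p1) ∧
      IsPar X X' (fun b => σ (g2 b)) (σ p2)) ∧
      scal n k ξ * (dsg n X' c1 σ1 * σ p1 * (dsg n E X σ2 * σ p2)) = 1 := by
    intro σ
    rw [Root.Sol, hr0]
    simp only [eval_two, Sat_two]
    rw [← hD1, ← hD2]
    rfl
  obtain ⟨⟨hP1, hP2⟩, heq⟩ := (hr0sol ρ).1 (hρ.1 r0 List.mem_cons_self)
  obtain ⟨hcnt, a, b, y, z, nn, hnew, hnn, hPX⟩ :=
    fwd6 hC hT hEx hc1 hE hX hX' hkn hcntX hP1 hP2 heq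
  -- gluing
  obtain ⟨Ψ, hΨ1, hΨ2, hΨ3, hΨ4⟩ := hG c1 X' E X (hc1.trans hX'.symm) (hE.trans hX.symm)
    (hc1.le.trans hkn) hcnt
  obtain ⟨ζ, hζ, hζP⟩ := hΨ4 nn _ _ _ hnn hP1 hPX
  rw [hc1] at hζ
  -- fresh names
  obtain ⟨N, hN⟩ := Sys.exists_fresh S
  have hoccA : occL [r0] = {(g1 false, c1.count false, true), (g1 true, c1.count true, true)} +
      {(g2 false, X.count false, true), (g2 true, X.count true, true)} := by
    rw [hr0]
    simp [occL, Root.occ, Wd.occ, Lt.occ]
  have hpnA : pnL [r0] = {p1} + {p2} := by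
    rw [hr0]
    simp [pnL, Root.pn, Wd.pn, Lt.pn]
  have hoS : ∀ w ∈ occL [r0], w ∈ S.occ := by
    intro w hw
    rw [Sys.occ_eq, hS, occL_append, Multiset.mem_add]
    exact Or.inl hw
  have hpS : S.pn = {p1} + {p2} + pnL rest := by
    rw [Sys.pn_eq, hS, pnL_append, hpnA]
  have hog1 : ∀ e, (g1 e, c1.count e, true) ∈ occL [r0] := by
    intro e; rw [hoccA]; cases e <;> simp
  have hog2 : ∀ x, (g2 x, X.count x, true) ∈ occL [r0] := by
    intro e; rw [hoccA]; cases e <;> simp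
  have hp1S : p1 ∈ S.pn := by rw [hpS]; simp
  have hp2S : p2 ∈ S.pn := by rw [hpS]; simp
  have hg1N : ∀ e, g1 e < N := fun e => hN _ (Or.inl ⟨_, _, hoS _ (hog1 e)⟩)
  have hg2N : ∀ e, g2 e < N := fun e => hN _ (Or.inl ⟨_, _, hoS _ (hog2 e)⟩)
  have hp1N : p1 < N := hN _ (Or.inr (Or.inl hp1S))
  have hp2N : p2 < N := hN _ (Or.inr (Or.inl hp2S))
  have hg1p : ∀ e, g1 e ≠ p1 ∧ g1 e ≠ p2 := fun e =>
    ⟨fun h => hWF.occ_not_pn (hoS _ (hog1 e)) (h ▸ hp1S),
      fun h => hWF.occ_not_pn (hoS _ (hog1 e)) (h ▸ hp2S)⟩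
  have hg2p : ∀ e, g2 e ≠ p1 ∧ g2 e ≠ p2 := fun e =>
    ⟨fun h => hWF.occ_not_pn (hoS _ (hog2 e)) (h ▸ hp1S),
      fun h => hWF.occ_not_pn (hoS _ (hog2 e)) (h ▸ hp2S)⟩
  have hp12 : p1 ≠ p2 := by
    intro h
    have := hWF.pn_nodup
    rw [hpS, h] at this
    have h2 := (Multiset.nodup_add.1 this).1
    simp at h2
  -- the new point
  set ρ' : ℕ → G n := fun m => if m < N then ρ m else val6 y z a b ζ (m - N) with hρ'
  have hρ'lt : ∀ m, m < N → ρ' m = ρ m := fun m hm => by simp [hρ', hm]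
  have hρ'y : ∀ e, ρ' (ny N e) = y e := by
    intro e; cases e <;> simp [hρ', ny, val6]
  have hρ'z : ∀ e, ρ' (nz N e) = z e := by
    intro e; cases e <;> simp [hρ', nz, val6]
  have hρ'a : ∀ e x, ρ' (na N e x) = a e x := by
    intro e x; cases e <;> cases x <;> simp [hρ', na, val6]
  have hρ'b : ∀ e x, ρ' (nb N e x) = b e x := by
    intro e x; cases e <;> cases x <;> simp [hρ', nb, val6]
  have hρ'c : ρ' (nc N) = ζ := by simp [hρ', nc, val6]
  have hρ'1 : (fun e => ρ' (g1 e)) = fun e => ρ (g1 e) := funext fun e => hρ'lt _ (hg1N e)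
  have hρ'2 : (fun e => ρ' (g2 e)) = fun e => ρ (g2 e) := funext fun e => hρ'lt _ (hg2N e)
  have hnew' : New6 n k c1 E X X' ξ σ1 σ2 (fun e => ρ' (g1 e)) (fun x => ρ' (g2 x))
      (fun e x => ρ' (na N e x)) (fun x e => ρ' (nb N x e)) (fun e => ρ' (ny N e))
      (fun x => ρ' (nz N x)) (ρ' (nc N)) := by
    simp only [hρ'y, hρ'z, hρ'a, hρ'b, hρ'c]
    rw [hρ'1, hρ'2]
    exact hnew ζ hζ
  have hsol' : ∀ r ∈ B6 N c1 E X X' ξ σ1 σ2 g1 g2, r.Sol ρ' := by
    refine sol_of_new6 hcnt (fun e => ?_) (fun x => ?_) hnew'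
    · rw [hρ'lt _ (hg1N e)]; exact hP1.blk e
    · rw [hρ'lt _ (hg2N x)]; exact hP2.blk x
  -- the map
  set Q : (ℕ → G n) → G n := fun σ => Ψ (fun e => σ (g1 e))
    (fun x => (D1x n c1 X' σ1 x)⁻¹ * σ (nz N x) * (D2x n E X σ2 x)⁻¹) (σ (nc N)) with hQ
  set Φ : (ℕ → G n) → (ℕ → G n) := fun σ x =>
    if x = p1 then Q σ else if x = p2 then
      (scal n k ξ * (dsg n X' c1 σ1 * Q σ * dsg n E X σ2))⁻¹ else σ x with hΦ
  have hΦ1 : ∀ σ, Φ σ p1 = Q σ := fun σ => by simp [hΦ]
  have hΦ2 : ∀ σ, Φ σ p2 = (scal n k ξ * (dsg n X' c1 σ1 * Q σ * dsg n E X σ2))⁻¹ := fun σ => by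
    simp [hΦ, hp12.symm]
  have hΦ3 : ∀ σ x, x ≠ p1 → x ≠ p2 → Φ σ x = σ x := fun σ x h1 h2 => by simp [hΦ, h1, h2]
  have hD1GO : dsg n X' c1 σ1 ∈ GO O n := dsg_mem_GO _ _ hsc1
  have hD2GO : dsg n E X σ2 ∈ GO O n := dsg_mem_GO _ _ hsc2
  have hscGO : scal n k ξ ∈ GO O n := scal_mem_GO hξ
  have hD1xGO : ∀ x, D1x n c1 X' σ1 x ∈ GO O n := fun x => dsg_mem_GO _ _ hsc1
  have hD2xGO : ∀ x, D2x n E X σ2 x ∈ GO O n := fun x => dsg_mem_GO _ _ hsc2
  have hgd : ∀ σ : ℕ → G n, (∀ r ∈ B6 N c1 E X X' ξ σ1 σ2 g1 g2, r.Sol σ) →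
      (∀ w ∈ [(nc N, k)], σ w.1 ∈ GLk n w.2) →
      GlueData c1 X' E X (fun l => (σ (na N l.1 l.2))⁻¹) (fun e => σ (g1 e))
        (fun x => (D1x n c1 X' σ1 x)⁻¹ * σ (nz N x) * (D2x n E X σ2 x)⁻¹) (σ (nc N)) := by
    intro σ h1 h2
    exact (new6_of_sol h1 (h2 (nc N, k) (by simp))).glue hC hc1 hE hX hX' hkn hcnt
  have hcE := fun e => (hcnt1 e).symm
  have hlt : ∀ c : List Bool, (∀ t, 0 < c.count t) → ∀ t, c.count t < c.length := by
    intro c hc t
    have h1 : c.count false + c.count true = c.length := by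
      rw [List.count_false_add_count_true]
    have h2 := hc false
    have h3 := hc true
    cases t <;> omega
  have hc1k : ∀ e, c1.count e < k := fun e => by
    rw [← hcE e, ← hE]; exact hlt E hE0 e
  have hXk : ∀ x, X.count x < k := fun x => by
    rw [← hX]; exact hlt X hX0 x
  have hB6k : ∀ r ∈ B6 N c1 E X X' ξ σ1 σ2 g1 g2, r.k < k := by
    intro r hr
    rcases B6_cases hr with ⟨e, rfl⟩ | ⟨x, rfl⟩ | ⟨e, x, rfl⟩
    · exact hc1k e
    · exact hXk x
    · refine lt_of_le_of_lt ?_ (hXk x)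
      show (jl c1 X').count (e, x) ≤ X.count x
      rw [← count_jl_swap, ← count_restr, hcntX,
        ← length_restr X' c1 x (hX'.trans hc1.symm)]
      exact List.count_le_length
  have hB6u : ∀ r ∈ B6 N c1 E X X' ξ σ1 σ2 g1 g2, ∀ l ∈ r.w, l.Untw := by
    intro r hr l hl
    rcases B6_cases hr with ⟨e, rfl⟩ | ⟨x, rfl⟩ | ⟨e, x, rfl⟩
    all_goals
      simp only [ry, rz, rs, List.mem_cons, List.not_mem_nil, or_false] at hl
      rcases hl with rfl | rfl <;> simp [Lt.Untw]
  show Red O n ⟨[r0] ++ rest, fr⟩ ρ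
  refine local_step [r0] (B6 N c1 E X X' ξ σ1 σ2 g1 g2) rest fr [(nc N, k)] ρ ρ' 0
    {(na N false false, (jl c1 X').count (false, false)),
      (na N false true, (jl c1 X').count (false, true)),
      (na N true false, (jl c1 X').count (true, false)),
      (na N true true, (jl c1 X').count (true, true)),
      (nb N false false, (jl c1 X').count (false, false)),
      (nb N true false, (jl c1 X').count (false, true)),
      (nb N false true, (jl c1 X').count (true, false)),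
      (nb N true true, (jl c1 X').count (true, true))} Φ hWF hρ
    ?_ ?_ ?_ ?_ ?_ ?_ ?_ ?_ ?_ ?_ ?_ ?_ ?_ ?_ ?_ ?_ ?_
  · -- WF of the roots
    intro r hr
    rcases B6_cases hr with ⟨e, rfl⟩ | ⟨x, rfl⟩ | ⟨e, x, rfl⟩
    · refine ⟨List.count_le_length.trans (hc1.le.trans hkn), IsSc.one, ?_, ?_, Or.inl fun _ _ => rfl,
        fun _ _ => IsSc.one, trivial⟩
      · show (restr E X e).length = c1.count e
        rw [length_restr _ _ _ (hE.trans hX.symm), hcE]
      · intro x
        rw [count_restr, count_restr, hcnt]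
    · refine ⟨List.count_le_length.trans (hX.le.trans hkn), hξ, ?_, ?_, Or.inl fun _ _ => rfl,
        fun _ _ => IsSc.one, trivial⟩
      · show (restr X' c1 x).length = X.count x
        rw [length_restr _ _ _ (hX'.trans hc1.symm), hcntX]
      · intro e
        rw [count_restr, count_restr, count_jl_swap, count_jl_swap X E, hcnt]
    · refine ⟨?_, (hsc1 x e).mul (hsc2 e x), trivial⟩
      show (jl c1 X').count (e, x) ≤ n
      refine List.count_le_length.trans ?_
      rw [List.length_zip]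
      omega
  · intro w hw
    simp only [List.mem_cons, List.not_mem_nil, or_false] at hw
    subst hw
    exact hkn
  · intro v hv; simp at hv
  · simp
  · -- occurrences
    have e1 : ∀ e x, (restr E X e).count x = (jl c1 X').count (e, x) := fun e x => by
      rw [count_restr, hcnt]
    have e2 : ∀ e x, (restr X' c1 x).count e = (jl c1 X').count (e, x) := fun e x => by
      rw [count_restr, count_jl_swap]
    rw [hoccA]
    simp only [B6, occL_cons, occL_nil, Root.occ, ry, rz, rs, Wd.occ, List.map_cons, List.map_nil,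
      List.sum_cons, List.sum_nil, add_zero, Lt.occ, e1, e2, pm, Multiset.insert_eq_cons,
      ← Multiset.singleton_add, Multiset.map_add, Multiset.map_singleton, Multiset.map_zero]
    abel
  · -- nodup
    simp only [B6, pnL_cons, pnL_nil, Root.pn, ry, rz, rs, Wd.pn, List.map_cons, List.map_nil,
      List.sum_cons, List.sum_nil, add_zero, zero_add, Lt.pn, Multiset.insert_eq_cons,
      ← Multiset.singleton_add, Multiset.map_add, Multiset.map_singleton]
    simp [na, nb, ny, nz, nc]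
  · -- fresh
    intro m hm
    right; right
    intro hm'
    have h1 := hN m hm'
    simp only [B6, pnL_cons, pnL_nil, Root.pn, ry, rz, rs, Wd.pn, List.map_cons, List.map_nil,
      List.sum_cons, List.sum_nil, add_zero, zero_add, Lt.pn, Multiset.insert_eq_cons,
      ← Multiset.singleton_add, Multiset.map_add, Multiset.map_singleton] at hm
    simp [na, nb, ny, nz, nc] at hm
    omega
  · -- weights
    refine ⟨0, wtL (B6 N c1 E X X' ξ σ1 σ2 g1 g2), wtL [r0], ?_, by simp, by simp, ?_⟩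
    · rw [hr0]; simp [wtL, Root.wt]
    · intro w hw
      refine ⟨3 * k, ?_, ?_⟩
      · rw [hr0]; simp [wtL, Root.wt]
      · obtain ⟨r, hr, hw'⟩ := (mem_listSum _ _ _).1 hw
        have h1 := hB6k r hr
        have h2 := wt_le (hB6u r hr) hw'
        omega
  · -- Adm
    intro k0 hk0 r hr
    left
    have h1 := hB6k r hr
    rcases hk0 r0 List.mem_cons_self with h | ⟨h, -⟩
    · have : k < k0 := h
      omega
    · have : k = k0 := h
      omega
  · exact hsol'
  · intro w hw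
    simp only [List.mem_cons, List.not_mem_nil, or_false] at hw
    subst hw
    show ρ' (nc N) ∈ GLk n k
    rw [hρ'c]; exact hζ
  · intro x hx
    have : x ∈ S.names := by
      by_contra h
      exact hx (Or.inl h)
    exact hρ'lt x (hN x this)
  · -- PolG
    have hQpol : PolG {σ : ℕ → G n | (∀ r ∈ B6 N c1 E X X' ξ σ1 σ2 g1 g2, r.Sol σ) ∧
        ∀ w ∈ [(nc N, k)], σ w.1 ∈ GLk n w.2} Q := by
      refine hΨ1 ℕ _ (fun b σ => σ (g1 b))
        (fun x σ => (D1x n c1 X' σ1 x)⁻¹ * σ (nz N x) * (D2x n E X σ2 x)⁻¹)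
        (fun σ => σ (nc N)) (fun b => PolG.coord _)
        (fun x => ((PolG.const _).mul (PolG.coord _)).mul (PolG.const _)) (PolG.coord _) ?_
      intro σ hσ
      exact ⟨_, hgd σ hσ.1 hσ.2⟩
    intro x
    refine PolG.ite (x = p1) hQpol (PolG.ite (x = p2) ?_ (PolG.coord x))
    exact ((PolG.const _).mul (((PolG.const _).mul hQpol).mul (PolG.const _))).inv
  · intro x hx σ
    apply hΦ3
    · rintro rfl
      exact hx (Or.inr (Or.inl (by rw [hpnA]; simp)))
    · rintro rfl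
      exact hx (Or.inr (Or.inl (by rw [hpnA]; simp)))
  · -- solutions
    intro σ h1 h2 r hr
    simp only [List.mem_cons, List.not_mem_nil, or_false] at hr
    subst hr
    have h3 := hgd σ h1 h2
    obtain ⟨-, h4, h5⟩ := hΨ3 _ _ _ _ h3
    have h6 := back6 hC (new6_of_sol h1 (h2 (nc N, k) (by simp))) hc1 hX hX' hkn hcntX h5 hE
    rw [hr0sol]
    have e1' : (fun b => Φ σ (g1 b)) = fun b => σ (g1 b) :=
      funext fun b => hΦ3 σ _ (hg1p b).1 (hg1p b).2
    have e2' : (fun b => Φ σ (g2 b)) = fun b => σ (g2 b) :=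
      funext fun b => hΦ3 σ _ (hg2p b).1 (hg2p b).2
    rw [e1', e2', hΦ1, hΦ2]
    refine ⟨⟨h4, h6⟩, ?_⟩
    group
  · -- integrality
    intro σ h1 h2 h3 x hx _
    have hmem : ∀ r ∈ B6 N c1 E X X' ξ σ1 σ2 g1 g2, ∀ w ∈ r.occ, σ w.1 ∈ GO O n := by
      intro r hr w hw
      apply h3
      refine Or.inl ⟨w.2.1, w.2.2, ?_⟩
      show _ ∈ occL (B6 N c1 E X X' ξ σ1 σ2 g1 g2 ++ rest)
      rw [occL_append, Multiset.mem_add]
      exact Or.inl (mem_occL.2 ⟨r, hr, hw⟩)
    have hmem1 : ∀ e, σ (g1 e) ∈ GO O n := fun e =>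
      hmem _ (ry_mem e) (g1 e, c1.count e, true) (by simp [ry, Root.occ, Wd.occ, Lt.occ])
    have hmem2 : ∀ e, σ (g2 e) ∈ GO O n := fun e =>
      hmem _ (rz_mem e) (g2 e, X.count e, true) (by simp [rz, Root.occ, Wd.occ, Lt.occ])
    have hmemz : ∀ e, σ (nz N e) ∈ GO O n := by
      intro e
      apply h3
      refine Or.inr (Or.inl ?_)
      show _ ∈ pnL (B6 N c1 E X X' ξ σ1 σ2 g1 g2 ++ rest)
      rw [pnL_append, Multiset.mem_add]
      refine Or.inl (mem_pnL.2 ⟨_, rz_mem e, ?_⟩)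
      simp [rz, Root.pn, Wd.pn, Lt.pn]
    have hmemc : σ (nc N) ∈ GO O n := by
      apply h3
      exact Or.inr (Or.inr (by simp))
    have hQGO : Q σ ∈ GO O n := by
      refine hΨ2 O _ _ _ hmem1 (fun x => ?_) hmemc ⟨_, hgd σ h1 h2⟩
      exact (GO O n).mul_mem ((GO O n).mul_mem ((GO O n).inv_mem (hD1xGO x)) (hmemz x))
        ((GO O n).inv_mem (hD2xGO x))
    by_cases hxp : x = p1
    · rw [hxp, hΦ1]; exact hQGO
    by_cases hxp2 : x = p2
    · rw [hxp2, hΦ2]
      exact (GO O n).inv_mem ((GO O n).mul_mem hscGO ((GO O n).mul_mem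
        ((GO O n).mul_mem hD1GO hQGO) hD2GO))
    rw [hΦ3 σ x hxp hxp2]
    rcases hx with ⟨k', ε, hx⟩ | hx
    · rw [hoccA] at hx
      simp only [Multiset.insert_eq_cons, Multiset.mem_add, Multiset.mem_cons,
        Multiset.mem_singleton, Prod.mk.injEq] at hx
      rcases hx with (⟨rfl, -⟩ | ⟨rfl, -⟩) | (⟨rfl, -⟩ | ⟨rfl, -⟩)
      · exact hmem1 _
      · exact hmem1 _
      · exact hmem2 _
      · exact hmem2 _
    · exfalso
      rw [hpnA] at hx
      simp only [Multiset.mem_add, Multiset.mem_singleton] at hx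
      rcases hx with h | h
      · exact hxp h
      · exact hxp2 h
  · -- the point
    intro x hx _
    have hQρ : Q ρ' = ρ p1 := by
      simp only [hQ, hρ'z, hρ'c]
      rw [hρ'1]
      exact hζP
    by_cases hxp : x = p1
    · rw [hxp, hΦ1, hQρ]
    by_cases hxp2 : x = p2
    · rw [hxp2, hΦ2, hQρ]
      rw [inv_eq_iff_mul_eq_one]
      rw [← heq]
      group
    rw [hΦ3 _ x hxp hxp2]
    apply hρ'lt
    rcases hx with ⟨k', ε, hx⟩ | hx
    · exact hN x (Or.inl ⟨k', ε, hoS _ hx⟩)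
    · exfalso
      rw [hpnA] at hx
      simp only [Multiset.mem_add, Multiset.mem_singleton] at hx
      rcases hx with h | h
      · exact hxp h
      · exact hxp2 h

end Crest.Agent.R003.S419
private theorem rz_176bb75c49 : type_of% @_root_.Crest.Agent.R003.S419.val6.eq_1 := @_root_.Crest.Agent.R003.S419.val6.eq_1 -- L287
end

-- ▼ part R003/Elim278
section

/-!
# Row 3: wiring of part 2 (helper278): the elimination theorem from the steps which are not yet landed
-/

set_option autoImplicit false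

namespace Crest.Agent.R003

/-- the elimination theorem, from the core of the normal form -/
theorem elim_of_core {O : Subring ℂ} {n : ℕ} (hN : NF5Core n)
    (k0 : ℕ) : ElimStatement O n k0 :=
  elim_of_steps
    { s0 := s0 O n
      s1 := s1 O n
      s2 := W412.s2 O n (bruhat n) (calc_holds n)
      s3 := s3 O n
      s4 := W412.s4 O n (bruhat n) (calc_holds n)
      s5 := S227.s5 (calc_holds n) (extract_holds n) (glue_holds n) (nf5_of_core hN)
      s6 := S419.s6 O n (calc_holds n) (twoLab n) (extract_holds n) (glue_holds n)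
      s7 := S419.s7 O n (calc_holds n)
      s8 := s8 O n
      s9 := CR.s9 O n
      u1 := u1_402 O n
      u2 := u2_402 O n }
    (rotInv O n) (permInv O n) (baseCase O n) k0

end Crest.Agent.R003
end

-- ▼ part R003/NF5_990
section

/-!
# Row 3 (S0003), step S5: the normal form of a two-label block triangular matrix with respect to a
third label (helper990)
-/

set_option autoImplicit false
set_option linter.unusedVariables false
set_option linter.unusedSectionVars false

namespace Crest.Agent.R003.NF5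

open Matrix

variable {F : Type*} [Field F]

/-- triangularity with respect to labels in a partial order, together with an inverse which is
triangular in the other direction -/
structure TI {Λ m n : Type*} [PartialOrder Λ] [Fintype m] [Fintype n] [DecidableEq m]
    [DecidableEq n] (c : m → Λ) (c' : n → Λ) (A : Matrix m n F) (B : Matrix n m F) : Prop where
  mul : A * B = 1
  mul' : B * A = 1
  tri : ∀ i j, ¬ c i ≤ c' j → A i j = 0
  tri' : ∀ i j, ¬ c' j ≤ c i → B j i = 0

section TIlemmas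

variable {Λ : Type*} [PartialOrder Λ] {m n p q : Type*} [Fintype m] [Fintype n] [Fintype p]
  [Fintype q] [DecidableEq m] [DecidableEq n] [DecidableEq p] [DecidableEq q]

theorem TI.comp {c : m → Λ} {c' : n → Λ} {c'' : p → Λ} {A : Matrix m n F} {B : Matrix n m F}
    {A' : Matrix n p F} {B' : Matrix p n F} (h : TI c c' A B) (h' : TI c' c'' A' B') :
    TI c c'' (A * A') (B' * B) where
  mul := by
    rw [Matrix.mul_assoc, ← Matrix.mul_assoc A' B' B, h'.mul, Matrix.one_mul, h.mul]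
  mul' := by
    rw [Matrix.mul_assoc, ← Matrix.mul_assoc B A A', h.mul', Matrix.one_mul, h'.mul']
  tri := by
    intro i j hij
    rw [Matrix.mul_apply]
    refine Finset.sum_eq_zero fun t _ => ?_
    by_cases h1 : c i ≤ c' t
    · have h2 : ¬ c' t ≤ c'' j := fun h2 => hij (h1.trans h2)
      rw [h'.tri t j h2, mul_zero]
    · rw [h.tri i t h1, zero_mul]
  tri' := by
    intro i j hij
    rw [Matrix.mul_apply]
    refine Finset.sum_eq_zero fun t _ => ?_
    by_cases h1 : c'' j ≤ c' t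
    · have h2 : ¬ c' t ≤ c i := fun h2 => hij (h1.trans h2)
      rw [h.tri' i t h2, mul_zero]
    · rw [h'.tri' t j h1, zero_mul]

theorem TI.symm {c : m → Λ} {c' : n → Λ} {A : Matrix m n F} {B : Matrix n m F}
    (h : TI c c' A B) : TI c' c B A where
  mul := h.mul'
  mul' := h.mul
  tri := fun i j hij => h.tri' j i hij
  tri' := fun i j hij => h.tri j i hij

theorem TI.blk [DecidableEq Λ] {c : m → Λ} {c' : n → Λ} {A : Matrix m n F} {B : Matrix n m F}
    (h : TI c c' A B) (l : Λ) :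
    (A.submatrix (fun i : {i // c i = l} => i.1) (fun j : {j // c' j = l} => j.1)) *
      (B.submatrix (fun j : {j // c' j = l} => j.1) (fun i : {i // c i = l} => i.1)) = 1 := by
  ext i j
  rw [Matrix.mul_apply]
  have h1 : (A * B) i.1 j.1 = (1 : Matrix m m F) i.1 j.1 := by rw [h.mul]
  rw [Matrix.mul_apply] at h1
  have h2 : (1 : Matrix {i // c i = l} {i // c i = l} F) i j = (1 : Matrix m m F) i.1 j.1 := by
    rw [Matrix.one_apply, Matrix.one_apply]
    by_cases hij : i = j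
    · rw [if_pos hij, if_pos (by rw [hij])]
    · rw [if_neg hij, if_neg (fun h => hij (Subtype.ext h))]
  rw [h2, ← h1]
  simp only [Matrix.submatrix_apply]
  have h4 : ∑ x : {t // c' t = l}, A i.1 x.1 * B x.1 j.1
      = ∑ t ∈ Finset.univ.filter (fun t => c' t = l), A i.1 t * B t j.1 := by
    rw [← Finset.sum_subtype (Finset.univ.filter fun t => c' t = l)
      (p := fun t => c' t = l) (by intro x; simp) (fun t => A i.1 t * B t j.1)]
  rw [h4, Finset.sum_filter_of_ne]
  intro t _ ht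
  by_contra hne
  apply ht
  by_cases h5 : c i.1 ≤ c' t
  · have h6 : ¬ c' t ≤ c j.1 := by
      intro h6
      rw [i.2] at h5
      rw [j.2] at h6
      exact hne (le_antisymm h6 h5)
    rw [h.tri' j.1 t h6, mul_zero]
  · rw [h.tri i.1 t h5, zero_mul]

theorem card_le_of_mul_eq_one {A : Matrix m n F} {B : Matrix n m F} (h : A * B = 1) :
    Fintype.card m ≤ Fintype.card n := by
  have := Matrix.rank_mul_le_left A B
  rw [h, Matrix.rank_one] at this
  exact this.trans (Matrix.rank_le_card_width _)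

/-- the joint classes have the same size -/
theorem TI.card_eq [DecidableEq Λ] {c : m → Λ} {c' : n → Λ} {A : Matrix m n F} {B : Matrix n m F}
    (h : TI c c' A B) (l : Λ) :
    Fintype.card {i // c i = l} = Fintype.card {j // c' j = l} :=
  le_antisymm (card_le_of_mul_eq_one (h.blk l)) (card_le_of_mul_eq_one (h.symm.blk l))

end TIlemmas

section Bases

variable {m n : Type*} [Fintype m] [Fintype n] [DecidableEq m] [DecidableEq n]

/-- the matrix whose columns are the vectors of a basis -/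
noncomputable def Mb {ι : Type*} [Fintype ι] (b : Module.Basis ι F (m → F)) : Matrix m ι F :=
  fun i j => b j i

/-- its inverse -/
noncomputable def Mb' {ι : Type*} [Fintype ι] (b : Module.Basis ι F (m → F)) : Matrix ι m F :=
  fun i j => b.repr (Pi.single j 1) i

theorem Mb_mul {ι : Type*} [Fintype ι] [DecidableEq ι] (b : Module.Basis ι F (m → F)) :
    Mb b * Mb' b = 1 := by
  have h := Module.Basis.toMatrix_mul_toMatrix_flip (Pi.basisFun F m) b
  have h1 : (Pi.basisFun F m).toMatrix b = Mb b := by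
    ext i j
    simp [Mb, Module.Basis.toMatrix_apply]
  have h2 : b.toMatrix (Pi.basisFun F m) = Mb' b := by
    ext i j
    simp [Mb', Module.Basis.toMatrix_apply]
  rw [h1, h2] at h
  exact h

theorem Mb_mul' {ι : Type*} [Fintype ι] [DecidableEq ι] (b : Module.Basis ι F (m → F)) :
    Mb' b * Mb b = 1 := by
  have h := Module.Basis.toMatrix_mul_toMatrix_flip b (Pi.basisFun F m)
  have h1 : (Pi.basisFun F m).toMatrix b = Mb b := by
    ext i j
    simp [Mb, Module.Basis.toMatrix_apply]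
  have h2 : b.toMatrix (Pi.basisFun F m) = Mb' b := by
    ext i j
    simp [Mb', Module.Basis.toMatrix_apply]
  rw [h1, h2] at h
  exact h

/-- index type with the four types 00, 01, 10, 11 (first label, second label) -/
abbrev I4 (a b c d : ℕ) : Type := (Fin a ⊕ Fin b) ⊕ (Fin c ⊕ Fin d)

/-- first label -/
def l1 {a b c d : ℕ} : I4 a b c d → Bool
  | Sum.inl _ => false
  | Sum.inr _ => true

/-- second label -/
def l2 {a b c d : ℕ} : I4 a b c d → Bool
  | Sum.inl (Sum.inl _) => false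
  | Sum.inl (Sum.inr _) => true
  | Sum.inr (Sum.inl _) => false
  | Sum.inr (Sum.inr _) => true

/-- a basis adapted to two subspaces -/
theorem adapted2 {V : Type*} [AddCommGroup V] [Module F V] [FiniteDimensional F V]
    (A B : Submodule F V) :
    ∃ (a b c d : ℕ) (v : Module.Basis (I4 a b c d) F V),
      (∀ i, l1 i = false → v i ∈ A) ∧ (∀ x ∈ A, ∀ i, l1 i = true → v.repr x i = 0) ∧
      (∀ i, l2 i = false → v i ∈ B) ∧ (∀ x ∈ B, ∀ i, l2 i = true → v.repr x i = 0) := by
  classical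
  -- complements
  obtain ⟨C1, hC1⟩ := (A ⊓ B).exists_isCompl
  obtain ⟨C3, hC3⟩ := (A ⊔ B).exists_isCompl
  -- C1 ⊓ A is a complement of A ⊓ B in A, C1 ⊓ B one in B
  set P := A ⊓ B with hP
  set PA := C1 ⊓ A with hPA
  set PB := C1 ⊓ B with hPB
  have hA : P ⊔ PA = A := by
    rw [hPA, ← sup_inf_assoc_of_le C1 (inf_le_left : P ≤ A)]
    rw [hC1.sup_eq_top, top_inf_eq]
  have hB : P ⊔ PB = B := by
    rw [hPB, ← sup_inf_assoc_of_le C1 (inf_le_right : P ≤ B)]
    rw [hC1.sup_eq_top, top_inf_eq]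
  have d1 : Disjoint P PA := hC1.disjoint.mono_right inf_le_left
  have d2 : Disjoint (P ⊔ PA) PB := by
    rw [hA, disjoint_iff]
    have : A ⊓ PB ≤ P ⊓ C1 := by
      rw [hPB]
      refine le_inf (le_inf inf_le_left (inf_le_right.trans inf_le_right))
        (inf_le_right.trans inf_le_left)
    exact le_bot_iff.mp (this.trans (disjoint_iff.mp hC1.disjoint).le)
  have d3 : Disjoint ((P ⊔ PA) ⊔ PB) C3 := by
    refine hC3.disjoint.mono_left ?_
    rw [hA]
    exact sup_le le_sup_left ((inf_le_right : PB ≤ B).trans le_sup_right)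
  have htop : ((P ⊔ PA) ⊔ PB) ⊔ C3 = ⊤ := by
    rw [eq_top_iff, ← hC3.sup_eq_top]
    refine sup_le (sup_le ?_ ?_) le_sup_right
    · rw [← hA]; exact le_sup_left.trans le_sup_left
    · calc B = P ⊔ PB := hB.symm
        _ ≤ _ := sup_le (le_sup_left.trans (le_sup_left.trans le_sup_left))
          (le_sup_right.trans le_sup_left)
  -- bases of the pieces
  let b0 := Module.finBasis F P
  let b1 := Module.finBasis F PA
  let b2 := Module.finBasis F PB
  let b3 := Module.finBasis F C3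
  let w0 : Fin (Module.finrank F P) → V := fun i => (b0 i : V)
  let w1 : Fin (Module.finrank F PA) → V := fun i => (b1 i : V)
  let w2 : Fin (Module.finrank F PB) → V := fun i => (b2 i : V)
  let w3 : Fin (Module.finrank F C3) → V := fun i => (b3 i : V)
  have li : ∀ (S : Submodule F V), LinearIndependent F
      (fun i => ((Module.finBasis F S) i : V)) := fun S =>
    (Module.finBasis F S).linearIndependent.map' S.subtype (Submodule.ker_subtype S)
  have sp : ∀ (S : Submodule F V), Submodule.span F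
      (Set.range fun i => ((Module.finBasis F S) i : V)) = S := by
    intro S
    have h : (Set.range fun i => ((Module.finBasis F S) i : V))
        = S.subtype '' (Set.range (Module.finBasis F S)) := by
      rw [← Set.range_comp]; rfl
    rw [h, Submodule.span_image, (Module.finBasis F S).span_eq, Submodule.map_top,
      Submodule.range_subtype]
  have li01 : LinearIndependent F (Sum.elim w0 w1) :=
    (li P).sum_type (li PA) (by rw [sp, sp]; exact d1)
  have sp01 : Submodule.span F (Set.range (Sum.elim w0 w1)) = P ⊔ PA := by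
    rw [Set.Sum.elim_range, Submodule.span_union]
    exact congrArg₂ _ (sp P) (sp PA)
  -- order the family as ((w0, w1), (w2, w3)) : use the three step sum
  have li012 : LinearIndependent F (Sum.elim (Sum.elim w0 w1) w2) :=
    li01.sum_type (li PB) (by rw [sp01, sp]; exact d2)
  have sp012 : Submodule.span F (Set.range (Sum.elim (Sum.elim w0 w1) w2)) = (P ⊔ PA) ⊔ PB := by
    rw [Set.Sum.elim_range, Submodule.span_union]
    exact congrArg₂ _ sp01 (sp PB)
  have li0123 : LinearIndependent F (Sum.elim (Sum.elim (Sum.elim w0 w1) w2) w3) :=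
    li012.sum_type (li C3) (by rw [sp012, sp]; exact d3)
  have sp0123 : Submodule.span F (Set.range (Sum.elim (Sum.elim (Sum.elim w0 w1) w2) w3))
      = ⊤ := by
    rw [Set.Sum.elim_range, Submodule.span_union, ← htop]
    exact congrArg₂ _ sp012 (sp C3)
  let v0 := Module.Basis.mk li0123 sp0123.ge
  let v := v0.reindex (Equiv.sumAssoc _ _ _)
  have hv : ∀ i, v i = Sum.elim (Sum.elim w0 w1) (Sum.elim w2 w3) i := by
    rintro ((i | i) | (i | i)) <;> simp [v, v0, Equiv.sumAssoc]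
  refine ⟨_, _, _, _, v, ?_, ?_, ?_, ?_⟩
  · rintro ((i | i) | (i | i)) h <;> simp [l1] at h
    · rw [hv]
      exact (inf_le_left : P ≤ A) (b0 i).2
    · rw [hv]
      exact (inf_le_right : PA ≤ A) (b1 i).2
  · intro x hx i hi
    have h1 : x ∈ Submodule.span F (v '' {i | l1 i = false}) := by
      have h2 : A ≤ Submodule.span F (v '' {i | l1 i = false}) := by
        have h3 : P ⊔ PA ≤ Submodule.span F (v '' {i | l1 i = false}) := by
          refine sup_le ((sp P).ge.trans (Submodule.span_mono ?_))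
            ((sp PA).ge.trans (Submodule.span_mono ?_))
          · rintro y ⟨i, rfl⟩
            exact ⟨Sum.inl (Sum.inl i), rfl, hv _⟩
          · rintro y ⟨i, rfl⟩
            exact ⟨Sum.inl (Sum.inr i), rfl, hv _⟩
        exact hA.ge.trans h3
      exact h2 hx
    rw [Module.Basis.mem_span_image] at h1
    by_contra h2
    have h3 := h1 (Finsupp.mem_support_iff.mpr h2)
    simp [hi] at h3
  · rintro ((i | i) | (i | i)) h <;> simp [l2] at h
    · rw [hv]
      exact (inf_le_right : P ≤ B) (b0 i).2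
    · rw [hv]
      exact (inf_le_right : PB ≤ B) (b2 i).2
  · intro x hx i hi
    have h1 : x ∈ Submodule.span F (v '' {i | l2 i = false}) := by
      have h2 : B ≤ Submodule.span F (v '' {i | l2 i = false}) := by
        have h3 : P ⊔ PB ≤ Submodule.span F (v '' {i | l2 i = false}) := by
          refine sup_le ((sp P).ge.trans (Submodule.span_mono ?_))
            ((sp PB).ge.trans (Submodule.span_mono ?_))
          · rintro y ⟨i, rfl⟩
            exact ⟨Sum.inl (Sum.inl i), rfl, hv _⟩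
          · rintro y ⟨i, rfl⟩
            exact ⟨Sum.inr (Sum.inl i), rfl, hv _⟩
        exact hB.ge.trans h3
      exact h2 hx
    rw [Module.Basis.mem_span_image] at h1
    by_contra h2
    have h3 := h1 (Finsupp.mem_support_iff.mpr h2)
    simp [hi] at h3

/-- BRUHAT in terms of abstract index types: an invertible matrix `W` with row labels `E` and column
labels `Y` factors through a corner with joint labels. -/
theorem bruhat {W : Matrix m n F} {W' : Matrix n m F} (h : W * W' = 1) (h' : W' * W = 1)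
    (E : m → Bool) (Y : n → Bool) :
    ∃ (a b c d : ℕ) (l : Matrix m (I4 a b c d) F) (l' : Matrix (I4 a b c d) m F)
      (r : Matrix (I4 a b c d) n F) (r' : Matrix n (I4 a b c d) F),
      TI E l1 l l' ∧ TI l2 Y r r' ∧ W = l * r := by
  classical
  let A : Submodule F (m → F) :=
    { carrier := {v | ∀ i, E i = true → v i = 0}
      add_mem' := by
        intro x y hx hy i hi
        simp [hx i hi, hy i hi]
      zero_mem' := by intro i _; rfl
      smul_mem' := by
        intro t x hx i hi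
        simp [hx i hi] }
  let B : Submodule F (m → F) :=
    { carrier := {v | ∀ j, Y j = true → (W' *ᵥ v) j = 0}
      add_mem' := by
        intro x y hx hy i hi
        simp only [Set.mem_ofPred_eq] at hx hy
        rw [Matrix.mulVec_add, Pi.add_apply, hx i hi, hy i hi, add_zero]
      zero_mem' := by intro i _; rw [Matrix.mulVec_zero]; rfl
      smul_mem' := by
        intro t x hx i hi
        simp only [Set.mem_ofPred_eq] at hx
        rw [Matrix.mulVec_smul, Pi.smul_apply, hx i hi, smul_zero] }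
  obtain ⟨a, b, c, d, v, h1, h2, h3, h4⟩ := adapted2 A B
  have e1 := Mb_mul v
  have e2 := Mb_mul' v
  refine ⟨a, b, c, d, Mb v, Mb' v, Mb' v * W, W' * Mb v, ⟨e1, e2, ?_, ?_⟩,
    ⟨?_, ?_, ?_, ?_⟩, ?_⟩
  · intro i j hij
    have hi : E i = true := by
      by_contra hne
      rw [Bool.not_eq_true] at hne
      exact hij (by rw [hne]; exact Bool.false_le _)
    have hj : l1 j = false := by
      by_contra hne
      rw [Bool.not_eq_false] at hne
      exact hij (by rw [hne]; exact Bool.le_true _)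
    exact h1 j hj i hi
  · intro i j hij
    have hi : E i = false := by
      by_contra hne
      rw [Bool.not_eq_false] at hne
      exact hij (by rw [hne]; exact Bool.le_true _)
    have hj : l1 j = true := by
      by_contra hne
      rw [Bool.not_eq_true] at hne
      exact hij (by rw [hne]; exact Bool.false_le _)
    refine h2 _ ?_ j hj
    intro t ht
    have : t ≠ i := by
      rintro rfl
      rw [hi] at ht
      exact Bool.noConfusion ht
    simp [this]
  · rw [Matrix.mul_assoc, ← Matrix.mul_assoc W W', h, Matrix.one_mul, e2]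
  · rw [Matrix.mul_assoc, ← Matrix.mul_assoc (Mb v) (Mb' v), e1, Matrix.one_mul, h']
  · intro i j hij
    have hi : l2 i = true := by
      by_contra hne
      rw [Bool.not_eq_true] at hne
      exact hij (by rw [hne]; exact Bool.false_le _)
    have hj : Y j = false := by
      by_contra hne
      rw [Bool.not_eq_false] at hne
      exact hij (by rw [hne]; exact Bool.le_true _)
    -- (Mb' v * W) i j = v.repr (W e_j) i
    have hx : (fun t => W t j) ∈ B := by
      intro t ht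
      have : (W' *ᵥ fun t => W t j) t = (W' * W) t j := by
        rw [Matrix.mul_apply]; rfl
      rw [this, h', Matrix.one_apply, if_neg]
      rintro rfl
      rw [hj] at ht
      exact Bool.noConfusion ht
    have hz := h4 _ hx i hi
    have hr : (Mb' v * W) i j = v.repr (fun t => W t j) i := by
      have hs : (fun t => W t j) = ∑ t, W t j • (Pi.single t 1 : m → F) := by
        ext u
        simp [Finset.sum_apply, Pi.single_apply]
      rw [hs, map_sum, Matrix.mul_apply]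
      simp only [Finsupp.coe_finsetSum, Finset.sum_apply, map_smul, Finsupp.coe_smul,
        Pi.smul_apply, smul_eq_mul, Mb']
      exact Finset.sum_congr rfl fun t _ => mul_comm _ _
    rw [hr, hz]
  · intro i j hij
    have hi : l2 i = false := by
      by_contra hne
      rw [Bool.not_eq_false] at hne
      exact hij (by rw [hne]; exact Bool.le_true _)
    have hj : Y j = true := by
      by_contra hne
      rw [Bool.not_eq_true] at hne
      exact hij (by rw [hne]; exact Bool.false_le _)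
    exact h3 i hi j hj
  · rw [← Matrix.mul_assoc, e1, Matrix.one_mul]

theorem li_fin {V : Type*} [AddCommGroup V] [Module F V] [FiniteDimensional F V]
    (S : Submodule F V) : LinearIndependent F (fun i => ((Module.finBasis F S) i : V)) :=
  (Module.finBasis F S).linearIndependent.map' S.subtype (Submodule.ker_subtype S)

theorem sp_fin {V : Type*} [AddCommGroup V] [Module F V] [FiniteDimensional F V]
    (S : Submodule F V) : Submodule.span F
      (Set.range fun i => ((Module.finBasis F S) i : V)) = S := by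
  have h : (Set.range fun i => ((Module.finBasis F S) i : V))
      = S.subtype '' (Set.range (Module.finBasis F S)) := by
    rw [← Set.range_comp]; rfl
  rw [h, Submodule.span_image, (Module.finBasis F S).span_eq, Submodule.map_top,
    Submodule.range_subtype]

/-- the rank normal form matrix -/
def nu (a b r : ℕ) : Matrix (Fin r ⊕ Fin a) (Fin b ⊕ Fin r) F
  | Sum.inl i, Sum.inr j => if i = j then 1 else 0
  | _, _ => 0

/-- rank normal form -/
theorem rank_nf (N : Matrix m n F) :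
    ∃ (a b r : ℕ) (g : Matrix m (Fin r ⊕ Fin a) F) (g' : Matrix (Fin r ⊕ Fin a) m F)
      (h : Matrix (Fin b ⊕ Fin r) n F) (h' : Matrix n (Fin b ⊕ Fin r) F),
      g * g' = 1 ∧ g' * g = 1 ∧ h * h' = 1 ∧ h' * h = 1 ∧
        N = (g * (nu a b r : Matrix (Fin r ⊕ Fin a) (Fin b ⊕ Fin r) F) :
          Matrix m (Fin b ⊕ Fin r) F) * h := by
  classical
  let T : (n → F) →ₗ[F] (m → F) := N.mulVecLin
  obtain ⟨C, hC⟩ := (LinearMap.ker T).exists_isCompl
  obtain ⟨D, hD⟩ := (LinearMap.range T).exists_isCompl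
  let k0 : Fin (Module.finrank F (LinearMap.ker T)) → (n → F) :=
    fun i => (Module.finBasis F (LinearMap.ker T) i : n → F)
  let c0 : Fin (Module.finrank F C) → (n → F) := fun i => (Module.finBasis F C i : n → F)
  let d0 : Fin (Module.finrank F D) → (m → F) := fun i => (Module.finBasis F D i : m → F)
  have hk : LinearIndependent F (Sum.elim k0 c0) :=
    (li_fin _).sum_type (li_fin C) (by rw [sp_fin, sp_fin]; exact hC.disjoint)
  have sk : Submodule.span F (Set.range (Sum.elim k0 c0)) = ⊤ := by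
    rw [Set.Sum.elim_range, Submodule.span_union, ← hC.sup_eq_top]
    exact congrArg₂ _ (sp_fin _) (sp_fin C)
  have hTc : LinearIndependent F (fun i => T (c0 i)) :=
    (li_fin C).map (by rw [sp_fin]; exact hC.symm.disjoint)
  have sTc : Submodule.span F (Set.range fun i => T (c0 i)) = LinearMap.range T := by
    have h1 : (Set.range fun i => T (c0 i)) = T '' (Set.range c0) := by
      rw [← Set.range_comp]; rfl
    rw [h1, Submodule.span_image]
    have h2 : Submodule.span F (Set.range c0) = C := sp_fin C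
    rw [h2, LinearMap.range_eq_map, ← hC.sup_eq_top, Submodule.map_sup]
    have h3 : Submodule.map T (LinearMap.ker T) = ⊥ := by
      rw [eq_bot_iff]
      rintro x ⟨y, hy, rfl⟩
      simpa using hy
    rw [h3, bot_sup_eq]
  have hd : LinearIndependent F (Sum.elim (fun i => T (c0 i)) d0) :=
    hTc.sum_type (li_fin D) (by rw [sTc, sp_fin]; exact hD.disjoint)
  have sd : Submodule.span F (Set.range (Sum.elim (fun i => T (c0 i)) d0)) = ⊤ := by
    rw [Set.Sum.elim_range, Submodule.span_union, ← hD.sup_eq_top, sTc]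
    exact congrArg₂ _ rfl (sp_fin D)
  let bq := Module.Basis.mk hk sk.ge
  let bp := Module.Basis.mk hd sd.ge
  refine ⟨Module.finrank F D, Module.finrank F (LinearMap.ker T), Module.finrank F C,
    Mb bp, Mb' bp, Mb' bq, Mb bq, Mb_mul bp, Mb_mul' bp, Mb_mul' bq, Mb_mul bq, ?_⟩
  have key : N * Mb bq = (Mb bp * (nu _ _ _ :
      Matrix (Fin (Module.finrank F C) ⊕ Fin (Module.finrank F D))
        (Fin (Module.finrank F (LinearMap.ker T)) ⊕ Fin (Module.finrank F C)) F) :
      Matrix m (Fin (Module.finrank F (LinearMap.ker T)) ⊕ Fin (Module.finrank F C)) F) := by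
    ext x j
    have e1 : (N * Mb bq) x j = T (bq j) x := by
      rw [Matrix.mul_apply]; rfl
    rw [e1, Matrix.mul_apply, Fintype.sum_sum_type]
    rcases j with j | j
    · have : T (bq (Sum.inl j)) = 0 := by
        simp only [bq, Module.Basis.mk_apply, Sum.elim_inl]
        exact (Module.finBasis F (LinearMap.ker T) j).2
      rw [this]
      simp [nu]
    · have : T (bq (Sum.inr j)) = bp (Sum.inl j) := by
        simp only [bq, bp, Module.Basis.mk_apply, Sum.elim_inl, Sum.elim_inr]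
      rw [this]
      simp [nu, Mb]
  calc N = N * (Mb bq * Mb' bq) := by rw [Mb_mul bq, Matrix.mul_one]
    _ = _ := by rw [← Matrix.mul_assoc, key]

end Bases

end Crest.Agent.R003.NF5
private theorem rz_e467caf830 : type_of% @_root_.Crest.Agent.R003.NF5.l1.eq_1 := @_root_.Crest.Agent.R003.NF5.l1.eq_1 -- L149
private theorem rz_fd0b01e3b9 : type_of% @_root_.Crest.Agent.R003.NF5.l2.eq_1 := @_root_.Crest.Agent.R003.NF5.l2.eq_1 -- L154
private theorem rz_3d3affc04a : type_of% @_root_.Crest.Agent.R003.NF5.nu.eq_1 := @_root_.Crest.Agent.R003.NF5.nu.eq_1 -- L399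
end

-- ▼ part R003/NF5b_990
section

/-!
# Row 3 (S0003), step S5: assembly of the normal form on abstract corners (helper990)
-/

set_option autoImplicit false
set_option linter.unusedVariables false
set_option linter.unusedSectionVars false

namespace Crest.Agent.R003.NF5

open Matrix

variable {F : Type*} [Field F]

section TIops

variable {Λ Λ' : Type*} [PartialOrder Λ] [PartialOrder Λ']
  {m n p q : Type*} [Fintype m] [Fintype n] [Fintype p]
  [Fintype q] [DecidableEq m] [DecidableEq n] [DecidableEq p] [DecidableEq q]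

/-- change of the label set -/
theorem TI.map {c : m → Λ} {c' : n → Λ} {A : Matrix m n F} {B : Matrix n m F}
    (h : TI c c' A B) {d : m → Λ'} {d' : n → Λ'} (h1 : ∀ i j, c i ≤ c' j → d i ≤ d' j)
    (h2 : ∀ i j, c' j ≤ c i → d' j ≤ d i) : TI d d' A B where
  mul := h.mul
  mul' := h.mul'
  tri := fun i j hij => h.tri i j fun h' => hij (h1 i j h')
  tri' := fun i j hij => h.tri' i j fun h' => hij (h2 i j h')

/-- reindexing -/
theorem TI.sub {c : m → Λ} {c' : n → Λ} {A : Matrix m n F} {B : Matrix n m F}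
    (h : TI c c' A B) (e : p ≃ m) (e' : q ≃ n) :
    TI (c ∘ e) (c' ∘ e') (A.submatrix e e') (B.submatrix e' e) where
  mul := by
    rw [Matrix.submatrix_mul_equiv, h.mul, Matrix.submatrix_one_equiv]
  mul' := by
    rw [Matrix.submatrix_mul_equiv, h.mul', Matrix.submatrix_one_equiv]
  tri := fun i j hij => h.tri _ _ hij
  tri' := fun i j hij => h.tri' _ _ hij

/-- block diagonal -/
theorem TI.diag {c : m → Λ} {c' : n → Λ} {A : Matrix m n F} {A' : Matrix n m F}
    {d : p → Λ} {d' : q → Λ} {B : Matrix p q F} {B' : Matrix q p F}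
    (h : TI c c' A A') (h' : TI d d' B B') :
    TI (Sum.elim (fun i => (c i, false)) (fun i => (d i, true)) : m ⊕ p → Λ × Bool)
      (Sum.elim (fun i => (c' i, false)) (fun i => (d' i, true)) : n ⊕ q → Λ × Bool)
      (fromBlocks A 0 0 B) (fromBlocks A' 0 0 B') where
  mul := by
    rw [fromBlocks_multiply]
    simp [h.mul, h'.mul]
  mul' := by
    rw [fromBlocks_multiply]
    simp [h.mul', h'.mul']
  tri := by
    rintro (i | i) (j | j) hij
    · exact h.tri i j fun h1 => hij ⟨h1, le_rfl⟩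
    · rfl
    · rfl
    · exact h'.tri i j fun h1 => hij ⟨h1, le_rfl⟩
  tri' := by
    rintro (i | i) (j | j) hij
    · exact h.tri' i j fun h1 => hij ⟨h1, le_rfl⟩
    · rfl
    · rfl
    · exact h'.tri' i j fun h1 => hij ⟨h1, le_rfl⟩

/-- block unipotent -/
theorem TI.uni (c : m → Λ) (d : n → Λ) (U : Matrix m n F)
    (hU : ∀ i j, ¬ c i ≤ d j → U i j = 0) :
    TI (Sum.elim (fun i => (c i, false)) (fun i => (d i, true)) : m ⊕ n → Λ × Bool)
      (Sum.elim (fun i => (c i, false)) (fun i => (d i, true)) : m ⊕ n → Λ × Bool)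
      (fromBlocks 1 U 0 1) (fromBlocks 1 (-U) 0 1) where
  mul := by
    rw [fromBlocks_multiply]
    simp
  mul' := by
    rw [fromBlocks_multiply]
    simp
  tri := by
    rintro (i | i) (j | j) hij
    · have : i ≠ j := by
        rintro rfl
        exact hij le_rfl
      simp [this]
    · exact hU i j fun h1 => hij ⟨h1, Bool.false_le _⟩
    · rfl
    · have : i ≠ j := by
        rintro rfl
        exact hij le_rfl
      simp [this]
  tri' := by
    rintro (i | i) (j | j) hij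
    · have : j ≠ i := by
        rintro rfl
        exact hij le_rfl
      simp [this]
    · rfl
    · have h1 := hU j i fun h1 => hij ⟨h1, Bool.false_le _⟩
      simp [h1]
    · have : j ≠ i := by
        rintro rfl
        exact hij le_rfl
      simp [this]

/-- signed permutation matrix -/
def sp (σ : m ≃ n) (s : n → F) : Matrix m n F := fun i j => if σ i = j then s j else 0

def sp' (σ : m ≃ n) (s : n → F) : Matrix n m F := fun j i => if σ i = j then s j else 0

theorem TI.perm (σ : m ≃ n) (s : n → F) (hs : ∀ j, s j * s j = 1) (c : m → Λ) (c' : n → Λ)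
    (h : ∀ i, c i = c' (σ i)) : TI c c' (sp σ s) (sp' σ s) where
  mul := by
    ext i j
    rw [Matrix.mul_apply, Finset.sum_eq_single (σ i)]
    · simp only [sp, sp', if_true]
      rw [Matrix.one_apply]
      by_cases hij : i = j
      · subst hij
        simp [hs]
      · have : σ j ≠ σ i := fun h => hij (σ.injective h).symm
        simp [this, hij]
    · intro t _ ht
      simp [sp, Ne.symm ht]
    · simp
  mul' := by
    ext i j
    rw [Matrix.mul_apply, Finset.sum_eq_single (σ.symm i)]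
    · simp only [sp, sp', Equiv.apply_symm_apply, if_true]
      rw [Matrix.one_apply]
      by_cases hij : i = j
      · subst hij
        simp [hs]
      · simp [hij]
    · intro t _ ht
      have : σ t ≠ i := by
        rintro rfl
        simp at ht
      simp [sp', this]
    · simp
  tri := by
    intro i j hij
    simp only [sp]
    rw [if_neg]
    rintro rfl
    exact hij (h i).le
  tri' := by
    intro i j hij
    simp only [sp']
    rw [if_neg]
    rintro rfl
    exact hij (h i).ge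

end TIops

section four

variable {α β γ δ δ' α' : Type*}

/-- first label -/
def f1 : (α ⊕ β) ⊕ (γ ⊕ δ) → Bool
  | Sum.inl _ => false
  | Sum.inr _ => true

/-- second label -/
def f2 : (α ⊕ β) ⊕ (γ ⊕ δ) → Bool
  | Sum.inl (Sum.inl _) => false
  | Sum.inl (Sum.inr _) => true
  | Sum.inr (Sum.inl _) => false
  | Sum.inr (Sum.inr _) => true

theorem l1_eq (a b c d : ℕ) : (l1 : I4 a b c d → Bool) = f1 := by
  funext x
  rcases x with (x | x) | (x | x) <;> rfl

theorem l2_eq (a b c d : ℕ) : (l2 : I4 a b c d → Bool) = f2 := by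
  funext x
  rcases x with (x | x) | (x | x) <;> rfl

variable [Fintype α] [Fintype β] [Fintype γ] [Fintype δ] [Fintype δ'] [Fintype α']
  [DecidableEq α] [DecidableEq β] [DecidableEq γ] [DecidableEq δ] [DecidableEq δ']
  [DecidableEq α']

/-- modification of the class (1,1) -/
theorem TI.mod11 {g : Matrix δ δ' F} {g' : Matrix δ' δ F} (h : g * g' = 1) (h' : g' * g = 1)
    (L : (α ⊕ β) ⊕ (γ ⊕ δ) → Bool) (L' : (α ⊕ β) ⊕ (γ ⊕ δ') → Bool)
    (hL : (L = f1 ∧ L' = f1) ∨ (L = f2 ∧ L' = f2)) :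
    TI L L' (fromBlocks 1 0 0 (fromBlocks 1 0 0 g)) (fromBlocks 1 0 0 (fromBlocks 1 0 0 g')) where
  mul := by simp [fromBlocks_multiply, h]
  mul' := by simp [fromBlocks_multiply, h']
  tri := by
    rcases hL with ⟨rfl, rfl⟩ | ⟨rfl, rfl⟩ <;>
    rintro ((i | i) | (i | i)) ((j | j) | (j | j)) hij <;>
    first
      | (simp [f1, f2] at hij; done)
      | simp
  tri' := by
    rcases hL with ⟨rfl, rfl⟩ | ⟨rfl, rfl⟩ <;>
    rintro ((i | i) | (i | i)) ((j | j) | (j | j)) hij <;>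
    first
      | (simp [f1, f2] at hij; done)
      | simp

/-- modification of the class (0,0) -/
theorem TI.mod00 {g : Matrix α α' F} {g' : Matrix α' α F} (h : g * g' = 1) (h' : g' * g = 1)
    (L : (α ⊕ β) ⊕ (γ ⊕ δ) → Bool) (L' : (α' ⊕ β) ⊕ (γ ⊕ δ) → Bool)
    (hL : (L = f1 ∧ L' = f1) ∨ (L = f2 ∧ L' = f2)) :
    TI L L' (fromBlocks (fromBlocks g 0 0 1) 0 0 1) (fromBlocks (fromBlocks g' 0 0 1) 0 0 1) where
  mul := by simp [fromBlocks_multiply, h]
  mul' := by simp [fromBlocks_multiply, h']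
  tri := by
    rcases hL with ⟨rfl, rfl⟩ | ⟨rfl, rfl⟩ <;>
    rintro ((i | i) | (i | i)) ((j | j) | (j | j)) hij <;>
    first
      | (simp [f1, f2] at hij; done)
      | simp
  tri' := by
    rcases hL with ⟨rfl, rfl⟩ | ⟨rfl, rfl⟩ <;>
    rintro ((i | i) | (i | i)) ((j | j) | (j | j)) hij <;>
    first
      | (simp [f1, f2] at hij; done)
      | simp

end four

end Crest.Agent.R003.NF5
private theorem rz_da4591e238 : type_of% @_root_.Crest.Agent.R003.NF5.f1.eq_1 := @_root_.Crest.Agent.R003.NF5.f1.eq_1 -- L162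
private theorem rz_049720efe4 : type_of% @_root_.Crest.Agent.R003.NF5.f2.eq_1 := @_root_.Crest.Agent.R003.NF5.f2.eq_1 -- L167
end

-- ▼ part R003/NF5c_990
section

/-!
# Row 3 (S0003), step S5: the normal form with the corner of `Corner832` (helper990)
-/

set_option autoImplicit false
set_option linter.unusedVariables false
set_option linter.unusedSectionVars false

namespace Crest.Agent.R003.NF5

open Matrix

instance : Fintype Atm where
  elems := {.a000, .a001, .a100, .a010, .al, .be, .a101, .a011, .a110, .a111}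
  complete := by intro x; cases x <;> decide

/-- tables -/
def tE : Atm → Bool
  | .a000 => false | .a001 => false | .a100 => true | .a010 => false | .al => false
  | .be => true | .a101 => true | .a011 => false | .a110 => true | .a111 => true

def tY : Atm → Bool
  | .a000 => false | .a001 => true | .a100 => false | .a010 => false | .al => true
  | .be => false | .a101 => true | .a011 => true | .a110 => false | .a111 => true

def tXE : Atm → Bool
  | .a000 => false | .a001 => false | .a100 => false | .a010 => true | .al => true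
  | .be => false | .a101 => false | .a011 => true | .a110 => true | .a111 => true

def tXY : Atm → Bool
  | .a000 => false | .a001 => false | .a100 => false | .a010 => true | .al => false
  | .be => true | .a101 => false | .a011 => true | .a110 => true | .a111 => true

/-- the abstract corner -/
abbrev KC (z : Sz) : Type := Σ a : Atm, Fin (z.size a)

variable {F : Type*} [Field F]

section corner
variable (a0 b0 c0 r a' b' b1 c1 d1 : ℕ)

/-- the sizes -/
def mkSz : Sz := ⟨a0, b0, c0, b', r, a', b1, c1, d1⟩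

/-- intermediate corner, class `x = 0` -/
abbrev H0 : Type := (Fin a0 ⊕ Fin b0) ⊕ (Fin c0 ⊕ (Fin r ⊕ Fin a'))

/-- intermediate corner, class `x = 1` -/
abbrev H1 : Type := ((Fin b' ⊕ Fin r) ⊕ Fin b1) ⊕ (Fin c1 ⊕ Fin d1)

def sE : H0 a0 b0 c0 r a' ⊕ H1 r b' b1 c1 d1 ≃ KC (mkSz a0 b0 c0 r a' b' b1 c1 d1) where
  toFun
    | .inl (.inl (.inl i)) => ⟨.a000, i⟩
    | .inl (.inl (.inr i)) => ⟨.a001, i⟩
    | .inl (.inr (.inl i)) => ⟨.a100, i⟩
    | .inl (.inr (.inr (.inl i))) => ⟨.be, i⟩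
    | .inl (.inr (.inr (.inr i))) => ⟨.a101, i⟩
    | .inr (.inl (.inl (.inl i))) => ⟨.a010, i⟩
    | .inr (.inl (.inl (.inr i))) => ⟨.al, i⟩
    | .inr (.inl (.inr i)) => ⟨.a011, i⟩
    | .inr (.inr (.inl i)) => ⟨.a110, i⟩
    | .inr (.inr (.inr i)) => ⟨.a111, i⟩
  invFun
    | ⟨.a000, i⟩ => .inl (.inl (.inl i))
    | ⟨.a001, i⟩ => .inl (.inl (.inr i))
    | ⟨.a100, i⟩ => .inl (.inr (.inl i))
    | ⟨.be, i⟩ => .inl (.inr (.inr (.inl i)))
    | ⟨.a101, i⟩ => .inl (.inr (.inr (.inr i)))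
    | ⟨.a010, i⟩ => .inr (.inl (.inl (.inl i)))
    | ⟨.al, i⟩ => .inr (.inl (.inl (.inr i)))
    | ⟨.a011, i⟩ => .inr (.inl (.inr i))
    | ⟨.a110, i⟩ => .inr (.inr (.inl i))
    | ⟨.a111, i⟩ => .inr (.inr (.inr i))
  left_inv := by rintro (((i | i) | (i | (i | i))) | (((i | i) | i) | (i | i))) <;> rfl
  right_inv := by rintro ⟨a, i⟩; cases a <;> rfl

def sY : H0 a0 b0 c0 r a' ⊕ H1 r b' b1 c1 d1 ≃ KC (mkSz a0 b0 c0 r a' b' b1 c1 d1) where
  toFun
    | .inl (.inl (.inl i)) => ⟨.a000, i⟩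
    | .inl (.inl (.inr i)) => ⟨.a001, i⟩
    | .inl (.inr (.inl i)) => ⟨.a100, i⟩
    | .inl (.inr (.inr (.inl i))) => ⟨.al, i⟩
    | .inl (.inr (.inr (.inr i))) => ⟨.a101, i⟩
    | .inr (.inl (.inl (.inl i))) => ⟨.a010, i⟩
    | .inr (.inl (.inl (.inr i))) => ⟨.be, i⟩
    | .inr (.inl (.inr i)) => ⟨.a011, i⟩
    | .inr (.inr (.inl i)) => ⟨.a110, i⟩
    | .inr (.inr (.inr i)) => ⟨.a111, i⟩
  invFun
    | ⟨.a000, i⟩ => .inl (.inl (.inl i))
    | ⟨.a001, i⟩ => .inl (.inl (.inr i))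
    | ⟨.a100, i⟩ => .inl (.inr (.inl i))
    | ⟨.al, i⟩ => .inl (.inr (.inr (.inl i)))
    | ⟨.a101, i⟩ => .inl (.inr (.inr (.inr i)))
    | ⟨.a010, i⟩ => .inr (.inl (.inl (.inl i)))
    | ⟨.be, i⟩ => .inr (.inl (.inl (.inr i)))
    | ⟨.a011, i⟩ => .inr (.inl (.inr i))
    | ⟨.a110, i⟩ => .inr (.inr (.inl i))
    | ⟨.a111, i⟩ => .inr (.inr (.inr i))
  left_inv := by rintro (((i | i) | (i | (i | i))) | (((i | i) | i) | (i | i))) <;> rfl
  right_inv := by rintro ⟨a, i⟩; cases a <;> rfl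

end corner

/-- the matrix unit block `(α,β)` -/
def Aab (z : Sz) : Matrix (KC z) (KC z) F
  | ⟨.al, i⟩, ⟨.be, j⟩ => if i = j then 1 else 0
  | _, _ => 0

/-- the matrix unit block `(β,α)` -/
def Aba (z : Sz) : Matrix (KC z) (KC z) F
  | ⟨.be, i⟩, ⟨.al, j⟩ => if i = j then 1 else 0
  | _, _ => 0

/-- signs -/
def sgA (a : Atm) : F := if tE a = false ∧ tY a = true then -1 else 1

/-- signs on the left corner -/
def sgB : Atm → F
  | .a001 => -1
  | .a011 => -1
  | _ => 1

theorem sgB_sq (a : Atm) : (sgB a : F) * sgB a = 1 := by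
  cases a <;> simp [sgB]

/-- sign matrix -/
def DA (z : Sz) : Matrix (KC z) (KC z) F := Matrix.diagonal fun x => sgA x.1

/-- `Θ = N₁ D₁₃ N₃` -/
def ThA (z : Sz) : Matrix (KC z) (KC z) F := (1 + Aab z) * DA z * (1 + Aba z)

/-- explicit form of `Θ` -/
def Th0 (z : Sz) : Matrix (KC z) (KC z) F
  | ⟨.a000, i⟩, ⟨.a000, j⟩ => if i = j then 1 else 0
  | ⟨.a001, i⟩, ⟨.a001, j⟩ => if i = j then -1 else 0
  | ⟨.a100, i⟩, ⟨.a100, j⟩ => if i = j then 1 else 0
  | ⟨.a010, i⟩, ⟨.a010, j⟩ => if i = j then 1 else 0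
  | ⟨.al, i⟩, ⟨.be, j⟩ => if i = j then 1 else 0
  | ⟨.be, i⟩, ⟨.al, j⟩ => if i = j then 1 else 0
  | ⟨.be, i⟩, ⟨.be, j⟩ => if i = j then 1 else 0
  | ⟨.a101, i⟩, ⟨.a101, j⟩ => if i = j then 1 else 0
  | ⟨.a011, i⟩, ⟨.a011, j⟩ => if i = j then -1 else 0
  | ⟨.a110, i⟩, ⟨.a110, j⟩ => if i = j then 1 else 0
  | ⟨.a111, i⟩, ⟨.a111, j⟩ => if i = j then 1 else 0
  | _, _ => 0

theorem Aab_mul (z : Sz) (M : Matrix (KC z) (KC z) F) (x y : KC z) :
    ((Aab z : Matrix (KC z) (KC z) F) * M) x y = match x with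
      | ⟨.al, i⟩ => M ⟨.be, i⟩ y
      | _ => 0 := by
  rw [Matrix.mul_apply]
  obtain ⟨a, i⟩ := x
  cases a
  case al =>
    rw [Finset.sum_eq_single (⟨.be, i⟩ : KC z)]
    · simp [Aab]
    · rintro ⟨b, j⟩ _ hne
      cases b
      case be =>
        have : i ≠ j := by
          rintro rfl
          exact hne rfl
        have h1 : Aab (F := F) z ⟨.al, i⟩ ⟨.be, j⟩ = if i = j then 1 else 0 := rfl
        rw [h1, if_neg this, zero_mul]
      all_goals exact zero_mul _
    · simp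
  all_goals
    refine Finset.sum_eq_zero ?_
    rintro ⟨b, j⟩ _
    cases b <;> exact zero_mul _

theorem mul_Aba (z : Sz) (M : Matrix (KC z) (KC z) F) (x y : KC z) :
    (M * (Aba z : Matrix (KC z) (KC z) F)) x y = match y with
      | ⟨.al, i⟩ => M x ⟨.be, i⟩
      | _ => 0 := by
  rw [Matrix.mul_apply]
  obtain ⟨a, i⟩ := y
  cases a
  case al =>
    rw [Finset.sum_eq_single (⟨.be, i⟩ : KC z)]
    · simp [Aba]
    · rintro ⟨b, j⟩ _ hne
      cases b
      case be =>
        have : j ≠ i := by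
          rintro rfl
          exact hne rfl
        have h1 : Aba (F := F) z ⟨.be, j⟩ ⟨.al, i⟩ = if j = i then 1 else 0 := rfl
        rw [h1, if_neg this, mul_zero]
      all_goals exact mul_zero _
    · simp
  all_goals
    refine Finset.sum_eq_zero ?_
    rintro ⟨b, j⟩ _
    cases b <;> exact mul_zero _

theorem ThA_eq (z : Sz) : (ThA z : Matrix (KC z) (KC z) F) = Th0 z := by
  have h : (ThA z : Matrix (KC z) (KC z) F) =
      DA z + Aab z * DA z + (DA z * Aba z + Aab z * (DA z * Aba z)) := by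
    unfold ThA
    rw [Matrix.add_mul, Matrix.one_mul, Matrix.mul_add, Matrix.mul_one, Matrix.add_mul,
      Matrix.mul_assoc]
  rw [h]
  ext x y
  simp only [Matrix.add_apply, Aab_mul, mul_Aba]
  obtain ⟨a, i⟩ := x
  obtain ⟨b, j⟩ := y
  cases a <;> cases b <;>
    simp [DA, Th0, Matrix.diagonal_apply, sgA, tE, tY]
  · rcases eq_or_ne i j with rfl | hij
    · rw [if_pos rfl, if_pos rfl]; simp
    · rw [if_neg hij, zero_add]; exact if_neg hij
  · rfl

theorem sp_mul_apply {m n p : Type*} [Fintype m] [Fintype n] [Fintype p] [DecidableEq m]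
    [DecidableEq n] (σ : m ≃ n) (s : n → F) (M : Matrix n p F) (i : m) (j : p) :
    (sp σ s * M) i j = s (σ i) * M (σ i) j := by
  rw [Matrix.mul_apply, Finset.sum_eq_single (σ i)]
  · simp [sp]
  · intro t _ ht
    simp [sp, Ne.symm ht]
  · simp

theorem mul_sp'_apply {m n p : Type*} [Fintype m] [Fintype n] [Fintype p] [DecidableEq m]
    [DecidableEq n] (σ : m ≃ n) (s : n → F) (M : Matrix p n F) (i : p) (j : m) :
    (M * sp' σ s) i j = M i (σ j) * s (σ j) := by
  rw [Matrix.mul_apply, Finset.sum_eq_single (σ j)]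
  · simp [sp']
  · intro t _ ht
    simp [sp', Ne.symm ht]
  · simp

/-- the middle matrix -/
def midU (a0 b0 c0 r a' b' b1 c1 d1 : ℕ) : Matrix (H0 a0 b0 c0 r a') (H1 r b' b1 c1 d1) F
  | .inr (.inr (.inl i)), .inl (.inl (.inr j)) => if i = j then 1 else 0
  | _, _ => 0

abbrev HH (a0 b0 c0 r a' b' b1 c1 d1 : ℕ) : Type := H0 a0 b0 c0 r a' ⊕ H1 r b' b1 c1 d1

abbrev KK (a0 b0 c0 r a' b' b1 c1 d1 : ℕ) : Type := KC (mkSz a0 b0 c0 r a' b' b1 c1 d1)

theorem middle (a0 b0 c0 r a' b' b1 c1 d1 : ℕ) :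
    (fromBlocks 1 (midU a0 b0 c0 r a' b' b1 c1 d1) 0 1 :
      Matrix (HH a0 b0 c0 r a' b' b1 c1 d1) (HH a0 b0 c0 r a' b' b1 c1 d1) F) =
    ((sp (sE a0 b0 c0 r a' b' b1 c1 d1) (fun x => sgB x.1) :
        Matrix (HH a0 b0 c0 r a' b' b1 c1 d1) (KK a0 b0 c0 r a' b' b1 c1 d1) F) *
      (((ThA (mkSz a0 b0 c0 r a' b' b1 c1 d1) :
          Matrix (KK a0 b0 c0 r a' b' b1 c1 d1) (KK a0 b0 c0 r a' b' b1 c1 d1) F) *
        (sp' (sY a0 b0 c0 r a' b' b1 c1 d1) (fun _ => (1 : F)) :
          Matrix (KK a0 b0 c0 r a' b' b1 c1 d1) (HH a0 b0 c0 r a' b' b1 c1 d1) F)) :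
          Matrix (KK a0 b0 c0 r a' b' b1 c1 d1) (HH a0 b0 c0 r a' b' b1 c1 d1) F) :
      Matrix (HH a0 b0 c0 r a' b' b1 c1 d1) (HH a0 b0 c0 r a' b' b1 c1 d1) F) := by
  ext x y
  rw [sp_mul_apply, mul_sp'_apply, ThA_eq, mul_one]
  rcases x with (((i | i) | (i | (i | i))) | (((i | i) | i) | (i | i))) <;>
  rcases y with (((j | j) | (j | (j | j))) | (((j | j) | j) | (j | j))) <;>
  simp [sE, sY, Th0, sgB, midU, Matrix.one_apply] <;> rfl

end Crest.Agent.R003.NF5
private theorem rz_1749ed33a3 : type_of% @_root_.Crest.Agent.R003.NF5.Aab.eq_1 := @_root_.Crest.Agent.R003.NF5.Aab.eq_1 -- L109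
private theorem rz_66e0005304 : type_of% @_root_.Crest.Agent.R003.NF5.Aba.eq_1 := @_root_.Crest.Agent.R003.NF5.Aba.eq_1 -- L114
private theorem rz_e50f3ace2b : type_of% @_root_.Crest.Agent.R003.NF5.Th0.eq_1 := @_root_.Crest.Agent.R003.NF5.Th0.eq_1 -- L137
private theorem rz_5fe1ab102f : type_of% @_root_.Crest.Agent.R003.NF5.midU.eq_1 := @_root_.Crest.Agent.R003.NF5.midU.eq_1 -- L238
private theorem rz_19760ab069 : type_of% @_root_.Crest.Agent.R003.NF5.sgB.eq_1 := @_root_.Crest.Agent.R003.NF5.sgB.eq_1 -- L122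
private theorem rz_4777a30c76 : type_of% @_root_.Crest.Agent.R003.NF5.tE.eq_1 := @_root_.Crest.Agent.R003.NF5.tE.eq_1 -- L21
private theorem rz_8aa822922b : type_of% @_root_.Crest.Agent.R003.NF5.tY.eq_1 := @_root_.Crest.Agent.R003.NF5.tY.eq_1 -- L25
end

-- ▼ part R003/NF5d_990
section

/-!
# Row 3 (S0003), step S5: the abstract normal form (helper990)
-/

set_option autoImplicit false
set_option linter.unusedVariables false
set_option linter.unusedSectionVars false

namespace Crest.Agent.R003.NF5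

open Matrix

variable {F : Type*} [Field F]

theorem ub_mul {p q : Type*} [Fintype p] [Fintype q] [DecidableEq p] [DecidableEq q]
    (A B : Matrix p q F) :
    ((fromBlocks 1 A 0 1 : Matrix (p ⊕ q) (p ⊕ q) F) * (fromBlocks 1 B 0 1 :
      Matrix (p ⊕ q) (p ⊕ q) F) : Matrix (p ⊕ q) (p ⊕ q) F) = fromBlocks 1 (B + A) 0 1 := by
  rw [fromBlocks_multiply]
  simp

theorem bd_mul {p q p1 q1 p2 q2 : Type*} [Fintype p] [Fintype q] [DecidableEq p] [DecidableEq q]
    (A : Matrix p1 p F) (B : Matrix q1 q F) (X : Matrix p q F) (C : Matrix p p2 F)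
    (D : Matrix q q2 F) :
    (((fromBlocks A 0 0 B : Matrix (p1 ⊕ q1) (p ⊕ q) F) *
      (fromBlocks 1 X 0 1 : Matrix (p ⊕ q) (p ⊕ q) F) : Matrix (p1 ⊕ q1) (p ⊕ q) F) *
      (fromBlocks C 0 0 D : Matrix (p ⊕ q) (p2 ⊕ q2) F) : Matrix (p1 ⊕ q1) (p2 ⊕ q2) F) =
      fromBlocks (A * C) (A * X * D) 0 (B * D) := by
  rw [fromBlocks_multiply, fromBlocks_multiply]
  simp

theorem nf_blk {m0 m1 n0 n1 : Type*} [Fintype m0] [Fintype m1] [Fintype n0] [Fintype n1]
    [DecidableEq m0] [DecidableEq m1] [DecidableEq n0] [DecidableEq n1]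
    (E0 : m0 → Bool) (E1 : m1 → Bool) (Y0 : n0 → Bool) (Y1 : n1 → Bool)
    (W0 : Matrix m0 n0 F) (W0' : Matrix n0 m0 F) (U : Matrix m0 n1 F)
    (W1 : Matrix m1 n1 F) (W1' : Matrix n1 m1 F)
    (h0 : W0 * W0' = 1) (h0' : W0' * W0 = 1) (h1 : W1 * W1' = 1) (h1' : W1' * W1 = 1) :
    ∃ (z : Sz) (L : Matrix (m0 ⊕ m1) (KC z) F) (L' : Matrix (KC z) (m0 ⊕ m1) F)
      (R : Matrix (KC z) (n0 ⊕ n1) F) (R' : Matrix (n0 ⊕ n1) (KC z) F),
      TI (Sum.elim (fun i => (E0 i, false)) (fun i => (E1 i, true)) : m0 ⊕ m1 → Bool × Bool)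
        (fun x : KC z => (tE x.1, tXE x.1)) L L' ∧
      TI (fun x : KC z => (tY x.1, tXY x.1))
        (Sum.elim (fun i => (Y0 i, false)) (fun i => (Y1 i, true)) : n0 ⊕ n1 → Bool × Bool)
        R R' ∧
      (fromBlocks W0 U 0 W1 : Matrix (m0 ⊕ m1) (n0 ⊕ n1) F) =
        L * ((ThA z : Matrix (KC z) (KC z) F) * R : Matrix (KC z) (n0 ⊕ n1) F) := by
  obtain ⟨a0, b0, c0, d0, l0, l0', r0, r0', hl0, hr0, e0⟩ := bruhat h0 h0' E0 Y0
  obtain ⟨a1, b1, c1, d1, l1, l1', r1, r1', hl1, hr1, e1⟩ := bruhat h1 h1' E1 Y1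
  rw [l1_eq] at hl0 hl1
  rw [l2_eq] at hr0 hr1
  set U' : Matrix (I4 a0 b0 c0 d0) (I4 a1 b1 c1 d1) F := l0' * U * r1' with hU'
  let N : Matrix (Fin d0) (Fin a1) F := fun i j => U' (.inr (.inr i)) (.inl (.inl j))
  obtain ⟨a', b', r, g, g', h, h', hg, hg', hh, hh', hN⟩ := rank_nf N
  let G0 : Matrix (I4 a0 b0 c0 d0) (H0 a0 b0 c0 r a') F :=
    fromBlocks 1 0 0 (fromBlocks 1 0 0 g)
  let G0' : Matrix (H0 a0 b0 c0 r a') (I4 a0 b0 c0 d0) F :=
    fromBlocks 1 0 0 (fromBlocks 1 0 0 g')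
  let G1 : Matrix (H1 r b' b1 c1 d1) (I4 a1 b1 c1 d1) F :=
    fromBlocks (fromBlocks h 0 0 1) 0 0 1
  let G1' : Matrix (I4 a1 b1 c1 d1) (H1 r b' b1 c1 d1) F :=
    fromBlocks (fromBlocks h' 0 0 1) 0 0 1
  have tG0 : TI f1 f1 G0 G0' := TI.mod11 hg hg' f1 f1 (Or.inl ⟨rfl, rfl⟩)
  have tG0' : TI f2 f2 G0 G0' := TI.mod11 hg hg' f2 f2 (Or.inr ⟨rfl, rfl⟩)
  have tG1 : TI f1 f1 G1' G1 := TI.mod00 hh' hh f1 f1 (Or.inl ⟨rfl, rfl⟩)
  have tG1' : TI f2 f2 G1' G1 := TI.mod00 hh' hh f2 f2 (Or.inr ⟨rfl, rfl⟩)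
  let U2 : Matrix (H0 a0 b0 c0 r a') (H1 r b' b1 c1 d1) F := G0' * U' * G1'
  let UL : Matrix (H0 a0 b0 c0 r a') (H1 r b' b1 c1 d1) F :=
    fun i j => if f1 i ≤ f1 j then U2 i j else 0
  let UR : Matrix (H0 a0 b0 c0 r a') (H1 r b' b1 c1 d1) F :=
    fun i j => if ¬ (f1 i ≤ f1 j) ∧ f2 i ≤ f2 j then U2 i j else 0
  have hmid : ∀ i j, U2 (.inr (.inr i)) (.inl (.inl j)) = nu a' b' r i j := by
    have hN' : (g' * (N * h' : Matrix (Fin d0) (Fin b' ⊕ Fin r) F) :
        Matrix (Fin r ⊕ Fin a') (Fin b' ⊕ Fin r) F) = nu a' b' r := by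
      rw [hN]
      generalize (nu a' b' r : Matrix (Fin r ⊕ Fin a') (Fin b' ⊕ Fin r) F) = nn
      calc (g' * ((g * nn * h : Matrix (Fin d0) (Fin a1) F) * h' :
            Matrix (Fin d0) (Fin b' ⊕ Fin r) F) : Matrix (Fin r ⊕ Fin a') (Fin b' ⊕ Fin r) F)
          = ((g' * g : Matrix (Fin r ⊕ Fin a') (Fin r ⊕ Fin a') F) *
            (nn * (h * h' : Matrix (Fin b' ⊕ Fin r) (Fin b' ⊕ Fin r) F) :
              Matrix (Fin r ⊕ Fin a') (Fin b' ⊕ Fin r) F) :
              Matrix (Fin r ⊕ Fin a') (Fin b' ⊕ Fin r) F) := by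
            simp only [Matrix.mul_assoc]
        _ = nn := by rw [hg', hh, Matrix.one_mul, Matrix.mul_one]
    intro i j
    rw [← hN']
    simp [U2, G0', G1', Matrix.mul_apply, Fintype.sum_sum_type, N, Finset.sum_mul,
      Finset.mul_sum, mul_assoc]
    rw [Finset.sum_comm]
  have ntf : ¬ (true ≤ false) := by decide
  have hU2 : U2 = UL + midU a0 b0 c0 r a' b' b1 c1 d1 + UR := by
    ext i j
    rcases i with ((i | i) | (i | i)) <;> rcases j with ((j | j) | (j | j))
    case inr.inr.inl.inl =>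
      rw [hmid]
      rcases i with i | i <;> rcases j with j | j <;>
        simp [UL, UR, midU, nu, f1, f2, ntf]
    all_goals simp [UL, UR, midU, f1, f2]
  let z := mkSz a0 b0 c0 r a' b' b1 c1 d1
  let HHt := HH a0 b0 c0 r a' b' b1 c1 d1
  let D1 : Matrix (m0 ⊕ m1) HHt F := fromBlocks (l0 * G0) 0 0 (l1 * G1')
  let D1' : Matrix HHt (m0 ⊕ m1) F := fromBlocks (G0' * l0') 0 0 (G1 * l1')
  let D2 : Matrix HHt (n0 ⊕ n1) F := fromBlocks (G0' * r0) 0 0 (G1 * r1)
  let D2' : Matrix (n0 ⊕ n1) HHt F := fromBlocks (r0' * G0) 0 0 (r1' * G1')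
  have tD1 : TI (Sum.elim (fun i => (E0 i, false)) (fun i => (E1 i, true)) : m0 ⊕ m1 → Bool × Bool)
      (Sum.elim (fun i => (f1 i, false)) (fun i => (f1 i, true)) : HHt → Bool × Bool) D1 D1' :=
    TI.diag (hl0.comp tG0) (hl1.comp tG1)
  have tD2 : TI (Sum.elim (fun i => (f2 i, false)) (fun i => (f2 i, true)) : HHt → Bool × Bool)
      (Sum.elim (fun i => (Y0 i, false)) (fun i => (Y1 i, true)) : n0 ⊕ n1 → Bool × Bool)
      D2 D2' :=
    TI.diag (tG0'.symm.comp hr0) (tG1'.symm.comp hr1)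
  have tUL : TI (Sum.elim (fun i => (f1 i, false)) (fun i => (f1 i, true)) : HHt → Bool × Bool)
      (Sum.elim (fun i => (f1 i, false)) (fun i => (f1 i, true)) : HHt → Bool × Bool)
      (fromBlocks 1 UL 0 1) (fromBlocks 1 (-UL) 0 1) :=
    TI.uni f1 f1 UL (fun i j hij => if_neg hij)
  have tUR : TI (Sum.elim (fun i => (f2 i, false)) (fun i => (f2 i, true)) : HHt → Bool × Bool)
      (Sum.elim (fun i => (f2 i, false)) (fun i => (f2 i, true)) : HHt → Bool × Bool)
      (fromBlocks 1 UR 0 1) (fromBlocks 1 (-UR) 0 1) :=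
    TI.uni f2 f2 UR (fun i j hij => if_neg fun hh => hij hh.2)
  have tSE : TI (Sum.elim (fun i => (f1 i, false)) (fun i => (f1 i, true)) : HHt → Bool × Bool)
      (fun x : KC z => (tE x.1, tXE x.1)) (sp (sE a0 b0 c0 r a' b' b1 c1 d1) fun x => sgB x.1)
      (sp' (sE a0 b0 c0 r a' b' b1 c1 d1) fun x => (sgB x.1 : F)) := by
    refine TI.perm _ _ (fun x => sgB_sq x.1) _ _ ?_
    rintro (((i | i) | (i | (i | i))) | (((i | i) | i) | (i | i))) <;> rfl
  have tSY : TI (Sum.elim (fun i => (f2 i, false)) (fun i => (f2 i, true)) : HHt → Bool × Bool)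
      (fun x : KC z => (tY x.1, tXY x.1)) (sp (sY a0 b0 c0 r a' b' b1 c1 d1) fun _ => (1 : F))
      (sp' (sY a0 b0 c0 r a' b' b1 c1 d1) fun _ => (1 : F)) := by
    refine TI.perm _ _ (fun x => one_mul 1) _ _ ?_
    rintro (((i | i) | (i | (i | i))) | (((i | i) | i) | (i | i))) <;> rfl
  let SE : Matrix HHt (KC z) F := sp (sE a0 b0 c0 r a' b' b1 c1 d1) fun x => sgB x.1
  let SE' : Matrix (KC z) HHt F := sp' (sE a0 b0 c0 r a' b' b1 c1 d1) fun x => (sgB x.1 : F)
  let SY : Matrix HHt (KC z) F := sp (sY a0 b0 c0 r a' b' b1 c1 d1) fun _ => (1 : F)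
  let SY' : Matrix (KC z) HHt F := sp' (sY a0 b0 c0 r a' b' b1 c1 d1) fun _ => (1 : F)
  let VL : Matrix HHt HHt F := fromBlocks 1 UL 0 1
  let VR : Matrix HHt HHt F := fromBlocks 1 UR 0 1
  have tVL : TI (Sum.elim (fun i => (f1 i, false)) (fun i => (f1 i, true)) : HHt → Bool × Bool)
      (Sum.elim (fun i => (f1 i, false)) (fun i => (f1 i, true)) : HHt → Bool × Bool)
      VL (fromBlocks 1 (-UL) 0 1) := tUL
  have tVR : TI (Sum.elim (fun i => (f2 i, false)) (fun i => (f2 i, true)) : HHt → Bool × Bool)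
      (Sum.elim (fun i => (f2 i, false)) (fun i => (f2 i, true)) : HHt → Bool × Bool)
      VR (fromBlocks 1 (-UR) 0 1) := tUR
  have tSE2 : TI (Sum.elim (fun i => (f1 i, false)) (fun i => (f1 i, true)) : HHt → Bool × Bool)
      (fun x : KC z => (tE x.1, tXE x.1)) SE SE' := tSE
  have tSY2 : TI (Sum.elim (fun i => (f2 i, false)) (fun i => (f2 i, true)) : HHt → Bool × Bool)
      (fun x : KC z => (tY x.1, tXY x.1)) SY SY' := tSY
  let Q : Matrix (KC z) (KC z) F := ThA z
  have hm : (fromBlocks 1 (midU a0 b0 c0 r a' b' b1 c1 d1) 0 1 : Matrix HHt HHt F) =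
      (SE * (Q * SY' : Matrix (KC z) HHt F) : Matrix HHt HHt F) :=
    middle (F := F) a0 b0 c0 r a' b' b1 c1 d1
  let L : Matrix (m0 ⊕ m1) (KC z) F :=
    (D1 * VL : Matrix (m0 ⊕ m1) HHt F) * SE
  let R : Matrix (KC z) (n0 ⊕ n1) F :=
    (SY' * VR : Matrix (KC z) HHt F) * D2
  refine ⟨z, L, _, R, _, (tD1.comp tVL).comp tSE2, (tSY2.symm.comp tVR).comp tD2, ?_⟩
  have e3 : (L * (Q * R : Matrix (KC z) (n0 ⊕ n1) F) : Matrix (m0 ⊕ m1) (n0 ⊕ n1) F) =
      ((D1 * (VL * ((SE * (Q * SY' : Matrix (KC z) HHt F) : Matrix HHt HHt F) * VR :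
        Matrix HHt HHt F) : Matrix HHt HHt F) : Matrix (m0 ⊕ m1) HHt F) * D2 :
          Matrix (m0 ⊕ m1) (n0 ⊕ n1) F) := by
    simp only [L, R, Matrix.mul_assoc]
  refine Eq.trans ?_ e3.symm
  rw [← hm]
  have q1 : ((fromBlocks 1 (midU a0 b0 c0 r a' b' b1 c1 d1) 0 1 : Matrix HHt HHt F) * VR :
      Matrix HHt HHt F) = fromBlocks 1 (UR + midU a0 b0 c0 r a' b' b1 c1 d1) 0 1 := ub_mul _ _
  rw [q1]
  have q2 : (VL * (fromBlocks 1 (UR + midU a0 b0 c0 r a' b' b1 c1 d1) 0 1 : Matrix HHt HHt F) :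
      Matrix HHt HHt F) = fromBlocks 1 (UR + midU a0 b0 c0 r a' b' b1 c1 d1 + UL) 0 1 :=
    ub_mul _ _
  rw [q2]
  refine Eq.trans ?_ (bd_mul (l0 * G0) (l1 * G1') (UR + midU a0 b0 c0 r a' b' b1 c1 d1 + UL)
    (G0' * r0) (G1 * r1)).symm
  have k0 : l0 * G0 * (G0' * r0) = W0 := by
    rw [Matrix.mul_assoc, ← Matrix.mul_assoc G0, tG0.mul, Matrix.one_mul, ← e0]
  have k1 : l1 * G1' * (G1 * r1) = W1 := by
    rw [Matrix.mul_assoc, ← Matrix.mul_assoc G1', tG1.mul, Matrix.one_mul, ← e1]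
  have k2 : l0 * G0 * (UR + midU a0 b0 c0 r a' b' b1 c1 d1 + UL) * (G1 * r1) = U := by
    have : UR + midU a0 b0 c0 r a' b' b1 c1 d1 + UL = U2 := by
      rw [hU2]; abel
    rw [this]
    calc l0 * G0 * (G0' * U' * G1') * (G1 * r1)
        = l0 * (G0 * G0') * U' * (G1' * G1) * r1 := by simp only [Matrix.mul_assoc]
      _ = l0 * (l0' * U * r1') * r1 := by
          rw [tG0.mul, tG1.mul, Matrix.mul_one, Matrix.mul_one]
      _ = (l0 * l0') * U * (r1' * r1) := by simp only [Matrix.mul_assoc]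
      _ = U := by rw [hl0.mul, hr1.mul', Matrix.one_mul, Matrix.mul_one]
  rw [k0, k1, k2]

end Crest.Agent.R003.NF5
end

-- ▼ part R003/NF5e_990
section

/-!
# Row 3 (S0003), step S5: the abstract normal form on arbitrary index types (helper990)
-/

set_option autoImplicit false
set_option linter.unusedVariables false
set_option linter.unusedSectionVars false

namespace Crest.Agent.R003.NF5

open Matrix

theorem tE_eq : tE = labE := by funext x; cases x <;> rfl
theorem tY_eq : tY = labY := by funext x; cases x <;> rfl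
theorem tXE_eq : tXE = labXE := by funext x; cases x <;> rfl
theorem tXY_eq : tXY = labXY := by funext x; cases x <;> rfl

variable {F : Type*} [Field F]

theorem nf_abs {m n : Type*} [Fintype m] [Fintype n] [DecidableEq m] [DecidableEq n]
    (P : Matrix m n F) (P' : Matrix n m F) (hP : P * P' = 1) (hP' : P' * P = 1)
    (E X : m → Bool) (X' Y : n → Bool) (hz : ∀ i j, ¬ X i ≤ X' j → P i j = 0)
    (hc : Fintype.card {i // X i = false} = Fintype.card {j // X' j = false}) :
    ∃ (z : Sz) (L : Matrix m (KC z) F) (L' : Matrix (KC z) m F) (R : Matrix (KC z) n F)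
      (R' : Matrix n (KC z) F),
      TI (fun i => (E i, X i)) (fun x : KC z => (tE x.1, tXE x.1)) L L' ∧
      TI (fun x : KC z => (tY x.1, tXY x.1)) (fun j => (Y j, X' j)) R R' ∧
      P = L * ((ThA z : Matrix (KC z) (KC z) F) * R : Matrix (KC z) n F) := by
  let em : {i // X i = false} ⊕ {i // ¬ X i = false} ≃ m := Equiv.sumCompl _
  let en : {j // X' j = false} ⊕ {j // ¬ X' j = false} ≃ n := Equiv.sumCompl _
  let Q : Matrix ({i // X i = false} ⊕ {i // ¬ X i = false})
    ({j // X' j = false} ⊕ {j // ¬ X' j = false}) F := P.submatrix em en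
  let Q' : Matrix ({j // X' j = false} ⊕ {j // ¬ X' j = false})
    ({i // X i = false} ⊕ {i // ¬ X i = false}) F := P'.submatrix en em
  have hQ : Q * Q' = 1 := by
    simp only [Q, Q']
    rw [Matrix.submatrix_mul_equiv, hP, Matrix.submatrix_one_equiv]
  have hQ' : Q' * Q = 1 := by
    simp only [Q, Q']
    rw [Matrix.submatrix_mul_equiv, hP', Matrix.submatrix_one_equiv]
  have h21 : Q.toBlocks₂₁ = 0 := by
    ext i j
    refine hz _ _ ?_
    have h1 : X i.1 = true := by
      have := i.2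
      simpa using this
    have h1 : X (em (.inr i)) = true := h1
    have h2 : X' (en (.inl j)) = false := j.2
    rw [h1, h2]
    decide
  have hQb : Q = fromBlocks Q.toBlocks₁₁ Q.toBlocks₁₂ 0 Q.toBlocks₂₂ := by
    rw [← h21, fromBlocks_toBlocks]
  have hQb' : Q' = fromBlocks Q'.toBlocks₁₁ Q'.toBlocks₁₂ Q'.toBlocks₂₁ Q'.toBlocks₂₂ :=
    (fromBlocks_toBlocks Q').symm
  have k1 := hQ
  have k2 := hQ'
  rw [hQb, hQb', fromBlocks_multiply, ← fromBlocks_one] at k1 k2
  rw [fromBlocks_inj] at k1 k2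
  simp only [Matrix.zero_mul, Matrix.mul_zero, zero_add, add_zero] at k1 k2
  obtain ⟨a1, a2, a3, a4⟩ := k1
  obtain ⟨b1, b2, b3, b4⟩ := k2
  have c1 : Q.toBlocks₁₁ * Q'.toBlocks₁₁ = 1 :=
    (Matrix.mul_eq_one_comm_of_equiv (Fintype.equivOfCardEq hc.symm)).mp b1
  have c2 : Q'.toBlocks₂₁ = 0 := by
    have : Q'.toBlocks₂₁ * (Q.toBlocks₁₁ * Q'.toBlocks₁₁) = 0 := by
      rw [← Matrix.mul_assoc, b3, Matrix.zero_mul]
    rwa [c1, Matrix.mul_one] at this
  rw [c2, Matrix.zero_mul, zero_add] at b4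
  obtain ⟨z, L, L', R, R', hL, hR, he⟩ := nf_blk (fun i : {i // X i = false} => E i.1)
    (fun i : {i // ¬ X i = false} => E i.1) (fun j : {j // X' j = false} => Y j.1)
    (fun j : {j // ¬ X' j = false} => Y j.1) Q.toBlocks₁₁ Q'.toBlocks₁₁ Q.toBlocks₁₂
    Q.toBlocks₂₂ Q'.toBlocks₂₂ c1 b1 a4 b4
  rw [← hQb] at he
  have hL2 := hL.sub em.symm (Equiv.refl (KC z))
  have hR2 := hR.sub (Equiv.refl (KC z)) en.symm
  have e1 : (Sum.elim (fun i : {i // X i = false} => (E i.1, false))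
      (fun i : {i // ¬ X i = false} => (E i.1, true))) ∘ em.symm = fun i => (E i, X i) := by
    funext i
    obtain ⟨x, rfl⟩ := em.surjective i
    rw [Function.comp_apply, Equiv.symm_apply_apply]
    rcases x with x | x
    · exact Prod.ext rfl x.2.symm
    · exact Prod.ext rfl (by
        have := x.2
        simp only [Bool.not_eq_false] at this
        exact this.symm)
  have e2 : (Sum.elim (fun j : {j // X' j = false} => (Y j.1, false))
      (fun j : {j // ¬ X' j = false} => (Y j.1, true))) ∘ en.symm = fun j => (Y j, X' j) := by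
    funext i
    obtain ⟨x, rfl⟩ := en.surjective i
    rw [Function.comp_apply, Equiv.symm_apply_apply]
    rcases x with x | x
    · exact Prod.ext rfl x.2.symm
    · exact Prod.ext rfl (by
        have := x.2
        simp only [Bool.not_eq_false] at this
        exact this.symm)
  rw [e1] at hL2
  rw [e2] at hR2
  refine ⟨z, _, _, _, _, hL2, hR2, ?_⟩
  have e3 : P = Q.submatrix em.symm en.symm := by
    ext i j
    simp [Q]
  rw [e3, he]
  ext i j
  simp only [Matrix.mul_apply, Matrix.submatrix_apply, Equiv.refl_apply]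

end Crest.Agent.R003.NF5
end

-- ▼ part R003/NF5f_990

/-!
# Row 3 (S0003), step S5: `NF5 n` (helper990)
-/

set_option autoImplicit false
set_option linter.unusedVariables false
set_option linter.unusedSectionVars false

namespace Crest.Agent.R003.NF5

open Matrix

theorem start_add_lt (z : Sz) (a : Atm) (t : ℕ) (ht : t < z.size a) :
    z.start a + t < z.tot := by
  cases a <;> simp only [Sz.start, Sz.size, Sz.tot] at * <;> omega

/-- positions -/
noncomputable def posE (z : Sz) : KC z ≃ Fin z.tot :=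
  Equiv.ofBijective (fun x => ⟨z.start x.1 + x.2.1, start_add_lt z x.1 x.2.1 x.2.2⟩) (by
    constructor
    · rintro ⟨a, i⟩ ⟨b, j⟩ hab
      have h1 : z.start a + i.1 = z.start b + j.1 := congrArg Fin.val hab
      obtain ⟨h2, h3⟩ := (z.F1 a b i.1 j.1 i.2 j.2).mp h1
      subst h2
      rw [Fin.ext h3]
    · intro i
      obtain ⟨a, t, ht, hi⟩ := z.exists_atm i.2
      exact ⟨⟨a, ⟨t, ht⟩⟩, Fin.ext hi.symm⟩)

theorem posE_val (z : Sz) (x : KC z) : (posE z x).1 = z.start x.1 + x.2.1 := rfl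

theorem gl_posE {Λ : Type} (z : Sz) (f : Atm → Λ) (x : KC z) :
    gl (z.lst f) (z.lst_length f) (posE z x) = f x.1 := by
  have h1 : lab (z.lst f) (z.start x.1 + x.2.1) = some (f x.1) :=
    z.lst_getElem f x.1 x.2.1 x.2.2
  obtain ⟨h2, h3⟩ := (lab_eq_some_iff (z.lst f) (z.lst_length f) _ _).mp h1
  exact h3

/-- entries of `Θ` -/
theorem thE_eq (z : Sz) (x y : KC z) :
    z.thE (z.start x.1 + x.2.1) (z.start y.1 + y.2.1) = (ThA z : Matrix (KC z) (KC z) ℂ) x y := by
  obtain ⟨a, i⟩ := x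
  obtain ⟨b, j⟩ := y
  simp only
  rw [ThA_eq]
  have f1 := z.F1 a b i.1 j.1 i.2 j.2
  have f2 := z.F2 a i.1 i.2
  have f2' := z.F2 b j.1 j.2
  have h3 : (z.st ≤ z.start a + i.1 ∧ z.start a + i.1 < z.st + z.m ∧
      z.start b + j.1 = z.start a + i.1 + z.m) ↔ (a = .al ∧ b = .be ∧ i.1 = j.1) := by
    constructor
    · rintro ⟨h1, h2, h3⟩
      have hpa := f2.mp ⟨h1, h2⟩
      exact ⟨hpa, (z.F3 a b i.1 j.1 i.2 j.2 hpa).mp h3⟩
    · rintro ⟨h1, h2⟩
      exact ⟨(f2.mpr h1).1, (f2.mpr h1).2, (z.F3 a b i.1 j.1 i.2 j.2 h1).mpr h2⟩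
  have h4 : (z.st ≤ z.start b + j.1 ∧ z.start b + j.1 < z.st + z.m ∧
      z.start a + i.1 = z.start b + j.1 + z.m) ↔ (b = .al ∧ a = .be ∧ j.1 = i.1) := by
    constructor
    · rintro ⟨h1, h2, h3⟩
      have hpa := f2'.mp ⟨h1, h2⟩
      exact ⟨hpa, (z.F3 b a j.1 i.1 j.2 i.2 hpa).mp h3⟩
    · rintro ⟨h1, h2⟩
      exact ⟨(f2'.mpr h1).1, (f2'.mpr h1).2, (z.F3 b a j.1 i.1 j.2 i.2 h1).mpr h2⟩
  unfold Sz.thE
  rw [z.dsv_start a i.1 i.2]
  simp only [f1, f2, h3, h4]
  cases a <;> cases b <;>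
    simp [Th0, sg, labE, labY, Fin.ext_iff, eq_comm]

/-- the embedded `Θ` -/
theorem Th_eq (z : Sz) {n : ℕ} (hn : z.tot ≤ n) (T : GL (Fin z.tot) ℂ)
    (hT : T.1 = (ThA z : Matrix (KC z) (KC z) ℂ).submatrix (posE z).symm (posE z).symm) :
    embG hn T = z.Th n := by
  apply Units.ext
  ext i j
  rw [z.Th_apply hn]
  change emb686 hn T.1 i j = _
  by_cases hij : z.tot ≤ i.1 ∨ z.tot ≤ j.1
  · rw [emb_ge hn _ i j hij]
    unfold Sz.thE
    have h2m := z.two_m_le
    by_cases h : i = j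
    · subst h
      rw [if_pos rfl, if_pos rfl, if_neg (by omega), dsv_of_le]
      · simp
      · left
        rw [z.lst_length]
        omega
    · have h' : ¬ (i.1 = j.1) := fun h' => h (Fin.ext h')
      rw [if_neg h, if_neg h', if_neg (by omega)]
  · rw [not_or, not_le, not_le] at hij
    rw [emb_lt hn _ i j hij.1 hij.2, hT, submatrix_apply]
    obtain ⟨x, hx⟩ := (posE z).surjective ⟨i.1, hij.1⟩
    obtain ⟨y, hy⟩ := (posE z).surjective ⟨j.1, hij.2⟩
    have hx1 : z.start x.1 + x.2.1 = i.1 := by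
      rw [← posE_val, hx]
    have hy1 : z.start y.1 + y.2.1 = j.1 := by
      rw [← posE_val, hy]
    rw [← hx, ← hy, Equiv.symm_apply_apply, Equiv.symm_apply_apply, ← thE_eq, hx1, hy1]

theorem zp_left (z : Sz) {n : ℕ} (hn : z.tot ≤ n) (c : List Bool) (hc : c.length = z.tot)
    (f : Atm → Bool) (A : GL (Fin z.tot) ℂ)
    (h : ∀ i j, ¬ gl c hc i ≤ f ((posE z).symm j).1 → A.1 i j = 0) :
    ZP c (z.lst f) (embG hn A) := by
  intro i j a b ha hb hab
  obtain ⟨hi, hi2⟩ := (lab_eq_some_iff c hc _ _).mp ha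
  obtain ⟨hj, hj2⟩ := (lab_eq_some_iff (z.lst f) (z.lst_length f) _ _).mp hb
  refine (emb_lt hn A.1 i j hi hj).trans (h _ _ ?_)
  obtain ⟨y, hy⟩ := (posE z).surjective ⟨j.1, hj⟩
  rw [← hy, gl_posE] at hj2
  rw [← hy, Equiv.symm_apply_apply, hi2, hj2]
  exact hab

theorem zp_right (z : Sz) {n : ℕ} (hn : z.tot ≤ n) (c : List Bool) (hc : c.length = z.tot)
    (f : Atm → Bool) (A : GL (Fin z.tot) ℂ)
    (h : ∀ i j, ¬ f ((posE z).symm i).1 ≤ gl c hc j → A.1 i j = 0) :
    ZP (z.lst f) c (embG hn A) := by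
  intro i j a b ha hb hab
  obtain ⟨hi, hi2⟩ := (lab_eq_some_iff (z.lst f) (z.lst_length f) _ _).mp ha
  obtain ⟨hj, hj2⟩ := (lab_eq_some_iff c hc _ _).mp hb
  refine (emb_lt hn A.1 i j hi hj).trans (h _ _ ?_)
  obtain ⟨y, hy⟩ := (posE z).surjective ⟨i.1, hi⟩
  rw [← hy, gl_posE] at hi2
  rw [← hy, Equiv.symm_apply_apply, hi2, hj2]
  exact hab

theorem count_lst (z : Sz) (f : Atm → Bool) (b : Bool) :
    (z.lst f).count b = Fintype.card {x : KC z // f x.1 = b} := by
  rw [← card_gl (z.lst f) (z.lst_length f) b, ← Fintype.card_subtype]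
  refine Fintype.card_congr ?_
  refine ((posE z).subtypeEquiv ?_).symm
  intro x
  rw [gl_posE]

theorem nf5core (n : ℕ) : NF5Core n := by
  classical
  intro k hk E X X' Y W P hE hX hX' hY hP
  obtain ⟨A, rfl⟩ := exists_embG hk P (hX ▸ hP.mem)
  have hcard : Fintype.card {i // gl X hX i = false} = Fintype.card {j // gl X' hX' j = false} := by
    rw [Fintype.card_subtype, Fintype.card_subtype, card_gl, card_gl]
    exact hP.cnt false
  have hz : ∀ i j, ¬ gl X hX i ≤ gl X' hX' j → A.1 i j = 0 := by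
    intro i j hij
    have h1 := hP.zero (Fin.castLE hk i) (Fin.castLE hk j) (gl X hX i) (gl X' hX' j)
      ((lab_eq_some_iff X hX _ _).mpr ⟨i.2, rfl⟩) ((lab_eq_some_iff X' hX' _ _).mpr ⟨j.2, rfl⟩) hij
    rw [← h1]
    exact (emb_lt hk A.1 (Fin.castLE hk i) (Fin.castLE hk j) i.2 j.2).symm
  obtain ⟨z, L, L', R, R', hL, hR, he⟩ := nf_abs A.1 (A⁻¹).1
    (by rw [← Units.val_mul, mul_inv_cancel, Units.val_one])
    (by rw [← Units.val_mul, inv_mul_cancel, Units.val_one]) (gl E hE) (gl X hX) (gl X' hX')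
    (gl Y hY) hz hcard
  have hzk : z.tot = k := by
    have h1 := (hL.map (d := fun _ => ()) (d' := fun _ => ()) (fun _ _ _ => le_rfl)
      (fun _ _ _ => le_rfl)).card_eq ()
    rw [Fintype.card_congr (Equiv.subtypeUnivEquiv (fun _ => rfl)),
      Fintype.card_congr (Equiv.subtypeUnivEquiv (fun _ => rfl)), Fintype.card_fin,
      Fintype.card_congr (posE z), Fintype.card_fin] at h1
    exact h1.symm
  subst hzk
  have hL2 := hL.sub (Equiv.refl (Fin z.tot)) (posE z).symm
  have hR2 := hR.sub (posE z).symm (Equiv.refl (Fin z.tot))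
  let L3 : GL (Fin z.tot) ℂ := ⟨_, _, hL2.mul, hL2.mul'⟩
  let R3 : GL (Fin z.tot) ℂ := ⟨_, _, hR2.mul, hR2.mul'⟩
  let T : GL (Fin z.tot) ℂ := L3⁻¹ * A * R3⁻¹
  have hA : A = L3 * T * R3 := by
    simp only [T]
    group
  have hT : T.1 = (ThA z : Matrix (KC z) (KC z) ℂ).submatrix (posE z).symm (posE z).symm := by
    have h1 : T.1 = (L'.submatrix (posE z).symm (Equiv.refl (Fin z.tot))) * A.1 *
        (R'.submatrix (Equiv.refl (Fin z.tot)) (posE z).symm) := rfl
    have h2 : T.1 = ((L' * A.1 : Matrix (KC z) (Fin z.tot) ℂ) * R' :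
        Matrix (KC z) (KC z) ℂ).submatrix (posE z).symm (posE z).symm := by
      rw [h1]
      ext i j
      simp only [Matrix.mul_apply, Matrix.submatrix_apply, Equiv.refl_apply]
    rw [h2, he]
    congr 1
    have h3 : (L' * (L * ((ThA z : Matrix (KC z) (KC z) ℂ) * R : Matrix (KC z) (Fin z.tot) ℂ) :
        Matrix (Fin z.tot) (Fin z.tot) ℂ) : Matrix (KC z) (Fin z.tot) ℂ) =
        ((ThA z : Matrix (KC z) (KC z) ℂ) * R : Matrix (KC z) (Fin z.tot) ℂ) := by
      rw [← Matrix.mul_assoc, hL.mul', Matrix.one_mul]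
    rw [h3, Matrix.mul_assoc, hR.mul, Matrix.mul_one]
  refine ⟨z, rfl, embG hk L3, embG hk R3, embG_mem _ _, embG_mem _ _, ?_, ?_, ?_, ?_, ?_, ?_, ?_,
    ?_⟩
  · rw [← Th_eq z hk T hT, ← embG_mul, ← embG_mul, ← hA]
  · rw [← tE_eq]
    refine zp_left z hk E hE tE L3 ?_
    intro i j hij
    exact hL2.tri i j (fun h => hij h.1)
  · rw [← tXE_eq]
    refine zp_left z hk X hX tXE L3 ?_
    intro i j hij
    exact hL2.tri i j (fun h => hij h.2)
  · rw [← tY_eq]
    refine zp_right z hk Y hY tY R3 ?_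
    intro i j hij
    exact hR2.tri i j (fun h => hij h.1)
  · rw [← tXY_eq]
    refine zp_right z hk X' hX' tXY R3 ?_
    intro i j hij
    exact hR2.tri i j (fun h => hij h.2)
  · intro b
    rw [count_lst, ← card_gl E hE b, ← Fintype.card_subtype, ← tE_eq]
    exact (hL.map (d := gl E hE) (d' := fun x => tE x.1) (fun _ _ h => h.1)
      (fun _ _ h => h.1)).card_eq b
  · intro b
    rw [count_lst, ← card_gl Y hY b, ← Fintype.card_subtype, ← tY_eq]
    exact ((hR.map (d := fun x => tY x.1) (d' := gl Y hY) (fun _ _ h => h.1)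
      (fun _ _ h => h.1)).card_eq b).symm
  · intro b
    rw [count_lst, ← card_gl X hX b, ← Fintype.card_subtype, ← tXE_eq]
    exact (hL.map (d := gl X hX) (d' := fun x => tXE x.1) (fun _ _ h => h.2)
      (fun _ _ h => h.2)).card_eq b


end Crest.Agent.R003.NF5
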