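import Mathlib
import Crest.Agent.R003.Defs

-- ▼ part R003/Tor363a
section

/-!
# R003, Part 3, h = 1 (helper363), file a: normal form of `ξ`-commuting pairs

If `A B = ξ B A` in `GL(V)`, `ξ` a primitive `m`-th root of unity, then `V` has a basis indexed by
`Fin m × Fin l` in which `A` is a block shift (last block `a`) and `B` is block diagonal with blocks
`ξ⁻ʲ b`, with `a b = b a`.
-/

set_option autoImplicit false

namespace Crest.Agent.R003.Tor

open Module

section defs

variable {R : Type*} [CommRing R]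

/-- block shift with last block `a` -/
def shiftMat (m : ℕ) {l : ℕ} (a : Matrix (Fin l) (Fin l) R) :
    Matrix (Fin m × Fin l) (Fin m × Fin l) R :=
  fun p q => if (q.1 : ℕ) + 1 < m then (if (p.1 : ℕ) = q.1 + 1 ∧ p.2 = q.2 then 1 else 0)
    else if (p.1 : ℕ) = 0 then a p.2 q.2 else 0

/-- the inverse of `shiftMat` (`a'` the inverse of `a`) -/
def unshiftMat (m : ℕ) {l : ℕ} (a' : Matrix (Fin l) (Fin l) R) :
    Matrix (Fin m × Fin l) (Fin m × Fin l) R :=
  fun p q => if (q.1 : ℕ) = 0 then (if (p.1 : ℕ) + 1 = m then a' p.2 q.2 else 0)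
    else if (p.1 : ℕ) + 1 = q.1 ∧ p.2 = q.2 then 1 else 0

/-- block diagonal with blocks `cʲ b` -/
def diagMat (m : ℕ) {l : ℕ} (c : R) (b : Matrix (Fin l) (Fin l) R) :
    Matrix (Fin m × Fin l) (Fin m × Fin l) R :=
  fun p q => if p.1 = q.1 then c ^ (q.1 : ℕ) * b p.2 q.2 else 0

theorem shift_mul_unshift {m l : ℕ} {a a' : Matrix (Fin l) (Fin l) R} (h : a * a' = 1) :
    shiftMat m a * unshiftMat m a' = 1 := by
  ext ⟨p1, p2⟩ ⟨q1, q2⟩
  rw [Matrix.mul_apply, Fintype.sum_prod_type]
  by_cases hq : (q1 : ℕ) = 0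
  · have hm : 0 < m := lt_of_le_of_lt (Nat.zero_le _) q1.2
    rw [Finset.sum_eq_single (⟨m - 1, by omega⟩ : Fin m)]
    · have h1 : ∀ r2 : Fin l, shiftMat m a (p1, p2) (⟨m - 1, by omega⟩, r2) *
          unshiftMat m a' (⟨m - 1, by omega⟩, r2) (q1, q2) =
          if (p1 : ℕ) = 0 then a p2 r2 * a' r2 q2 else 0 := by
        intro r2
        have h2 : ¬ (m - 1 + 1 < m) := by omega
        have h3 : m - 1 + 1 = m := by omega
        simp only [shiftMat, unshiftMat, hq, h3, lt_irrefl, if_true, if_false]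
        split_ifs <;> simp
      rw [Finset.sum_congr rfl fun r2 _ => h1 r2]
      by_cases hp : (p1 : ℕ) = 0
      · simp only [hp, if_true]
        rw [← Matrix.mul_apply, h]
        have h4 : p1 = q1 := Fin.ext (by omega)
        subst h4
        rw [Matrix.one_apply, Matrix.one_apply]
        simp
      · simp only [hp, if_false, Finset.sum_const_zero]
        rw [Matrix.one_apply, if_neg]
        intro h5
        rw [Prod.mk.injEq] at h5
        exact hp (by rw [h5.1]; exact hq)
    · intro r1 _ hr1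
      apply Finset.sum_eq_zero
      intro r2 _
      have h3 : ¬ ((r1 : ℕ) + 1 = m) := by
        intro h4
        apply hr1
        apply Fin.ext
        simp only
        omega
      simp only [unshiftMat, hq, h3, if_true, if_false, mul_zero]
    · intro h; exact absurd (Finset.mem_univ _) h
  · rw [Finset.sum_eq_single (⟨q1 - 1, by omega⟩ : Fin m)]
    · rw [Finset.sum_eq_single q2]
      · have h2 : (q1 : ℕ) - 1 + 1 < m := by have := q1.2; omega
        have h3 : (q1 : ℕ) - 1 + 1 = q1 := by omega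
        simp only [shiftMat, unshiftMat, hq, if_false, h3, and_self, if_true, mul_one]
        rw [if_pos q1.2, Matrix.one_apply]
        congr 1
        rw [Prod.mk.injEq, Fin.ext_iff (a := p1)]
      · intro r2 _ hr2
        simp only [unshiftMat, hq, hr2, if_false, and_false, mul_zero]
      · intro h; exact absurd (Finset.mem_univ _) h
    · intro r1 _ hr1
      apply Finset.sum_eq_zero
      intro r2 _
      have h3 : ¬ ((r1 : ℕ) + 1 = q1) := by
        intro h4
        apply hr1
        apply Fin.ext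
        simp only
        omega
      simp only [unshiftMat, hq, h3, false_and, if_false, mul_zero]
    · intro h; exact absurd (Finset.mem_univ _) h

theorem diag_mul_apply {m l : ℕ} (c c' : R) (b b' : Matrix (Fin l) (Fin l) R) :
    diagMat m c b * diagMat m c' b' = diagMat m (c * c') (b * b') := by
  ext ⟨p1, p2⟩ ⟨q1, q2⟩
  rw [Matrix.mul_apply, Fintype.sum_prod_type, Finset.sum_eq_single q1]
  · simp only [diagMat, if_true]
    by_cases hp : p1 = q1
    · simp only [hp, if_true, Matrix.mul_apply, Finset.mul_sum]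
      refine Finset.sum_congr rfl fun r _ => ?_
      rw [mul_pow]; ring
    · simp only [hp, if_false, zero_mul, Finset.sum_const_zero]
  · intro r1 _ hr1
    apply Finset.sum_eq_zero
    intro r2 _
    simp only [diagMat, hr1, if_false, mul_zero]
  · intro h; exact absurd (Finset.mem_univ _) h

theorem diag_one {m l : ℕ} : diagMat m (1 : R) (1 : Matrix (Fin l) (Fin l) R) = 1 := by
  ext ⟨p1, p2⟩ ⟨q1, q2⟩
  rw [Matrix.one_apply, diagMat]
  by_cases hp : p1 = q1
  · subst hp
    simp [Matrix.one_apply]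
  · simp [hp]

theorem shift_diag {m l : ℕ} {c : R} (hc : c ^ m = 1) {a b : Matrix (Fin l) (Fin l) R}
    (hab : a * b = b * a) :
    c • (shiftMat m a * diagMat m c b) = diagMat m c b * shiftMat m a := by
  ext ⟨p1, p2⟩ ⟨q1, q2⟩
  rw [Matrix.smul_apply, Matrix.mul_apply, Matrix.mul_apply, Fintype.sum_prod_type,
    Fintype.sum_prod_type, Finset.sum_eq_single q1, Finset.sum_eq_single p1]
  · by_cases hq : (q1 : ℕ) + 1 < m
    · simp only [shiftMat, diagMat, hq, if_true]
      by_cases hp : (p1 : ℕ) = q1 + 1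
      · simp only [hp, true_and, ite_mul, mul_ite, one_mul, mul_one, zero_mul, mul_zero,
          Finset.sum_ite_eq, Finset.sum_ite_eq', Finset.mem_univ, if_true, smul_eq_mul]
        rw [pow_succ]; ring
      · simp only [hp, false_and, if_false, zero_mul, mul_zero, Finset.sum_const_zero, smul_zero]
    · have hqm : (q1 : ℕ) + 1 = m := by have := q1.2; omega
      simp only [shiftMat, diagMat, hq, if_false, if_true]
      by_cases hp : (p1 : ℕ) = 0
      · simp only [hp, if_true, pow_zero, one_mul, smul_eq_mul]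
        have h1 : ∑ x, a p2 x * (c ^ (q1 : ℕ) * b x q2) = c ^ (q1 : ℕ) * (a * b) p2 q2 := by
          rw [Matrix.mul_apply, Finset.mul_sum]
          refine Finset.sum_congr rfl fun r _ => ?_
          ring
        rw [h1, ← mul_assoc, ← pow_succ', hqm, hc, one_mul, hab, Matrix.mul_apply]
      · simp only [hp, if_false, zero_mul, mul_zero, Finset.sum_const_zero, smul_zero]
  · intro r1 _ hr1
    apply Finset.sum_eq_zero
    intro r2 _
    simp only [diagMat, hr1.symm, if_false, zero_mul]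
  · intro h; exact absurd (Finset.mem_univ _) h
  · intro r1 _ hr1
    apply Finset.sum_eq_zero
    intro r2 _
    simp only [diagMat, hr1, if_false, mul_zero]
  · intro h; exact absurd (Finset.mem_univ _) h

end defs

/-- a fundamental domain for multiplication by powers of `ξ` -/
theorem exists_fundamental {ξ : ℂ} {m : ℕ} (hm : 0 < m) (hξ : IsPrimitiveRoot ξ m) :
    ∃ S : Set ℂ, (∀ z : ℂ, z ≠ 0 → ∃ j < m, ξ ^ j * z ∈ S) ∧
      (∀ i < m, ∀ j < m, ∀ z : ℂ, z ≠ 0 → ξ ^ i * z ∈ S → ξ ^ j * z ∈ S → i = j) := by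
  classical
  have hξ0 : ξ ≠ 0 := hξ.ne_zero hm.ne'
  let r : Setoid ℂ :=
    { r := fun z w => ∃ j : ℕ, ξ ^ j * z = w
      iseqv := by
        refine ⟨fun z => ⟨0, by simp⟩, ?_, ?_⟩
        · rintro z w ⟨j, rfl⟩
          refine ⟨(m - 1) * j, ?_⟩
          rw [← mul_assoc, ← pow_add]
          have : (m - 1) * j + j = m * j := by
            obtain ⟨n, rfl⟩ : ∃ n, m = n + 1 := ⟨m - 1, by omega⟩
            simp; ring
          rw [this, pow_mul, hξ.pow_eq_one, one_pow, one_mul]
        · rintro z w u ⟨i, rfl⟩ ⟨j, rfl⟩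
          exact ⟨j + i, by rw [pow_add, mul_assoc]⟩ }
  refine ⟨Set.range (fun q : Quotient r => q.out), ?_, ?_⟩
  · intro z hz
    have h := Quotient.mk_out (s := r) z
    -- h : r (out (mk z)) z
    obtain ⟨j, hj⟩ := r.symm h
    refine ⟨j % m, Nat.mod_lt _ hm, ⟨Quotient.mk r z, ?_⟩⟩
    change (Quotient.mk r z).out = _
    rw [← hj]
    congr 1
    conv_lhs => rw [← Nat.div_add_mod j m]
    rw [pow_add, pow_mul, hξ.pow_eq_one, one_pow, one_mul]
  · rintro i hi j hj z hz ⟨q, hq⟩ ⟨q', hq'⟩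
    have hqq : q = q' := by
      rw [← Quotient.out_eq q, ← Quotient.out_eq q']
      apply Quotient.sound
      change ∃ n : ℕ, ξ ^ n * q.out = q'.out
      have h1 : r (ξ ^ i * z) z := r.symm ⟨i, rfl⟩
      have h2 : r z (ξ ^ j * z) := ⟨j, rfl⟩
      simp only at hq hq'
      rw [hq, hq']
      exact r.trans h1 h2
    subst hqq
    simp only at hq hq'
    have h3 : ξ ^ i * z = ξ ^ j * z := by rw [← hq, ← hq']
    exact hξ.pow_inj hi hj (mul_right_cancel₀ hz h3)

section lin

variable {V : Type*} [AddCommGroup V] [Module ℂ V]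

theorem comm_pow {A B : End ℂ V} {ξ : ℂ} (h : A * B = ξ • (B * A)) (n : ℕ) :
    A ^ n * B = ξ ^ n • (B * A ^ n) := by
  induction n with
  | zero => simp
  | succ n ih =>
    rw [pow_succ', mul_assoc, ih, mul_smul_comm, ← mul_assoc, h, smul_mul_assoc, smul_smul,
      ← pow_succ, mul_assoc]

theorem sub_pow_comm {A B : End ℂ V} {ξ : ℂ} (hξ : ξ ≠ 0) (h : A * B = ξ • (B * A)) (z : ℂ) (n : ℕ) :
    (B - (ξ⁻¹ * z) • (1 : End ℂ V)) ^ n * A = (ξ⁻¹) ^ n • (A * (B - z • 1) ^ n) := by
  induction n with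
  | zero => simp
  | succ n ih =>
    have h1 : (B - (ξ⁻¹ * z) • (1 : End ℂ V)) * A = ξ⁻¹ • (A * (B - z • 1)) := by
      rw [sub_mul, mul_sub, h, smul_sub, smul_smul, inv_mul_cancel₀ hξ, one_smul]
      simp [smul_smul]
    rw [pow_succ, mul_assoc, h1, mul_smul_comm, ← mul_assoc, ih, smul_mul_assoc, smul_smul,
      ← pow_succ', mul_assoc, ← pow_succ]

theorem map_gen {A B : End ℂ V} {ξ : ℂ} (hξ : ξ ≠ 0) (h : A * B = ξ • (B * A)) (z : ℂ) {v : V}
    (hv : v ∈ B.maxGenEigenspace z) : A v ∈ B.maxGenEigenspace (ξ⁻¹ * z) := by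
  rw [Module.End.mem_maxGenEigenspace] at hv ⊢
  obtain ⟨n, hn⟩ := hv
  refine ⟨n, ?_⟩
  have := congrArg (fun f : End ℂ V => f v) (sub_pow_comm hξ h z n)
  simp only [Module.End.mul_apply, LinearMap.smul_apply] at this
  rw [this, hn]
  simp

theorem map_gen_pow {A B : End ℂ V} {ξ : ℂ} (hξ : ξ ≠ 0) (h : A * B = ξ • (B * A)) (n : ℕ) (z : ℂ)
    {v : V} (hv : v ∈ B.maxGenEigenspace z) :
    (A ^ n) v ∈ B.maxGenEigenspace ((ξ⁻¹) ^ n * z) := by
  induction n with
  | zero => simpa using hv
  | succ n ih =>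
    rw [pow_succ' A, Module.End.mul_apply, pow_succ' ξ⁻¹, mul_assoc]
    exact map_gen hξ h _ ih

variable [FiniteDimensional ℂ V]

/-- **normal form** -/
theorem exists_basis {A B : End ℂ V} {ξ : ℂ} {m : ℕ} (hm : 0 < m) (hξ : IsPrimitiveRoot ξ m)
    (hA : IsUnit A) (hB : IsUnit B) (h : A * B = ξ • (B * A)) :
    ∃ (l : ℕ) (β : Basis (Fin m × Fin l) ℂ V) (a b : Matrix (Fin l) (Fin l) ℂ),
      a * b = b * a ∧ IsUnit a ∧ IsUnit b ∧
      LinearMap.toMatrix β β A = shiftMat m a ∧ LinearMap.toMatrix β β B = diagMat m ξ⁻¹ b := by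
  classical
  have hξ0 : ξ ≠ 0 := hξ.ne_zero hm.ne'
  obtain ⟨S, hS1, hS2⟩ := exists_fundamental hm hξ
  -- inverse of A
  obtain ⟨uA, rfl⟩ := hA
  set A : End ℂ V := (uA : End ℂ V) with hAdef
  set A' : End ℂ V := ((uA⁻¹ : (End ℂ V)ˣ) : End ℂ V) with hA'def
  have hAA' : A * A' = 1 := uA.mul_inv
  have hA'A : A' * A = 1 := uA.inv_mul
  have h' : A' * B = ξ⁻¹ • (B * A') := by
    have h1 : A' * (A * B) * A' = A' * (ξ • (B * A)) * A' := by rw [h]
    rw [← mul_assoc, hA'A, one_mul, mul_smul_comm, smul_mul_assoc, mul_assoc A', mul_assoc B, hAA',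
      mul_one] at h1
    rw [h1, smul_smul, inv_mul_cancel₀ hξ0, one_smul]
  have hAinj : Function.Injective A := by
    intro x y hxy
    have := congrArg A' hxy
    rw [← Module.End.mul_apply, ← Module.End.mul_apply, hA'A] at this
    simpa using this
  have hG0' : ∀ v ∈ B.maxGenEigenspace 0, v = 0 := by
    intro v hv
    rw [Module.End.mem_maxGenEigenspace] at hv
    obtain ⟨n, hn⟩ := hv
    rw [zero_smul, sub_zero] at hn
    have hBn : IsUnit (B ^ n) := hB.pow n
    obtain ⟨u, hu⟩ := hBn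
    have h1 : (((u⁻¹ : (End ℂ V)ˣ) : End ℂ V) * (u : End ℂ V)) v = v := by
      rw [u.inv_mul]; rfl
    rw [← h1, Module.End.mul_apply, hu, hn, map_zero]
  set G : ℂ → Submodule ℂ V := fun z => B.maxGenEigenspace z with hG
  set V0 : Submodule ℂ V := ⨆ z ∈ S, G z with hV0
  set T : ℕ → Set ℂ := fun j => {z | z ≠ 0 ∧ ξ ^ j * z ∈ S} with hT
  have hmap : ∀ j : ℕ, ∀ v ∈ V0, (A ^ j) v ∈ ⨆ z ∈ T j, G z := by
    intro j
    change V0 ≤ (⨆ z ∈ T j, G z).comap (A ^ j)
    refine iSup₂_le fun z hz v hv => ?_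
    rw [Submodule.mem_comap]
    by_cases hz0 : z = 0
    · subst hz0
      rw [hG0' v hv, map_zero]
      exact Submodule.zero_mem _
    · have h1 := map_gen_pow hξ0 h j z hv
      have h2 : ξ⁻¹ ^ j * z ∈ T j := by
        refine ⟨mul_ne_zero (pow_ne_zero _ (inv_ne_zero hξ0)) hz0, ?_⟩
        rw [← mul_assoc, ← mul_pow, mul_inv_cancel₀ hξ0, one_pow, one_mul]
        exact hz
      exact (le_iSup₂ (f := fun z (_ : z ∈ T j) => G z) _ h2) h1
  have hspan : ∀ j : ℕ, ∀ z, ξ ^ j * z ∈ S → ∀ v ∈ G z, ∃ w ∈ V0, (A ^ j) w = v := by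
    intro j z hz v hv
    refine ⟨(A' ^ j) v, ?_, ?_⟩
    · have h1 := map_gen_pow (inv_ne_zero hξ0) h' j z hv
      rw [inv_inv] at h1
      exact (le_iSup₂ (f := fun z (_ : z ∈ S) => G z) _ hz) h1
    · rw [← Module.End.mul_apply, ← Commute.mul_pow (by
        change A * A' = A' * A
        rw [hAA', hA'A]), hAA', one_pow]
      rfl
  have hAm : ∀ v ∈ V0, (A ^ m) v ∈ V0 := by
    change V0 ≤ V0.comap (A ^ m)
    refine iSup₂_le fun z hz v hv => ?_
    rw [Submodule.mem_comap]
    have h1 := map_gen_pow hξ0 h m z hv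
    rw [inv_pow, hξ.pow_eq_one, inv_one, one_mul] at h1
    exact (le_iSup₂ (f := fun z (_ : z ∈ S) => G z) _ hz) h1
  have hBV : ∀ v ∈ V0, B v ∈ V0 := by
    change V0 ≤ V0.comap B
    refine iSup₂_le fun z hz v hv => ?_
    rw [Submodule.mem_comap]
    exact (le_iSup₂ (f := fun z (_ : z ∈ S) => G z) _ hz)
      (Module.End.mapsTo_maxGenEigenspace_of_comm (Commute.refl B) z hv)
  have hind : iSupIndep G := B.independent_maxGenEigenspace
  have htop : ⨆ z, G z = ⊤ := B.iSup_maxGenEigenspace_eq_top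
  -- the basis
  set l := finrank ℂ V0 with hl
  let v0 : Basis (Fin l) ℂ V0 := finBasis ℂ V0
  let w : Fin m × Fin l → V := fun p => (A ^ (p.1 : ℕ)) (v0 p.2 : V)
  have hli : LinearIndependent ℂ w := by
    rw [Fintype.linearIndependent_iff]
    intro c hc
    have hc' : ∑ j : Fin m, (A ^ (j : ℕ)) ((∑ i, c (j, i) • v0 i : V0) : V) = 0 := by
      rw [← hc, Fintype.sum_prod_type]
      refine Finset.sum_congr rfl fun j _ => ?_
      simp [w, map_sum]
    have hx : ∀ j : Fin m, (A ^ (j : ℕ)) ((∑ i, c (j, i) • v0 i : V0) : V) = 0 := by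
      intro j
      have hd : Disjoint (⨆ z ∈ T j, G z) (⨆ z ∈ {z | ∃ i : Fin m, i ≠ j ∧ z ∈ T i}, G z) := by
        apply iSupIndep.disjoint_biSup_biSup hind
        rw [Set.disjoint_left]
        rintro z ⟨hz0, hz⟩ ⟨i, hij, -, hz'⟩
        exact hij (Fin.ext (hS2 i i.2 j j.2 z hz0 hz' hz))
      rw [Submodule.disjoint_def] at hd
      apply hd
      · exact hmap _ _ (Submodule.coe_mem _)
      · rw [← Finset.add_sum_erase _ _ (Finset.mem_univ j)] at hc'
        rw [eq_neg_of_add_eq_zero_left hc']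
        refine Submodule.neg_mem _ (Submodule.sum_mem _ fun i hi => ?_)
        have h1 := hmap i _ (Submodule.coe_mem (∑ i', c (i, i') • v0 i' : V0))
        refine (iSup₂_le fun z hz => ?_ : (⨆ z ∈ T i, G z) ≤ _) h1
        exact le_iSup₂ (f := fun z (_ : z ∈ {z | ∃ i : Fin m, i ≠ j ∧ z ∈ T i}) => G z) z
          ⟨i, (Finset.mem_erase.1 hi).1, hz⟩
    rintro ⟨j, i⟩
    have h1 := hx j
    have h2 : ((∑ i, c (j, i) • v0 i : V0) : V) = 0 := by
      have h3 : (A ^ (j : ℕ)) ((∑ i, c (j, i) • v0 i : V0) : V) = (A ^ (j : ℕ)) 0 := by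
        rw [h1, map_zero]
      have hAninj : Function.Injective (A ^ (j : ℕ)) := by
        rw [Module.End.coe_pow]
        exact hAinj.iterate _
      exact hAninj h3
    have h4 : (∑ i, c (j, i) • v0 i : V0) = 0 := by exact_mod_cast h2
    exact (Fintype.linearIndependent_iff.1 v0.linearIndependent) (fun i => c (j, i)) h4 i
  have hsp : ⊤ ≤ Submodule.span ℂ (Set.range w) := by
    rw [← htop]
    refine iSup_le fun z v hv => ?_
    by_cases hz0 : z = 0
    · subst hz0
      rw [hG0' v hv]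
      exact Submodule.zero_mem _
    · obtain ⟨j, hj, hz⟩ := hS1 z hz0
      obtain ⟨w0, hw0, rfl⟩ := hspan j z hz v hv
      have h1 : w0 = ((∑ i, v0.repr ⟨w0, hw0⟩ i • v0 i : V0) : V) := by
        rw [v0.sum_repr]
      rw [h1]
      simp only [Submodule.coe_sum, Submodule.coe_smul, map_sum, map_smul]
      refine Submodule.sum_mem _ fun i _ => Submodule.smul_mem _ _ (Submodule.subset_span ?_)
      exact ⟨(⟨j, hj⟩, i), rfl⟩
  let β : Basis (Fin m × Fin l) ℂ V := Basis.mk hli hsp
  have hβ : ∀ p, β p = (A ^ (p.1 : ℕ)) (v0 p.2 : V) := fun p => by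
    simp [β, w]
  let aR : End ℂ V0 := (A ^ m).restrict hAm
  let bR : End ℂ V0 := B.restrict hBV
  have haR : ∀ v : V0, ((aR v : V0) : V) = (A ^ m) v := fun v => rfl
  have hbR : ∀ v : V0, ((bR v : V0) : V) = B v := fun v => rfl
  have hab : aR * bR = bR * aR := by
    ext v
    rw [Module.End.mul_apply, Module.End.mul_apply, haR, hbR, hbR, haR]
    have h1 := congrArg (fun f : End ℂ V => f v) (comm_pow h m)
    simp only [hξ.pow_eq_one, one_smul, Module.End.mul_apply] at h1
    exact h1
  have hau : IsUnit aR := by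
    rw [LinearMap.isUnit_iff_ker_eq_bot, LinearMap.ker_eq_bot]
    intro x y hxy
    have h1 : (A ^ m) (x : V) = (A ^ m) (y : V) := by
      rw [← haR, ← haR, hxy]
    rw [Module.End.coe_pow] at h1
    exact Subtype.ext (hAinj.iterate m h1)
  have hbu : IsUnit bR := by
    rw [LinearMap.isUnit_iff_ker_eq_bot, LinearMap.ker_eq_bot]
    intro x y hxy
    have h1 : B (x : V) = B (y : V) := by
      rw [← hbR, ← hbR, hxy]
    obtain ⟨u, hu⟩ := hB
    have h2 : ∀ z : V, ((u⁻¹ : (End ℂ V)ˣ) : End ℂ V) (B z) = z := fun z => by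
      rw [← hu, ← Module.End.mul_apply, u.inv_mul]; rfl
    exact Subtype.ext (by rw [← h2 x, ← h2 y, h1])
  refine ⟨l, β, LinearMap.toMatrix v0 v0 aR, LinearMap.toMatrix v0 v0 bR, ?_, ?_, ?_, ?_, ?_⟩
  · rw [← LinearMap.toMatrix_mul, ← LinearMap.toMatrix_mul, hab]
  · exact hau.map (LinearMap.toMatrixAlgEquiv v0)
  · exact hbu.map (LinearMap.toMatrixAlgEquiv v0)
  · ext ⟨j', i'⟩ ⟨j, i⟩
    rw [LinearMap.toMatrix_apply, shiftMat]
    by_cases hj : (j : ℕ) + 1 < m
    · have h1 : A (β (j, i)) = β (⟨(j : ℕ) + 1, hj⟩, i) := by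
        rw [hβ, hβ, ← Module.End.mul_apply, ← pow_succ']
      rw [h1, Basis.repr_self, Finsupp.single_apply, if_pos hj]
      congr 1
      rw [Prod.mk.injEq, Fin.ext_iff, eq_iff_iff]
      constructor
      · rintro ⟨h2, h3⟩; exact ⟨h2.symm, h3.symm⟩
      · rintro ⟨h2, h3⟩; exact ⟨h2.symm, h3.symm⟩
    · have hjm : (j : ℕ) + 1 = m := by omega
      have h1 : A (β (j, i)) = ∑ i'', LinearMap.toMatrix v0 v0 aR i'' i • β (⟨0, hm⟩, i'') := by
        have h2 : A (β (j, i)) = ((aR (v0 i) : V0) : V) := by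
          rw [hβ, haR, ← Module.End.mul_apply, ← pow_succ', hjm]
        rw [h2, ← v0.sum_repr (aR (v0 i))]
        simp only [Submodule.coe_sum, Submodule.coe_smul, LinearMap.toMatrix_apply, hβ, pow_zero,
          Module.End.one_apply]
      rw [h1, if_neg hj, map_sum, Finsupp.finsetSum_apply]
      simp only [map_smul, Basis.repr_self, Finsupp.smul_apply, Finsupp.single_apply, smul_eq_mul,
        mul_ite, mul_one, mul_zero, Prod.mk.injEq]
      by_cases hj' : (j' : ℕ) = 0
      · have : (⟨0, hm⟩ : Fin m) = j' := Fin.ext hj'.symm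
        simp [this, hj']
      · have : ¬ ((⟨0, hm⟩ : Fin m) = j') := fun h3 => hj' (by rw [← h3])
        simp [this, hj']
  · ext ⟨j', i'⟩ ⟨j, i⟩
    rw [LinearMap.toMatrix_apply, diagMat]
    have h1 : B (β (j, i)) = ∑ i'', (ξ⁻¹ ^ (j : ℕ) * LinearMap.toMatrix v0 v0 bR i'' i) • β (j, i'') := by
      have h3 : B * A ^ (j : ℕ) = ξ⁻¹ ^ (j : ℕ) • (A ^ (j : ℕ) * B) := by
        rw [comm_pow h, smul_smul, ← mul_pow, inv_mul_cancel₀ hξ0, one_pow, one_smul]
      have h2 : B (β (j, i)) = ξ⁻¹ ^ (j : ℕ) • (A ^ (j : ℕ)) ((bR (v0 i) : V0) : V) := by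
        rw [hβ, hbR, ← Module.End.mul_apply, h3]
        rfl
      rw [h2, ← v0.sum_repr (bR (v0 i))]
      simp only [Submodule.coe_sum, Submodule.coe_smul, LinearMap.toMatrix_apply, hβ, map_sum,
        map_smul, Finset.smul_sum, smul_smul]
    rw [h1, map_sum, Finsupp.finsetSum_apply]
    simp only [map_smul, Basis.repr_self, Finsupp.smul_apply, Finsupp.single_apply, smul_eq_mul,
      mul_ite, mul_one, mul_zero, Prod.mk.injEq]
    by_cases hj' : j' = j
    · subst hj'
      simp
    · have : ¬ (j = j') := fun h3 => hj' h3.symm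
      simp [this, hj']

end lin

end Crest.Agent.R003.Tor
end

-- ▼ part R003/Tor363b
section

/-!
# R003, Part 3, h = 1 (helper363), file b: commuting pairs (Motzkin–Taussky)
-/

set_option autoImplicit false

namespace Crest.Agent.R003.Tor

open Matrix

section cyc

variable {K : Type*} [CommRing K] {l : ℕ}

/-- the matrix with columns `x ^ j v` -/
def cyc (x : Matrix (Fin l) (Fin l) K) (v : Fin l → K) : Matrix (Fin l) (Fin l) K :=
  Matrix.of fun i j => ((x ^ (j : ℕ)) *ᵥ v) i

/-- if `v` is a cyclic vector for `x` and `b` commutes with `x` then `b` is a polynomial in `x` -/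
theorem exists_coeff {F : Type*} [Field F] {l : ℕ} {x b : Matrix (Fin l) (Fin l) F} {v : Fin l → F}
    (hc : (cyc x v).det ≠ 0) (hxb : x * b = b * x) :
    ∃ q : Fin l → F, b = ∑ i, q i • x ^ (i : ℕ) := by
  have hu : IsUnit (cyc x v).det := isUnit_iff_ne_zero.2 hc
  refine ⟨(cyc x v)⁻¹ *ᵥ (b *ᵥ v), ?_⟩
  set q := (cyc x v)⁻¹ *ᵥ (b *ᵥ v) with hq
  set y : Matrix (Fin l) (Fin l) F := ∑ i, q i • x ^ (i : ℕ) with hy
  have h1 : cyc x v *ᵥ q = b *ᵥ v := by
    rw [hq, Matrix.mulVec_mulVec, Matrix.mul_nonsing_inv _ hu, Matrix.one_mulVec]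
  have h2 : y *ᵥ v = b *ᵥ v := by
    rw [← h1, hy]
    ext i
    rw [Matrix.sum_mulVec, Finset.sum_apply]
    simp only [Matrix.smul_mulVec, Pi.smul_apply, smul_eq_mul]
    rw [Matrix.mulVec, dotProduct]
    refine Finset.sum_congr rfl fun j _ => ?_
    rw [cyc, Matrix.of_apply, mul_comm]
  have hbx : ∀ n : ℕ, b * x ^ n = x ^ n * b := fun n =>
    (Commute.pow_right (show Commute b x from hxb.symm) n)
  have hyx : ∀ n : ℕ, y * x ^ n = x ^ n * y := by
    intro n
    rw [hy, Finset.sum_mul, Finset.mul_sum]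
    refine Finset.sum_congr rfl fun i _ => ?_
    rw [Matrix.smul_mul, Matrix.mul_smul, ← pow_add, ← pow_add, add_comm]
  have h3 : b * cyc x v = y * cyc x v := by
    ext i j
    have h4 : ∀ z : Matrix (Fin l) (Fin l) F, (z * cyc x v) i j = (z *ᵥ ((x ^ (j : ℕ)) *ᵥ v)) i := by
      intro z
      rw [Matrix.mul_apply, Matrix.mulVec, dotProduct]
      rfl
    rw [h4, h4, Matrix.mulVec_mulVec, Matrix.mulVec_mulVec, hbx, hyx, ← Matrix.mulVec_mulVec,
      ← Matrix.mulVec_mulVec, h2]
  calc b = b * (cyc x v * (cyc x v)⁻¹) := by rw [Matrix.mul_nonsing_inv _ hu, mul_one]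
    _ = y * (cyc x v * (cyc x v)⁻¹) := by rw [← mul_assoc, h3, mul_assoc]
    _ = y := by rw [Matrix.mul_nonsing_inv _ hu, mul_one]

theorem cyc_map {K L : Type*} [CommRing K] [CommRing L] {l : ℕ} (f : K →+* L)
    (x : Matrix (Fin l) (Fin l) K) (v : Fin l → K) :
    (cyc x v).map f = cyc (x.map f) (fun i => f (v i)) := by
  ext i j
  rw [Matrix.map_apply, cyc, cyc, Matrix.of_apply, Matrix.of_apply, Matrix.mulVec, dotProduct,
    Matrix.mulVec, dotProduct, map_sum]
  refine Finset.sum_congr rfl fun s _ => ?_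
  rw [map_mul]
  congr 1
  have : (x.map f) ^ (j : ℕ) = (x ^ (j : ℕ)).map f := by
    have := map_pow f.mapMatrix x (j : ℕ)
    simpa [RingHom.mapMatrix_apply] using this.symm
  rw [this, Matrix.map_apply]

end cyc

section ev

theorem algHom_aeval {σ R : Type*} [CommRing R] [Algebra ℂ R] (φ : R →ₐ[ℂ] ℂ) (f : σ → R)
    (Q : MvPolynomial σ ℂ) :
    φ (MvPolynomial.aeval f Q) = MvPolynomial.eval (fun p => φ (f p)) Q := by
  rw [← AlgHom.comp_apply, MvPolynomial.comp_aeval, MvPolynomial.aeval_def,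
    MvPolynomial.eval, Algebra.algebraMap_self]
  rfl

theorem eval_aeval_mv {σ τ : Type*} (q : τ → ℂ) (f : σ → MvPolynomial τ ℂ)
    (Q : MvPolynomial σ ℂ) :
    MvPolynomial.eval q (MvPolynomial.aeval f Q) =
      MvPolynomial.eval (fun p => MvPolynomial.eval q (f p)) Q := by
  have h : ∀ x, MvPolynomial.aeval q x = MvPolynomial.eval q x := fun x => by
    rw [MvPolynomial.aeval_def, MvPolynomial.eval, Algebra.algebraMap_self]; rfl
  have := algHom_aeval (MvPolynomial.aeval q) f Q
  simpa only [h] using this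

theorem eval_aeval_poly {σ : Type*} (t : ℂ) (f : σ → Polynomial ℂ)
    (Q : MvPolynomial σ ℂ) :
    Polynomial.eval t (MvPolynomial.aeval f Q) =
      MvPolynomial.eval (fun p => Polynomial.eval t (f p)) Q := by
  have h : ∀ x, Polynomial.aeval t x = Polynomial.eval t x := fun x => by
    rw [Polynomial.aeval_def, Algebra.algebraMap_self, Polynomial.eval]
  have := algHom_aeval (Polynomial.aeval t) f Q
  simpa only [h] using this

end ev

section pairs

variable {l : ℕ}

/-- the point of affine space given by a pair of matrices -/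
def pt {K : Type*} {l : ℕ} (a b : Matrix (Fin l) (Fin l) K) : Bool × Fin l × Fin l → K :=
  fun p => if p.1 then b p.2.1 p.2.2 else a p.2.1 p.2.2

/-- generic matrix -/
noncomputable def gen (l : ℕ) : Matrix (Fin l) (Fin l) (MvPolynomial (Fin l × Fin l) ℂ) :=
  Matrix.of fun i j => MvPolynomial.X (i, j)

/-- entries point -/
def ent {K : Type*} {l : ℕ} (a : Matrix (Fin l) (Fin l) K) : Fin l × Fin l → K := fun p => a p.1 p.2

theorem gen_map (a : Matrix (Fin l) (Fin l) ℂ) :
    (gen l).map (MvPolynomial.eval (ent a)) = a := by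
  ext i j
  simp [gen, ent]

/-- discriminant of the characteristic polynomial of the generic matrix -/
noncomputable def disc (l : ℕ) : MvPolynomial (Fin l × Fin l) ℂ :=
  Polynomial.resultant (gen l).charpoly (gen l).charpoly.derivative l (l - 1)

theorem disc_eval (a : Matrix (Fin l) (Fin l) ℂ) :
    MvPolynomial.eval (ent a) (disc l) = Polynomial.resultant a.charpoly a.charpoly.derivative := by
  have h1 : a.charpoly.natDegree = l := by
    rw [Matrix.charpoly_natDegree_eq_dim]; simp
  have h2 : a.charpoly.derivative.natDegree = l - 1 := by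
    rw [Polynomial.natDegree_derivative, h1]
  have h3 : (gen l).charpoly.map (MvPolynomial.eval (ent a)) = a.charpoly := by
    rw [← Matrix.charpoly_map, gen_map]
  rw [disc, ← Polynomial.resultant_map_map, ← Polynomial.derivative_map, h3, h1, h2]

theorem separable_of_disc {a : Matrix (Fin l) (Fin l) ℂ}
    (h : MvPolynomial.eval (ent a) (disc l) ≠ 0) : a.charpoly.Separable := by
  rw [disc_eval] at h
  exact (Polynomial.isUnit_resultant_iff_isCoprime (Matrix.charpoly_monic a)).1
    (isUnit_iff_ne_zero.2 h)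

theorem disc_ne_zero : disc l ≠ 0 := by
  intro h0
  let a : Matrix (Fin l) (Fin l) ℂ := Matrix.diagonal fun i => ((i : ℕ) : ℂ)
  have h1 : a.charpoly = ∏ i : Fin l, (Polynomial.X - Polynomial.C ((i : ℕ) : ℂ)) := by
    rw [Matrix.charpoly_diagonal]
  have h2 : a.charpoly.Separable := by
    rw [h1]
    apply Polynomial.separable_prod_X_sub_C_iff.2
    intro i j hij
    simp only [Nat.cast_inj] at hij
    exact Fin.ext hij
  have h3 := (Polynomial.isUnit_resultant_iff_isCoprime (Matrix.charpoly_monic a)).2 h2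
  rw [← disc_eval, h0, map_zero] at h3
  exact not_isUnit_zero h3

/-- pairs `(x, q(x))`: it suffices to treat separable `x` -/
theorem poly_pair_of (Q : MvPolynomial (Bool × Fin l × Fin l) ℂ)
    (h1 : ∀ x : Matrix (Fin l) (Fin l) ℂ, x.charpoly.Separable → ∀ q : Fin l → ℂ,
      MvPolynomial.eval (pt x (∑ i, q i • x ^ (i : ℕ))) Q = 0)
    (x : Matrix (Fin l) (Fin l) ℂ) (q : Fin l → ℂ) :
    MvPolynomial.eval (pt x (∑ i, q i • x ^ (i : ℕ))) Q = 0 := by
  -- now `q` fixed
  let Y : Matrix (Fin l) (Fin l) (MvPolynomial (Fin l × Fin l) ℂ) :=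
    ∑ i, (MvPolynomial.C (q i) : MvPolynomial (Fin l × Fin l) ℂ) • gen l ^ (i : ℕ)
  let H : MvPolynomial (Fin l × Fin l) ℂ := MvPolynomial.aeval (pt (gen l) Y) Q
  have hH : ∀ x : Matrix (Fin l) (Fin l) ℂ, MvPolynomial.eval (ent x) H =
      MvPolynomial.eval (pt x (∑ i, q i • x ^ (i : ℕ))) Q := by
    intro x
    have hY : Y.map (MvPolynomial.eval (ent x)) = ∑ i, q i • x ^ (i : ℕ) := by
      have h3 : ∀ n : ℕ, (gen l ^ n).map (MvPolynomial.eval (ent x)) = x ^ n := by
        intro n
        have := map_pow (MvPolynomial.eval (ent x)).mapMatrix (gen l) n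
        rw [RingHom.mapMatrix_apply, RingHom.mapMatrix_apply, gen_map] at this
        exact this
      ext i j
      simp only [Y]
      rw [Matrix.map_apply, Matrix.sum_apply, Matrix.sum_apply, map_sum]
      refine Finset.sum_congr rfl fun s _ => ?_
      rw [Matrix.smul_apply, Matrix.smul_apply, smul_eq_mul, smul_eq_mul, map_mul,
        MvPolynomial.eval_C, ← h3 s, Matrix.map_apply]
    have h2 : ∀ p, MvPolynomial.eval (ent x) (pt (gen l) Y p) =
        pt x (∑ i, q i • x ^ (i : ℕ)) p := by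
      rintro ⟨c, i, j⟩
      cases c
      · simp [pt, gen, ent]
      · simp only [pt, if_true]
        rw [← hY, Matrix.map_apply]
    simp only [H]
    rw [eval_aeval_mv, funext h2]
  have hH0 : H = 0 := by
    have h4 : H * disc l = 0 := by
      apply MvPolynomial.funext
      intro y
      rw [map_mul, map_zero]
      have h5 : y = ent (Matrix.of fun i j => y (i, j)) := rfl
      rw [h5]
      by_cases h : MvPolynomial.eval (ent (Matrix.of fun i j => y (i, j))) (disc l) = 0
      · rw [h, mul_zero]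
      · rw [hH, h1 _ (separable_of_disc h) q, zero_mul]
    exact (mul_eq_zero.1 h4).resolve_right disc_ne_zero
  rw [← hH, hH0, map_zero]

/-- **Motzkin–Taussky**: commuting pairs -/
theorem comm_pair_of
    (hnd : ∀ b : Matrix (Fin l) (Fin l) ℂ, ∃ (c : Matrix (Fin l) (Fin l) ℂ) (v : Fin l → ℂ),
      c * b = b * c ∧ (cyc c v).det ≠ 0)
    (Q : MvPolynomial (Bool × Fin l × Fin l) ℂ)
    (hQ : ∀ (x : Matrix (Fin l) (Fin l) ℂ) (q : Fin l → ℂ),
      MvPolynomial.eval (pt x (∑ i, q i • x ^ (i : ℕ))) Q = 0)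
    (a b : Matrix (Fin l) (Fin l) ℂ) (hab : a * b = b * a) :
    MvPolynomial.eval (pt a b) Q = 0 := by
  obtain ⟨c, v, hcb, hcv⟩ := hnd b
  -- the line `a + t (c - a)`
  let A : Matrix (Fin l) (Fin l) (Polynomial ℂ) :=
    a.map Polynomial.C + (Polynomial.X : Polynomial ℂ) • (c - a).map Polynomial.C
  have hA : ∀ t : ℂ, A.map (Polynomial.evalRingHom t) = a + t • (c - a) := by
    intro t
    ext i j
    simp [A]
  let r : Polynomial ℂ := MvPolynomial.aeval (pt A (b.map Polynomial.C)) Q
  have hr : ∀ t : ℂ, r.eval t = MvPolynomial.eval (pt (a + t • (c - a)) b) Q := by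
    intro t
    have h2 : ∀ p, Polynomial.eval t (pt A (b.map Polynomial.C) p) = pt (a + t • (c - a)) b p := by
      rintro ⟨s, i, j⟩
      cases s
      · simp only [pt]
        rw [← hA t]
        simp
      · simp [pt]
    simp only [r]
    rw [eval_aeval_poly, funext h2]
  let κ : Polynomial ℂ := (cyc A (fun i => Polynomial.C (v i))).det
  have hκ : ∀ t : ℂ, κ.eval t = (cyc (a + t • (c - a)) v).det := by
    intro t
    rw [← Polynomial.coe_evalRingHom, RingHom.map_det, RingHom.mapMatrix_apply, cyc_map, hA]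
    simp
  have hκ0 : κ ≠ 0 := by
    intro h
    have h1 := hκ 1
    rw [h, Polynomial.eval_zero, one_smul, add_sub_cancel] at h1
    exact hcv h1.symm
  have hprod : r * κ = 0 := by
    apply Polynomial.funext
    intro t
    rw [Polynomial.eval_mul, Polynomial.eval_zero]
    by_cases h : κ.eval t = 0
    · rw [h, mul_zero]
    · rw [hκ] at h
      have hcomm : (a + t • (c - a)) * b = b * (a + t • (c - a)) := by
        rw [add_mul, mul_add, Matrix.smul_mul, Matrix.mul_smul, sub_mul, mul_sub, hab, hcb]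
      obtain ⟨q, hq⟩ := exists_coeff h hcomm
      have h3 := hQ (a + t • (c - a)) q
      rw [← hq] at h3
      rw [hr, h3, zero_mul]
  have hr0 : r = 0 := (mul_eq_zero.1 hprod).resolve_right hκ0
  have h4 := hr 0
  rw [hr0, Polynomial.eval_zero, zero_smul, add_zero] at h4
  exact h4.symm

end pairs

end Crest.Agent.R003.Tor
end

-- ▼ part R003/Tor363c
section

/-!
# R003 (helper363), file c: `GL_n(O)` is Zariski dense in `M_n(ℂ)`; polynomial functions on `GL_n`
-/

set_option autoImplicit false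

namespace Crest.Agent.R003.Tor

open Matrix

theorem pow_infinite {u : ℂˣ} (hu : ∀ m : ℕ, 0 < m → u ^ m ≠ 1) :
    Set.Infinite (Set.range fun n : ℕ => ((u ^ n : ℂˣ) : ℂ)) := by
  apply Set.infinite_range_of_injective
  intro a b hab
  have h1 : u ^ a = u ^ b := Units.ext hab
  by_contra hne
  rcases lt_or_gt_of_ne hne with h | h
  · have := hu (b - a) (by omega)
    apply this
    have h2 : u ^ b = u ^ (b - a) * u ^ a := by rw [← pow_add]; congr 1; omega
    rw [h2] at h1
    exact (mul_eq_right.1 h1.symm)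
  · have := hu (a - b) (by omega)
    apply this
    have h2 : u ^ a = u ^ (a - b) * u ^ b := by rw [← pow_add]; congr 1; omega
    rw [h2] at h1
    exact (mul_eq_right.1 h1)

theorem int_infinite (O : Subring ℂ) : Set.Infinite (O : Set ℂ) := by
  have h : Set.range (fun n : ℕ => (n : ℂ)) ⊆ (O : Set ℂ) := by
    rintro _ ⟨n, rfl⟩
    exact natCast_mem O n
  exact Set.Infinite.mono h (Set.infinite_range_of_injective Nat.cast_injective)

/-- the Zariski closure of `GL_n(O)` in `M_n(ℂ)` -/
def Z (O : Subring ℂ) (l : ℕ) : Set (Matrix (Fin l) (Fin l) ℂ) :=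
  {M | ∀ H : MvPolynomial (Fin l × Fin l) ℂ,
    (∀ x ∈ GO O l, MvPolynomial.eval (ent x.1) H = 0) → MvPolynomial.eval (ent M) H = 0}

/-- substitution of a matrix of polynomials -/
theorem exists_subst {τ : Type} {l : ℕ} (H : MvPolynomial (Fin l × Fin l) ℂ)
    (Y : Matrix (Fin l) (Fin l) (MvPolynomial τ ℂ)) :
    ∃ H' : MvPolynomial τ ℂ, ∀ x : τ → ℂ,
      MvPolynomial.eval x H' = MvPolynomial.eval (ent (Y.map (MvPolynomial.eval x))) H := by
  refine ⟨MvPolynomial.aeval (ent Y) H, fun x => ?_⟩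
  rw [eval_aeval_mv]
  rfl

theorem Z_mul {O : Subring ℂ} {l : ℕ} {A B : Matrix (Fin l) (Fin l) ℂ} (hA : A ∈ Z O l)
    (hB : B ∈ Z O l) : A * B ∈ Z O l := by
  intro H hH
  -- `H (x B) = 0` for `x ∈ GO`
  have h1 : ∀ x ∈ GO O l, MvPolynomial.eval (ent (x.1 * B)) H = 0 := by
    intro x hx
    obtain ⟨H', hH'⟩ := exists_subst H (x.1.map MvPolynomial.C * gen l)
    have h2 : ∀ y : Matrix (Fin l) (Fin l) ℂ,
        (x.1.map MvPolynomial.C * gen l).map (MvPolynomial.eval (ent y)) = x.1 * y := by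
      intro y
      rw [Matrix.map_mul, gen_map]
      congr 1
      ext i j
      simp
    have h3 := hB H' (fun y hy => by
      rw [hH', h2]
      exact hH (x * y) ((GO O l).mul_mem hx hy))
    rw [hH', h2] at h3
    exact h3
  obtain ⟨H', hH'⟩ := exists_subst H (gen l * B.map MvPolynomial.C)
  have h2 : ∀ y : Matrix (Fin l) (Fin l) ℂ,
      (gen l * B.map MvPolynomial.C).map (MvPolynomial.eval (ent y)) = y * B := by
    intro y
    rw [Matrix.map_mul, gen_map]
    congr 1
    ext i j
    simp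
  have h3 := hA H' (fun y hy => by
    rw [hH', h2]
    exact h1 y hy)
  rw [hH', h2] at h3
  exact h3

theorem dg_mem {O : Subring ℂ} {l : ℕ} {d : Fin l → ℂˣ} (h1 : ∀ i, (d i : ℂ) ∈ O)
    (h2 : ∀ i, (((d i)⁻¹ : ℂˣ) : ℂ) ∈ O) : dg d ∈ GO O l := by
  intro i j
  constructor
  · change Matrix.diagonal (fun i => (d i : ℂ)) i j ∈ O
    rw [Matrix.diagonal_apply]
    split_ifs
    · exact h1 i
    · exact O.zero_mem
  · change Matrix.diagonal (fun i => (((d i)⁻¹ : ℂˣ) : ℂ)) i j ∈ O
    rw [Matrix.diagonal_apply]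
    split_ifs
    · exact h2 i
    · exact O.zero_mem

theorem pow_mem_units {O : Subring ℂ} {u : ℂˣ} (h1 : (u : ℂ) ∈ O) (h2 : ((u⁻¹ : ℂˣ) : ℂ) ∈ O)
    (n : ℕ) : ((u ^ n : ℂˣ) : ℂ) ∈ O ∧ (((u ^ n)⁻¹ : ℂˣ) : ℂ) ∈ O := by
  constructor
  · rw [Units.val_pow_eq_pow_val]; exact O.pow_mem h1 n
  · rw [← inv_pow, Units.val_pow_eq_pow_val]; exact O.pow_mem h2 n

theorem Z_eq_univ {O : Subring ℂ} (hO : Good O) (l : ℕ) (M : Matrix (Fin l) (Fin l) ℂ) :
    M ∈ Z O l := by
  obtain ⟨u, hu1, hu2, hu3⟩ := hO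
  refine Matrix.diagonal_transvection_induction (fun M => M ∈ Z O l) M ?_ ?_
    (fun A B hA hB => Z_mul hA hB)
  · intro D _ H hH
    obtain ⟨H', hH'⟩ := exists_subst H
      (Matrix.diagonal fun i => (MvPolynomial.X i : MvPolynomial (Fin l) ℂ))
    have h2 : ∀ y : Fin l → ℂ, (Matrix.diagonal fun i => (MvPolynomial.X i :
        MvPolynomial (Fin l) ℂ)).map (MvPolynomial.eval y) = Matrix.diagonal y := by
      intro y
      rw [Matrix.diagonal_map (map_zero _)]
      congr 1
      funext i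
      simp
    have h3 : H' = 0 := by
      apply MvPolynomial.funext_set (fun _ => Set.range fun n : ℕ => ((u ^ n : ℂˣ) : ℂ))
        (fun _ => pow_infinite hu3)
      intro y hy
      rw [Set.mem_univ_pi] at hy
      choose e he using hy
      rw [hH', h2, map_zero]
      have h4 : dg (fun i => u ^ e i) ∈ GO O l :=
        dg_mem (fun i => (pow_mem_units hu1 hu2 _).1) (fun i => (pow_mem_units hu1 hu2 _).2)
      have h5 := hH _ h4
      have h6 : (dg fun i => u ^ e i).1 = Matrix.diagonal y := by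
        change Matrix.diagonal (fun i => ((u ^ e i : ℂˣ) : ℂ)) = _
        congr 1
        funext i
        exact he i
      rw [h6] at h5
      exact h5
    rw [← h2, ← hH', h3, map_zero]
  · rintro ⟨i, j, hij, c⟩ H hH
    obtain ⟨H', hH'⟩ := exists_subst (τ := Unit) H
      (Matrix.transvection i j (MvPolynomial.X () : MvPolynomial Unit ℂ))
    have h2 : ∀ y : Unit → ℂ, (Matrix.transvection i j (MvPolynomial.X () :
        MvPolynomial Unit ℂ)).map (MvPolynomial.eval y) = Matrix.transvection i j (y ()) := by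
      intro y
      ext a b
      simp only [Matrix.transvection, Matrix.map_apply, Matrix.add_apply, map_add,
        Matrix.one_apply, Matrix.single_apply]
      congr 1
      · split_ifs <;> simp
      · split_ifs <;> simp
    have h3 : H' = 0 := by
      apply MvPolynomial.funext_set (fun _ => (O : Set ℂ)) (fun _ => int_infinite O)
      intro y hy
      rw [Set.mem_univ_pi] at hy
      rw [hH', h2, map_zero]
      have hy' := hy ()
      let t : G l := ⟨Matrix.transvection i j (y ()), Matrix.transvection i j (-(y ())),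
        by rw [Matrix.transvection_mul_transvection_same _ _ hij]; simp,
        by rw [Matrix.transvection_mul_transvection_same _ _ hij]; simp⟩
      have hent : ∀ z ∈ O, ∀ a b, Matrix.transvection i j z a b ∈ O := by
        intro z hz a b
        rw [Matrix.transvection, Matrix.add_apply, Matrix.one_apply, Matrix.single_apply]
        refine O.add_mem ?_ ?_
        · split_ifs
          · exact O.one_mem
          · exact O.zero_mem
        · split_ifs
          · exact hz
          · exact O.zero_mem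
      have h4 : t ∈ GO O l := fun a b => ⟨hent _ hy' a b, hent _ (O.neg_mem hy') a b⟩
      exact hH t h4
    have h5 := hH' (fun _ => c)
    rw [h2, h3, map_zero] at h5
    exact h5.symm

theorem eq_zero_of_GO {O : Subring ℂ} (hO : Good O) {l : ℕ} (H : MvPolynomial (Fin l × Fin l) ℂ)
    (hH : ∀ x ∈ GO O l, MvPolynomial.eval (ent x.1) H = 0) : H = 0 := by
  apply MvPolynomial.funext
  intro x
  rw [map_zero]
  exact Z_eq_univ hO l (Matrix.of fun i j => x (i, j)) H hH

/-- `F : G l → ℂ` becomes polynomial in the entries after multiplication by a power of `det` -/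
def polyFun (l : ℕ) : Subalgebra ℂ (G l → ℂ) where
  carrier := {F | ∃ (N : ℕ) (H : MvPolynomial (Fin l × Fin l) ℂ), ∀ g : G l,
    F g * g.1.det ^ N = MvPolynomial.eval (ent g.1) H}
  mul_mem' := by
    rintro F F' ⟨N, H, h⟩ ⟨N', H', h'⟩
    refine ⟨N + N', H * H', fun g => ?_⟩
    rw [map_mul, ← h, ← h', Pi.mul_apply, pow_add]
    ring
  add_mem' := by
    rintro F F' ⟨N, H, h⟩ ⟨N', H', h'⟩
    refine ⟨N + N', H * (gen l).det ^ N' + H' * (gen l).det ^ N, fun g => ?_⟩
    have hd : MvPolynomial.eval (ent g.1) (gen l).det = g.1.det := by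
      rw [RingHom.map_det, RingHom.mapMatrix_apply, gen_map]
    rw [map_add, map_mul, map_mul, map_pow, map_pow, hd, ← h, ← h', Pi.add_apply, pow_add]
    ring
  algebraMap_mem' := by
    intro r
    exact ⟨0, MvPolynomial.C r, fun g => by simp⟩

theorem entry_mem_polyFun {l : ℕ} (i j : Fin l) : (fun g : G l => g.1 i j) ∈ polyFun l :=
  ⟨0, MvPolynomial.X (i, j), fun g => by simp [ent]⟩

theorem inv_entry_mem_polyFun {l : ℕ} (i j : Fin l) :
    (fun g : G l => (g⁻¹).1 i j) ∈ polyFun l := by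
  refine ⟨1, (gen l).adjugate i j, fun g => ?_⟩
  have h1 : MvPolynomial.eval (ent g.1) ((gen l).adjugate i j) = g.1.adjugate i j := by
    have := RingHom.map_adjugate (MvPolynomial.eval (ent g.1)) (gen l)
    rw [RingHom.mapMatrix_apply, RingHom.mapMatrix_apply, gen_map] at this
    rw [← this, Matrix.map_apply]
  have h2 : (g⁻¹).1 = g.1⁻¹ := Matrix.coe_units_inv g
  change (g⁻¹).1 i j * _ = _
  rw [h1, h2, pow_one, Matrix.inv_def, Matrix.smul_apply, smul_eq_mul, mul_comm, ← mul_assoc,
    Ring.mul_inverse_cancel _ ((Matrix.isUnit_iff_isUnit_det _).1 g.isUnit), one_mul]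

/-- a function in `polyFun` vanishing on `GL_l(O)` vanishes -/
theorem polyFun_zero {O : Subring ℂ} (hO : Good O) {l : ℕ} {F : G l → ℂ} (hF : F ∈ polyFun l)
    (h : ∀ x ∈ GO O l, F x = 0) (g : G l) : F g = 0 := by
  obtain ⟨N, H, hH⟩ := hF
  have h1 : H = 0 := eq_zero_of_GO hO H fun x hx => by rw [← hH, h x hx, zero_mul]
  have h2 := hH g
  rw [h1, map_zero] at h2
  exact (mul_eq_zero.1 h2).resolve_right
    (pow_ne_zero _ ((Matrix.isUnit_iff_isUnit_det _).1 g.isUnit).ne_zero)

end Crest.Agent.R003.Tor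
end

-- ▼ part R003/Tor363d
section

/-!
# R003 (helper363), file d: commuting pairs are approximable
-/

set_option autoImplicit false

namespace Crest.Agent.R003.Tor

open Matrix

/-- polynomial expressions in elements of a subalgebra of functions -/
theorem aeval_fun_mem {σ X : Type*} (S : Subalgebra ℂ (X → ℂ)) (f : σ → X → ℂ)
    (hf : ∀ p, f p ∈ S) (Q : MvPolynomial σ ℂ) :
    (fun x => MvPolynomial.eval (fun p => f p x) Q) ∈ S := by
  induction Q using MvPolynomial.induction_on with
  | C a =>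
    have : (fun x : X => MvPolynomial.eval (fun p => f p x) (MvPolynomial.C a)) =
        algebraMap ℂ (X → ℂ) a := by
      funext x; simp
    rw [this]
    exact S.algebraMap_mem a
  | add p q hp hq =>
    have := S.add_mem hp hq
    convert this using 1
    funext x; simp
  | mul_X p n hp =>
    have := S.mul_mem hp (hf n)
    convert this using 1
    funext x; simp

theorem const_mem {X : Type*} (S : Subalgebra ℂ (X → ℂ)) (a : ℂ) : (fun _ : X => a) ∈ S :=
  S.algebraMap_mem a

/-- matrices of functions in a subalgebra -/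
theorem mul_entries_mem {X : Type*} {l m n : Type*} [Fintype m] (S : Subalgebra ℂ (X → ℂ))
    (A : X → Matrix l m ℂ) (B : X → Matrix m n ℂ) (hA : ∀ i j, (fun x => A x i j) ∈ S)
    (hB : ∀ i j, (fun x => B x i j) ∈ S) (i : l) (j : n) : (fun x => (A x * B x) i j) ∈ S := by
  have : (fun x => (A x * B x) i j) = ∑ k, (fun x => A x i k) * (fun x => B x k j) := by
    funext x
    rw [Matrix.mul_apply, Finset.sum_apply]
    rfl
  rw [this]
  exact S.sum_mem fun k _ => S.mul_mem (hA i k) (hB k j)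

/-- conjugates of pairs of diagonal matrices -/
theorem eval_diag_pair {O : Subring ℂ} (hO : Good O) {l : ℕ}
    (Q : MvPolynomial (Bool × Fin l × Fin l) ℂ)
    (hQ : ∀ a ∈ GO O l, ∀ b ∈ GO O l, a * b = b * a → MvPolynomial.eval (pt a.1 b.1) Q = 0)
    (h : G l) (d d' : Fin l → ℂ) :
    MvPolynomial.eval (pt (h.1 * Matrix.diagonal d * (h⁻¹).1)
      (h.1 * Matrix.diagonal d' * (h⁻¹).1)) Q = 0 := by
  -- first for `h ∈ GL_l(O)`
  have h1 : ∀ g ∈ GO O l, ∀ d d' : Fin l → ℂ,
      MvPolynomial.eval (pt (g.1 * Matrix.diagonal d * (g⁻¹).1)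
        (g.1 * Matrix.diagonal d' * (g⁻¹).1)) Q = 0 := by
    intro g hg
    let Y : Bool → Matrix (Fin l) (Fin l) (MvPolynomial (Bool × Fin l) ℂ) := fun s =>
      g.1.map MvPolynomial.C * Matrix.diagonal (fun i => MvPolynomial.X (s, i)) *
        (g⁻¹).1.map MvPolynomial.C
    have hY : ∀ (s : Bool) (y : Bool × Fin l → ℂ), (Y s).map (MvPolynomial.eval y) =
        g.1 * Matrix.diagonal (fun i => y (s, i)) * (g⁻¹).1 := by
      intro s y
      simp only [Y]
      rw [Matrix.map_mul, Matrix.map_mul, Matrix.diagonal_map (map_zero _)]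
      congr 1
      · congr 1
        · ext i j; simp
        · congr 1; funext i; simp
      · ext i j; simp
    let H : MvPolynomial (Bool × Fin l) ℂ := MvPolynomial.aeval (pt (Y false) (Y true)) Q
    have hH : ∀ y : Bool × Fin l → ℂ, MvPolynomial.eval y H =
        MvPolynomial.eval (pt (g.1 * Matrix.diagonal (fun i => y (false, i)) * (g⁻¹).1)
        (g.1 * Matrix.diagonal (fun i => y (true, i)) * (g⁻¹).1)) Q := by
      intro y
      simp only [H]
      rw [eval_aeval_mv, ← hY, ← hY]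
      congr 2
      funext ⟨s, i, j⟩
      cases s <;> simp [pt]
    have hH0 : H = 0 := by
      obtain ⟨u, hu1, hu2, hu3⟩ := hO
      apply MvPolynomial.funext_set (fun _ => Set.range fun n : ℕ => ((u ^ n : ℂˣ) : ℂ))
        (fun _ => pow_infinite hu3)
      intro y hy
      rw [Set.mem_univ_pi] at hy
      choose e he using hy
      have h4 : ∀ s, dg (fun i => u ^ e (s, i)) ∈ GO O l := fun s =>
        dg_mem (fun i => (pow_mem_units hu1 hu2 _).1) (fun i => (pow_mem_units hu1 hu2 _).2)
      have h6 : ∀ s, (dg fun i => u ^ e (s, i)).1 = Matrix.diagonal (fun i => y (s, i)) := by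
        intro s
        change Matrix.diagonal (fun i => ((u ^ e (s, i) : ℂˣ) : ℂ)) = _
        congr 1
        funext i
        exact he (s, i)
      have h5 := hQ (g * dg (fun i => u ^ e (false, i)) * g⁻¹)
        ((GO O l).mul_mem ((GO O l).mul_mem hg (h4 false)) ((GO O l).inv_mem hg))
        (g * dg (fun i => u ^ e (true, i)) * g⁻¹)
        ((GO O l).mul_mem ((GO O l).mul_mem hg (h4 true)) ((GO O l).inv_mem hg)) (by
          have h7 : dg (fun i => u ^ e (false, i)) * dg (fun i => u ^ e (true, i)) =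
              dg (fun i => u ^ e (true, i)) * dg (fun i => u ^ e (false, i)) := by
            apply Units.ext
            rw [Units.val_mul, Units.val_mul, h6, h6, Matrix.diagonal_mul_diagonal,
              Matrix.diagonal_mul_diagonal]
            congr 1
            funext i
            exact mul_comm _ _
          calc _ = g * (dg (fun i => u ^ e (false, i)) * dg (fun i => u ^ e (true, i))) * g⁻¹ := by
                group
            _ = g * (dg (fun i => u ^ e (true, i)) * dg (fun i => u ^ e (false, i))) * g⁻¹ := by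
                rw [h7]
            _ = _ := by group)
      rw [hH, map_zero, ← h6, ← h6]
      exact h5
    intro d d'
    have h8 := hH (fun p => if p.1 then d' p.2 else d p.2)
    rw [hH0, map_zero] at h8
    simpa using h8.symm
  -- now all `h`
  have h2 : (fun h : G l => MvPolynomial.eval (fun p => (fun (p : Bool × Fin l × Fin l) (h : G l) =>
      pt (h.1 * Matrix.diagonal d * (h⁻¹).1) (h.1 * Matrix.diagonal d' * (h⁻¹).1) p) p h) Q) ∈
      polyFun l := by
    apply aeval_fun_mem
    have h3 : ∀ (d : Fin l → ℂ) (i j : Fin l),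
        (fun h : G l => (h.1 * Matrix.diagonal d * (h⁻¹).1) i j) ∈ polyFun l := by
      intro d
      apply mul_entries_mem
      · apply mul_entries_mem
        · exact entry_mem_polyFun
        · intro i j; exact const_mem _ _
      · exact inv_entry_mem_polyFun
    rintro ⟨s, i, j⟩
    cases s
    · exact h3 d i j
    · exact h3 d' i j
  exact polyFun_zero hO h2 (fun x hx => h1 x hx d d') h

/-- a matrix with separable characteristic polynomial is diagonalizable -/
theorem exists_diag {l : ℕ} (x : Matrix (Fin l) (Fin l) ℂ) (hx : x.charpoly.Separable) :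
    ∃ (h : G l) (d : Fin l → ℂ), x = h.1 * Matrix.diagonal d * (h⁻¹).1 := by
  classical
  have hnd : x.charpoly.roots.Nodup := Polynomial.nodup_roots hx
  have hcard : x.charpoly.roots.card = l := by
    rw [← Polynomial.Splits.natDegree_eq_card_roots (IsAlgClosed.splits _),
      Matrix.charpoly_natDegree_eq_dim, Fintype.card_fin]
  have hcf : x.charpoly.roots.toFinset.card = l := by
    rw [Multiset.toFinset_card_of_nodup hnd, hcard]
  let μ : Fin l → ℂ := fun i => (x.charpoly.roots.toFinset.equivFinOfCardEq hcf).symm i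
  have hμinj : Function.Injective μ := by
    intro i j hij
    exact (x.charpoly.roots.toFinset.equivFinOfCardEq hcf).symm.injective (Subtype.ext hij)
  have hμroot : ∀ i, x.charpoly.IsRoot (μ i) := by
    intro i
    have := ((x.charpoly.roots.toFinset.equivFinOfCardEq hcf).symm i).2
    rw [Multiset.mem_toFinset] at this
    exact Polynomial.isRoot_of_mem_roots this
  have hv : ∀ i, ∃ v : Fin l → ℂ, v ≠ 0 ∧ x *ᵥ v = μ i • v := by
    intro i
    have h1 : (Matrix.scalar (Fin l) (μ i) - x).det = 0 := by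
      have := hμroot i
      rw [Polynomial.IsRoot, Matrix.eval_charpoly] at this
      exact this
    obtain ⟨v, hv0, hv⟩ := Matrix.exists_mulVec_eq_zero_iff.2 h1
    refine ⟨v, hv0, ?_⟩
    rw [Matrix.sub_mulVec, sub_eq_zero] at hv
    rw [← hv]
    ext j
    simp [Matrix.scalar_apply, Matrix.mulVec_diagonal]
  choose v hv0 hv using hv
  let f : Module.End ℂ (Fin l → ℂ) := Matrix.toLin' x
  have hli : LinearIndependent ℂ v := by
    apply Module.End.eigenvectors_linearIndependent' f μ hμinj v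
    intro i
    rw [Module.End.hasEigenvector_iff, Module.End.mem_eigenspace_iff]
    exact ⟨by simp only [f, Matrix.toLin'_apply]; exact hv i, hv0 i⟩
  let M : Matrix (Fin l) (Fin l) ℂ := Matrix.of fun i j => v j i
  have hM : IsUnit M := by
    rw [← Matrix.linearIndependent_cols_iff_isUnit]
    exact hli
  obtain ⟨h, hh⟩ := hM
  refine ⟨h, μ, ?_⟩
  have h3 : x * h.1 = h.1 * Matrix.diagonal μ := by
    rw [hh]
    ext i j
    have h4 := congrFun (hv j) i
    rw [Matrix.mul_diagonal, Matrix.mul_apply]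
    simp only [M, Matrix.of_apply]
    rw [Pi.smul_apply, smul_eq_mul, mul_comm] at h4
    rw [← h4]
    rfl
  calc x = x * (h.1 * (h⁻¹).1) := by rw [← Units.val_mul, mul_inv_cancel]; simp
    _ = _ := by rw [← mul_assoc, h3]

/-- **commuting pairs** -/
theorem eval_comm_pair' {O : Subring ℂ} (hO : Good O) {l : ℕ}
    (hnd : ∀ b : Matrix (Fin l) (Fin l) ℂ, ∃ (c : Matrix (Fin l) (Fin l) ℂ) (v : Fin l → ℂ),
      c * b = b * c ∧ (cyc c v).det ≠ 0)
    (Q : MvPolynomial (Bool × Fin l × Fin l) ℂ)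
    (hQ : ∀ a ∈ GO O l, ∀ b ∈ GO O l, a * b = b * a → MvPolynomial.eval (pt a.1 b.1) Q = 0)
    (a b : Matrix (Fin l) (Fin l) ℂ) (hab : a * b = b * a) :
    MvPolynomial.eval (pt a b) Q = 0 := by
  apply comm_pair_of hnd Q ?_ a b hab
  intro x q
  apply poly_pair_of Q ?_ x q
  intro x hx q
  obtain ⟨h, d, rfl⟩ := exists_diag x hx
  have h1 : ∀ n : ℕ, (h.1 * Matrix.diagonal d * (h⁻¹).1) ^ n =
      h.1 * Matrix.diagonal (d ^ n) * (h⁻¹).1 := by
    intro n
    induction n with
    | zero =>
      rw [pow_zero, pow_zero]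
      have : Matrix.diagonal (1 : Fin l → ℂ) = 1 := Matrix.diagonal_one
      rw [this, mul_one, ← Units.val_mul, mul_inv_cancel]; rfl
    | succ n ih =>
      rw [pow_succ, ih, pow_succ]
      have h2 : (h⁻¹).1 * h.1 = 1 := by rw [← Units.val_mul, inv_mul_cancel]; rfl
      calc _ = h.1 * Matrix.diagonal (d ^ n) * ((h⁻¹).1 * h.1) * Matrix.diagonal d * (h⁻¹).1 := by
            simp only [mul_assoc]
        _ = h.1 * (Matrix.diagonal (d ^ n) * Matrix.diagonal d) * (h⁻¹).1 := by
            rw [h2, mul_one]; simp only [mul_assoc]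
        _ = _ := by
            rw [Matrix.diagonal_mul_diagonal]; rfl
  have h3 : (∑ i : Fin l, q i • (h.1 * Matrix.diagonal d * (h⁻¹).1) ^ (i : ℕ)) =
      h.1 * Matrix.diagonal (∑ i : Fin l, q i • d ^ (i : ℕ)) * (h⁻¹).1 := by
    have h4 : Matrix.diagonal (∑ i : Fin l, q i • d ^ (i : ℕ)) =
        ∑ i : Fin l, q i • Matrix.diagonal (d ^ (i : ℕ)) := by
      ext a b
      rw [Matrix.sum_apply]
      by_cases hab : a = b
      · subst hab; simp
      · simp [hab]
    rw [h4, Finset.mul_sum, Finset.sum_mul]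
    refine Finset.sum_congr rfl fun i _ => ?_
    rw [h1, Matrix.mul_smul, Matrix.smul_mul]
  rw [h3]
  exact eval_diag_pair hO Q hQ h _ _

end Crest.Agent.R003.Tor
end

-- ▼ part R003/Tor363e

/-!
# R003 (helper363), file e: the case `h = 1` of `Closed`
-/

set_option autoImplicit false

namespace Crest.Agent.R003.Tor

open Matrix Module

section units

variable {k m l : ℕ} (e : Fin m × Fin l ≃ Fin k)

theorem val_mul_inv_val {n : ℕ} (a : G n) : a.1 * (a⁻¹).1 = 1 := by
  rw [← Units.val_mul, mul_inv_cancel]; rfl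

theorem inv_val_mul_val {n : ℕ} (a : G n) : (a⁻¹).1 * a.1 = 1 := by
  rw [← Units.val_mul, inv_mul_cancel]; rfl

/-- the block shift as a unit -/
def shiftU (a : G l) : G k where
  val := (shiftMat m a.1).submatrix e.symm e.symm
  inv := (unshiftMat m (a⁻¹).1).submatrix e.symm e.symm
  val_inv := by
    rw [Matrix.submatrix_mul_equiv, shift_mul_unshift (val_mul_inv_val a),
      Matrix.submatrix_one_equiv]
  inv_val := by
    rw [Matrix.submatrix_mul_equiv, mul_eq_one_comm.1 (shift_mul_unshift (val_mul_inv_val a)),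
      Matrix.submatrix_one_equiv]

/-- the block diagonal matrix as a unit -/
def diagU (c : ℂˣ) (b : G l) : G k where
  val := (diagMat m (c : ℂ) b.1).submatrix e.symm e.symm
  inv := (diagMat m ((c⁻¹ : ℂˣ) : ℂ) (b⁻¹).1).submatrix e.symm e.symm
  val_inv := by
    rw [Matrix.submatrix_mul_equiv, diag_mul_apply, ← Units.val_mul, mul_inv_cancel, Units.val_one,
      val_mul_inv_val, diag_one, Matrix.submatrix_one_equiv]
  inv_val := by
    rw [Matrix.submatrix_mul_equiv, diag_mul_apply, ← Units.val_mul, inv_mul_cancel, Units.val_one,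
      inv_val_mul_val, diag_one, Matrix.submatrix_one_equiv]

theorem shiftU_mem {O : Subring ℂ} {a : G l} (ha : a ∈ GO O l) : shiftU e a ∈ GO O k := by
  intro i j
  constructor
  · change shiftMat m a.1 (e.symm i) (e.symm j) ∈ O
    rw [shiftMat]
    split_ifs
    · exact O.one_mem
    · exact O.zero_mem
    · exact (ha _ _).1
    · exact O.zero_mem
  · change unshiftMat m (a⁻¹).1 (e.symm i) (e.symm j) ∈ O
    rw [unshiftMat]
    split_ifs
    · exact (ha _ _).2
    · exact O.zero_mem
    · exact O.one_mem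
    · exact O.zero_mem

theorem diagU_mem {O : Subring ℂ} {c : ℂˣ} (hc : (c : ℂ) ∈ O) (hc' : ((c⁻¹ : ℂˣ) : ℂ) ∈ O)
    {b : G l} (hb : b ∈ GO O l) : diagU e c b ∈ GO O k := by
  intro i j
  constructor
  · change diagMat m (c : ℂ) b.1 (e.symm i) (e.symm j) ∈ O
    rw [diagMat]
    split_ifs
    · exact O.mul_mem (O.pow_mem hc _) (hb _ _).1
    · exact O.zero_mem
  · change diagMat m ((c⁻¹ : ℂˣ) : ℂ) (b⁻¹).1 (e.symm i) (e.symm j) ∈ O
    rw [diagMat]
    split_ifs
    · exact O.mul_mem (O.pow_mem hc' _) (hb _ _).2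
    · exact O.zero_mem

theorem shift_diag_val {c : ℂ} (hc : c ^ m = 1) {a b : Matrix (Fin l) (Fin l) ℂ}
    (hab : a * b = b * a) :
    c • ((shiftMat m a).submatrix e.symm e.symm * (diagMat m c b).submatrix e.symm e.symm) =
      (diagMat m c b).submatrix e.symm e.symm * (shiftMat m a).submatrix e.symm e.symm := by
  rw [Matrix.submatrix_mul_equiv, Matrix.submatrix_mul_equiv, ← shift_diag hc hab]
  rfl

end units

section poly

variable {k : ℕ}

/-- generic matrices -/
noncomputable def gen2 (k : ℕ) (s : Bool) :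
    Matrix (Fin k) (Fin k) (MvPolynomial (Bool × Fin k × Fin k) ℂ) :=
  Matrix.of fun i j => MvPolynomial.X (s, i, j)

theorem gen2_map (A B : Matrix (Fin k) (Fin k) ℂ) (s : Bool) :
    (gen2 k s).map (MvPolynomial.eval (pt A B)) = if s then B else A := by
  ext i j
  cases s <;> simp [gen2, pt]

/-- functions on pairs of invertible matrices that become polynomial after multiplication by a power
of the determinants -/
def polyFun2 (k : ℕ) : Subalgebra ℂ ((Fin 1 × Bool → G k) → ℂ) where
  carrier := {F | ∃ (N : ℕ) (H : MvPolynomial (Bool × Fin k × Fin k) ℂ), ∀ T : Fin 1 × Bool → G k,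
    F T * ((T (0, false)).1.det * (T (0, true)).1.det) ^ N =
      MvPolynomial.eval (pt (T (0, false)).1 (T (0, true)).1) H}
  mul_mem' := by
    rintro F F' ⟨N, H, h⟩ ⟨N', H', h'⟩
    refine ⟨N + N', H * H', fun g => ?_⟩
    rw [map_mul, ← h, ← h', Pi.mul_apply, pow_add]
    ring
  add_mem' := by
    rintro F F' ⟨N, H, h⟩ ⟨N', H', h'⟩
    refine ⟨N + N', H * ((gen2 k false).det * (gen2 k true).det) ^ N' +
      H' * ((gen2 k false).det * (gen2 k true).det) ^ N, fun T => ?_⟩
    have hd : ∀ s, MvPolynomial.eval (pt (T (0, false)).1 (T (0, true)).1) (gen2 k s).det =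
        (T (0, s)).1.det := by
      intro s
      rw [RingHom.map_det, RingHom.mapMatrix_apply, gen2_map]
      cases s <;> rfl
    rw [map_add, map_mul, map_mul, map_pow, map_pow, map_mul, hd, hd, ← h, ← h', Pi.add_apply,
      pow_add]
    ring
  algebraMap_mem' := by
    intro r
    exact ⟨0, MvPolynomial.C r, fun g => by simp⟩

theorem pol_le_polyFun2 : Pol (Fin 1 × Bool) k ≤ polyFun2 k := by
  refine Algebra.adjoin_le ?_
  rintro F (⟨⟨t, s⟩, i, j, rfl⟩ | ⟨⟨t, s⟩, i, j, rfl⟩)
  · obtain rfl : t = 0 := Subsingleton.elim _ _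
    refine ⟨0, MvPolynomial.X (s, i, j), fun T => ?_⟩
    cases s <;> simp [pt]
  · obtain rfl : t = 0 := Subsingleton.elim _ _
    refine ⟨1, (gen2 k s).adjugate i j * (gen2 k (!s)).det, fun T => ?_⟩
    have hd : ∀ s, MvPolynomial.eval (pt (T (0, false)).1 (T (0, true)).1) (gen2 k s).det =
        (T (0, s)).1.det := by
      intro s
      rw [RingHom.map_det, RingHom.mapMatrix_apply, gen2_map]
      cases s <;> rfl
    have h1 : MvPolynomial.eval (pt (T (0, false)).1 (T (0, true)).1) ((gen2 k s).adjugate i j) =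
        (T (0, s)).1.adjugate i j := by
      have := RingHom.map_adjugate (MvPolynomial.eval (pt (T (0, false)).1 (T (0, true)).1))
        (gen2 k s)
      rw [RingHom.mapMatrix_apply, RingHom.mapMatrix_apply, gen2_map] at this
      rw [← Matrix.map_apply (f := MvPolynomial.eval _), this]
      cases s <;> rfl
    have h2 : ((T (0, s))⁻¹).1 = (T (0, s)).1⁻¹ := Matrix.coe_units_inv _
    change ((T (0, s))⁻¹).1 i j * _ = _
    rw [map_mul, hd, h1, h2, pow_one, Matrix.inv_def, Matrix.smul_apply, smul_eq_mul]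
    have h3 : (T (0, s)).1.det * Ring.inverse (T (0, s)).1.det = 1 :=
      Ring.mul_inverse_cancel _ ((Matrix.isUnit_iff_isUnit_det _).1 (T (0, s)).isUnit)
    have h4 : (T (0, false)).1.det * (T (0, true)).1.det =
        (T (0, s)).1.det * (T (0, !s)).1.det := by
      cases s
      · rfl
      · exact mul_comm _ _
    rw [h4]
    linear_combination (T (0, s)).1.adjugate i j * (T (0, !s)).1.det * h3

end poly

/-- matrix version of the normal form -/
theorem exists_form {k m : ℕ} (hm : 0 < m) {ξ : ℂ} (hξ : IsPrimitiveRoot ξ m) (A B : G k)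
    (h : A.1 * B.1 = ξ • (B.1 * A.1)) :
    ∃ (l : ℕ) (e : Fin m × Fin l ≃ Fin k) (g : G k) (a b : G l), a.1 * b.1 = b.1 * a.1 ∧
      A.1 = g.1 * (shiftMat m a.1).submatrix e.symm e.symm * (g⁻¹).1 ∧
      B.1 = g.1 * (diagMat m ξ⁻¹ b.1).submatrix e.symm e.symm * (g⁻¹).1 := by
  classical
  have hA : IsUnit (Matrix.toLin' A.1) := A.isUnit.map (Matrix.toLinAlgEquiv' (R := ℂ))
  have hB : IsUnit (Matrix.toLin' B.1) := B.isUnit.map (Matrix.toLinAlgEquiv' (R := ℂ))
  have hAB : Matrix.toLin' A.1 * Matrix.toLin' B.1 =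
      ξ • (Matrix.toLin' B.1 * Matrix.toLin' A.1) := by
    have h1 := congrArg Matrix.toLin' h
    rw [map_smul, Matrix.toLin'_mul, Matrix.toLin'_mul] at h1
    exact h1
  obtain ⟨l, β, a, b, hab, hau, hbu, h1, h2⟩ := exists_basis hm hξ hA hB hAB
  obtain ⟨a, rfl⟩ := hau
  obtain ⟨b, rfl⟩ := hbu
  let e : Fin m × Fin l ≃ Fin k := β.indexEquiv (Pi.basisFun ℂ (Fin k))
  let β' : Basis (Fin k) ℂ (Fin k → ℂ) := β.reindex e
  let g : G k := ⟨(Pi.basisFun ℂ (Fin k)).toMatrix β', β'.toMatrix (Pi.basisFun ℂ (Fin k)),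
    Basis.toMatrix_mul_toMatrix_flip _ _, Basis.toMatrix_mul_toMatrix_flip _ _⟩
  have key : ∀ M : Matrix (Fin k) (Fin k) ℂ,
      M = g.1 * (LinearMap.toMatrix β β (Matrix.toLin' M)).submatrix e.symm e.symm * (g⁻¹).1 := by
    intro M
    have h3 : (LinearMap.toMatrix β β (Matrix.toLin' M)).submatrix e.symm e.symm =
        LinearMap.toMatrix β' β' (Matrix.toLin' M) := by
      ext i j
      rw [Matrix.submatrix_apply, LinearMap.toMatrix_apply, LinearMap.toMatrix_apply]
      simp [β']
    rw [h3]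
    change M = (Pi.basisFun ℂ (Fin k)).toMatrix β' * _ * β'.toMatrix (Pi.basisFun ℂ (Fin k))
    rw [basis_toMatrix_mul_linearMap_toMatrix_mul_basis_toMatrix, LinearMap.toMatrix_eq_toMatrix',
      LinearMap.toMatrix'_toLin']
  refine ⟨l, e, g, a, b, hab, ?_, ?_⟩
  · rw [← h1]; exact key _
  · rw [← h2]; exact key _

theorem conj_rel {k : ℕ} (g : G k) {ξ : ℂ} {x y : Matrix (Fin k) (Fin k) ℂ}
    (h : x * y = ξ • (y * x)) :
    g.1 * x * (g⁻¹).1 * (g.1 * y * (g⁻¹).1) =
      ξ • (g.1 * y * (g⁻¹).1 * (g.1 * x * (g⁻¹).1)) := by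
  have h7 : ∀ x y : Matrix (Fin k) (Fin k) ℂ, g.1 * x * (g⁻¹).1 * (g.1 * y * (g⁻¹).1) =
      g.1 * (x * y) * (g⁻¹).1 := by
    intro x y
    calc _ = g.1 * x * ((g⁻¹).1 * g.1) * y * (g⁻¹).1 := by simp only [mul_assoc]
      _ = _ := by rw [inv_val_mul_val, mul_one]; simp only [mul_assoc]
  rw [h7, h7, h, Matrix.mul_smul, Matrix.smul_mul]

/-- **`h = 1`** -/
theorem closed_one {O : Subring ℂ} (hO : Good O)
    (hnd : ∀ (l : ℕ) (b : Matrix (Fin l) (Fin l) ℂ), ∃ (c : Matrix (Fin l) (Fin l) ℂ)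
      (v : Fin l → ℂ), c * b = b * c ∧ (cyc c v).det ≠ 0)
    (k : ℕ) (ξ : ℂˣ) (hξ : IsSc O ξ) (T : Fin 1 × Bool → G k)
    (hT : ((List.finRange 1).map fun i => T (i, false) * T (i, true) * (T (i, false))⁻¹ *
      (T (i, true))⁻¹).prod = scal k k ξ) :
    Appr O {T : Fin 1 × Bool → G k | ((List.finRange 1).map fun i => T (i, false) * T (i, true) *
      (T (i, false))⁻¹ * (T (i, true))⁻¹).prod = scal k k ξ} Set.univ T := by
  have hprod : ∀ T : Fin 1 × Bool → G k, ((List.finRange 1).map fun i => T (i, false) * T (i, true) *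
      (T (i, false))⁻¹ * (T (i, true))⁻¹).prod = T (0, false) * T (0, true) *
      (T (0, false))⁻¹ * (T (0, true))⁻¹ := by
    intro T
    simp [List.finRange_succ]
  have hsc : (scal k k ξ : G k).1 = (ξ : ℂ) • (1 : Matrix (Fin k) (Fin k) ℂ) := by
    ext i j
    change Matrix.diagonal (fun i : Fin k => ((if i.1 < k then ξ else 1 : ℂˣ) : ℂ)) i j = _
    rw [Matrix.diagonal_apply, Matrix.smul_apply, Matrix.one_apply]
    simp
  have hiff : ∀ A B : G k, A * B * A⁻¹ * B⁻¹ = scal k k ξ ↔ A.1 * B.1 = (ξ : ℂ) • (B.1 * A.1) := by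
    intro A B
    rw [mul_inv_eq_iff_eq_mul, mul_inv_eq_iff_eq_mul, Units.ext_iff, Units.val_mul, Units.val_mul,
      Units.val_mul, hsc]
    simp
  obtain ⟨hξO, r, hr, hξr⟩ := hξ
  set m := orderOf ξ with hmdef
  have hm : 0 < m := orderOf_pos_iff.2 (isOfFinOrder_iff_pow_eq_one.2 ⟨r, hr, hξr⟩)
  have hprim : IsPrimitiveRoot (ξ : ℂ) m :=
    IsPrimitiveRoot.coe_units_iff.2 (IsPrimitiveRoot.orderOf ξ)
  have hξinv : ((ξ⁻¹ : ℂˣ) : ℂ) ∈ O := by
    have h1 : ξ⁻¹ = ξ ^ (m - 1) := by
      rw [inv_eq_iff_mul_eq_one, ← pow_succ', Nat.sub_add_cancel hm]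
      exact pow_orderOf_eq_one ξ
    rw [h1, Units.val_pow_eq_pow_val]
    exact O.pow_mem hξO _
  have hinvinv : (((ξ⁻¹)⁻¹ : ℂˣ) : ℂ) ∈ O := by rw [inv_inv]; exact hξO
  have hξm : ((ξ⁻¹ : ℂˣ) : ℂ) ^ m = 1 := by
    rw [← Units.val_pow_eq_pow_val, inv_pow, pow_orderOf_eq_one, inv_one, Units.val_one]
  intro F hF hvan
  obtain ⟨N, P, hP⟩ := pol_le_polyFun2 hF
  -- `P` vanishes at the integral solutions
  have hPv : ∀ A ∈ GO O k, ∀ B ∈ GO O k, A.1 * B.1 = (ξ : ℂ) • (B.1 * A.1) →
      MvPolynomial.eval (pt A.1 B.1) P = 0 := by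
    intro A hA B hB hAB
    let T' : Fin 1 × Bool → G k := fun p => if p.2 then B else A
    have h1 : F T' = 0 := by
      apply hvan
      · change _ = _
        rw [hprod]
        exact (hiff A B).2 hAB
      · rintro ⟨t, s⟩ _
        cases s
        · exact hA
        · exact hB
    have h2 := hP T'
    rw [h1, zero_mul] at h2
    exact h2.symm
  -- the point
  rw [hprod, hiff] at hT
  obtain ⟨l, e, g, a, b, hab, hA, hB⟩ := exists_form hm hprim (T (0, false)) (T (0, true)) hT
  -- integral `g`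
  have h1 : ∀ g ∈ GO O k, MvPolynomial.eval (pt (g.1 * (shiftMat m a.1).submatrix e.symm e.symm *
      (g⁻¹).1) (g.1 * (diagMat m ((ξ⁻¹ : ℂˣ) : ℂ) b.1).submatrix e.symm e.symm * (g⁻¹).1)) P = 0 := by
    intro g hg
    let Y : Bool → Matrix (Fin k) (Fin k) (MvPolynomial (Bool × Fin l × Fin l) ℂ) := fun s =>
      g.1.map MvPolynomial.C * (if s then
        (diagMat m (MvPolynomial.C ((ξ⁻¹ : ℂˣ) : ℂ)) (gen2 l true)).submatrix e.symm e.symm else
        (shiftMat m (gen2 l false)).submatrix e.symm e.symm) * (g⁻¹).1.map MvPolynomial.C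
    let Q : MvPolynomial (Bool × Fin l × Fin l) ℂ := MvPolynomial.aeval (pt (Y false) (Y true)) P
    have hQ : ∀ a b : Matrix (Fin l) (Fin l) ℂ, MvPolynomial.eval (pt a b) Q =
        MvPolynomial.eval (pt (g.1 * (shiftMat m a).submatrix e.symm e.symm *
      (g⁻¹).1) (g.1 * (diagMat m ((ξ⁻¹ : ℂˣ) : ℂ) b).submatrix e.symm e.symm * (g⁻¹).1)) P := by
      intro a b
      have h2 : (Y false).map (MvPolynomial.eval (pt a b)) =
          g.1 * (shiftMat m a).submatrix e.symm e.symm * (g⁻¹).1 := by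
        simp only [Y]
        rw [Matrix.map_mul, Matrix.map_mul]
        congr 1
        · congr 1
          · ext i j; simp
          · ext i j
            simp only [if_false, Bool.false_eq_true, Matrix.map_apply, Matrix.submatrix_apply]
            have h4 : ∀ p q : Fin m × Fin l, MvPolynomial.eval (pt a b) (shiftMat m (gen2 l false) p q) =
                shiftMat m a p q := by
              intro p q
              rw [shiftMat, shiftMat]
              split_ifs
              · exact map_one _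
              · exact map_zero _
              · simp [gen2, pt]
              · exact map_zero _
            exact h4 _ _
        · ext i j; simp
      have h3 : (Y true).map (MvPolynomial.eval (pt a b)) =
          g.1 * (diagMat m ((ξ⁻¹ : ℂˣ) : ℂ) b).submatrix e.symm e.symm * (g⁻¹).1 := by
        simp only [Y]
        rw [Matrix.map_mul, Matrix.map_mul]
        congr 1
        · congr 1
          · ext i j; simp
          · ext i j
            simp only [if_true, Matrix.map_apply, Matrix.submatrix_apply]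
            have h4 : ∀ p q : Fin m × Fin l, MvPolynomial.eval (pt a b)
                (diagMat m (MvPolynomial.C ((ξ⁻¹ : ℂˣ) : ℂ)) (gen2 l true) p q) =
                diagMat m ((ξ⁻¹ : ℂˣ) : ℂ) b p q := by
              intro p q
              rw [diagMat, diagMat]
              split_ifs
              · rw [map_mul, map_pow, MvPolynomial.eval_C]
                simp [gen2, pt]
              · exact map_zero _
            exact h4 _ _
        · ext i j; simp
      simp only [Q]
      rw [eval_aeval_mv, ← h2, ← h3]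
      congr 2
      funext ⟨s, i, j⟩
      cases s <;> simp [pt]
    rw [← hQ]
    refine eval_comm_pair' hO (hnd l) Q ?_ a.1 b.1 hab
    intro a ha b hb hab
    rw [hQ]
    have hA' := (GO O k).mul_mem ((GO O k).mul_mem hg (shiftU_mem e ha)) ((GO O k).inv_mem hg)
    have hB' := (GO O k).mul_mem ((GO O k).mul_mem hg (diagU_mem e hξinv hinvinv hb))
      ((GO O k).inv_mem hg)
    have hab' : a.1 * b.1 = b.1 * a.1 := by rw [← Units.val_mul, hab, Units.val_mul]
    have hs : (shiftU e a).1 = (shiftMat m a.1).submatrix e.symm e.symm := rfl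
    have hd : (diagU e ξ⁻¹ b).1 = (diagMat m ((ξ⁻¹ : ℂˣ) : ℂ) b.1).submatrix e.symm e.symm := rfl
    have hv1 : (g * shiftU e a * g⁻¹).1 =
        g.1 * (shiftMat m a.1).submatrix e.symm e.symm * (g⁻¹).1 := by
      rw [Units.val_mul, Units.val_mul, hs]
    have hv2 : (g * diagU e ξ⁻¹ b * g⁻¹).1 =
        g.1 * (diagMat m ((ξ⁻¹ : ℂˣ) : ℂ) b.1).submatrix e.symm e.symm * (g⁻¹).1 := by
      rw [Units.val_mul, Units.val_mul, hd]
    rw [← hv1, ← hv2]
    refine hPv _ hA' _ hB' ?_
    rw [hv1, hv2]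
    exact conj_rel g (ξ := (ξ : ℂ)) (by
      have h6 := shift_diag_val e hξm hab'
      rw [← h6, smul_smul, ← Units.val_mul, mul_inv_cancel, Units.val_one, one_smul])
  -- all `g`
  have h2 : (fun h : G k => MvPolynomial.eval (fun p => (fun (p : Bool × Fin k × Fin k) (h : G k) =>
      pt (h.1 * (shiftMat m a.1).submatrix e.symm e.symm * (h⁻¹).1)
        (h.1 * (diagMat m ((ξ⁻¹ : ℂˣ) : ℂ) b.1).submatrix e.symm e.symm * (h⁻¹).1) p) p h) P) ∈
      polyFun k := by
    apply aeval_fun_mem
    have h3 : ∀ (d : Matrix (Fin k) (Fin k) ℂ) (i j : Fin k),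
        (fun h : G k => (h.1 * d * (h⁻¹).1) i j) ∈ polyFun k := by
      intro d
      apply mul_entries_mem
      · apply mul_entries_mem
        · exact entry_mem_polyFun
        · intro i j; exact const_mem _ _
      · exact inv_entry_mem_polyFun
    rintro ⟨s, i, j⟩
    cases s
    · exact h3 _ i j
    · exact h3 _ i j
  have h3 : MvPolynomial.eval (pt (T (0, false)).1 (T (0, true)).1) P = 0 := by
    rw [hA, hB]
    have := polyFun_zero hO h2 h1 g
    rw [Units.val_inv_eq_inv_val] at this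
    exact this
  have h4 := hP T
  rw [h3] at h4
  refine (mul_eq_zero.1 h4).resolve_right (pow_ne_zero _ (mul_ne_zero ?_ ?_))
  · exact ((Matrix.isUnit_iff_isUnit_det _).1 (T (0, false)).isUnit).ne_zero
  · exact ((Matrix.isUnit_iff_isUnit_det _).1 (T (0, true)).isUnit).ne_zero

end Crest.Agent.R003.Tor
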